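import Mathlib
import Crest.Agent.R264.JLDefs
import Crest.Agent.R264.BshIface

-- ▼ part R264/A9Core
section

/-!
Row 264, Part A, module A9 (helper456): change of graph coordinates.

`Σ = {w = u + i h(z,u)}` with wedge points `u + i (h(z,u) + w(z,u,s))` is rewritten, after the
affine change `(x, h) ↦ (x + β h + a₂ z, h - β x - a₁ z)`, in new graph coordinates
`u' + i (H(z,u') + v'(z,u',s))` with `H` vanishing to second order at `0`.
Everything is stated for real Banach spaces `Z`, `V`.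
-/

set_option autoImplicit false

open Topology Filter Set Metric

namespace Crest.Agent.R264.A9

section Second

variable {P V : Type*} [NormedAddCommGroup P] [NormedSpace ℝ P]
  [NormedAddCommGroup V] [NormedSpace ℝ V]

/-- second difference estimate for a `C^{1,1}` map on a convex set -/
theorem second_diff {g : P → V} {D : P → (P →L[ℝ] V)} {s : Set P} (hs : Convex ℝ s)
    (hD : ∀ a ∈ s, HasFDerivAt g (D a) a) {L M : ℝ} (hL0 : 0 ≤ L)
    (hL : ∀ a ∈ s, ∀ a' ∈ s, ‖D a - D a'‖ ≤ L * ‖a - a'‖)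
    (hM : ∀ a ∈ s, ‖D a‖ ≤ M) {x y x' y' : P} (hx : x ∈ s) (hy : y ∈ s) (hx' : x' ∈ s)
    (hy' : y' ∈ s) :
    ‖(g x - g y) - (g x' - g y')‖ ≤
      L * (‖x - x'‖ + ‖y - y'‖) * ‖x - y‖ + M * ‖(x - y) - (x' - y')‖ := by
  set p : ℝ → P := fun t => y + t • (x - y) with hp
  set q : ℝ → P := fun t => y' + t • (x' - y') with hq
  have hps : ∀ t ∈ Icc (0:ℝ) 1, p t ∈ s := fun t ht =>
    hs.add_smul_sub_mem hy hx ht
  have hqs : ∀ t ∈ Icc (0:ℝ) 1, q t ∈ s := fun t ht =>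
    hs.add_smul_sub_mem hy' hx' ht
  have hpd : ∀ t, HasDerivAt p (x - y) t := fun t => by
    have := ((hasDerivAt_id t).smul_const (x - y)).const_add y
    simpa [hp] using this
  have hqd : ∀ t, HasDerivAt q (x' - y') t := fun t => by
    have := ((hasDerivAt_id t).smul_const (x' - y')).const_add y'
    simpa [hq] using this
  have hder : ∀ t ∈ Icc (0:ℝ) 1, HasDerivWithinAt (fun t => g (p t) - g (q t))
      (D (p t) (x - y) - D (q t) (x' - y')) (Icc 0 1) t := fun t ht =>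
    (((hD _ (hps t ht)).comp_hasDerivAt t (hpd t)).sub
      ((hD _ (hqs t ht)).comp_hasDerivAt t (hqd t))).hasDerivWithinAt
  have hbd : ∀ t ∈ Ico (0:ℝ) 1, ‖D (p t) (x - y) - D (q t) (x' - y')‖ ≤
      L * (‖x - x'‖ + ‖y - y'‖) * ‖x - y‖ + M * ‖(x - y) - (x' - y')‖ := by
    intro t ht
    have ht' : t ∈ Icc (0:ℝ) 1 := ⟨ht.1, ht.2.le⟩
    have e : D (p t) (x - y) - D (q t) (x' - y') =
        (D (p t) - D (q t)) (x - y) + D (q t) ((x - y) - (x' - y')) := by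
      simp only [sub_apply, map_sub]
      abel
    have hpq : ‖p t - q t‖ ≤ ‖x - x'‖ + ‖y - y'‖ := by
      have e2 : p t - q t = (1 - t) • (y - y') + t • (x - x') := by
        simp only [hp, hq, smul_sub, sub_smul, one_smul]
        abel
      rw [e2]
      refine (norm_add_le _ _).trans ?_
      rw [norm_smul, norm_smul, Real.norm_of_nonneg (by linarith [ht.2] : (0:ℝ) ≤ 1 - t),
        Real.norm_of_nonneg ht.1]
      have h1 : (1 - t) * ‖y - y'‖ ≤ ‖y - y'‖ := by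
        nlinarith [norm_nonneg (y - y'), ht.1]
      have h2 : t * ‖x - x'‖ ≤ ‖x - x'‖ := by
        nlinarith [norm_nonneg (x - x'), ht.2]
      linarith
    rw [e]
    refine (norm_add_le _ _).trans (add_le_add ?_ ?_)
    · refine ((D (p t) - D (q t)).le_opNorm _).trans ?_
      refine mul_le_mul_of_nonneg_right ?_ (norm_nonneg _)
      exact (hL _ (hps t ht') _ (hqs t ht')).trans (mul_le_mul_of_nonneg_left hpq hL0)
    · refine ((D (q t)).le_opNorm _).trans ?_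
      exact mul_le_mul_of_nonneg_right (hM _ (hqs t ht')) (norm_nonneg _)
  have key := norm_image_sub_le_of_norm_deriv_le_segment_01' hder hbd
  have e3 : (g x - g y) - (g x' - g y') =
      (g (p 1) - g (q 1)) - (g (p 0) - g (q 0)) := by
    simp only [hp, hq, one_smul, zero_smul, add_zero, add_sub_cancel]
    abel
  rw [e3]
  exact key

/-- first difference estimate -/
theorem first_diff {g : P → V} {D : P → (P →L[ℝ] V)} {s : Set P} (hs : Convex ℝ s)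
    (hD : ∀ a ∈ s, HasFDerivAt g (D a) a) {M : ℝ}
    (hM : ∀ a ∈ s, ‖D a‖ ≤ M) {x y : P} (hx : x ∈ s) (hy : y ∈ s) :
    ‖g x - g y‖ ≤ M * ‖x - y‖ :=
  hs.norm_image_sub_le_of_norm_hasFDerivWithin_le
    (fun a ha => (hD a ha).hasFDerivWithinAt) hM hy hx

end Second

section Core

variable {Z V : Type*} [NormedAddCommGroup Z] [NormedSpace ℝ Z]
  [NormedAddCommGroup V] [NormedSpace ℝ V]

/-- The data: `h` is `C^{1,1}` with small derivative on the ball of radius `R` about `0`,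
`h 0 = 0`, and `w` is the arc. -/
structure Core (h : Z × V → V) (D : Z × V → (Z × V →L[ℝ] V)) (w : Z × V → ℝ → V)
    (a2 : Z →L[ℝ] V) (R L C s0 : ℝ) (om : ℝ → ℝ) : Prop where
  R_pos : 0 < R
  L_nn : 0 ≤ L
  C_nn : 0 ≤ C
  s0_pos : 0 < s0
  der : ∀ a ∈ ball (0 : Z × V) R, HasFDerivAt h (D a) a
  lip : ∀ a ∈ ball (0 : Z × V) R, ∀ a' ∈ ball (0 : Z × V) R, ‖D a - D a'‖ ≤ L * ‖a - a'‖
  small : ∀ a ∈ ball (0 : Z × V) R, ‖D a‖ ≤ 1 / 4
  zero : h 0 = 0
  w0 : ∀ a ∈ ball (0 : Z × V) R, w a 0 = 0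
  om_nn : ∀ s ∈ Icc 0 s0, 0 ≤ om s
  om_le : ∀ s ∈ Icc 0 s0, om s ≤ 1
  wlip : ∀ s ∈ Icc 0 s0, ∀ a ∈ ball (0 : Z × V) R, ∀ a' ∈ ball (0 : Z × V) R,
    ‖w a s - w a' s‖ ≤ om s * ‖a - a'‖
  ws : ∀ a ∈ ball (0 : Z × V) R, ∀ s ∈ Icc 0 s0, ∀ s' ∈ Icc 0 s0,
    ‖w a s - w a s'‖ ≤ C * |s - s'|

namespace Core

variable {h : Z × V → V} {D : Z × V → (Z × V →L[ℝ] V)} {w : Z × V → ℝ → V}
    {a2 : Z →L[ℝ] V} {R L C s0 : ℝ} {om : ℝ → ℝ} (H : Core h D w a2 R L C s0 om)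

/-- the linear map `β` -/
noncomputable def β (D : Z × V → (Z × V →L[ℝ] V)) : V →L[ℝ] V :=
  (D 0).comp (ContinuousLinearMap.inr ℝ Z V)

/-- the linear map `a₁` -/
noncomputable def a1 (D : Z × V → (Z × V →L[ℝ] V)) : Z →L[ℝ] V :=
  (D 0).comp (ContinuousLinearMap.inl ℝ Z V)

omit [NormedSpace ℝ Z] [NormedSpace ℝ V] in
theorem prod_sub_norm (z z' : Z) (x x' : V) :
    ‖((z, x) : Z × V) - (z', x')‖ ≤ ‖z - z'‖ + ‖x - x'‖ := by
  rw [Prod.mk_sub_mk, Prod.norm_def]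
  exact max_le (le_add_of_nonneg_right (norm_nonneg _)) (le_add_of_nonneg_left (norm_nonneg _))

omit [NormedSpace ℝ Z] [NormedSpace ℝ V] in
theorem prod_norm_le (z : Z) (x : V) : ‖((z, x) : Z × V)‖ ≤ ‖z‖ + ‖x‖ := by
  rw [Prod.norm_def]
  exact max_le (le_add_of_nonneg_right (norm_nonneg _)) (le_add_of_nonneg_left (norm_nonneg _))

/-- `K = 2 + 2‖a₂‖` -/
noncomputable def K (a2 : Z →L[ℝ] V) : ℝ := 2 + 2 * ‖a2‖

theorem K_ge (a2 : Z →L[ℝ] V) : 2 ≤ K a2 := by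
  have := norm_nonneg a2
  unfold K; linarith

/-- radius -/
noncomputable def ρ (a2 : Z →L[ℝ] V) (R : ℝ) : ℝ := R / (16 * K a2)

/-- time -/
noncomputable def s1 (R C s0 : ℝ) : ℝ := min s0 (R / (4 * (C + 1)))

theorem s1_le : s1 R C s0 ≤ s0 := min_le_left _ _

include H

theorem norm_D0 : ‖D 0‖ ≤ 1 / 4 := H.small 0 (mem_ball_self H.R_pos)

theorem norm_β (v : V) : ‖β D v‖ ≤ 1 / 4 * ‖v‖ := by
  have h1 := (D 0).le_opNorm ((0 : Z), v)
  have h2 : ‖((0 : Z), v)‖ = ‖v‖ := by simp [Prod.norm_def]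
  rw [h2] at h1
  exact h1.trans (mul_le_mul_of_nonneg_right H.norm_D0 (norm_nonneg _))

/-- `h` is `1/4`-Lipschitz -/
theorem h_lip {p q : Z × V} (hp : p ∈ ball (0 : Z × V) R) (hq : q ∈ ball (0 : Z × V) R) :
    ‖h p - h q‖ ≤ 1 / 4 * ‖p - q‖ :=
  first_diff (convex_ball _ _) H.der H.small hp hq

/-- contraction estimate in all parameters -/
theorem est {z z' : Z} {u u' x x' : V} {s s' : ℝ} (hs : s ∈ Icc 0 s0) (hs' : s' ∈ Icc 0 s0)
    (hp : (z, x) ∈ ball (0 : Z × V) R) (hq : (z', x') ∈ ball (0 : Z × V) R)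
    (e : x = u - β D (h (z, x) + w (z, x) s) - a2 z)
    (e' : x' = u' - β D (h (z', x') + w (z', x') s') - a2 z') :
    ‖x - x'‖ ≤ (2 + 2 * ‖a2‖) * (‖z - z'‖ + ‖u - u'‖) + C * |s - s'| := by
  have h1 : x - x' = (u - u') - β D ((h (z, x) - h (z', x')) + ((w (z, x) s - w (z', x') s) +
      (w (z', x') s - w (z', x') s'))) - a2 (z - z') := by
    have : x - x' = (u - β D (h (z, x) + w (z, x) s) - a2 z) -
      (u' - β D (h (z', x') + w (z', x') s') - a2 z') := by rw [← e, ← e']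
    rw [this]
    simp only [map_sub, map_add]
    abel
  have h2 := H.h_lip hp hq
  have h3 := H.wlip s hs _ hp _ hq
  have h4 := H.ws _ hq s hs s' hs'
  have h5 := prod_sub_norm z z' x x'
  have h6 := H.om_le s hs
  have h7 := H.om_nn s hs
  have h8 : om s * ‖((z, x) : Z × V) - (z', x')‖ ≤ 1 * (‖z - z'‖ + ‖x - x'‖) :=
    mul_le_mul h6 h5 (norm_nonneg _) zero_le_one
  have h9 : ‖a2 (z - z')‖ ≤ ‖a2‖ * ‖z - z'‖ := a2.le_opNorm _
  have h10 := H.norm_β ((h (z, x) - h (z', x')) + ((w (z, x) s - w (z', x') s) +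
      (w (z', x') s - w (z', x') s')))
  have h11 : ‖(h (z, x) - h (z', x')) + ((w (z, x) s - w (z', x') s) +
      (w (z', x') s - w (z', x') s'))‖ ≤ 5 / 4 * (‖z - z'‖ + ‖x - x'‖) + C * |s - s'| := by
    refine (norm_add_le _ _).trans ?_
    have := norm_add_le (w (z, x) s - w (z', x') s) (w (z', x') s - w (z', x') s')
    linarith
  have h12 : ‖x - x'‖ ≤ ‖u - u'‖ + 1 / 4 * (5 / 4 * (‖z - z'‖ + ‖x - x'‖) + C * |s - s'|) +
      ‖a2‖ * ‖z - z'‖ := by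
    rw [h1]
    refine (norm_sub_le _ _).trans (add_le_add ((norm_sub_le _ _).trans ?_) h9)
    rw [← h1]
    linarith
  have h13 : 0 ≤ ‖a2‖ * ‖u - u'‖ := mul_nonneg (norm_nonneg _) (norm_nonneg _)
  have h14 : 0 ≤ ‖a2‖ * ‖z - z'‖ := mul_nonneg (norm_nonneg _) (norm_nonneg _)
  have h15 : 0 ≤ C * |s - s'| := mul_nonneg H.C_nn (abs_nonneg _)
  nlinarith [norm_nonneg (z - z'), norm_nonneg (u - u'), norm_nonneg (x - x')]

theorem ρ_pos : 0 < ρ a2 R := by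
  have := K_ge a2
  have := H.R_pos
  unfold ρ
  positivity

theorem s1_pos : 0 < s1 R C s0 := by
  have := H.R_pos
  have := H.C_nn
  have := H.s0_pos
  unfold s1
  positivity

theorem s1_le2 : C * s1 R C s0 ≤ R / 4 := by
  have := H.R_pos
  have := H.C_nn
  have h1 : s1 R C s0 ≤ R / (4 * (C + 1)) := min_le_right _ _
  have h2 : C * s1 R C s0 ≤ C * (R / (4 * (C + 1))) := mul_le_mul_of_nonneg_left h1 H.C_nn
  refine h2.trans ?_
  rw [mul_div_assoc', div_le_div_iff₀ (by positivity) (by norm_num)]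
  nlinarith

theorem exists_psi [CompleteSpace V] {z : Z} {u : V} {s : ℝ} (hz : ‖z‖ < ρ a2 R)
    (hu : ‖u‖ < ρ a2 R) (hs : s ∈ Icc 0 (s1 R C s0)) :
    ∃ x ∈ closedBall (0 : V) (R / 2), x = u - β D (h (z, x) + w (z, x) s) - a2 z := by
  have hR := H.R_pos
  have hK := K_ge a2
  have hs0 : s ∈ Icc 0 s0 := ⟨hs.1, hs.2.trans s1_le⟩
  have hρ : ρ a2 R * K a2 = R / 16 := by
    unfold ρ; field_simp
  have hρ1 : ρ a2 R * 2 ≤ R / 16 := by
    rw [← hρ]; exact mul_le_mul_of_nonneg_left hK H.ρ_pos.le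
  have hρ2 : ρ a2 R * (2 * ‖a2‖) ≤ R / 16 := by
    rw [← hρ]; refine mul_le_mul_of_nonneg_left ?_ H.ρ_pos.le
    unfold K; linarith
  have hzR : ‖z‖ < R := by linarith
  have hmem : ∀ x ∈ closedBall (0 : V) (R / 2), (z, x) ∈ ball (0 : Z × V) R := by
    intro x hx
    rw [mem_closedBall_zero_iff] at hx
    rw [mem_ball_zero_iff, Prod.norm_def]
    exact max_lt hzR (by simp only; linarith)
  set f : V → V := fun x => u - β D (h (z, x) + w (z, x) s) - a2 z with hf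
  have hlip : ∀ x ∈ closedBall (0 : V) (R / 2), ∀ y ∈ closedBall (0 : V) (R / 2),
      ‖f x - f y‖ ≤ 1 / 2 * ‖x - y‖ := by
    intro x hx y hy
    have e : f x - f y = - β D ((h (z, x) - h (z, y)) + (w (z, x) s - w (z, y) s)) := by
      simp only [hf, map_add, map_sub]; abel
    have hxy : ‖((z, x) : Z × V) - (z, y)‖ = ‖x - y‖ := by
      simp [Prod.norm_def]
    have h2 := H.h_lip (hmem x hx) (hmem y hy)
    have h3 := H.wlip s hs0 _ (hmem x hx) _ (hmem y hy)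
    rw [hxy] at h2 h3
    have h4 : om s * ‖x - y‖ ≤ 1 * ‖x - y‖ :=
      mul_le_mul_of_nonneg_right (H.om_le s hs0) (norm_nonneg _)
    have h5 := norm_add_le (h (z, x) - h (z, y)) (w (z, x) s - w (z, y) s)
    rw [e, norm_neg]
    refine (H.norm_β _).trans ?_
    nlinarith [norm_nonneg (x - y)]
  have hmaps : MapsTo f (closedBall (0 : V) (R / 2)) (closedBall (0 : V) (R / 2)) := by
    intro x hx
    have h0m : (0 : V) ∈ closedBall (0 : V) (R / 2) := mem_closedBall_self (by linarith)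
    have h1 := hlip x hx 0 h0m
    rw [mem_closedBall_zero_iff] at hx ⊢
    rw [sub_zero] at h1
    have h00 : ((0:Z), (0:V)) ∈ ball (0 : Z × V) R := by
      simpa [Prod.norm_def] using hR
    have h2 : ‖h (z, 0)‖ ≤ 1 / 4 * ‖z‖ := by
      have := H.h_lip (hmem 0 h0m) h00
      have e0 : h ((0:Z), (0:V)) = 0 := H.zero
      rw [e0, sub_zero] at this
      simpa [Prod.norm_def] using this
    have h3 : ‖w (z, 0) s‖ ≤ R / 4 := by
      have h31 := H.ws _ (hmem 0 h0m) s hs0 0 ⟨le_refl _, H.s0_pos.le⟩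
      rw [H.w0 _ (hmem 0 h0m), sub_zero, sub_zero, abs_of_nonneg hs.1] at h31
      exact h31.trans ((mul_le_mul_of_nonneg_left hs.2 H.C_nn).trans H.s1_le2)
    have h4 : ‖f 0‖ ≤ ‖u‖ + 1 / 4 * (1 / 4 * ‖z‖ + R / 4) + ‖a2‖ * ‖z‖ := by
      refine (norm_sub_le _ _).trans (add_le_add ((norm_sub_le _ _).trans ?_) (a2.le_opNorm _))
      have := (H.norm_β (h (z, 0) + w (z, 0) s))
      have h5 := norm_add_le (h (z, 0)) (w (z, 0) s)
      linarith
    have h5 : ‖a2‖ * ‖z‖ ≤ R / 32 := by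
      have : ‖a2‖ * ‖z‖ ≤ ‖a2‖ * ρ a2 R := mul_le_mul_of_nonneg_left hz.le (norm_nonneg _)
      nlinarith
    have h6 : ‖f x‖ ≤ ‖f x - f 0‖ + ‖f 0‖ := by
      simpa using norm_add_le (f x - f 0) (f 0)
    linarith
  have hcontr : ContractingWith (1/2 : NNReal) (hmaps.restrict f _ _) := by
    refine ⟨by rw [← NNReal.coe_lt_coe]; norm_num, ?_⟩
    refine LipschitzWith.of_dist_le_mul fun x y => ?_
    have := hlip x x.2 y y.2
    rw [Subtype.dist_eq, Subtype.dist_eq, dist_eq_norm, dist_eq_norm]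
    simpa using this
  obtain ⟨x, hx, hfx, -⟩ := hcontr.exists_fixedPoint' (isClosed_closedBall.isComplete) hmaps
    (mem_closedBall_self (by linarith : (0:ℝ) ≤ R / 2)) (edist_ne_top _ _)
  exact ⟨x, hx, hfx.symm⟩

open Classical in
omit H in
/-- the new graph variable -/
noncomputable def psi (h : Z × V → V) (D : Z × V → (Z × V →L[ℝ] V)) (w : Z × V → ℝ → V)
    (a2 : Z →L[ℝ] V) (R : ℝ) (z : Z) (u : V) (s : ℝ) : V :=
  if hx : ∃ x ∈ closedBall (0 : V) (R / 2), x = u - β D (h (z, x) + w (z, x) s) - a2 z then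
    hx.choose else 0

theorem psi_spec [CompleteSpace V] {z : Z} {u : V} {s : ℝ} (hz : ‖z‖ < ρ a2 R)
    (hu : ‖u‖ < ρ a2 R) (hs : s ∈ Icc 0 (s1 R C s0)) :
    psi h D w a2 R z u s ∈ closedBall (0 : V) (R / 2) ∧
    psi h D w a2 R z u s = u - β D (h (z, psi h D w a2 R z u s) +
      w (z, psi h D w a2 R z u s) s) - a2 z := by
  have hx := H.exists_psi hz hu hs
  unfold psi
  rw [dif_pos hx]
  exact hx.choose_spec

theorem rho_lt : ρ a2 R < R := by
  have hR := H.R_pos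
  have hK := K_ge a2
  unfold ρ
  rw [div_lt_iff₀ (by positivity)]
  nlinarith

theorem psi_mem [CompleteSpace V] {z : Z} {u : V} {s : ℝ} (hz : ‖z‖ < ρ a2 R)
    (hu : ‖u‖ < ρ a2 R) (hs : s ∈ Icc 0 (s1 R C s0)) :
    (z, psi h D w a2 R z u s) ∈ ball (0 : Z × V) R := by
  have h1 := (H.psi_spec hz hu hs).1
  have hR := H.R_pos
  rw [mem_closedBall_zero_iff] at h1
  rw [mem_ball_zero_iff, Prod.norm_def]
  exact max_lt (hz.trans H.rho_lt) (by simp only; linarith)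

theorem psi_lip [CompleteSpace V] {z z' : Z} {u u' : V} {s s' : ℝ} (hz : ‖z‖ < ρ a2 R)
    (hu : ‖u‖ < ρ a2 R) (hs : s ∈ Icc 0 (s1 R C s0)) (hz' : ‖z'‖ < ρ a2 R)
    (hu' : ‖u'‖ < ρ a2 R) (hs' : s' ∈ Icc 0 (s1 R C s0)) :
    ‖psi h D w a2 R z u s - psi h D w a2 R z' u' s'‖ ≤
      K a2 * (‖z - z'‖ + ‖u - u'‖) + C * |s - s'| :=
  H.est ⟨hs.1, hs.2.trans s1_le⟩ ⟨hs'.1, hs'.2.trans s1_le⟩
    (H.psi_mem hz hu hs) (H.psi_mem hz' hu' hs') (H.psi_spec hz hu hs).2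
    (H.psi_spec hz' hu' hs').2

theorem zero_mem_s : (0:ℝ) ∈ Icc 0 (s1 R C s0) := ⟨le_refl _, H.s1_pos.le⟩

theorem psi_zero [CompleteSpace V] : psi h D w a2 R 0 0 0 = 0 := by
  have hρ := H.ρ_pos (a2 := a2)
  have h00 : ((0:Z), (0:V)) ∈ ball (0 : Z × V) R := by
    simpa [Prod.norm_def] using H.R_pos
  have h0 : ‖(0:Z)‖ < ρ a2 R := by simpa using hρ
  have h0' : ‖(0:V)‖ < ρ a2 R := by simpa using hρ
  have hs := H.zero_mem_s
  have hs0 : (0:ℝ) ∈ Icc 0 s0 := ⟨le_refl _, H.s0_pos.le⟩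
  have e0 : h ((0:Z), (0:V)) = 0 := H.zero
  have := H.est (z := 0) (z' := 0) (u := 0) (u' := 0) (x' := 0) hs0 hs0 (H.psi_mem h0 h0' hs) h00
    (H.psi_spec h0 h0' hs).2 (by rw [H.w0 _ h00, e0]; simp)
  simpa using this

theorem psi_norm [CompleteSpace V] {z : Z} {u : V} (hz : ‖z‖ < ρ a2 R)
    (hu : ‖u‖ < ρ a2 R) : ‖psi h D w a2 R z u 0‖ ≤ K a2 * (‖z‖ + ‖u‖) := by
  have hρ := H.ρ_pos (a2 := a2)
  have h0 : ‖(0:Z)‖ < ρ a2 R := by simpa using hρ
  have h0' : ‖(0:V)‖ < ρ a2 R := by simpa using hρ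
  have := H.psi_lip hz hu H.zero_mem_s h0 h0' H.zero_mem_s
  rw [H.psi_zero] at this
  simpa using this

omit H in
/-- the second order remainder -/
noncomputable def g (h : Z × V → V) (D : Z × V → (Z × V →L[ℝ] V)) (p : Z × V) : V :=
  h p - D 0 p

omit H in
theorem g_eq (z : Z) (x : V) : g h D (z, x) = h (z, x) - β D x - a1 D z := by
  have : ((z, x) : Z × V) = (0, x) + (z, 0) := by simp
  unfold g
  conv_lhs => rw [this, map_add]
  simp only [β, a1, ContinuousLinearMap.comp_apply, ContinuousLinearMap.inr_apply,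
    ContinuousLinearMap.inl_apply]
  rw [← this]
  abel

theorem g_der {a : Z × V} (ha : a ∈ ball (0 : Z × V) R) :
    HasFDerivAt (g h D) (D a - D 0) a :=
  (H.der a ha).sub (D 0).hasFDerivAt

theorem zero_mem : (0 : Z × V) ∈ ball (0 : Z × V) R := mem_ball_self H.R_pos

theorem g_small {a : Z × V} (ha : a ∈ ball (0 : Z × V) R) : ‖D a - D 0‖ ≤ 1 / 2 := by
  have h1 := H.small a ha
  have h2 := H.norm_D0
  have := norm_sub_le (D a) (D 0)
  linarith

theorem g_lip {p q : Z × V} (hp : p ∈ ball (0 : Z × V) R) (hq : q ∈ ball (0 : Z × V) R) :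
    ‖g h D p - g h D q‖ ≤ 1 / 2 * ‖p - q‖ :=
  first_diff (convex_ball _ _) (fun _ ha => H.g_der ha) (fun _ ha => H.g_small ha) hp hq

theorem g_lip2 {p q : Z × V} (hp : p ∈ ball (0 : Z × V) R) (hq : q ∈ ball (0 : Z × V) R) :
    ‖g h D p - g h D q‖ ≤ L * (‖p‖ + ‖q‖) * ‖p - q‖ := by
  have hr : closedBall (0 : Z × V) (max ‖p‖ ‖q‖) ⊆ ball 0 R := by
    intro x hx
    rw [mem_closedBall_zero_iff] at hx
    rw [mem_ball_zero_iff] at hp hq ⊢
    exact hx.trans_lt (max_lt hp hq)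
  refine first_diff (s := closedBall (0 : Z × V) (max ‖p‖ ‖q‖)) (convex_closedBall _ _)
    (fun a ha => H.g_der (hr ha)) (fun a ha => ?_) ?_ ?_
  · refine (H.lip a (hr ha) 0 H.zero_mem).trans (mul_le_mul_of_nonneg_left ?_ H.L_nn)
    rw [mem_closedBall_zero_iff] at ha
    rw [sub_zero]
    exact ha.trans (max_le_add_of_nonneg (norm_nonneg _) (norm_nonneg _))
  · rw [mem_closedBall_zero_iff]; exact le_max_left _ _
  · rw [mem_closedBall_zero_iff]; exact le_max_right _ _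

theorem g_second {x y x' y' : Z × V} (hx : x ∈ ball (0 : Z × V) R)
    (hy : y ∈ ball (0 : Z × V) R) (hx' : x' ∈ ball (0 : Z × V) R)
    (hy' : y' ∈ ball (0 : Z × V) R) :
    ‖(g h D x - g h D y) - (g h D x' - g h D y')‖ ≤
      L * (‖x - x'‖ + ‖y - y'‖) * ‖x - y‖ + 1 / 2 * ‖(x - y) - (x' - y')‖ :=
  second_diff (convex_ball _ _) (fun _ ha => H.g_der ha) H.L_nn
    (fun a ha a' ha' => by simpa using H.lip a ha a' ha') (fun _ ha => H.g_small ha) hx hy hx' hy'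

theorem h_second {x y x' y' : Z × V} (hx : x ∈ ball (0 : Z × V) R)
    (hy : y ∈ ball (0 : Z × V) R) (hx' : x' ∈ ball (0 : Z × V) R)
    (hy' : y' ∈ ball (0 : Z × V) R) :
    ‖(h x - h y) - (h x' - h y')‖ ≤
      L * (‖x - x'‖ + ‖y - y'‖) * ‖x - y‖ + 1 / 4 * ‖(x - y) - (x' - y')‖ :=
  second_diff (convex_ball _ _) H.der H.L_nn H.lip H.small hx hy hx' hy'

omit H in
/-- new graph function -/
noncomputable def HH (h : Z × V → V) (D : Z × V → (Z × V →L[ℝ] V)) (w : Z × V → ℝ → V)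
    (a2 : Z →L[ℝ] V) (R : ℝ) (z : Z) (u : V) : V :=
  g h D (z, psi h D w a2 R z u 0)

omit H in
/-- new total height -/
noncomputable def YY (h : Z × V → V) (D : Z × V → (Z × V →L[ℝ] V)) (w : Z × V → ℝ → V)
    (a2 : Z →L[ℝ] V) (R : ℝ) (z : Z) (u : V) (s : ℝ) : V :=
  g h D (z, psi h D w a2 R z u s) + w (z, psi h D w a2 R z u s) s

omit H in
/-- new arc -/
noncomputable def ww (h : Z × V → V) (D : Z × V → (Z × V →L[ℝ] V)) (w : Z × V → ℝ → V)
    (a2 : Z →L[ℝ] V) (R : ℝ) (z : Z) (u : V) (s : ℝ) : V :=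
  YY h D w a2 R z u s - HH h D w a2 R z u

theorem HH_zero [CompleteSpace V] : HH h D w a2 R 0 0 = 0 := by
  unfold HH
  rw [H.psi_zero]
  have : ((0:Z), (0:V)) = 0 := rfl
  rw [this]
  unfold g
  rw [H.zero, map_zero, sub_zero]

theorem ww_zero [CompleteSpace V] {z : Z} {u : V} (hz : ‖z‖ < ρ a2 R)
    (hu : ‖u‖ < ρ a2 R) : ww h D w a2 R z u 0 = 0 := by
  unfold ww YY HH
  rw [H.w0 _ (H.psi_mem hz hu H.zero_mem_s)]
  simp

theorem HH_lip [CompleteSpace V] {z z' : Z} {u u' : V} (hz : ‖z‖ < ρ a2 R)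
    (hu : ‖u‖ < ρ a2 R) (hz' : ‖z'‖ < ρ a2 R) (hu' : ‖u'‖ < ρ a2 R) :
    ‖HH h D w a2 R z u - HH h D w a2 R z' u'‖ ≤
      (L * K a2 * K a2 * 4) * (‖z‖ + ‖z'‖ + ‖u‖ + ‖u'‖) * (‖z - z'‖ + ‖u - u'‖) := by
  have hK := K_ge a2
  have h1 := H.g_lip2 (H.psi_mem hz hu H.zero_mem_s) (H.psi_mem hz' hu' H.zero_mem_s)
  have h2 := H.psi_norm hz hu
  have h3 := H.psi_norm hz' hu'
  have h4 := H.psi_lip hz hu H.zero_mem_s hz' hu' H.zero_mem_s
  simp only [sub_self, abs_zero, mul_zero, add_zero] at h4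
  have h5 := prod_norm_le z (psi h D w a2 R z u 0)
  have h6 := prod_norm_le z' (psi h D w a2 R z' u' 0)
  have h7 := prod_sub_norm z z' (psi h D w a2 R z u 0) (psi h D w a2 R z' u' 0)
  have n1 := norm_nonneg z
  have n2 := norm_nonneg u
  have n3 := norm_nonneg z'
  have n4 := norm_nonneg u'
  have n5 := norm_nonneg (z - z')
  have n6 := norm_nonneg (u - u')
  have h8 : ‖((z, psi h D w a2 R z u 0) : Z × V)‖ + ‖((z', psi h D w a2 R z' u' 0) : Z × V)‖ ≤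
      2 * K a2 * (‖z‖ + ‖z'‖ + ‖u‖ + ‖u'‖) := by nlinarith
  have h9 : ‖((z, psi h D w a2 R z u 0) : Z × V) - (z', psi h D w a2 R z' u' 0)‖ ≤
      2 * K a2 * (‖z - z'‖ + ‖u - u'‖) := by nlinarith
  unfold HH
  refine h1.trans ?_
  calc _ ≤ L * (2 * K a2 * (‖z‖ + ‖z'‖ + ‖u‖ + ‖u'‖)) * (2 * K a2 * (‖z - z'‖ + ‖u - u'‖)) := by
        refine mul_le_mul (mul_le_mul_of_nonneg_left h8 H.L_nn) h9 (norm_nonneg _) ?_
        have := H.L_nn
        positivity
    _ = _ := by ring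

theorem ww_s [CompleteSpace V] {z : Z} {u : V} {s s' : ℝ} (hz : ‖z‖ < ρ a2 R)
    (hu : ‖u‖ < ρ a2 R) (hs : s ∈ Icc 0 (s1 R C s0)) (hs' : s' ∈ Icc 0 (s1 R C s0)) :
    ‖ww h D w a2 R z u s - ww h D w a2 R z u s'‖ ≤ 3 * C * |s - s'| := by
  have hs0 : s ∈ Icc 0 s0 := ⟨hs.1, hs.2.trans s1_le⟩
  have hs0' : s' ∈ Icc 0 s0 := ⟨hs'.1, hs'.2.trans s1_le⟩
  have h1 := H.g_lip (H.psi_mem hz hu hs) (H.psi_mem hz hu hs')
  have h2 := H.psi_lip hz hu hs hz hu hs'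
  simp only [sub_self, norm_zero, add_zero, mul_zero, zero_add] at h2
  have h3 := H.wlip s hs0 _ (H.psi_mem hz hu hs) _ (H.psi_mem hz hu hs')
  have h4 := H.ws _ (H.psi_mem hz hu hs') s hs0 s' hs0'
  have e1 : ‖((z, psi h D w a2 R z u s) : Z × V) - (z, psi h D w a2 R z u s')‖ =
      ‖psi h D w a2 R z u s - psi h D w a2 R z u s'‖ := by
    simp [Prod.norm_def]
  rw [e1] at h1 h3
  have h5 : om s * ‖psi h D w a2 R z u s - psi h D w a2 R z u s'‖ ≤
      1 * ‖psi h D w a2 R z u s - psi h D w a2 R z u s'‖ :=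
    mul_le_mul_of_nonneg_right (H.om_le s hs0) (norm_nonneg _)
  have e : ww h D w a2 R z u s - ww h D w a2 R z u s' =
      (g h D (z, psi h D w a2 R z u s) - g h D (z, psi h D w a2 R z u s')) +
      ((w (z, psi h D w a2 R z u s) s - w (z, psi h D w a2 R z u s') s) +
      (w (z, psi h D w a2 R z u s') s - w (z, psi h D w a2 R z u s') s')) := by
    unfold ww YY; abel
  rw [e]
  refine (norm_add_le _ _).trans ?_
  have h6 := norm_add_le (w (z, psi h D w a2 R z u s) s - w (z, psi h D w a2 R z u s') s)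
    (w (z, psi h D w a2 R z u s') s - w (z, psi h D w a2 R z u s') s')
  have h7 : 0 ≤ C * |s - s'| := mul_nonneg H.C_nn (abs_nonneg _)
  linarith

theorem ww_lip [CompleteSpace V] {z z' : Z} {u u' : V} {s : ℝ} (hz : ‖z‖ < ρ a2 R)
    (hu : ‖u‖ < ρ a2 R) (hz' : ‖z'‖ < ρ a2 R) (hu' : ‖u'‖ < ρ a2 R)
    (hs : s ∈ Icc 0 (s1 R C s0)) :
    ‖ww h D w a2 R z u s - ww h D w a2 R z' u' s‖ ≤
      (8 * L * K a2 * C * s + 4 * K a2 * om s) * (‖z - z'‖ + ‖u - u'‖) := by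
  have hK := K_ge a2
  have hs0 : s ∈ Icc 0 s0 := ⟨hs.1, hs.2.trans s1_le⟩
  have h0s := H.zero_mem_s
  have hom := H.om_nn s hs0
  have hom1 := H.om_le s hs0
  have hCnn := H.C_nn
  have hLnn := H.L_nn
  set x := psi h D w a2 R z u s with hx
  set y := psi h D w a2 R z u 0 with hy
  set x' := psi h D w a2 R z' u' s with hx'
  set y' := psi h D w a2 R z' u' 0 with hy'
  set d := ‖z - z'‖ + ‖u - u'‖ with hd
  have hd0 : 0 ≤ d := by positivity
  have mx : (z, x) ∈ ball (0 : Z × V) R := H.psi_mem hz hu hs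
  have my : (z, y) ∈ ball (0 : Z × V) R := H.psi_mem hz hu h0s
  have mx' : (z', x') ∈ ball (0 : Z × V) R := H.psi_mem hz' hu' hs
  have my' : (z', y') ∈ ball (0 : Z × V) R := H.psi_mem hz' hu' h0s
  have l1 : ‖x - x'‖ ≤ K a2 * d := by
    have := H.psi_lip hz hu hs hz' hu' hs
    simpa using this
  have l2 : ‖y - y'‖ ≤ K a2 * d := by
    have := H.psi_lip hz hu h0s hz' hu' h0s
    simpa using this
  have l3 : ‖x - y‖ ≤ C * s := by
    have := H.psi_lip hz hu hs hz hu h0s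
    simpa [abs_of_nonneg hs.1] using this
  have hz1 : ‖z - z'‖ ≤ d := by rw [hd]; linarith [norm_nonneg (u - u')]
  have p1 : ‖((z, x) : Z × V) - (z', x')‖ ≤ 2 * K a2 * d := by
    have := prod_sub_norm z z' x x'
    nlinarith
  have p2 : ‖((z, y) : Z × V) - (z', y')‖ ≤ 2 * K a2 * d := by
    have := prod_sub_norm z z' y y'
    nlinarith
  have p3 : ‖((z, x) : Z × V) - (z, y)‖ = ‖x - y‖ := by simp [Prod.norm_def]
  have p4 : ‖(((z, x) : Z × V) - (z, y)) - ((z', x') - (z', y'))‖ = ‖(x - y) - (x' - y')‖ := by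
    simp [Prod.norm_def]
  have p5 : (‖((z, x) : Z × V) - (z', x')‖ + ‖((z, y) : Z × V) - (z', y')‖) *
      ‖((z, x) : Z × V) - (z, y)‖ ≤ (4 * K a2 * d) * (C * s) := by
    rw [p3]
    refine mul_le_mul (by linarith) l3 (norm_nonneg _) (by positivity)
  have p6 : L * (‖((z, x) : Z × V) - (z', x')‖ + ‖((z, y) : Z × V) - (z', y')‖) *
      ‖((z, x) : Z × V) - (z, y)‖ ≤ L * ((4 * K a2 * d) * (C * s)) := by
    rw [mul_assoc]
    exact mul_le_mul_of_nonneg_left p5 hLnn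
  have q1 := H.g_second mx my mx' my'
  have q2 := H.h_second mx my mx' my'
  rw [p4] at q1 q2
  have q3 := H.wlip s hs0 _ mx _ mx'
  have q4 : ‖w (z, x) s - w (z', x') s‖ ≤ om s * (2 * K a2 * d) :=
    q3.trans (mul_le_mul_of_nonneg_left p1 hom)
  -- the difference `δ - δ'`
  have ex := (H.psi_spec hz hu hs).2
  have ey := (H.psi_spec hz hu h0s).2
  have ex' := (H.psi_spec hz' hu' hs).2
  have ey' := (H.psi_spec hz' hu' h0s).2
  rw [← hx] at ex
  rw [← hy, H.w0 _ my] at ey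
  rw [← hx'] at ex'
  rw [← hy', H.w0 _ my'] at ey'
  have ed : (x - y) - (x' - y') = - β D (((h (z, x) - h (z, y)) - (h (z', x') - h (z', y'))) +
      (w (z, x) s - w (z', x') s)) := by
    have : (x - y) - (x' - y') = ((u - β D (h (z, x) + w (z, x) s) - a2 z) -
      (u - β D (h (z, y) + 0) - a2 z)) - ((u' - β D (h (z', x') + w (z', x') s) - a2 z') -
      (u' - β D (h (z', y') + 0) - a2 z')) := by rw [← ex, ← ey, ← ex', ← ey']
    rw [this]
    simp only [map_add, map_sub, map_zero]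
    abel
  have r1 : ‖(x - y) - (x' - y')‖ ≤ 1 / 4 * ((L * ((4 * K a2 * d) * (C * s)) +
      1 / 4 * ‖(x - y) - (x' - y')‖) + om s * (2 * K a2 * d)) := by
    conv_lhs => rw [ed, norm_neg]
    refine (H.norm_β _).trans (mul_le_mul_of_nonneg_left ?_ (by norm_num))
    refine (norm_add_le _ _).trans (add_le_add (q2.trans ?_) q4)
    linarith
  have hA : 0 ≤ L * ((4 * K a2 * d) * (C * s)) := by
    have := hs.1
    positivity
  have hB : 0 ≤ om s * (2 * K a2 * d) := by positivity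
  have r2 : ‖(x - y) - (x' - y')‖ ≤ L * ((4 * K a2 * d) * (C * s)) + om s * (2 * K a2 * d) := by
    linarith
  have e : ww h D w a2 R z u s - ww h D w a2 R z' u' s =
      ((g h D (z, x) - g h D (z, y)) - (g h D (z', x') - g h D (z', y'))) +
      (w (z, x) s - w (z', x') s) := by
    unfold ww YY HH; abel
  rw [e]
  refine (norm_add_le _ _).trans ?_
  have : ‖(g h D (z, x) - g h D (z, y)) - (g h D (z', x') - g h D (z', y'))‖ ≤
      L * ((4 * K a2 * d) * (C * s)) + 1 / 2 * (L * ((4 * K a2 * d) * (C * s)) +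
        om s * (2 * K a2 * d)) := by linarith
  nlinarith

/-- the wedge point in the new coordinates -/
theorem wedge [CompleteSpace V] {z : Z} {u : V} {s : ℝ} (hz : ‖z‖ < ρ a2 R)
    (hu : ‖u‖ < ρ a2 R) (hs : s ∈ Icc 0 (s1 R C s0)) :
    ∃ x : V, (z, x) ∈ ball (0 : Z × V) R ∧
      u = x + β D (h (z, x) + w (z, x) s) + a2 z ∧
      HH h D w a2 R z u + ww h D w a2 R z u s = h (z, x) + w (z, x) s - β D x - a1 D z := by
  refine ⟨psi h D w a2 R z u s, H.psi_mem hz hu hs, ?_, ?_⟩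
  · have := (H.psi_spec hz hu hs).2
    nth_rewrite 1 [this]
    abel
  · unfold ww YY
    rw [g_eq]
    abel

end Core

end Core

end Crest.Agent.R264.A9
end

-- ▼ part R264/A9Main

/-!
Row 264, Part A, node A9 (helper456): boxes at `a0`.

`boxes` : Theorem B (as hypothesis `Bsh.ThmB`) + arc data near `a0` in the OLD graph coordinates
(`Ht`, `vv`) + the Kontinuitaetssatz in the FINAL coordinates (`UU`, the image of the old `UU1`
under `JL.Amap Ht a0`) give the boxes of Theorem A.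
-/

set_option autoImplicit false

open Topology Filter Set Metric Complex

namespace Crest.Agent.R264.A9

open JL

/-- a modulus tending to `0` at `0+` is bounded near `0` by a monotone one -/
theorem exists_mono {om : ℝ → ℝ} (h : Tendsto om (𝓝[>] 0) (𝓝 0)) :
    ∃ om2 : ℝ → ℝ, Monotone om2 ∧ Tendsto om2 (𝓝[>] 0) (𝓝 0) ∧ (∀ s, 0 ≤ om2 s) ∧
      (∀ s, om2 s ≤ 1) ∧ ∃ s2 > 0, ∀ s ∈ Ioc 0 s2, om s ≤ om2 s := by
  set S : ℝ → Set ℝ := fun s => insert 0 ((fun s' => min |om s'| 1) '' Ioc 0 s) with hS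
  have hbdd : ∀ s, BddAbove (S s) := by
    intro s
    refine ⟨1, ?_⟩
    rintro x (rfl | ⟨s', -, rfl⟩)
    · exact zero_le_one
    · exact min_le_right _ _
  have hne : ∀ s, (S s).Nonempty := fun s => ⟨0, mem_insert _ _⟩
  have hmem : ∀ s, 0 < s → min |om s| 1 ∈ S s := fun s hs =>
    mem_insert_of_mem _ ⟨s, ⟨hs, le_refl _⟩, rfl⟩
  have hle : ∀ s, ∀ ε : ℝ, 0 ≤ ε → (∀ s' ∈ Ioc 0 s, |om s'| ≤ ε) → sSup (S s) ≤ ε := by
    intro s ε hε hs
    refine csSup_le (hne s) ?_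
    rintro x (rfl | ⟨s', hs', rfl⟩)
    · exact hε
    · exact (min_le_left _ _).trans (hs s' hs')
  have h0 : ∀ s, 0 ≤ sSup (S s) := fun s => le_csSup (hbdd s) (mem_insert _ _)
  refine ⟨fun s => sSup (S s), ?_, ?_, h0, ?_, ?_⟩
  · intro s s' hss
    refine csSup_le_csSup (hbdd s') (hne s) ?_
    exact insert_subset_insert (image_mono (Ioc_subset_Ioc_right hss))
  · rw [Metric.tendsto_nhdsWithin_nhds] at h ⊢
    intro ε hε
    obtain ⟨δ, hδ, hδ'⟩ := h (ε / 2) (by positivity)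
    refine ⟨δ, hδ, ?_⟩
    intro s hs hsδ
    have h1 : sSup (S s) ≤ ε / 2 := by
      refine hle s (ε / 2) (by positivity) ?_
      intro s' hs'
      have h2 : dist s' 0 < δ := by
        rw [Real.dist_eq, sub_zero] at hsδ ⊢
        rw [abs_of_pos hs'.1]
        rw [abs_of_pos (show (0:ℝ) < s from hs)] at hsδ
        exact hs'.2.trans_lt hsδ
      have := hδ' (show s' ∈ Ioi (0:ℝ) from hs'.1) h2
      rw [Real.dist_eq, sub_zero] at this
      exact this.le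
    rw [Real.dist_eq, sub_zero, abs_of_nonneg (h0 s)]
    linarith
  · intro s
    refine csSup_le (hne s) ?_
    rintro x (rfl | ⟨s', -, rfl⟩)
    · exact zero_le_one
    · exact min_le_right _ _
  · rw [Metric.tendsto_nhdsWithin_nhds] at h
    obtain ⟨δ, hδ, hδ'⟩ := h 1 one_pos
    refine ⟨δ / 2, by positivity, ?_⟩
    intro s hs
    have h2 : dist s 0 < δ := by
      rw [Real.dist_eq, sub_zero, abs_of_pos hs.1]
      linarith [hs.2]
    have h3 := hδ' (show s ∈ Ioi (0:ℝ) from hs.1) h2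
    rw [Real.dist_eq, sub_zero] at h3
    have h4 := le_csSup (hbdd s) (hmem s hs.1)
    rw [min_eq_left h3.le] at h4
    exact (le_abs_self _).trans h4

variable {m k : ℕ}

/-- `a₂ z = -D(iz, 0) = 2 Im (α z)` -/
noncomputable def a2 (D : P m k →L[ℝ] (Fin k → ℝ)) : (Fin m → ℂ) →L[ℝ] (Fin k → ℝ) :=
  -(D.comp ((ContinuousLinearMap.inl ℝ (Fin m → ℂ) (Fin k → ℝ)).comp
    (I • ContinuousLinearMap.id ℝ (Fin m → ℂ))))

theorem a2_apply (D : P m k →L[ℝ] (Fin k → ℝ)) (z : Fin m → ℂ) : a2 D z = - D (I • z, 0) := rfl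

/-- the wedge point over `a` at time `s` -/
noncomputable def wpt (Ht : P m k → (Fin k → ℝ)) (a : P m k) (v : Fin k → ℝ) : E m k :=
  (a.1, ofR a.2 + I • ofR (Ht a + v))

/-- computation of `A_{a0}` at a wedge point -/
theorem Amap_wpt (Ht : P m k → (Fin k → ℝ)) (a0 p : P m k) (v : Fin k → ℝ) :
    Amap Ht a0 (wpt Ht (a0 + p) v) =
      (p.1, fun i => (((p.2 + Core.β (fun _ => fderiv ℝ Ht a0) (Ht (a0 + p) - Ht a0 + v) +
          a2 (fderiv ℝ Ht a0) p.1) i : ℝ) : ℂ) +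
        I * (((Ht (a0 + p) - Ht a0 + v - Core.β (fun _ => fderiv ℝ Ht a0) p.2 -
          Core.a1 (fun _ => fderiv ℝ Ht a0) p.1) i : ℝ) : ℂ)) := by
  set D := fderiv ℝ Ht a0 with hD
  set y := Ht (a0 + p) - Ht a0 + v with hy
  have e1 : (wpt Ht (a0 + p) v).2 - (sig Ht a0).2 = ofR p.2 + I • ofR y := by
    simp only [wpt, sig, Prod.snd_add, map_add, hy, map_sub, smul_add, smul_sub]
    abel
  have e2 : (wpt Ht (a0 + p) v).1 - a0.1 = p.1 := by
    simp [wpt]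
  have e3 : reV (ofR p.2 + I • ofR y) = p.2 := by
    funext i
    simp
  have e4 : imV (ofR p.2 + I • ofR y) = y := by
    funext i
    simp
  unfold Amap
  rw [e1, e2]
  refine Prod.ext rfl ?_
  funext i
  simp only [beta_apply, e3, e4, alpha_apply, ← hD, a2_apply, Core.β, Core.a1,
    ContinuousLinearMap.comp_apply, ContinuousLinearMap.inr_apply,
    ContinuousLinearMap.inl_apply, Pi.add_apply, Pi.sub_apply, Pi.smul_apply, smul_eq_mul,
    ofR_apply, Complex.ofReal_add, Complex.ofReal_sub, Pi.neg_apply, Complex.ofReal_neg]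
  linear_combination (-((D (0, y) i : ℝ) : ℂ) + ((D (I • p.1, 0) i : ℝ) : ℂ)) * Complex.I_sq

/-- Arc data near `a0` in the old graph coordinates; `UU` = final coordinates. -/
structure ArcAt (Ht : P m k → (Fin k → ℝ)) (a0 : P m k) (UU : Set (E m k)) (R s0 C : ℝ)
    (om : ℝ → ℝ) (vv : P m k → ℝ → (Fin k → ℝ)) : Prop where
  R_pos : 0 < R
  s0_pos : 0 < s0
  C_nn : 0 ≤ C
  c2 : ContDiffOn ℝ 2 Ht (ball a0 R)
  small : ∀ a ∈ ball a0 R, ‖fderiv ℝ Ht a‖ ≤ 1 / 4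
  vv0 : ∀ a ∈ ball a0 R, vv a 0 = 0
  om_lim : Tendsto om (𝓝[>] 0) (𝓝 0)
  lip : ∀ s ∈ Ioc 0 s0, ∀ a ∈ ball a0 R, ∀ a' ∈ ball a0 R, ‖vv a s - vv a' s‖ ≤ om s * ‖a - a'‖
  lips : ∀ a ∈ ball a0 R, ∀ s ∈ Icc 0 s0, ∀ s' ∈ Icc 0 s0, ‖vv a s - vv a s'‖ ≤ C * |s - s'|
  mem : ∀ a ∈ ball a0 R, ∀ s ∈ Ioc 0 s0, Amap Ht a0 (wpt Ht a (vv a s)) ∈ UU

theorem ball_add {a0 p : P m k} {r : ℝ} : a0 + p ∈ ball a0 r ↔ p ∈ ball (0 : P m k) r := by
  rw [mem_ball_iff_norm, mem_ball_zero_iff, add_sub_cancel_left]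

/-- the core data from arc data -/
theorem exists_core {Ht : P m k → (Fin k → ℝ)} {a0 : P m k} {UU : Set (E m k)} {R s0 C : ℝ}
    {om : ℝ → ℝ} {vv : P m k → ℝ → (Fin k → ℝ)} (h : ArcAt Ht a0 UU R s0 C om vv) :
    ∃ (r L s1 : ℝ) (om2 : ℝ → ℝ), Monotone om2 ∧ Tendsto om2 (𝓝[>] 0) (𝓝 0) ∧ r ≤ R ∧ s1 ≤ s0 ∧
      Core (fun p => Ht (a0 + p) - Ht a0) (fun p => fderiv ℝ Ht (a0 + p))
        (fun p s => vv (a0 + p) s) (a2 (fderiv ℝ Ht a0)) r L C s1 om2 := by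
  obtain ⟨om2, hmono, hlim, hnn, hle1, s2, hs2, hom2⟩ := exists_mono h.om_lim
  -- Lipschitz derivative near `a0`
  have hmem : a0 ∈ ball a0 R := mem_ball_self h.R_pos
  have hcd : ContDiffAt ℝ 2 Ht a0 := h.c2.contDiffAt (isOpen_ball.mem_nhds hmem)
  have hcd1 : ContDiffAt ℝ 1 (fderiv ℝ Ht) a0 := hcd.fderiv_right (by norm_num)
  obtain ⟨L, t, ht, hLip⟩ := hcd1.exists_lipschitzOnWith
  obtain ⟨r', hr', hrt⟩ := Metric.mem_nhds_iff.1 ht
  refine ⟨min r' R, L, min s2 s0, om2, hmono, hlim, min_le_right _ _, min_le_right _ _, ?_⟩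
  have hsubR : ∀ p ∈ ball (0 : P m k) (min r' R), a0 + p ∈ ball a0 R := fun p hp =>
    ball_add.2 (ball_subset_ball (min_le_right _ _) hp)
  have hsubt : ∀ p ∈ ball (0 : P m k) (min r' R), a0 + p ∈ t := fun p hp =>
    hrt (ball_add.2 (ball_subset_ball (min_le_left _ _) hp))
  refine ⟨lt_min hr' h.R_pos, L.2, h.C_nn, lt_min hs2 h.s0_pos, ?_, ?_, ?_, ?_, ?_, ?_, ?_,
    ?_, ?_⟩
  · intro p hp
    have h1 : DifferentiableAt ℝ Ht (a0 + p) :=
      (h.c2.contDiffAt (isOpen_ball.mem_nhds (hsubR p hp))).differentiableAt (by norm_num)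
    have h2 : HasFDerivAt (fun p : P m k => a0 + p) (ContinuousLinearMap.id ℝ (P m k)) p :=
      (hasFDerivAt_id p).const_add a0
    have h3 := (h1.hasFDerivAt.comp p h2).sub_const (Ht a0)
    simpa using h3
  · intro p hp q hq
    have := hLip.dist_le_mul _ (hsubt p hp) _ (hsubt q hq)
    rw [dist_eq_norm, dist_eq_norm] at this
    simpa using this
  · intro p hp
    exact h.small _ (hsubR p hp)
  · simp
  · intro p hp
    exact h.vv0 _ (hsubR p hp)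
  · exact fun s _ => hnn s
  · exact fun s _ => hle1 s
  · intro s hs p hp q hq
    rcases eq_or_lt_of_le hs.1 with h0 | h0
    · rw [← h0]
      simp only [h.vv0 _ (hsubR p hp), h.vv0 _ (hsubR q hq), sub_self, norm_zero]
      exact mul_nonneg (hnn _) (norm_nonneg _)
    · have h1 := h.lip s ⟨h0, hs.2.trans (min_le_right _ _)⟩ _ (hsubR p hp) _ (hsubR q hq)
      have h2 : (a0 + p) - (a0 + q) = p - q := by abel
      rw [h2] at h1
      exact h1.trans (mul_le_mul_of_nonneg_right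
        (hom2 s ⟨h0, hs.2.trans (min_le_left _ _)⟩) (norm_nonneg _))
  · intro p hp s hs s' hs'
    exact h.lips _ (hsubR p hp) s ⟨hs.1, hs.2.trans (min_le_right _ _)⟩ s'
      ⟨hs'.1, hs'.2.trans (min_le_right _ _)⟩

/-- **A9**: the boxes of Theorem B at `a0`. -/
theorem boxes (hB : Bsh.ThmB) {Ht : P m k → (Fin k → ℝ)} {a0 : P m k} {UU : Set (E m k)}
    {R s0 C : ℝ} {om : ℝ → ℝ} {vv : P m k → ℝ → (Fin k → ℝ)} (h : ArcAt Ht a0 UU R s0 C om vv)
    (hUU : IsOpen UU) {ρ₁ : ℝ} (hρ₁ : 0 < ρ₁) (hKS : Bsh.KSHyp UU ρ₁) :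
    ∃ c C' t₀ : ℝ, 0 < c ∧ 0 < t₀ ∧ ∀ t, 0 < t → t < t₀ → ∃ e : Fin k → ℝ, ‖e‖ ≤ C' ∧
      ∀ (z : Fin m → ℂ) (w : Fin k → ℂ), ‖z‖ < c * Real.sqrt t →
        ‖w - (fun i => Complex.I * (t * (e i : ℂ)))‖ < c * t → (z, w) ∈ UU := by
  obtain ⟨r, L, s1, om2, hmono, hlim, hr, hs1, H⟩ := exists_core h
  set a : (Fin m → ℂ) →L[ℝ] (Fin k → ℝ) := a2 (fderiv ℝ Ht a0) with ha
  set D : P m k → (P m k →L[ℝ] (Fin k → ℝ)) := fun p => fderiv ℝ Ht (a0 + p) with hD
  set hh : P m k → (Fin k → ℝ) := fun p => Ht (a0 + p) - Ht a0 with hhh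
  set w : P m k → ℝ → (Fin k → ℝ) := fun p s => vv (a0 + p) s with hw
  have hK : 0 ≤ Core.K a := le_trans (by norm_num) (Core.K_ge a)
  have hL := H.L_nn
  have hC := H.C_nn
  set C₀ : ℝ := max (L * Core.K a * Core.K a * 4) (3 * C) with hC₀
  have hC₀nn : 0 ≤ C₀ := le_max_of_le_left (by positivity)
  refine hB UU (fun z u => Core.HH hh D w a r z u) (fun z u s => Core.ww hh D w a r z u s)
    (fun s => 8 * L * Core.K a * C * s + 4 * Core.K a * om2 s) (Core.ρ a r)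
    (Core.s1 r C s1) C₀ ρ₁ hUU H.ρ_pos H.s1_pos hρ₁ hC₀nn ?_ ?_ ?_ ?_ ?_ ?_ ?_ ?_ hKS
  · exact H.HH_zero
  · intro z z' u u' hz hz' hu hu'
    refine (H.HH_lip hz hu hz' hu').trans ?_
    have h1 : 0 ≤ ‖z‖ + ‖z'‖ + ‖u‖ + ‖u'‖ := by positivity
    have h2 : 0 ≤ ‖z - z'‖ + ‖u - u'‖ := by positivity
    have h3 : L * Core.K a * Core.K a * 4 ≤ C₀ := le_max_left _ _
    exact mul_le_mul_of_nonneg_right (mul_le_mul_of_nonneg_right h3 h1) h2
  · intro z u hz hu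
    exact H.ww_zero hz hu
  · intro z z' u u' s hz hz' hu hu' h0 hs
    exact H.ww_lip hz hu hz' hu' ⟨h0, hs⟩
  · intro s s' _ hss _
    have h1 : 0 ≤ 8 * L * Core.K a * C := by positivity
    have h2 : 8 * L * Core.K a * C * s ≤ 8 * L * Core.K a * C * s' :=
      mul_le_mul_of_nonneg_left hss h1
    have h3 : 4 * Core.K a * om2 s ≤ 4 * Core.K a * om2 s' :=
      mul_le_mul_of_nonneg_left (hmono hss) (by positivity)
    linarith
  · have h1 : Tendsto (fun s : ℝ => 8 * L * Core.K a * C * s) (𝓝[>] 0) (𝓝 0) := by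
      have : Tendsto (fun s : ℝ => 8 * L * Core.K a * C * s) (𝓝 0)
          (𝓝 (8 * L * Core.K a * C * 0)) := (continuous_const.mul continuous_id).tendsto 0
      rw [mul_zero] at this
      exact this.mono_left nhdsWithin_le_nhds
    have h2 := hlim.const_mul (4 * Core.K a)
    rw [mul_zero] at h2
    simpa using h1.add h2
  · intro z u s s' hz hu h0 hs h0' hs'
    exact (H.ww_s hz hu ⟨h0, hs⟩ ⟨h0', hs'⟩).trans
      (mul_le_mul_of_nonneg_right (le_max_right _ _) (abs_nonneg _))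
  · intro z u s hz hu h0 hs
    obtain ⟨x, hx, e1, e2⟩ := H.wedge hz hu ⟨h0.le, hs⟩
    have h1 : a0 + (z, x) ∈ ball a0 R := ball_add.2 (ball_subset_ball hr hx)
    have h2 := h.mem _ h1 s ⟨h0, hs.trans (Core.s1_le.trans hs1)⟩
    rw [Amap_wpt] at h2
    have hD0 : D 0 = fderiv ℝ Ht a0 := by simp [hD]
    have e3 : Core.β D = Core.β (fun _ => fderiv ℝ Ht a0) := by
      unfold Core.β; rw [hD0]
    have e4 : Core.a1 D = Core.a1 (fun _ => fderiv ℝ Ht a0) := by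
      unfold Core.a1; rw [hD0]
    rw [e3] at e1 e2
    rw [e4] at e2
    have e5 : u = x + Core.β (fun _ => fderiv ℝ Ht a0)
      (Ht (a0 + (z, x)) - Ht a0 + vv (a0 + (z, x)) s) + a z := e1
    have e6 : Core.HH hh D w a r z u + Core.ww hh D w a r z u s =
      Ht (a0 + (z, x)) - Ht a0 + vv (a0 + (z, x)) s -
        Core.β (fun _ => fderiv ℝ Ht a0) x - Core.a1 (fun _ => fderiv ℝ Ht a0) z := e2
    simp only at h2
    rw [← e5, ← e6] at h2
    exact h2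

end Crest.Agent.R264.A9
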