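import Mathlib
import Crest.Agent.R264.TSDefs

-- ▼ part R264/TSGlue
section

/-!
# Tarski-Seidenberg by sign determination (row 264, helper235)

For a commutative ring `A` with evaluations `ev : X → A →+* ℝ`, the sign pattern on the line of a
finite family of polynomials in `A[T]`, evaluated at `x`, is determined up to an increasing
bijection of `ℝ` by the signs of finitely many elements of `A` at `x`.
-/

set_option autoImplicit false

namespace Crest.Agent.R264.TSGlue

open Polynomial SignType

/-! ## increasing bijections of the line -/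

theorem exists_orderIso_fix (c u v : ℝ) (hu : c < u) (hv : c < v) :
    ∃ θ : ℝ ≃o ℝ, (∀ t ≤ c, θ t = t) ∧ θ u = v := by
  set k : ℝ := (v - c) / (u - c) with hk
  have hkpos : 0 < k := div_pos (sub_pos.2 hv) (sub_pos.2 hu)
  let f : ℝ → ℝ := fun t => if t ≤ c then t else c + (t - c) * k
  have hmono : StrictMono f := by
    intro a b hab
    simp only [f]
    split_ifs with h1 h2 h2
    · exact hab
    · have : 0 < (b - c) * k := mul_pos (by linarith [not_le.1 h2]) hkpos
      linarith
    · exact absurd (hab.le.trans h2) h1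
    · have : (a - c) * k < (b - c) * k := mul_lt_mul_of_pos_right (by linarith) hkpos
      linarith
  have hsurj : Function.Surjective f := by
    intro y
    by_cases hy : y ≤ c
    · exact ⟨y, by simp [f, hy]⟩
    · refine ⟨c + (y - c) / k, ?_⟩
      have hpos : 0 < (y - c) / k := div_pos (by linarith [not_le.1 hy]) hkpos
      have h1 : ¬ (c + (y - c) / k ≤ c) := by linarith
      simp only [f, if_neg h1]
      field_simp
      ring
  refine ⟨StrictMono.orderIsoOfSurjective f hmono hsurj, ?_, ?_⟩
  · intro t ht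
    simp [f, ht]
  · have h1 : ¬ (u ≤ c) := not_le.2 hu
    simp only [StrictMono.coe_orderIsoOfSurjective, f, if_neg h1, hk]
    have : u - c ≠ 0 := (sub_pos.2 hu).ne'
    field_simp
    ring

theorem exists_orderIso_extend (P : Finset ℝ) (β : ℝ → ℝ) (hβ : StrictMonoOn β (P : Set ℝ)) :
    ∃ ψ : ℝ ≃o ℝ, ∀ p ∈ P, ψ p = β p := by
  classical
  induction P using Finset.induction_on_max with
  | empty => exact ⟨OrderIso.refl ℝ, by simp⟩
  | insert a s hs ih =>
    obtain ⟨ψ0, hψ0⟩ := ih (hβ.mono (by simp))
    rcases s.eq_empty_or_nonempty with rfl | hne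
    · refine ⟨OrderIso.addRight (β a - a), ?_⟩
      intro p hp
      simp at hp
      subst hp
      simp
    · set m := s.max' hne with hm
      have hms : m ∈ s := s.max'_mem hne
      have hma : m < a := hs m hms
      have h1 : ψ0 m = β m := hψ0 m hms
      have h2 : β m < β a := hβ (by simp [hms]) (by simp) hma
      obtain ⟨θ, hθ, hθa⟩ := exists_orderIso_fix (ψ0 m) (ψ0 a) (β a)
        (ψ0.strictMono hma) (by rw [h1]; exact h2)
      refine ⟨ψ0.trans θ, ?_⟩
      intro p hp
      rcases Finset.mem_insert.1 hp with rfl | hp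
      · simpa using hθa
      · have h3 : p ≤ m := s.le_max' p hp
        rw [OrderIso.trans_apply, hθ _ (ψ0.monotone h3), hψ0 p hp]

/-! ## signs of real polynomials -/

theorem sign_eq_of_no_root (p : ℝ[X]) {a b : ℝ} (hab : a ≤ b)
    (h : ∀ t, a ≤ t → t ≤ b → p.eval t ≠ 0) : sign (p.eval a) = sign (p.eval b) := by
  by_contra hne
  have ha := h a le_rfl hab
  have hb := h b hab le_rfl
  have hcont : ContinuousOn (fun t => p.eval t) (Set.Icc a b) := p.continuous.continuousOn
  rcases lt_or_gt_of_ne ha with ha' | ha' <;> rcases lt_or_gt_of_ne hb with hb' | hb'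
  · exact hne (by rw [sign_neg ha', sign_neg hb'])
  · obtain ⟨t, ht, h0⟩ := intermediate_value_Icc hab hcont ⟨ha'.le, hb'.le⟩
    exact h t ht.1 ht.2 h0
  · obtain ⟨t, ht, h0⟩ := intermediate_value_Icc' hab hcont ⟨hb'.le, ha'.le⟩
    exact h t ht.1 ht.2 h0
  · exact hne (by rw [sign_pos ha', sign_pos hb'])

theorem strictMonoOn_of_deriv (p : ℝ[X]) {a b : ℝ}
    (h : ∀ t, a < t → t < b → 0 < p.derivative.eval t) :
    StrictMonoOn (fun t => p.eval t) (Set.Icc a b) := by
  apply strictMonoOn_of_deriv_pos (convex_Icc a b) p.continuous.continuousOn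
  intro t ht
  rw [interior_Icc] at ht
  rw [Polynomial.deriv]
  exact h t ht.1 ht.2


theorem sign_after_root (p : ℝ[X]) {u t : ℝ} (hut : u < t) (hu : p.eval u = 0)
    (h : ∀ s, u < s → s ≤ t → p.derivative.eval s ≠ 0) :
    sign (p.eval t) = sign (p.derivative.eval t) := by
  have key : ∀ q : ℝ[X], q.eval u = 0 → (∀ s, u < s → s ≤ t → q.derivative.eval s ≠ 0) →
      0 < q.derivative.eval t → 0 < q.eval t := by
    intro q hq hq' hpos
    have h1 : ∀ s, u < s → s < t → 0 < q.derivative.eval s := by
      intro s hs1 hs2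
      have := sign_eq_of_no_root q.derivative hs2.le
        (fun r hr1 hr2 => hq' r (hs1.trans_le hr1) hr2)
      rw [sign_pos hpos] at this
      exact sign_eq_one_iff.1 this
    have := strictMonoOn_of_deriv q h1 ⟨le_rfl, hut.le⟩ ⟨hut.le, le_rfl⟩ hut
    simpa [hq] using this
  rcases lt_or_gt_of_ne (h t hut le_rfl) with hn | hp
  · have := key (-p) (by simp [hu]) (fun s h1 h2 => by simpa using h s h1 h2) (by simpa using hn)
    rw [eval_neg, Left.neg_pos_iff] at this
    rw [sign_neg hn, sign_neg this]
  · rw [sign_pos hp, sign_pos (key p hu h hp)]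

theorem sign_before_root (p : ℝ[X]) {u t : ℝ} (hut : t < u) (hu : p.eval u = 0)
    (h : ∀ s, t ≤ s → s < u → p.derivative.eval s ≠ 0) :
    sign (p.eval t) = - sign (p.derivative.eval t) := by
  have key : ∀ q : ℝ[X], q.eval u = 0 → (∀ s, t ≤ s → s < u → q.derivative.eval s ≠ 0) →
      0 < q.derivative.eval t → q.eval t < 0 := by
    intro q hq hq' hpos
    have h1 : ∀ s, t < s → s < u → 0 < q.derivative.eval s := by
      intro s hs1 hs2
      have := sign_eq_of_no_root q.derivative hs1.le
        (fun r hr1 hr2 => hq' r hr1 (hr2.trans_lt hs2))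
      rw [sign_pos hpos] at this
      exact sign_eq_one_iff.1 this.symm
    have := strictMonoOn_of_deriv q h1 ⟨le_rfl, hut.le⟩ ⟨hut.le, le_rfl⟩ hut
    simpa [hq] using this
  rcases lt_or_gt_of_ne (h t le_rfl hut) with hn | hp
  · have := key (-p) (by simp [hu]) (fun s h1 h2 => by simpa using h s h1 h2) (by simpa using hn)
    rw [eval_neg, Left.neg_neg_iff] at this
    rw [sign_neg hn, sign_pos this]; rfl
  · rw [sign_pos hp, sign_neg (key p hu h hp)]

/-- end behaviour at `-∞` -/
theorem sign_atBot (p : ℝ[X]) {t : ℝ} (h : ∀ s ≤ t, p.derivative.eval s ≠ 0)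
    (h0 : ∀ s ≤ t, p.eval s ≠ 0) : sign (p.eval t) = - sign (p.derivative.eval t) := by
  have key : ∀ q : ℝ[X], (∀ s ≤ t, q.derivative.eval s ≠ 0) → (∀ s ≤ t, q.eval s ≠ 0) →
      0 < q.derivative.eval t → q.eval t < 0 := by
    intro q hq hq0 hpos
    by_contra hcon
    have hqt : 0 < q.eval t := lt_of_le_of_ne (not_lt.1 hcon) (Ne.symm (hq0 t le_rfl))
    have h1 : ∀ s ≤ t, 0 < q.derivative.eval s := by
      intro s hs
      have := sign_eq_of_no_root q.derivative hs (fun r _ hr2 => hq r hr2)
      rw [sign_pos hpos] at this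
      exact sign_eq_one_iff.1 this
    have h2 : ∀ s ≤ t, 0 < q.eval s := by
      intro s hs
      have := sign_eq_of_no_root q hs (fun r _ hr2 => hq0 r hr2)
      rw [sign_pos hqt] at this
      exact sign_eq_one_iff.1 this
    have hdeg : 0 < (q.comp (-X)).degree := by
      rw [← natDegree_pos_iff_degree_pos, natDegree_comp]
      simp only [natDegree_neg, natDegree_X, mul_one]
      by_contra hd
      have : q.natDegree = 0 := by omega
      rw [eq_C_of_natDegree_eq_zero this] at hpos
      simp at hpos
    have hlim := Polynomial.abs_tendsto_atTop (q.comp (-X)) hdeg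
    obtain ⟨N, hN⟩ := (Filter.tendsto_atTop.1 hlim (q.eval t + 1)).exists_forall_of_atTop
    set M := max N (-t) with hM
    have h3 := hN M (le_max_left _ _)
    have h4 : -M ≤ t := by linarith [le_max_right N (-t)]
    have h5 := h2 (-M) h4
    simp only [eval_comp, eval_neg, eval_X] at h3
    rw [abs_of_pos h5] at h3
    have h6 : StrictMonoOn (fun s => q.eval s) (Set.Icc (-M) t) :=
      strictMonoOn_of_deriv q (fun s _ hs => h1 s hs.le)
    have h7 : q.eval (-M) ≤ q.eval t := h6.monotoneOn ⟨le_rfl, h4⟩ ⟨h4, le_rfl⟩ h4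
    linarith
  rcases lt_or_gt_of_ne (h t le_rfl) with hn | hp
  · have := key (-p) (fun s h1 => by simpa using h s h1) (fun s h1 => by simpa using h0 s h1)
      (by simpa using hn)
    rw [eval_neg, Left.neg_neg_iff] at this
    rw [sign_neg hn, sign_pos this]; rfl
  · rw [sign_pos hp, sign_neg (key p h h0 hp)]

/-- end behaviour at `+∞` -/
theorem sign_atTop (p : ℝ[X]) {t : ℝ} (h : ∀ s, t ≤ s → p.derivative.eval s ≠ 0)
    (h0 : ∀ s, t ≤ s → p.eval s ≠ 0) : sign (p.eval t) = sign (p.derivative.eval t) := by
  have hd : ∀ s, (p.comp (-X)).derivative.eval s = - p.derivative.eval (-s) := by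
    intro s
    rw [derivative_comp]
    simp
  have := sign_atBot (p.comp (-X)) (t := -t)
    (fun s hs => by rw [hd]; simpa using h (-s) (by linarith))
    (fun s hs => by simpa using h0 (-s) (by linarith))
  rw [hd, Left.sign_neg, neg_neg] at this
  simpa using this

/-! ## the gluing step -/

/-- data of a step: `p`, `q` with matching signs of derivatives, and of values on `Z`. -/
structure Step (p q : ℝ[X]) (φ : ℝ ≃o ℝ) (Z : Finset ℝ) : Prop where
  h1 : ∀ t, sign (p.derivative.eval t) = sign (q.derivative.eval (φ t))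
  h2 : ∀ t, p.derivative.eval t = 0 → t ∈ Z
  h3 : ∀ z ∈ Z, sign (p.eval z) = sign (q.eval (φ z))

theorem Step.neg {p q : ℝ[X]} {φ : ℝ ≃o ℝ} {Z : Finset ℝ} (H : Step p q φ Z) :
    Step (-p) (-q) φ Z where
  h1 t := by simp [Left.sign_neg, H.h1 t]
  h2 t ht := H.h2 t (by simpa using ht)
  h3 z hz := by simp [Left.sign_neg, H.h3 z hz]

theorem Step.symm {p q : ℝ[X]} {φ : ℝ ≃o ℝ} {Z : Finset ℝ} (H : Step p q φ Z) :
    Step q p φ.symm (Z.map φ.toEquiv.toEmbedding) where
  h1 t := by rw [H.h1 (φ.symm t), OrderIso.apply_symm_apply]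
  h2 t ht := by
    have h := H.h1 (φ.symm t)
    rw [OrderIso.apply_symm_apply, ht, sign_zero, sign_eq_zero_iff] at h
    exact Finset.mem_map.2 ⟨φ.symm t, H.h2 _ h, by simp⟩
  h3 z hz := by
    obtain ⟨w, hw, rfl⟩ := Finset.mem_map.1 hz
    simpa using (H.h3 w hw).symm

theorem Step.rolle {p q : ℝ[X]} {φ : ℝ ≃o ℝ} {Z : Finset ℝ} (H : Step p q φ Z) {r s : ℝ}
    (hrs : r < s) (hr : p.eval r = 0) (hs : p.eval s = 0) : ∃ z ∈ Z, r < z ∧ z < s := by
  obtain ⟨c, hc, hc'⟩ := exists_deriv_eq_zero (f := fun t => p.eval t) hrs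
    p.continuous.continuousOn (by simp [hr, hs])
  rw [Polynomial.deriv] at hc'
  exact ⟨c, H.h2 c hc', hc.1, hc.2⟩

theorem Step.claimA_pos {p q : ℝ[X]} {φ : ℝ ≃o ℝ} {Z : Finset ℝ} (H : Step p q φ Z) {r : ℝ}
    (hr : p.eval r = 0) (hpos : 0 < p.derivative.eval r) (hrZ : r ∉ Z) :
    ∃ r', q.eval r' = 0 ∧ (∀ z ∈ Z, z < r → φ z < r') ∧ (∀ z ∈ Z, r < z → r' < φ z) := by
  classical
  have hqr : 0 < q.derivative.eval (φ r) := by
    have := H.h1 r
    rw [sign_pos hpos] at this
    exact sign_eq_one_iff.1 this.symm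
  -- left point
  have left : ∃ a' ≤ φ r, (∀ z ∈ Z, z < r → φ z ≤ a') ∧ q.eval a' < 0 := by
    set Zl := Z.filter (· < r) with hZl
    rcases Zl.eq_empty_or_nonempty with he | hne
    · have hnone : ∀ z ∈ Z, ¬ z < r := by
        intro z hz hlt
        have : z ∈ Zl := Finset.mem_filter.2 ⟨hz, hlt⟩
        rw [he] at this
        simp at this
      have hq' : ∀ s ≤ φ r, q.derivative.eval s ≠ 0 := by
        intro s hs h0
        have h := H.h1 (φ.symm s)
        rw [OrderIso.apply_symm_apply, h0, sign_zero, sign_eq_zero_iff] at h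
        have hz := H.h2 _ h
        have hle : φ.symm s ≤ r := by
          rw [OrderIso.symm_apply_le]; exact hs
        rcases hle.lt_or_eq with hlt | heq
        · exact hnone _ hz hlt
        · exact hrZ (heq ▸ hz)
      by_cases hroot : ∀ s ≤ φ r, q.eval s ≠ 0
      · have := sign_atBot q hq' hroot
        rw [sign_pos hqr] at this
        refine ⟨φ r, le_rfl, fun z hz hlt => absurd hlt (hnone z hz), ?_⟩
        exact sign_eq_neg_one_iff.1 this
      · push Not at hroot
        obtain ⟨s, hs, hs0⟩ := hroot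
        refine ⟨s - 1, by linarith, fun z hz hlt => absurd hlt (hnone z hz), ?_⟩
        have := sign_before_root q (u := s) (t := s - 1) (by linarith) hs0
          (fun w hw1 hw2 => hq' w (by linarith))
        have h3 : sign (q.derivative.eval (s - 1)) = 1 := by
          rw [sign_eq_of_no_root q.derivative (a := s - 1) (b := φ r) (by linarith)
            (fun w _ hw => hq' w hw), sign_pos hqr]
        rw [h3] at this
        exact sign_eq_neg_one_iff.1 this
    · set a := Zl.max' hne with ha
      have haZ : a ∈ Zl := Zl.max'_mem hne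
      have haZ' := Finset.mem_filter.1 haZ
      have hmax : ∀ z ∈ Z, z < r → z ≤ a := fun z hz hlt =>
        Zl.le_max' z (Finset.mem_filter.2 ⟨hz, hlt⟩)
      refine ⟨φ a, (φ.strictMono haZ'.2).le, fun z hz hlt => φ.monotone (hmax z hz hlt), ?_⟩
      have hmono : StrictMonoOn (fun s => p.eval s) (Set.Icc a r) := by
        apply strictMonoOn_of_deriv
        intro s hs1 hs2
        have hno : ∀ w, s ≤ w → w ≤ r → p.derivative.eval w ≠ 0 := by
          intro w hw1 hw2 h0
          have hwZ := H.h2 w h0
          rcases hw2.lt_or_eq with hlt | heq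
          · exact absurd (hmax w hwZ hlt) (not_le.2 (hs1.trans_le hw1))
          · exact hrZ (heq ▸ hwZ)
        have := sign_eq_of_no_root p.derivative hs2.le hno
        rw [sign_pos hpos] at this
        exact sign_eq_one_iff.1 this
      have hlt := hmono ⟨le_rfl, haZ'.2.le⟩ ⟨haZ'.2.le, le_rfl⟩ haZ'.2
      simp only [hr] at hlt
      have := H.h3 a haZ'.1
      rw [sign_neg hlt] at this
      exact sign_eq_neg_one_iff.1 this.symm
  have right : ∃ b', φ r ≤ b' ∧ (∀ z ∈ Z, r < z → b' ≤ φ z) ∧ 0 < q.eval b' := by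
    set Zr := Z.filter (r < ·) with hZr
    rcases Zr.eq_empty_or_nonempty with he | hne
    · have hnone : ∀ z ∈ Z, ¬ r < z := by
        intro z hz hlt
        have : z ∈ Zr := Finset.mem_filter.2 ⟨hz, hlt⟩
        rw [he] at this
        simp at this
      have hq' : ∀ s, φ r ≤ s → q.derivative.eval s ≠ 0 := by
        intro s hs h0
        have h := H.h1 (φ.symm s)
        rw [OrderIso.apply_symm_apply, h0, sign_zero, sign_eq_zero_iff] at h
        have hz := H.h2 _ h
        have hle : r ≤ φ.symm s := by
          rw [OrderIso.le_symm_apply]; exact hs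
        rcases hle.lt_or_eq with hlt | heq
        · exact hnone _ hz hlt
        · exact hrZ (heq ▸ hz)
      by_cases hroot : ∀ s, φ r ≤ s → q.eval s ≠ 0
      · have := sign_atTop q hq' hroot
        rw [sign_pos hqr] at this
        refine ⟨φ r, le_rfl, fun z hz hlt => absurd hlt (hnone z hz), ?_⟩
        exact sign_eq_one_iff.1 this
      · push Not at hroot
        obtain ⟨s, hs, hs0⟩ := hroot
        refine ⟨s + 1, by linarith, fun z hz hlt => absurd hlt (hnone z hz), ?_⟩
        have := sign_after_root q (u := s) (t := s + 1) (by linarith) hs0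
          (fun w hw1 hw2 => hq' w (by linarith))
        have h3 : sign (q.derivative.eval (s + 1)) = 1 := by
          rw [← sign_eq_of_no_root q.derivative (a := φ r) (b := s + 1) (by linarith)
            (fun w hw _ => hq' w hw), sign_pos hqr]
        rw [h3] at this
        exact sign_eq_one_iff.1 this
    · set b := Zr.min' hne with hb
      have hbZ : b ∈ Zr := Zr.min'_mem hne
      have hbZ' := Finset.mem_filter.1 hbZ
      have hmin : ∀ z ∈ Z, r < z → b ≤ z := fun z hz hlt =>
        Zr.min'_le z (Finset.mem_filter.2 ⟨hz, hlt⟩)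
      refine ⟨φ b, (φ.strictMono hbZ'.2).le, fun z hz hlt => φ.monotone (hmin z hz hlt), ?_⟩
      have hmono : StrictMonoOn (fun s => p.eval s) (Set.Icc r b) := by
        apply strictMonoOn_of_deriv
        intro s hs1 hs2
        have hno : ∀ w, r ≤ w → w ≤ s → p.derivative.eval w ≠ 0 := by
          intro w hw1 hw2 h0
          have hwZ := H.h2 w h0
          rcases hw1.lt_or_eq with hlt | heq
          · exact absurd (hmin w hwZ hlt) (not_le.2 (hw2.trans_lt hs2))
          · exact hrZ (heq ▸ hwZ)
        have := sign_eq_of_no_root p.derivative hs1.le hno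
        rw [sign_pos hpos] at this
        exact sign_eq_one_iff.1 this.symm
      have hlt := hmono ⟨le_rfl, hbZ'.2.le⟩ ⟨hbZ'.2.le, le_rfl⟩ hbZ'.2
      simp only [hr] at hlt
      have := H.h3 b hbZ'.1
      rw [sign_pos hlt] at this
      exact sign_eq_one_iff.1 this.symm
  obtain ⟨a', ha1, ha2, ha3⟩ := left
  obtain ⟨b', hb1, hb2, hb3⟩ := right
  have hab : a' ≤ b' := ha1.trans hb1
  obtain ⟨r', hr', hr0⟩ := intermediate_value_Ioo hab q.continuous.continuousOn
    (show (0 : ℝ) ∈ Set.Ioo (q.eval a') (q.eval b') from ⟨ha3, hb3⟩)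
  exact ⟨r', hr0, fun z hz hlt => (ha2 z hz hlt).trans_lt hr'.1,
    fun z hz hlt => hr'.2.trans_le (hb2 z hz hlt)⟩

theorem Step.claimA {p q : ℝ[X]} {φ : ℝ ≃o ℝ} {Z : Finset ℝ} (H : Step p q φ Z) {r : ℝ}
    (hr : p.eval r = 0) (hrZ : r ∉ Z) :
    ∃ r', q.eval r' = 0 ∧ (∀ z ∈ Z, z < r → φ z < r') ∧ (∀ z ∈ Z, r < z → r' < φ z) := by
  have hne : p.derivative.eval r ≠ 0 := fun h => hrZ (H.h2 r h)
  rcases lt_or_gt_of_ne hne with hn | hp
  · obtain ⟨r', h1, h2, h3⟩ := H.neg.claimA_pos (r := r) (by simp [hr]) (by simpa using hn) hrZ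
    exact ⟨r', by simpa using h1, h2, h3⟩
  · exact H.claimA_pos hr hp hrZ

/-- transfer of signs along two isomorphisms agreeing on the roots -/
theorem sign_transfer {f h : ℝ[X]} {φ ψ : ℝ ≃o ℝ} {Z : Finset ℝ}
    (hf : ∀ t, f.eval t = 0 → t ∈ Z)
    (hs : ∀ t, sign (f.eval t) = sign (h.eval (φ t))) (hψ : ∀ z ∈ Z, ψ z = φ z) (t : ℝ) :
    sign (f.eval t) = sign (h.eval (ψ t)) := by
  by_cases htZ : t ∈ Z
  · rw [hψ t htZ]; exact hs t
  · have hroot : ∀ s, h.eval s = 0 → ∃ s0 ∈ Z, φ s0 = s ∧ ψ s0 = s := by
      intro s h0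
      have h1 := hs (φ.symm s)
      rw [OrderIso.apply_symm_apply, h0, sign_zero, sign_eq_zero_iff] at h1
      have h2 := hf _ h1
      exact ⟨φ.symm s, h2, by simp, by rw [hψ _ h2]; simp⟩
    rw [hs t]
    rcases le_total (φ t) (ψ t) with hle | hle
    · apply sign_eq_of_no_root h hle
      intro s hs1 hs2 h0
      obtain ⟨s0, h3, h4, h5⟩ := hroot s h0
      have h6 : t ≤ s0 := φ.le_iff_le.1 (by rw [h4]; exact hs1)
      have h7 : s0 ≤ t := ψ.le_iff_le.1 (by rw [h5]; exact hs2)
      exact htZ (le_antisymm h6 h7 ▸ h3)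
    · symm
      apply sign_eq_of_no_root h hle
      intro s hs1 hs2 h0
      obtain ⟨s0, h3, h4, h5⟩ := hroot s h0
      have h6 : t ≤ s0 := ψ.le_iff_le.1 (by rw [h5]; exact hs1)
      have h7 : s0 ≤ t := φ.le_iff_le.1 (by rw [h4]; exact hs2)
      exact htZ (le_antisymm h6 h7 ▸ h3)

theorem Step.glue {p q : ℝ[X]} {φ : ℝ ≃o ℝ} {Z : Finset ℝ} (H : Step p q φ Z) :
    ∃ ψ : ℝ ≃o ℝ, (∀ z ∈ Z, ψ z = φ z) ∧ ∀ t, sign (p.eval t) = sign (q.eval (ψ t)) := by
  classical
  have hp'0 : p.derivative ≠ 0 := by
    intro h0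
    have hall : ∀ t : ℝ, t ∈ Z := fun t => H.h2 t (by simp [h0])
    exact Set.infinite_univ (Z.finite_toSet.subset (fun t _ => hall t))
  have hp0 : p ≠ 0 := fun h => hp'0 (by simp [h])
  have hA : ∀ r : ℝ, ∃ r' : ℝ, (p.eval r = 0 → r ∉ Z → q.eval r' = 0 ∧
      (∀ z ∈ Z, z < r → φ z < r') ∧ (∀ z ∈ Z, r < z → r' < φ z)) := by
    intro r
    by_cases h1 : p.eval r = 0 ∧ r ∉ Z
    · obtain ⟨r', h2⟩ := H.claimA h1.1 h1.2
      exact ⟨r', fun _ _ => h2⟩
    · exact ⟨0, fun h2 h3 => absurd ⟨h2, h3⟩ h1⟩
  choose g hg using hA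
  set P : Finset ℝ := Z ∪ p.roots.toFinset with hP
  have hroots : ∀ r, r ∈ p.roots.toFinset ↔ p.eval r = 0 := by
    intro r
    rw [Multiset.mem_toFinset, mem_roots hp0, IsRoot.def]
  let β : ℝ → ℝ := fun t => if t ∈ Z then φ t else g t
  have hβZ : ∀ z ∈ Z, β z = φ z := fun z hz => by simp [β, hz]
  have hβR : ∀ r ∉ Z, β r = g r := fun z hz => by simp [β, hz]
  have hmono : StrictMonoOn β (P : Set ℝ) := by
    intro a ha b hb hab
    have ha' : a ∈ Z ∨ (p.eval a = 0 ∧ a ∉ Z) := by
      by_cases h : a ∈ Z
      · exact Or.inl h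
      · rcases Finset.mem_union.1 (Finset.mem_coe.1 ha) with h1 | h1
        · exact absurd h1 h
        · exact Or.inr ⟨(hroots a).1 h1, h⟩
    have hb' : b ∈ Z ∨ (p.eval b = 0 ∧ b ∉ Z) := by
      by_cases h : b ∈ Z
      · exact Or.inl h
      · rcases Finset.mem_union.1 (Finset.mem_coe.1 hb) with h1 | h1
        · exact absurd h1 h
        · exact Or.inr ⟨(hroots b).1 h1, h⟩
    rcases ha' with ha1 | ⟨ha1, ha2⟩ <;> rcases hb' with hb1 | ⟨hb1, hb2⟩
    · rw [hβZ a ha1, hβZ b hb1]; exact φ.strictMono hab
    · rw [hβZ a ha1, hβR b hb2]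
      exact (hg b hb1 hb2).2.1 a ha1 hab
    · rw [hβR a ha2, hβZ b hb1]
      exact (hg a ha1 ha2).2.2 b hb1 hab
    · rw [hβR a ha2, hβR b hb2]
      obtain ⟨z, hz, hz1, hz2⟩ := H.rolle hab ha1 hb1
      exact ((hg a ha1 ha2).2.2 z hz hz1).trans ((hg b hb1 hb2).2.1 z hz hz2)
  obtain ⟨ψ, hψ⟩ := exists_orderIso_extend P β hmono
  have hψZ : ∀ z ∈ Z, ψ z = φ z := fun z hz => by
    rw [hψ z (Finset.mem_union_left _ hz), hβZ z hz]
  have hPsign : ∀ t ∈ P, sign (p.eval t) = sign (q.eval (ψ t)) := by
    intro t ht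
    by_cases htZ : t ∈ Z
    · rw [hψZ t htZ]; exact H.h3 t htZ
    · have h1 : p.eval t = 0 := by
        rcases Finset.mem_union.1 ht with h | h
        · exact absurd h htZ
        · exact (hroots t).1 h
      rw [hψ t ht, hβR t htZ, h1, (hg t h1 htZ).1]
  -- all roots of q are in ψ(P)
  have hB : ∀ s, q.eval s = 0 → ψ.symm s ∈ P := by
    intro s hs
    by_cases hsZ : s ∈ Z.map φ.toEquiv.toEmbedding
    · obtain ⟨z, hz, rfl⟩ := Finset.mem_map.1 hsZ
      have : ψ.symm (φ z) = z := by rw [← hψZ z hz]; simp
      have h7 : ψ.symm (φ.toEquiv.toEmbedding z) = z := this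
      rw [h7]
      exact Finset.mem_union_left _ hz
    · obtain ⟨r, hr0, hr1, hr2⟩ := H.symm.claimA hs hsZ
      have hne : ∀ z ∈ Z, φ z ≠ s := by
        intro z hz h
        exact hsZ (Finset.mem_map.2 ⟨z, hz, h⟩)
      have h1 : ∀ z ∈ Z, φ z < s → z < r := by
        intro z hz hlt
        have := hr1 (φ z) (Finset.mem_map.2 ⟨z, hz, rfl⟩) hlt
        simpa using this
      have h2 : ∀ z ∈ Z, s < φ z → r < z := by
        intro z hz hlt
        have := hr2 (φ z) (Finset.mem_map.2 ⟨z, hz, rfl⟩) hlt
        simpa using this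
      have hrZ : r ∉ Z := by
        intro hrZ
        rcases lt_or_gt_of_ne (hne r hrZ) with h | h
        · exact lt_irrefl _ (h1 r hrZ h)
        · exact lt_irrefl _ (h2 r hrZ h)
      have hrP : r ∈ P := Finset.mem_union_right _ ((hroots r).2 hr0)
      have hψr : ψ r = g r := by rw [hψ r hrP, hβR r hrZ]
      obtain ⟨hg0, hg1, hg2⟩ := hg r hr0 hrZ
      -- g r = s by uniqueness
      have : g r = s := by
        by_contra hne'
        rcases lt_or_gt_of_ne hne' with hlt | hlt
        · obtain ⟨w, hw, hw1, hw2⟩ := H.symm.rolle hlt hg0 hs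
          obtain ⟨z, hz, rfl⟩ := Finset.mem_map.1 hw
          simp only [Equiv.coe_toEmbedding, RelIso.coe_fn_toEquiv] at hw1 hw2
          have h3 := h1 z hz hw2
          have h4 := hg1 z hz h3
          linarith
        · obtain ⟨w, hw, hw1, hw2⟩ := H.symm.rolle hlt hs hg0
          obtain ⟨z, hz, rfl⟩ := Finset.mem_map.1 hw
          simp only [Equiv.coe_toEmbedding, RelIso.coe_fn_toEquiv] at hw1 hw2
          have h3 := h2 z hz hw1
          have h4 := hg2 z hz h3
          linarith
      rw [← this, ← hψr, OrderIso.symm_apply_apply]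
      exact hrP
  have hderiv : ∀ t, sign (p.derivative.eval t) = sign (q.derivative.eval (ψ t)) :=
    fun t => sign_transfer H.h2 H.h1 hψZ t
  have hqd : ∀ s, q.derivative.eval s = 0 → ψ.symm s ∈ P := by
    intro s h0
    have h := hderiv (ψ.symm s)
    rw [OrderIso.apply_symm_apply, h0, sign_zero, sign_eq_zero_iff] at h
    exact Finset.mem_union_left _ (H.h2 _ h)
  refine ⟨ψ, hψZ, fun t => ?_⟩
  by_cases htP : t ∈ P
  · exact hPsign t htP
  · -- the largest point of P below t
    set Pl := P.filter (· < t) with hPl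
    rcases Pl.eq_empty_or_nonempty with he | hne
    · have hnone : ∀ z ∈ P, ¬ z ≤ t := by
        intro z hz hle
        rcases hle.lt_or_eq with hlt | heq
        · have : z ∈ Pl := Finset.mem_filter.2 ⟨hz, hlt⟩
          rw [he] at this
          simp at this
        · exact htP (heq ▸ hz)
      rw [sign_atBot p (t := t)
        (fun s hs h0 => hnone s (Finset.mem_union_left _ (H.h2 s h0)) hs)
        (fun s hs h0 => hnone s (Finset.mem_union_right _ ((hroots s).2 h0)) hs),
        sign_atBot q (t := ψ t)
        (fun s hs h0 => hnone _ (hqd s h0) (by rw [OrderIso.symm_apply_le]; exact hs))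
        (fun s hs h0 => hnone _ (hB s h0) (by rw [OrderIso.symm_apply_le]; exact hs)),
        hderiv t]
    · set u := Pl.max' hne with hu
      have huP : u ∈ Pl := Pl.max'_mem hne
      have huP' := Finset.mem_filter.1 huP
      have hmax : ∀ z ∈ P, z ≤ t → z ≤ u := by
        intro z hz hle
        rcases hle.lt_or_eq with hlt | heq
        · exact Pl.le_max' z (Finset.mem_filter.2 ⟨hz, hlt⟩)
        · exact absurd (heq ▸ hz) htP
      have hψu : ψ u < ψ t := ψ.strictMono huP'.2
      by_cases hpu : p.eval u = 0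
      · have hqu : q.eval (ψ u) = 0 := by
          have := hPsign u huP'.1
          rw [hpu, sign_zero] at this
          exact sign_eq_zero_iff.1 this.symm
        rw [sign_after_root p huP'.2 hpu (fun s hs1 hs2 h0 =>
            absurd (hmax s (Finset.mem_union_left _ (H.h2 s h0)) hs2) (not_le.2 hs1)),
          sign_after_root q hψu hqu (fun s hs1 hs2 h0 => by
            have h1 := hmax _ (hqd s h0) (by rw [OrderIso.symm_apply_le]; exact hs2)
            rw [OrderIso.symm_apply_le] at h1
            exact absurd h1 (not_le.2 hs1)),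
          hderiv t]
      · have hqu : q.eval (ψ u) ≠ 0 := by
          intro h0
          have := hPsign u huP'.1
          rw [h0, sign_zero] at this
          exact hpu (sign_eq_zero_iff.1 this)
        rw [← sign_eq_of_no_root p huP'.2.le (fun s hs1 hs2 h0 => by
            have h1 := hmax s (Finset.mem_union_right _ ((hroots s).2 h0)) hs2
            exact hpu (le_antisymm h1 hs1 ▸ h0)),
          ← sign_eq_of_no_root q hψu.le (fun s hs1 hs2 h0 => by
            have h1 := hmax _ (hB s h0) (by rw [OrderIso.symm_apply_le]; exact hs2)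
            rw [OrderIso.symm_apply_le] at h1
            exact hqu (le_antisymm h1 hs1 ▸ h0)),
          hPsign u huP'.1]

end Crest.Agent.R264.TSGlue
end

-- ▼ part R264/TSCore
section

/-!
# Tarski-Seidenberg core: sign determination (row 264, helper235)
-/

set_option autoImplicit false

namespace Crest.Agent.R264.TSCore

open Polynomial SignType Crest.Agent.R264.TSGlue

variable {A X : Type*} [CommRing A] (ev : X → A →+* ℝ)

/-- the value of `P` at `(x, t)` -/
noncomputable def val (P : A[X]) (x : X) (t : ℝ) : ℝ := (P.map (ev x)).eval t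

theorem pow_pos_of_ne {a : ℝ} (h : a ≠ 0) : 0 < a ^ 2 := by positivity

/-- pseudo-remainder with respect to the formal leading coefficient of degree `e`. -/
theorem exists_rem (Q : A[X]) (e : ℕ) (he : e ≠ 0) (hQ : Q.natDegree ≤ e) :
    ∀ (n : ℕ) (P : A[X]), P.natDegree ≤ n → ∃ G : A[X], G.natDegree < e ∧
      ∀ x z, ev x (Q.coeff e) ≠ 0 → val ev Q x z = 0 →
        sign (val ev P x z) = sign (val ev G x z) := by
  intro n
  induction n with
  | zero =>
    intro P hP
    exact ⟨P, by omega, fun _ _ _ _ => rfl⟩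
  | succ n ih =>
    intro P hP
    by_cases hlt : P.natDegree < e
    · exact ⟨P, hlt, fun _ _ _ _ => rfl⟩
    · push Not at hlt
      set b := Q.coeff e with hb
      set P1 : A[X] := C (b ^ 2) * P - C (b * P.coeff (n + 1)) * Polynomial.X ^ (n + 1 - e) * Q with hP1
      by_cases hlt2 : P.natDegree ≤ n
      · exact ih P hlt2
      · have hPn : P.natDegree = n + 1 := by omega
        have hen : e ≤ n + 1 := by omega
        have hdeg : P1.natDegree ≤ n := by
          rw [natDegree_le_iff_coeff_eq_zero]
          intro m hm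
          rw [hP1, coeff_sub, coeff_C_mul, mul_assoc, coeff_C_mul, coeff_X_pow_mul']
          have hle : n + 1 - e ≤ m := by omega
          rw [if_pos hle]
          rcases eq_or_lt_of_le (Nat.succ_le_of_lt hm) with h1 | h1
          · have h1' : m = n + 1 := by omega
            subst h1'
            have : n + 1 - (n + 1 - e) = e := by omega
            rw [this, ← hb]
            ring
          · have h2 : P.coeff m = 0 := coeff_eq_zero_of_natDegree_lt (by omega)
            have h3 : Q.coeff (m - (n + 1 - e)) = 0 := coeff_eq_zero_of_natDegree_lt (by omega)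
            rw [h2, h3]; simp
        obtain ⟨G, hG, hG'⟩ := ih P1 hdeg
        refine ⟨G, hG, fun x z hx hz => ?_⟩
        rw [← hG' x z hx hz]
        have h1 : val ev P1 x z = (ev x b) ^ 2 * val ev P x z := by
          simp only [val] at hz ⊢
          rw [hP1]
          simp [hz]
        rw [h1, sign_mul, sign_pos (pow_pos_of_ne hx), one_mul]

/-- the sign equivalence of a family at two points -/
def Sim (F : Multiset A[X]) (x y : X) : Prop :=
  ∃ ψ : ℝ ≃o ℝ, ∀ P ∈ F, ∀ t, sign (val ev P x t) = sign (val ev P y (ψ t))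

theorem exists_sign_determination (F : Multiset A[X]) :
    ∃ W : Finset A, ∀ x y : X, (∀ a ∈ W, sign (ev x a) = sign (ev y a)) → Sim ev F x y := by
  classical
  have hwf : WellFounded (Relation.CutExpand (fun P Q : A[X] => P.natDegree < Q.natDegree)) :=
    WellFounded.cutExpand (measure (fun P : A[X] => P.natDegree)).wf
  induction F using hwf.induction with
  | h F ih =>
  by_cases hconst : ∀ P ∈ F, P.natDegree = 0
  · refine ⟨F.toFinset.image (fun P => P.coeff 0), fun x y hxy => ⟨OrderIso.refl ℝ, ?_⟩⟩
    intro P hP t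
    have h1 : P = C (P.coeff 0) := eq_C_of_natDegree_eq_zero (hconst P hP)
    have h2 : ∀ x t, val ev P x t = ev x (P.coeff 0) := by
      intro x t
      rw [val, h1]; simp
    rw [h2, h2]
    exact hxy _ (Finset.mem_image.2 ⟨P, by simpa using hP, rfl⟩)
  · push Not at hconst
    -- replacing Q by its eraseLead
    have hE : ∀ Q : A[X], ∃ W : Finset A, Q ∈ F → Q.natDegree ≠ 0 → ∀ x y : X,
        (∀ a ∈ W, sign (ev x a) = sign (ev y a)) → Sim ev (F.erase Q + {Q.eraseLead}) x y := by
      intro Q
      by_cases hQ : Q ∈ F ∧ Q.natDegree ≠ 0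
      · have hcut : Relation.CutExpand (fun P Q : A[X] => P.natDegree < Q.natDegree)
            (F.erase Q + {Q.eraseLead}) F := by
          refine ⟨{Q.eraseLead}, Q, ?_, ?_⟩
          · intro a ha
            rw [Multiset.mem_singleton] at ha
            subst ha
            have := eraseLead_natDegree_le Q
            have := hQ.2
            omega
          · conv_rhs => rw [← Multiset.cons_erase hQ.1]
            rw [← Multiset.singleton_add]
            abel
        obtain ⟨W, hW⟩ := ih _ hcut
        exact ⟨W, fun _ _ => hW⟩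
      · exact ⟨∅, fun h1 h2 => absurd ⟨h1, h2⟩ hQ⟩
    choose WE hWE using hE
    -- the polynomial of maximal degree
    obtain ⟨P, hPF, hPmax⟩ : ∃ P ∈ F, ∀ Q ∈ F, Q.natDegree ≤ P.natDegree := by
      obtain ⟨P0, hP0, _⟩ := hconst
      obtain ⟨P, hP, hmax⟩ := F.toFinset.exists_max_image (fun Q => Q.natDegree)
        ⟨P0, by simpa using hP0⟩
      exact ⟨P, by simpa using hP, fun Q hQ => hmax Q (by simpa using hQ)⟩
    have hd : P.natDegree ≠ 0 := by
      obtain ⟨P0, hP0, hP0'⟩ := hconst
      have := hPmax P0 hP0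
      omega
    set d := P.natDegree with hddef
    have hrem : ∀ Q : A[X], ∃ G : A[X], Q.natDegree ≤ d → (G.natDegree < d ∧
        (Q.natDegree ≠ 0 → ∀ x z, ev x Q.leadingCoeff ≠ 0 → val ev Q x z = 0 →
          sign (val ev P x z) = sign (val ev G x z))) := by
      intro Q
      by_cases hQ0 : Q.natDegree = 0
      · exact ⟨0, fun _ => ⟨by simp; omega, fun h => absurd hQ0 h⟩⟩
      · obtain ⟨G, hG, hG'⟩ := exists_rem ev Q Q.natDegree hQ0 le_rfl P.natDegree P le_rfl
        exact ⟨G, fun hle => ⟨by omega, fun _ => hG'⟩⟩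
    choose g hg using hrem
    have hrem' : ∃ G : A[X], G.natDegree < d ∧ (d - 1 ≠ 0 → ∀ x z,
        ev x (P.derivative.coeff (d - 1)) ≠ 0 → val ev P.derivative x z = 0 →
          sign (val ev P x z) = sign (val ev G x z)) := by
      by_cases hd1 : d - 1 = 0
      · exact ⟨0, by simp; omega, fun h => absurd hd1 h⟩
      · obtain ⟨G, hG, hG'⟩ := exists_rem ev P.derivative (d - 1) hd1
          (natDegree_derivative_le P) P.natDegree P le_rfl
        exact ⟨G, by omega, fun _ => hG'⟩
    obtain ⟨G', hG'd, hG'⟩ := hrem'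
    set F0 := F.erase P with hF0
    have hFP : F = P ::ₘ F0 := (Multiset.cons_erase hPF).symm
    set T : Multiset A[X] := F0.map g + {P.derivative} + {G'} with hT
    have hcut : Relation.CutExpand (fun P Q : A[X] => P.natDegree < Q.natDegree) (F0 + T) F := by
      refine ⟨T, P, ?_, ?_⟩
      · intro a ha
        rw [hT, Multiset.mem_add, Multiset.mem_add, Multiset.mem_singleton,
          Multiset.mem_singleton, Multiset.mem_map] at ha
        rcases ha with (⟨Q, hQ, rfl⟩ | rfl) | rfl
        · exact (hg Q (hPmax Q (Multiset.mem_of_mem_erase hQ))).1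
        · exact natDegree_derivative_lt hd
        · exact hG'd
      · rw [hFP, ← Multiset.singleton_add]
        abel
    obtain ⟨W', hW'⟩ := ih _ hcut
    refine ⟨F.toFinset.image (fun Q => Q.leadingCoeff) ∪ F.toFinset.biUnion WE ∪ W',
      fun x y hxy => ?_⟩
    have hlc : ∀ Q ∈ F, sign (ev x Q.leadingCoeff) = sign (ev y Q.leadingCoeff) := by
      intro Q hQ
      apply hxy
      simp only [Finset.mem_union, Finset.mem_image, Multiset.mem_toFinset]
      exact Or.inl (Or.inl ⟨Q, hQ, rfl⟩)
    by_cases hvan : ∃ Q ∈ F, Q.natDegree ≠ 0 ∧ ev x Q.leadingCoeff = 0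
    · obtain ⟨Q, hQF, hQd, hQx⟩ := hvan
      have hQy : ev y Q.leadingCoeff = 0 := by
        have := hlc Q hQF
        rw [hQx, sign_zero] at this
        exact sign_eq_zero_iff.1 this.symm
      have hsim : Sim ev (F.erase Q + {Q.eraseLead}) x y := by
        apply hWE Q hQF hQd x y
        intro a ha
        apply hxy
        simp only [Finset.mem_union, Finset.mem_biUnion, Multiset.mem_toFinset]
        exact Or.inl (Or.inr ⟨Q, hQF, ha⟩)
      obtain ⟨ψ, hψ⟩ := hsim
      refine ⟨ψ, fun R hR t => ?_⟩
      by_cases hRQ : R = Q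
      · subst hRQ
        have hval : ∀ w, ev w R.leadingCoeff = 0 → ∀ t, val ev R w t = val ev R.eraseLead w t := by
          intro w hw t
          have h1 := eraseLead_add_C_mul_X_pow R
          have h2 : R.map (ev w) = R.eraseLead.map (ev w) := by
            conv_lhs => rw [← h1]
            rw [Polynomial.map_add, Polynomial.map_mul, map_C, hw, C_0, zero_mul, add_zero]
          rw [val, val, h2]
        rw [hval x hQx, hval y hQy]
        exact hψ _ (by simp) t
      · exact hψ R (Multiset.mem_add.2 (Or.inl ((Multiset.mem_erase_of_ne hRQ).2 hR))) t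
    · push Not at hvan
      have hvany : ∀ Q ∈ F, Q.natDegree ≠ 0 → ev y Q.leadingCoeff ≠ 0 := by
        intro Q hQ hQd h0
        have := hlc Q hQ
        rw [h0, sign_zero, sign_eq_zero_iff] at this
        exact hvan Q hQ hQd this
      have hsim : Sim ev (F0 + T) x y := by
        apply hW' x y
        intro a ha
        apply hxy
        simp only [Finset.mem_union]
        exact Or.inr ha
      obtain ⟨φ, hφ⟩ := hsim
      have hPx : ev x P.leadingCoeff ≠ 0 := hvan P hPF hd
      have hPy : ev y P.leadingCoeff ≠ 0 := hvany P hPF hd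
      have hder : ∀ w t, val ev P.derivative w t = (P.map (ev w)).derivative.eval t := by
        intro w t
        rw [val, derivative_map]
      have hcoeff : P.derivative.coeff (d - 1) = P.leadingCoeff * (d : A) := by
        rw [coeff_derivative]
        have : d - 1 + 1 = d := by omega
        rw [this]
        have h2 : ((d - 1 : ℕ) : A) + 1 = (d : A) := by
          have h3 : (((d - 1 + 1 : ℕ)) : A) = (d : A) := by rw [this]
          simpa using h3
        rw [h2]
        rfl
      have hcoeffne : ∀ w, ev w P.leadingCoeff ≠ 0 → ev w (P.derivative.coeff (d - 1)) ≠ 0 := by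
        intro w hw
        rw [hcoeff, map_mul, map_natCast]
        exact mul_ne_zero hw (by exact_mod_cast hd)
      have hmap : ∀ w, ev w P.leadingCoeff ≠ 0 → (P.map (ev w)).derivative ≠ 0 := by
        intro w hw h0
        have h1 := hcoeffne w hw
        have h2 : ((P.map (ev w)).derivative).coeff (d - 1) = ev w (P.derivative.coeff (d - 1)) := by
          rw [derivative_map, coeff_map]
        rw [h0, coeff_zero] at h2
        exact h1 h2.symm
      have hQsign : ∀ Q ∈ F0, ∀ t, sign (val ev Q x t) = sign (val ev Q y (φ t)) :=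
        fun Q hQ t => hφ Q (Multiset.mem_add.2 (Or.inl hQ)) t
      have hTsign : ∀ Q ∈ T, ∀ t, sign (val ev Q x t) = sign (val ev Q y (φ t)) :=
        fun Q hQ t => hφ Q (Multiset.mem_add.2 (Or.inr hQ)) t
      have hderT : P.derivative ∈ T := by simp [hT]
      have hG'T : G' ∈ T := by simp [hT]
      have hgT : ∀ Q ∈ F0, g Q ∈ T := fun Q hQ => by
        rw [hT, Multiset.mem_add, Multiset.mem_add, Multiset.mem_map]
        exact Or.inl (Or.inl ⟨Q, hQ, rfl⟩)
      -- the finite set Z
      set Z : Finset ℝ := (F0.toFinset.biUnion (fun Q => (Q.map (ev x)).roots.toFinset)) ∪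
        ((P.map (ev x)).derivative).roots.toFinset with hZ
      have hstep : Step (P.map (ev x)) (P.map (ev y)) φ Z := by
        refine ⟨fun t => ?_, fun t ht => ?_, fun z hz => ?_⟩
        · rw [← hder, ← hder]
          exact hTsign _ hderT t
        · rw [hZ]
          refine Finset.mem_union_right _ ?_
          rw [Multiset.mem_toFinset, mem_roots (hmap x hPx)]
          exact ht
        · rcases Finset.mem_union.1 hz with h | h
          · obtain ⟨Q, hQ, hQz⟩ := Finset.mem_biUnion.1 h
            rw [Multiset.mem_toFinset] at hQ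
            rw [Multiset.mem_toFinset] at hQz
            have hQF : Q ∈ F := Multiset.mem_of_mem_erase hQ
            have hQne : Q.map (ev x) ≠ 0 := (mem_roots'.1 hQz).1
            have hQ0 : val ev Q x z = 0 := (mem_roots'.1 hQz).2
            have hQd : Q.natDegree ≠ 0 := by
              intro h0
              have h1 : Q = C (Q.coeff 0) := eq_C_of_natDegree_eq_zero h0
              rw [h1] at hQne hQ0
              simp only [val, map_C, eval_C] at hQ0
              apply hQne
              simp [hQ0]
            have hQy0 : val ev Q y (φ z) = 0 := by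
              have := hQsign Q hQ z
              rw [hQ0, sign_zero] at this
              exact sign_eq_zero_iff.1 this.symm
            have h3 := (hg Q (hPmax Q hQF)).2 hQd x z (hvan Q hQF hQd) hQ0
            have h4 := (hg Q (hPmax Q hQF)).2 hQd y (φ z) (hvany Q hQF hQd) hQy0
            change sign (val ev P x z) = sign (val ev P y (φ z))
            rw [h3, h4]
            exact hTsign _ (hgT Q hQ) z
          · rw [Multiset.mem_toFinset, mem_roots (hmap x hPx), IsRoot.def, ← hder] at h
            have hy : val ev P.derivative y (φ z) = 0 := by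
              have := hTsign _ hderT z
              rw [h, sign_zero] at this
              exact sign_eq_zero_iff.1 this.symm
            change sign (val ev P x z) = sign (val ev P y (φ z))
            by_cases hd1 : d - 1 = 0
            · exfalso
              have h1 : (P.derivative).natDegree = 0 := by
                have := natDegree_derivative_le P
                omega
              have h2 : P.derivative = C (P.derivative.coeff 0) := eq_C_of_natDegree_eq_zero h1
              have h3 := hcoeffne x hPx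
              rw [hd1] at h3
              rw [val, h2] at h
              simp only [map_C, eval_C] at h
              exact h3 h
            · rw [hG' hd1 x z (hcoeffne x hPx) h, hG' hd1 y (φ z) (hcoeffne y hPy) hy]
              exact hTsign _ hG'T z
      obtain ⟨ψ, hψZ, hψ⟩ := hstep.glue
      refine ⟨ψ, fun Q hQ t => ?_⟩
      rw [hFP, Multiset.mem_cons] at hQ
      rcases hQ with rfl | hQ
      · exact hψ t
      · by_cases hQx : Q.map (ev x) = 0
        · have h1 : ∀ s, val ev Q x s = 0 := fun s => by simp [val, hQx]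
          have h2 : val ev Q y (ψ t) = 0 := by
            have := hQsign Q hQ (φ.symm (ψ t))
            rw [h1, OrderIso.apply_symm_apply, sign_zero] at this
            exact sign_eq_zero_iff.1 this.symm
          rw [h1, h2]
        · exact sign_transfer (f := Q.map (ev x)) (h := Q.map (ev y)) (φ := φ) (ψ := ψ) (Z := Z)
            (fun s hs => by
              rw [hZ]
              refine Finset.mem_union_left _ (Finset.mem_biUnion.2 ⟨Q, by simpa using hQ, ?_⟩)
              rw [Multiset.mem_toFinset, mem_roots hQx]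
              exact hs)
            (hQsign Q hQ) hψZ t

end Crest.Agent.R264.TSCore
end

-- ▼ part R264/TSProj

/-!
# Projection of semialgebraic sets (row 264, helper235), from `TSCore.exists_sign_determination`
-/

set_option autoImplicit false

open Set

namespace Crest.Agent.R264.TS

open Crest.Agent.R264.TSCore

variable {ι κ : Type*}

theorem eval_optionEquivLeft (x : ι → ℝ) (t : ℝ) (p : MvPolynomial (Option ι) ℝ) :
    val (fun x : ι → ℝ => MvPolynomial.eval x) (MvPolynomial.optionEquivLeft ℝ ι p) x t =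
      MvPolynomial.eval (fun o : Option ι => o.elim t x) p := by
  unfold val
  induction p using MvPolynomial.induction_on with
  | C a => simp
  | add p q hp hq => simp only [map_add, Polynomial.map_add, Polynomial.eval_add, hp, hq]
  | mul_X p i hp =>
    rw [map_mul, Polynomial.map_mul, Polynomial.eval_mul, hp, map_mul]
    congr 1
    cases i <;> simp

theorem SA.ex_option {s : Set (Option ι → ℝ)} (hs : SA s) :
    SA {x : ι → ℝ | ∃ t : ℝ, (fun o : Option ι => o.elim t x) ∈ s} := by
  classical
  obtain ⟨W, hW⟩ := hs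
  obtain ⟨W', hW'⟩ := exists_sign_determination (fun x : ι → ℝ => MvPolynomial.eval x)
    (W.val.map (MvPolynomial.optionEquivLeft ℝ ι))
  refine SA.of_imp W' fun x y hxy hx => ?_
  obtain ⟨t, ht⟩ := hx
  obtain ⟨ψ, hψ⟩ := hW' x y hxy
  refine ⟨ψ t, (hW _ _ fun p hp => ?_).1 ht⟩
  have := hψ _ (Multiset.mem_map_of_mem _ hp) t
  rwa [eval_optionEquivLeft, eval_optionEquivLeft] at this

theorem SA.all_option {s : Set (Option ι → ℝ)} (hs : SA s) :
    SA {x : ι → ℝ | ∀ t : ℝ, (fun o : Option ι => o.elim t x) ∈ s} := by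
  have := (hs.compl.ex_option).compl
  convert this using 1
  ext x
  simp

theorem SA.ex_fin (n : ℕ) : ∀ {ι : Type*} {s : Set (ι ⊕ Fin n → ℝ)}, SA s →
    SA {x : ι → ℝ | ∃ y : Fin n → ℝ, Sum.elim x y ∈ s} := by
  induction n with
  | zero =>
    intro ι s hs
    have h := hs.preimage (ι := ι) (fun k => Sum.elim (fun i => MvPolynomial.X i)
      (fun i : Fin 0 => i.elim0) k)
    convert h using 1
    ext x
    constructor
    · rintro ⟨y, hy⟩
      have : (fun k : ι ⊕ Fin 0 => MvPolynomial.eval x (Sum.elim (fun i => MvPolynomial.X i)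
        (fun i : Fin 0 => i.elim0) k)) = Sum.elim x y := by
        funext k
        rcases k with k | k
        · simp
        · exact k.elim0
      rw [mem_setOf_eq, this]
      exact hy
    · intro hx
      refine ⟨fun i => i.elim0, ?_⟩
      have : (fun k : ι ⊕ Fin 0 => MvPolynomial.eval x (Sum.elim (fun i => MvPolynomial.X i)
        (fun i : Fin 0 => i.elim0) k)) = Sum.elim x (fun i => i.elim0) := by
        funext k
        rcases k with k | k
        · simp
        · exact k.elim0
      rw [mem_setOf_eq, this] at hx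
      exact hx
  | succ n ih =>
    intro ι s hs
    -- s' ⊆ (ι ⊕ Fin n → ℝ) by projecting the last coordinate
    let f : ι ⊕ Fin (n + 1) → Option (ι ⊕ Fin n) := fun k => match k with
      | Sum.inl i => some (Sum.inl i)
      | Sum.inr j => Fin.lastCases (motive := fun _ => Option (ι ⊕ Fin n)) none
          (fun j => some (Sum.inr j)) j
    have h1 := (hs.reindex f).ex_option
    have h2 := ih h1
    convert h2 using 1
    ext x
    constructor
    · rintro ⟨y, hy⟩
      refine ⟨fun j => y j.castSucc, y (Fin.last n), ?_⟩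
      have : (fun k => (fun o : Option (ι ⊕ Fin n) => o.elim (y (Fin.last n))
          (Sum.elim x fun j => y j.castSucc)) (f k)) = Sum.elim x y := by
        funext k
        rcases k with k | k
        · rfl
        · refine Fin.lastCases ?_ (fun j => ?_) k
          · simp [f]
          · simp [f]
      simp only [mem_setOf_eq] at this ⊢
      rw [this]
      exact hy
    · rintro ⟨y, t, hy⟩
      refine ⟨Fin.snoc (α := fun _ => ℝ) y t, ?_⟩
      have : (fun k => (fun o : Option (ι ⊕ Fin n) => o.elim t (Sum.elim x y)) (f k)) =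
          Sum.elim x (Fin.snoc (α := fun _ => ℝ) y t) := by
        funext k
        rcases k with k | k
        · rfl
        · refine Fin.lastCases ?_ (fun j => ?_) k
          · simp [f]
          · simp [f]
      simp only [mem_setOf_eq] at this hy
      rw [this] at hy
      exact hy

theorem SA.ex [Finite κ] {s : Set (ι ⊕ κ → ℝ)} (hs : SA s) :
    SA {x : ι → ℝ | ∃ y : κ → ℝ, Sum.elim x y ∈ s} := by
  obtain ⟨n, ⟨e⟩⟩ := Finite.exists_equiv_fin κ
  have h1 := hs.reindex (ι := ι ⊕ Fin n) (Sum.map id e)
  have h2 := SA.ex_fin n h1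
  convert h2 using 1
  ext x
  constructor
  · rintro ⟨y, hy⟩
    refine ⟨fun j => y (e.symm j), ?_⟩
    have : (fun k => Sum.elim x (fun j => y (e.symm j)) (Sum.map id e k)) = Sum.elim x y := by
      funext k
      rcases k with k | k <;> simp
    rw [mem_setOf_eq, this]
    exact hy
  · rintro ⟨y, hy⟩
    refine ⟨fun k => y (e k), ?_⟩
    have : (fun k => Sum.elim x y (Sum.map id e k)) = Sum.elim x (fun k => y (e k)) := by
      funext k
      rcases k with k | k <;> simp
    rw [mem_setOf_eq, this] at hy
    exact hy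

theorem SA.all [Finite κ] {s : Set (ι ⊕ κ → ℝ)} (hs : SA s) :
    SA {x : ι → ℝ | ∀ y : κ → ℝ, Sum.elim x y ∈ s} := by
  have := (hs.compl.ex).compl
  convert this using 1
  ext x
  simp

end Crest.Agent.R264.TS
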