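import Mathlib
import Crest.Agent.R264.TSProj
import Crest.Agent.R264.SAVDefs
import Crest.Prelude.Def_SemialgDomain

-- ▼ part R264/SAPol
section

/-!
Row 264 (helper369): POLYNOMIAL MAPS between real vector spaces (`fun_prop`).

* `PF f`  : `f : V → ℝ` is a polynomial function; `Pol g` : `g : V → W` is a polynomial map.
-/

set_option autoImplicit false

open Set Topology Filter

namespace Crest.Agent.R264

/-! ### polynomial functions -/

/-- polynomial functions on a real vector space -/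
inductive PF {V : Type*} [AddCommGroup V] [Module ℝ V] : (V → ℝ) → Prop
  | lin (l : V →ₗ[ℝ] ℝ) : PF (fun v => l v)
  | const (c : ℝ) : PF (fun _ => c)
  | add {f g : V → ℝ} : PF f → PF g → PF (fun v => f v + g v)
  | mul {f g : V → ℝ} : PF f → PF g → PF (fun v => f v * g v)

section PFsec

variable {V W Z : Type*} [AddCommGroup V] [Module ℝ V] [AddCommGroup W] [Module ℝ W]
  [AddCommGroup Z] [Module ℝ Z]

/-- polynomial maps -/
@[fun_prop]
def Pol (g : V → W) : Prop := ∀ l : W →ₗ[ℝ] ℝ, PF (fun v => l (g v))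

theorem PF.pol {f : V → ℝ} (hf : PF f) : Pol f := by
  intro l
  have : (fun v => l (f v)) = fun v => (l 1) * f v := by
    funext v
    conv_lhs => rw [show f v = f v • (1 : ℝ) by simp]
    rw [map_smul, smul_eq_mul, mul_comm]
  rw [this]
  exact (PF.const _).mul hf

theorem Pol.pf {f : V → ℝ} (hf : Pol f) : PF f := hf LinearMap.id


@[fun_prop]
theorem Pol.id' : Pol (fun v : V => v) := fun l => PF.lin l

@[fun_prop]
theorem Pol.const (w : W) : Pol (fun _ : V => w) := fun l => PF.const (l w)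

theorem Pol.lin (f : V →ₗ[ℝ] W) : Pol (fun v => f v) := fun l => PF.lin (l ∘ₗ f)

theorem PF.comp {f : W → ℝ} (hf : PF f) {g : V → W} (hg : Pol g) : PF (fun v => f (g v)) := by
  induction hf with
  | lin l => exact hg l
  | const c => exact PF.const c
  | add _ _ h1 h2 => exact h1.add h2
  | mul _ _ h1 h2 => exact h1.mul h2

@[fun_prop]
theorem Pol.comp {f : W → Z} (hf : Pol f) {g : V → W} (hg : Pol g) : Pol (fun v => f (g v)) :=
  fun l => (hf l).comp hg

@[fun_prop]
theorem Pol.add {f g : V → W} (hf : Pol f) (hg : Pol g) : Pol (fun v => f v + g v) := by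
  intro l
  simp only [map_add]
  exact (hf l).add (hg l)

@[fun_prop]
theorem Pol.neg {f : V → W} (hf : Pol f) : Pol (fun v => - f v) := by
  intro l
  have : (fun v => l (- f v)) = fun v => (-1) * l (f v) := by funext v; simp
  rw [this]
  exact (PF.const _).mul (hf l)

@[fun_prop]
theorem Pol.sub {f g : V → W} (hf : Pol f) (hg : Pol g) : Pol (fun v => f v - g v) := by
  simp only [sub_eq_add_neg]
  exact hf.add hg.neg

@[fun_prop]
theorem Pol.mul {f g : V → ℝ} (hf : Pol f) (hg : Pol g) : Pol (fun v => f v * g v) :=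
  (hf.pf.mul hg.pf).pol

@[fun_prop]
theorem Pol.smul {f : V → ℝ} {g : V → W} (hf : Pol f) (hg : Pol g) :
    Pol (fun v => f v • g v) := by
  intro l
  simp only [map_smul, smul_eq_mul]
  exact hf.pf.mul (hg l)

@[fun_prop]
theorem Pol.pow {f : V → ℝ} (hf : Pol f) (n : ℕ) : Pol (fun v => f v ^ n) := by
  induction n with
  | zero => simpa using Pol.const (V := V) (1 : ℝ)
  | succ n ih => simp only [pow_succ]; exact ih.mul hf

theorem Pol.sum {ι : Type*} {s : Finset ι} {f : ι → V → W} (hf : ∀ i ∈ s, Pol (f i)) :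
    Pol (fun v => ∑ i ∈ s, f i v) := by
  classical
  induction s using Finset.induction_on with
  | empty => simpa using Pol.const (V := V) (0 : W)
  | insert a s ha ih =>
    simp only [Finset.sum_insert ha]
    exact (hf a (Finset.mem_insert_self a s)).add
      (ih fun i hi => hf i (Finset.mem_insert_of_mem hi))

@[fun_prop]
theorem Pol.sum' {ι : Type*} {s : Finset ι} {f : ι → V → W} (hf : ∀ i, Pol (f i)) :
    Pol (fun v => ∑ i ∈ s, f i v) := Pol.sum fun i _ => hf i

@[fun_prop]
theorem Pol.fst' : Pol (fun p : V × W => p.1) := Pol.lin (LinearMap.fst ℝ V W)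

@[fun_prop]
theorem Pol.snd' : Pol (fun p : V × W => p.2) := Pol.lin (LinearMap.snd ℝ V W)

@[fun_prop]
theorem Pol.fst {f : Z → V × W} (hf : Pol f) : Pol (fun p => (f p).1) := Pol.fst'.comp hf

@[fun_prop]
theorem Pol.snd {f : Z → V × W} (hf : Pol f) : Pol (fun p => (f p).2) := Pol.snd'.comp hf

@[fun_prop]
theorem Pol.prodMk {f : Z → V} {g : Z → W} (hf : Pol f) (hg : Pol g) :
    Pol (fun z => (f z, g z)) := by
  intro l
  have : (fun z => l (f z, g z)) =
      fun z => (l ∘ₗ LinearMap.inl ℝ V W) (f z) + (l ∘ₗ LinearMap.inr ℝ V W) (g z) := by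
    funext z
    simp only [LinearMap.comp_apply, LinearMap.inl_apply, LinearMap.inr_apply, ← map_add]
    simp
  rw [this]
  exact (hf _).add (hg _)

@[fun_prop]
theorem Pol.apply' {ι : Type*} {W : ι → Type*} [∀ i, AddCommGroup (W i)] [∀ i, Module ℝ (W i)]
    (i : ι) : Pol (fun x : (∀ i, W i) => x i) :=
  Pol.lin (LinearMap.proj (R := ℝ) (φ := W) i)

theorem Pol.apply {ι : Type*} {W : ι → Type*} [∀ i, AddCommGroup (W i)] [∀ i, Module ℝ (W i)]
    {f : V → (∀ i, W i)} (hf : Pol f) (i : ι) : Pol (fun x => f x i) :=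
  (Pol.apply' i).comp hf

@[fun_prop]
theorem Pol.pi {ι : Type*} [Finite ι] {W : ι → Type*} [∀ i, AddCommGroup (W i)]
    [∀ i, Module ℝ (W i)] {f : V → (∀ i, W i)} (hf : ∀ i, Pol (fun x => f x i)) : Pol f := by
  classical
  have := Fintype.ofFinite ι
  intro l
  have : (fun v => l (f v)) =
      fun v => ∑ i, (l ∘ₗ LinearMap.single ℝ W i) (f v i) := by
    funext v
    simp only [LinearMap.comp_apply, ← map_sum]
    congr 1
    exact (LinearMap.sum_single_apply W (f v)).symm
  rw [this]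
  exact (Pol.sum (s := Finset.univ) (f := fun i v => (l ∘ₗ LinearMap.single ℝ W i) (f v i))
    fun i _ => (hf i _).pol).pf

/-! complex valued -/

@[fun_prop]
theorem Pol.re {f : V → ℂ} (hf : Pol f) : Pol (fun v => (f v).re) :=
  (Pol.lin Complex.reLm).comp hf

@[fun_prop]
theorem Pol.im {f : V → ℂ} (hf : Pol f) : Pol (fun v => (f v).im) :=
  (Pol.lin Complex.imLm).comp hf

@[fun_prop]
theorem Pol.ofReal {f : V → ℝ} (hf : Pol f) : Pol (fun v => ((f v : ℝ) : ℂ)) :=
  (Pol.lin (V := ℝ) (W := ℂ) Complex.ofRealCLM.toLinearMap).comp hf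

theorem Pol.of_re_im {f : V → ℂ} (h1 : Pol (fun v => (f v).re)) (h2 : Pol (fun v => (f v).im)) :
    Pol f := by
  have : f = fun v => (((f v).re : ℝ) : ℂ) + (((f v).im : ℝ) : ℂ) * Complex.I := by
    funext v; exact (Complex.re_add_im _).symm
  rw [this]
  have h3 : Pol (fun v => (((f v).im : ℝ) : ℂ) * Complex.I) := by
    have : (fun v => (((f v).im : ℝ) : ℂ) * Complex.I) = fun v => (f v).im • Complex.I := by
      funext v; rw [Complex.real_smul]
    rw [this]
    exact h2.smul (Pol.const _)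
  exact h1.ofReal.add h3

@[fun_prop]
theorem Pol.cmul {f g : V → ℂ} (hf : Pol f) (hg : Pol g) : Pol (fun v => f v * g v) := by
  refine Pol.of_re_im ?_ ?_
  · simp only [Complex.mul_re]; fun_prop
  · simp only [Complex.mul_im]; fun_prop

@[fun_prop]
theorem Pol.cpow {f : V → ℂ} (hf : Pol f) (n : ℕ) : Pol (fun v => f v ^ n) := by
  induction n with
  | zero => simpa using Pol.const (V := V) (1 : ℂ)
  | succ n ih => simp only [pow_succ]; exact ih.cmul hf

@[fun_prop]
theorem Pol.conj {f : V → ℂ} (hf : Pol f) : Pol (fun v => (starRingEnd ℂ) (f v)) := by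
  refine Pol.of_re_im ?_ ?_
  · simp only [Complex.conj_re]; fun_prop
  · simp only [Complex.conj_im]; fun_prop

@[fun_prop]
theorem Pol.normSq {f : V → ℂ} (hf : Pol f) : Pol (fun v => Complex.normSq (f v)) := by
  simp only [Complex.normSq_apply]; fun_prop

/-- complex scalar times a vector of `ℂ^ι` -/
@[fun_prop]
theorem Pol.csmul {ι : Type*} [Finite ι] {f : V → ℂ} {g : V → (ι → ℂ)} (hf : Pol f) (hg : Pol g) :
    Pol (fun v => f v • g v) := by
  refine Pol.pi fun i => ?_
  simp only [Pi.smul_apply, smul_eq_mul]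
  fun_prop

/-- evaluation of a fixed complex polynomial -/
@[fun_prop]
theorem Pol.ceval {ι : Type*} [Finite ι] (p : MvPolynomial ι ℂ) {g : V → (ι → ℂ)} (hg : Pol g) :
    Pol (fun v => MvPolynomial.eval (g v) p) := by
  induction p using MvPolynomial.induction_on with
  | C a => simp only [MvPolynomial.eval_C]; fun_prop
  | add p q hp hq => simp only [map_add]; fun_prop
  | mul_X p i hp => simp only [map_mul, MvPolynomial.eval_X]; fun_prop

/-- evaluation of a fixed real polynomial -/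
@[fun_prop]
theorem Pol.reval {ι : Type*} [Finite ι] (p : MvPolynomial ι ℝ) {g : V → (ι → ℝ)} (hg : Pol g) :
    Pol (fun v => MvPolynomial.eval (g v) p) := by
  induction p using MvPolynomial.induction_on with
  | C a => simp only [MvPolynomial.eval_C]; fun_prop
  | add p q hp hq => simp only [map_add]; fun_prop
  | mul_X p i hp => simp only [map_mul, MvPolynomial.eval_X]; fun_prop

/-- representation by a polynomial in linear coordinates -/
theorem PF.repr {f : V → ℝ} (hf : PF f) {ι : Type*} [Fintype ι] (e : V ≃ₗ[ℝ] (ι → ℝ)) :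
    ∃ p : MvPolynomial ι ℝ, ∀ x, f (e.symm x) = MvPolynomial.eval x p := by
  classical
  induction hf with
  | lin l =>
    refine ⟨∑ i, MvPolynomial.C (l (e.symm (Pi.single i 1))) * MvPolynomial.X i, fun x => ?_⟩
    simp only [map_sum, map_mul, MvPolynomial.eval_C, MvPolynomial.eval_X]
    conv_lhs => rw [← LinearMap.sum_single_apply (fun _ : ι => ℝ) x]
    rw [map_sum, map_sum]
    refine Finset.sum_congr rfl fun i _ => ?_
    have : (Pi.single i (x i) : ι → ℝ) = x i • (Pi.single i (1 : ℝ)) := by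
      ext j
      by_cases h : j = i
      · subst h; simp
      · simp [h]
    rw [this, map_smul, map_smul, smul_eq_mul, mul_comm]
  | const c => exact ⟨MvPolynomial.C c, fun x => by simp⟩
  | add _ _ h1 h2 =>
    obtain ⟨p, hp⟩ := h1
    obtain ⟨q, hq⟩ := h2
    exact ⟨p + q, fun x => by rw [map_add, ← hp, ← hq]⟩
  | mul _ _ h1 h2 =>
    obtain ⟨p, hp⟩ := h1
    obtain ⟨q, hq⟩ := h2
    exact ⟨p * q, fun x => by rw [map_mul, ← hp, ← hq]⟩

end PFsec

end Crest.Agent.R264
end

-- ▼ part R264/SAV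

/-!
Row 264 (helper369): SEMIALGEBRAIC SUBSETS OF FINITE-DIMENSIONAL REAL VECTOR SPACES.

`SAV s` (SAVDefs.lean): `s : Set V` is semialgebraic in some (equivalently all) linear coordinates.

* coordinates: `SAV.iff_equiv`, `SAV.finiteDimensional`;
* boolean operations (set-builder form): `SAV.and/or/not/imp/iff`, `SAV.inter/union/compl/diff`,
  `SAV.exists_finite/forall_finite`, `SAV.const`;
* polynomial conditions: `SAV.pos/nonneg/eq/ne/lt/le`; preimages `SAV.preimage (hg : Pol g)`;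
* quantifiers: `SAV.ex`, `SAV.all`, `SAV.ex'`, `SAV.all'`;
* norms: class `SANorm W`; `SAV.norm_lt/norm_le/dist_lt/dist_le`;
* topology: `SAV.closure/interior/frontier`;
* one variable: `SAV.eventually_or`;
* `SAV.of_isSemialgebraic`.
-/

set_option autoImplicit false

open Set Topology Filter

namespace Crest.Agent.R264

open TS

section basic

variable {V W Z : Type*} [AddCommGroup V] [Module ℝ V] [AddCommGroup W] [Module ℝ W]
  [AddCommGroup Z] [Module ℝ Z]


/-- pull-back of an `SA` set under a polynomial map in coordinates -/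
theorem sa_preimage_pol {ι κ : Type*} [Fintype ι] {s : Set (κ → ℝ)} (hs : SA s)
    (e : V ≃ₗ[ℝ] (ι → ℝ)) {g : V → (κ → ℝ)} (hg : ∀ k, PF (fun v => g v k)) :
    SA {x : ι → ℝ | g (e.symm x) ∈ s} := by
  have h : ∀ k, ∃ p : MvPolynomial ι ℝ, ∀ x, g (e.symm x) k = MvPolynomial.eval x p :=
    fun k => (hg k).repr e
  choose P hP using h
  have h2 := hs.preimage P
  have e2 : {x : ι → ℝ | (fun k => MvPolynomial.eval x (P k)) ∈ s} =
      {x : ι → ℝ | g (e.symm x) ∈ s} := by
    ext x
    have : (fun k => MvPolynomial.eval x (P k)) = g (e.symm x) := by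
      funext k; exact (hP k x).symm
    rw [Set.mem_ofPred_eq, this, Set.mem_ofPred_eq]
  rw [← e2]
  exact h2

/-- independence of the coordinates -/
theorem SAV.coord {ι : Type*} [Fintype ι] (e : V ≃ₗ[ℝ] (ι → ℝ)) {s : Set V} (hs : SAV s) :
    SA {x : ι → ℝ | e.symm x ∈ s} := by
  obtain ⟨n, e', h'⟩ := hs
  have h1 : SA {x : ι → ℝ | (fun v => e' v) (e.symm x) ∈ (e'.symm ⁻¹' s)} :=
    sa_preimage_pol h' e fun k => PF.lin ((LinearMap.proj k) ∘ₗ e'.toLinearMap)
  have e2 : {x : ι → ℝ | (fun v => e' v) (e.symm x) ∈ (e'.symm ⁻¹' s)} =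
      {x : ι → ℝ | e.symm x ∈ s} := by
    ext x
    simp
  rw [← e2]; exact h1

theorem SAV.of_coord {ι : Type*} [Fintype ι] (e : V ≃ₗ[ℝ] (ι → ℝ)) {s : Set V}
    (hs : SA {x : ι → ℝ | e.symm x ∈ s}) : SAV s := by
  have : FiniteDimensional ℝ V := Module.Finite.equiv e.symm
  let e' : V ≃ₗ[ℝ] (Fin (Module.finrank ℝ V) → ℝ) := (Module.finBasis ℝ V).equivFun
  refine ⟨_, e', ?_⟩
  have h1 : SA {x : Fin (Module.finrank ℝ V) → ℝ |
      (fun v => e v) (e'.symm x) ∈ {x : ι → ℝ | e.symm x ∈ s}} :=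
    sa_preimage_pol hs e' fun k => PF.lin ((LinearMap.proj k) ∘ₗ e.toLinearMap)
  have e2 : {x : Fin (Module.finrank ℝ V) → ℝ |
      (fun v => e v) (e'.symm x) ∈ {x : ι → ℝ | e.symm x ∈ s}} = (e'.symm ⁻¹' s) := by
    ext x
    rw [Set.mem_ofPred_eq, Set.mem_ofPred_eq]
    simp
  rw [← e2]; exact h1

/-- coordinates on a finite-dimensional space -/
noncomputable def coordE (V : Type*) [AddCommGroup V] [Module ℝ V] [FiniteDimensional ℝ V] :
    V ≃ₗ[ℝ] (Fin (Module.finrank ℝ V) → ℝ) := (Module.finBasis ℝ V).equivFun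

theorem sav_iff_coordE [FiniteDimensional ℝ V] {s : Set V} :
    SAV s ↔ SA {x | (coordE V).symm x ∈ s} := ⟨SAV.coord _, SAV.of_coord _⟩

theorem sav_iff_sa {ι : Type*} [Fintype ι] {s : Set (ι → ℝ)} : SAV s ↔ SA s := by
  constructor
  · intro h; exact h.coord (LinearEquiv.refl ℝ (ι → ℝ))
  · intro h; exact SAV.of_coord (LinearEquiv.refl ℝ (ι → ℝ)) h

/-- preimage under a polynomial map -/
theorem SAV.preimage [FiniteDimensional ℝ V] {s : Set W} (hs : SAV s) {g : V → W} (hg : Pol g) :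
    SAV {v | g v ∈ s} := by
  obtain ⟨n, e', h'⟩ := hs
  have h1 : SA {x | (fun v => e' (g v)) ((coordE V).symm x) ∈ (e'.symm ⁻¹' s)} :=
    sa_preimage_pol h' (coordE V) fun k => hg ((LinearMap.proj k) ∘ₗ e'.toLinearMap)
  have e2 : {x | (fun v => e' (g v)) ((coordE V).symm x) ∈ (e'.symm ⁻¹' s)} =
      {x | (coordE V).symm x ∈ {v | g v ∈ s}} := by
    ext x
    simp
  rw [sav_iff_coordE, ← e2]; exact h1

/-! ### boolean operations -/

variable [FiniteDimensional ℝ V]

theorem SAV.univ : SAV (univ : Set V) := by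
  rw [sav_iff_coordE]; simpa using SA.univ

theorem SAV.empty : SAV (∅ : Set V) := by
  rw [sav_iff_coordE]; simpa using SA.empty

omit [FiniteDimensional ℝ V] in
theorem SAV.compl {s : Set V} (hs : SAV s) : SAV sᶜ := by
  obtain ⟨n, e, h⟩ := hs
  exact ⟨n, e, h.compl⟩

theorem SAV.inter {s t : Set V} (hs : SAV s) (ht : SAV t) : SAV (s ∩ t) := by
  rw [sav_iff_coordE] at *
  exact hs.inter ht

theorem SAV.union {s t : Set V} (hs : SAV s) (ht : SAV t) : SAV (s ∪ t) := by
  rw [sav_iff_coordE] at *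
  exact hs.union ht


theorem SAV.const (P : Prop) : SAV {_v : V | P} := by
  by_cases h : P
  · simp only [h]; exact SAV.univ
  · simp only [h]; exact SAV.empty

omit [FiniteDimensional ℝ V] in
theorem SAV.not {P : V → Prop} (h : SAV {v | P v}) : SAV {v | ¬ P v} := h.compl

theorem SAV.and {P Q : V → Prop} (h : SAV {v | P v}) (h' : SAV {v | Q v}) :
    SAV {v | P v ∧ Q v} := h.inter h'

theorem SAV.or {P Q : V → Prop} (h : SAV {v | P v}) (h' : SAV {v | Q v}) :
    SAV {v | P v ∨ Q v} := h.union h'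

theorem SAV.imp {P Q : V → Prop} (h : SAV {v | P v}) (h' : SAV {v | Q v}) :
    SAV {v | P v → Q v} := by
  have e : {v | P v → Q v} = {v | ¬ P v ∨ Q v} := by ext x; exact imp_iff_not_or
  rw [e]; exact h.not.or h'


theorem SAV.exists_finite {α : Type*} [Finite α] {P : α → V → Prop} (h : ∀ a, SAV {v | P a v}) :
    SAV {v | ∃ a, P a v} := by
  simp only [sav_iff_coordE] at *
  exact SA.exists_finite h

theorem SAV.forall_finite {α : Type*} [Finite α] {P : α → V → Prop} (h : ∀ a, SAV {v | P a v}) :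
    SAV {v | ∀ a, P a v} := by
  simp only [sav_iff_coordE] at *
  exact SA.forall_finite h

/-! ### polynomial conditions -/

theorem SAV.pos {f : V → ℝ} (hf : Pol f) : SAV {v | 0 < f v} := by
  obtain ⟨p, hp⟩ := hf.pf.repr (coordE V)
  rw [sav_iff_coordE]
  have := SA.pos p
  convert this using 3 with x
  rw [Set.mem_ofPred_eq, hp]

theorem SAV.eq_zero {f : V → ℝ} (hf : Pol f) : SAV {v | f v = 0} := by
  obtain ⟨p, hp⟩ := hf.pf.repr (coordE V)
  rw [sav_iff_coordE]
  have := SA.eq_zero p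
  convert this using 3 with x
  rw [Set.mem_ofPred_eq, hp]

theorem SAV.lt {f g : V → ℝ} (hf : Pol f) (hg : Pol g) : SAV {v | f v < g v} := by
  simpa only [sub_pos] using SAV.pos (hg.sub hf)

theorem SAV.le {f g : V → ℝ} (hf : Pol f) (hg : Pol g) : SAV {v | f v ≤ g v} := by
  simpa only [not_lt] using (SAV.lt hg hf).not

/-- equality of two polynomial maps -/
theorem SAV.eq [FiniteDimensional ℝ W] {f g : V → W} (hf : Pol f) (hg : Pol g) :
    SAV {v | f v = g v} := by
  have h : ∀ k, SAV {v | (coordE W (f v - g v)) k = 0} := fun k =>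
    SAV.eq_zero (((hf.sub hg) ((LinearMap.proj k) ∘ₗ (coordE W).toLinearMap)).pol)
  have := SAV.forall_finite h
  convert this using 3 with v
  constructor
  · intro e k; simp [e]
  · intro e
    have : coordE W (f v - g v) = 0 := by funext k; exact e k
    rw [LinearEquiv.map_eq_zero_iff, sub_eq_zero] at this
    exact this

theorem SAV.ne [FiniteDimensional ℝ W] {f g : V → W} (hf : Pol f) (hg : Pol g) :
    SAV {v | f v ≠ g v} := (SAV.eq hf hg).not



/-! ### quantifiers -/

theorem SAV.ex [FiniteDimensional ℝ W] {P : V → W → Prop} (h : SAV {p : V × W | P p.1 p.2}) :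
    SAV {v | ∃ w, P v w} := by
  classical
  let eV := coordE V
  let eW := coordE W
  let e : (V × W) ≃ₗ[ℝ] ((Fin (Module.finrank ℝ V) ⊕ Fin (Module.finrank ℝ W)) → ℝ) :=
    (eV.prodCongr eW).trans (LinearEquiv.sumArrowLequivProdArrow _ _ ℝ ℝ).symm
  have h1 := (h.coord e).ex
  rw [sav_iff_coordE]
  have key : ∀ (x : Fin (Module.finrank ℝ V) → ℝ) (y : Fin (Module.finrank ℝ W) → ℝ),
      e.symm (Sum.elim x y) = (eV.symm x, eW.symm y) := by
    intro x y
    rw [LinearEquiv.symm_apply_eq]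
    ext k
    rcases k with k | k <;> simp [e]
  convert h1 using 3 with x
  constructor
  · rintro ⟨w, hw⟩
    refine ⟨eW w, ?_⟩
    rw [Set.mem_ofPred_eq, key]
    simpa using hw
  · rintro ⟨y, hy⟩
    rw [Set.mem_ofPred_eq, key] at hy
    exact ⟨_, hy⟩

theorem SAV.all [FiniteDimensional ℝ W] {P : V → W → Prop} (h : SAV {p : V × W | P p.1 p.2}) :
    SAV {v | ∀ w, P v w} := by
  have := (SAV.ex (P := fun v w => ¬ P v w) h.not).not
  convert this using 3 with v
  simp

/-- bounded quantifier -/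
theorem SAV.bex [FiniteDimensional ℝ W] {Q P : V → W → Prop} (hQ : SAV {p : V × W | Q p.1 p.2})
    (h : SAV {p : V × W | P p.1 p.2}) : SAV {v | ∃ w, Q v w ∧ P v w} := SAV.ex (hQ.and h)

theorem SAV.ball [FiniteDimensional ℝ W] {Q P : V → W → Prop} (hQ : SAV {p : V × W | Q p.1 p.2})
    (h : SAV {p : V × W | P p.1 p.2}) : SAV {v | ∀ w, Q v w → P v w} := SAV.all (hQ.imp h)


end basic

/-! ### norms -/

/-- the norm is semialgebraic -/
class SANorm (W : Type*) [NormedAddCommGroup W] [NormedSpace ℝ W] : Prop where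
  fin : FiniteDimensional ℝ W
  sa : SAV {p : W × ℝ | ‖p.1‖ < p.2}

attribute [instance 100] SANorm.fin

section norm

variable {V W Z : Type*} [AddCommGroup V] [Module ℝ V] [FiniteDimensional ℝ V]
  [NormedAddCommGroup W] [NormedSpace ℝ W] [NormedAddCommGroup Z] [NormedSpace ℝ Z]

theorem SAV.norm_lt [SANorm W] {f : V → W} {r : V → ℝ} (hf : Pol f) (hr : Pol r) :
    SAV {v | ‖f v‖ < r v} :=
  (SANorm.sa (W := W)).preimage (hf.prodMk hr)



theorem SAV.le_norm [SANorm W] {f : V → W} {r : V → ℝ} (hf : Pol f) (hr : Pol r) :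
    SAV {v | r v ≤ ‖f v‖} := by
  simpa only [not_lt] using (SAV.norm_lt hf hr).not


theorem SAV.dist_lt [SANorm W] {f g : V → W} {r : V → ℝ} (hf : Pol f) (hg : Pol g) (hr : Pol r) :
    SAV {v | dist (f v) (g v) < r v} := by
  simp only [dist_eq_norm]; exact SAV.norm_lt (hf.sub hg) hr


theorem SAV.le_dist [SANorm W] {f g : V → W} {r : V → ℝ} (hf : Pol f) (hg : Pol g) (hr : Pol r) :
    SAV {v | r v ≤ dist (f v) (g v)} := by
  simp only [dist_eq_norm]; exact SAV.le_norm (hf.sub hg) hr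

instance : SANorm ℝ where
  fin := inferInstance
  sa := by
    have : {p : ℝ × ℝ | ‖p.1‖ < p.2} = {p : ℝ × ℝ | - p.2 < p.1 ∧ p.1 < p.2} := by
      ext p; simp only [Set.mem_ofPred_eq, Real.norm_eq_abs, abs_lt]
    rw [this]
    exact (SAV.lt (by fun_prop) (by fun_prop)).and (SAV.lt (by fun_prop) (by fun_prop))

instance : SANorm ℂ where
  fin := inferInstance
  sa := by
    have : {p : ℂ × ℝ | ‖p.1‖ < p.2} =
        {p : ℂ × ℝ | 0 < p.2 ∧ p.1.re * p.1.re + p.1.im * p.1.im < p.2 ^ 2} := by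
      ext p
      simp only [Set.mem_ofPred_eq]
      rw [← Complex.normSq_apply, Complex.normSq_eq_norm_sq]
      constructor
      · intro h
        exact ⟨(norm_nonneg _).trans_lt h, pow_lt_pow_left₀ h (norm_nonneg _) two_ne_zero⟩
      · rintro ⟨h1, h2⟩
        exact lt_of_pow_lt_pow_left₀ 2 h1.le h2
    rw [this]
    exact (SAV.lt (by fun_prop) (by fun_prop)).and (SAV.lt (by fun_prop) (by fun_prop))

instance [SANorm W] [SANorm Z] : SANorm (W × Z) where
  fin := inferInstance
  sa := by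
    have : {p : (W × Z) × ℝ | ‖p.1‖ < p.2} = {p | ‖p.1.1‖ < p.2 ∧ ‖p.1.2‖ < p.2} := by
      ext p; simp only [Set.mem_ofPred_eq, Prod.norm_def, max_lt_iff]
    rw [this]
    exact (SAV.norm_lt (by fun_prop) (by fun_prop)).and (SAV.norm_lt (by fun_prop) (by fun_prop))

instance {ι : Type*} [Fintype ι] [SANorm W] : SANorm (ι → W) where
  fin := inferInstance
  sa := by
    have : {p : (ι → W) × ℝ | ‖p.1‖ < p.2} = {p | 0 < p.2 ∧ ∀ i, ‖p.1 i‖ < p.2} := by
      ext p
      simp only [Set.mem_ofPred_eq]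
      constructor
      · intro h
        have h0 : 0 < p.2 := (norm_nonneg _).trans_lt h
        exact ⟨h0, (pi_norm_lt_iff h0).1 h⟩
      · rintro ⟨h0, h⟩
        exact (pi_norm_lt_iff h0).2 h
    rw [this]
    exact (SAV.lt (by fun_prop) (by fun_prop)).and
      (SAV.forall_finite fun i => SAV.norm_lt (by fun_prop) (by fun_prop))

/-! ### topology -/

theorem SAV.closure [SANorm W] {s : Set W} (hs : SAV s) : SAV (_root_.closure s) := by
  have : _root_.closure s = {x | ∀ r : ℝ, 0 < r → ∃ y, y ∈ s ∧ dist x y < r} := by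
    ext x; exact Metric.mem_closure_iff
  rw [this]
  refine SAV.ball (Q := fun (_ : W) (r : ℝ) => 0 < r)
    (P := fun (x : W) (r : ℝ) => ∃ y, y ∈ s ∧ dist x y < r) (SAV.lt (by fun_prop) (by fun_prop)) ?_
  refine SAV.bex (V := W × ℝ) (Q := fun (_ : W × ℝ) (y : W) => y ∈ s)
    (P := fun (p : W × ℝ) (y : W) => dist p.1 y < p.2) (hs.preimage Pol.snd') ?_
  exact SAV.dist_lt (by fun_prop) (by fun_prop) (by fun_prop)



end norm

/-! ### one variable -/

theorem eventually_sign_polynomial (p : Polynomial ℝ) :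
    ∃ c : SignType, ∀ᶠ ε in 𝓝[>] (0 : ℝ), SignType.sign (p.eval ε) = c := by
  by_cases hp : p = 0
  · subst hp; exact ⟨0, Eventually.of_forall fun ε => by simp⟩
  obtain ⟨q, hq, hq0⟩ : ∃ q : Polynomial ℝ, p = Polynomial.X ^ (p.rootMultiplicity 0) * q ∧
      q.eval 0 ≠ 0 := by
    obtain ⟨q, h1, h2⟩ := Polynomial.exists_eq_pow_rootMultiplicity_mul_and_not_dvd p hp 0
    refine ⟨q, by simpa using h1, fun h => h2 ?_⟩
    exact Polynomial.dvd_iff_isRoot.mpr h
  have hc : ∀ᶠ ε in 𝓝 (0 : ℝ), SignType.sign (q.eval ε) = SignType.sign (q.eval 0) := by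
    rcases lt_or_gt_of_ne hq0 with h | h
    · have : ∀ᶠ ε in 𝓝 (0 : ℝ), q.eval ε < 0 := q.continuous.continuousAt.eventually_lt
        continuousAt_const h
      filter_upwards [this] with ε hε
      rw [sign_neg hε, sign_neg h]
    · have : ∀ᶠ ε in 𝓝 (0 : ℝ), 0 < q.eval ε := continuousAt_const.eventually_lt
        q.continuous.continuousAt h
      filter_upwards [this] with ε hε
      rw [sign_pos hε, sign_pos h]
  refine ⟨SignType.sign (q.eval 0), ?_⟩
  filter_upwards [nhdsWithin_le_nhds hc, self_mem_nhdsWithin] with ε h1 h2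
  rw [hq, Polynomial.eval_mul, Polynomial.eval_pow, Polynomial.eval_X, sign_mul,
    sign_pos (pow_pos h2 _), one_mul]
  exact h1

/-- a semialgebraic subset of `ℝ` contains all small positive numbers or none -/
theorem SAV.eventually_or {s : Set ℝ} (hs : SAV s) :
    (∀ᶠ ε in 𝓝[>] (0 : ℝ), ε ∈ s) ∨ (∀ᶠ ε in 𝓝[>] (0 : ℝ), ε ∉ s) := by
  have e : ℝ ≃ₗ[ℝ] (Unit → ℝ) := (LinearEquiv.funUnique Unit ℝ ℝ).symm
  obtain ⟨Wf, hW⟩ := hs.coord e
  -- along the line, every polynomial has eventually constant sign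
  have h1 : ∀ p : MvPolynomial Unit ℝ, ∃ c : SignType, ∀ᶠ ε in 𝓝[>] (0 : ℝ),
      SignType.sign (MvPolynomial.eval (e ε) p) = c := by
    intro p
    have : ∃ P : Polynomial ℝ, ∀ ε, MvPolynomial.eval (e ε) p = P.eval ε := by
      induction p using MvPolynomial.induction_on with
      | C a => exact ⟨Polynomial.C a, fun ε => by simp⟩
      | add p q hp hq =>
        obtain ⟨P, hP⟩ := hp
        obtain ⟨Q, hQ⟩ := hq
        exact ⟨P + Q, fun ε => by simp [hP, hQ]⟩
      | mul_X p i hp =>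
        obtain ⟨P, hP⟩ := hp
        refine ⟨P * (Polynomial.C (e 1 i) * Polynomial.X), fun ε => ?_⟩
        have : e ε i = ε * e 1 i := by
          conv_lhs => rw [show ε = ε • (1 : ℝ) by simp]
          rw [map_smul]; rfl
        rw [map_mul, MvPolynomial.eval_X, hP, this, Polynomial.eval_mul, Polynomial.eval_mul,
          Polynomial.eval_C, Polynomial.eval_X, mul_comm ε]
    obtain ⟨P, hP⟩ := this
    obtain ⟨c, hc⟩ := eventually_sign_polynomial P
    exact ⟨c, by filter_upwards [hc] with ε hε; rw [hP]; exact hε⟩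
  choose c hc using h1
  have h2 : ∀ᶠ ε in 𝓝[>] (0 : ℝ), ∀ p ∈ Wf, SignType.sign (MvPolynomial.eval (e ε) p) = c p :=
    (Wf.eventually_all).mpr fun p _ => hc p
  obtain ⟨ε0, h0⟩ := h2.exists
  have h3 : ∀ᶠ ε in 𝓝[>] (0 : ℝ), (ε ∈ s ↔ ε0 ∈ s) := by
    filter_upwards [h2] with ε hε
    have := hW (e ε) (e ε0) fun p hp => by rw [hε p hp, h0 p hp]
    simpa using this
  by_cases h : ε0 ∈ s
  · left; filter_upwards [h3] with ε hε; exact hε.2 h
  · right; filter_upwards [h3] with ε hε; exact fun hh => h (hε.1 hh)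

/-! ### the Prelude notion -/

open Crest.AlgGeometry.Semialg in
theorem SAV.of_isSemialgebraic {N : ℕ} {A : Set (Fin N → ℂ)} (hA : IsSemialgebraic A) :
    SAV A := by
  obtain ⟨k, m, P, Q, rfl⟩ := hA
  have hr : Pol (realCoords (N := N)) := by
    refine Pol.pi fun i => ?_
    rcases i with i | i
    · simp only [realCoords, Sum.elim_inl]; fun_prop
    · simp only [realCoords, Sum.elim_inr]; fun_prop
  have : (⋃ i, {x | (∀ j, MvPolynomial.eval (realCoords x) (P i j) = 0) ∧
      (∀ j, 0 < MvPolynomial.eval (realCoords x) (Q i j))}) =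
      {x : Fin N → ℂ | ∃ i, (∀ j, MvPolynomial.eval (realCoords x) (P i j) = 0) ∧
      (∀ j, 0 < MvPolynomial.eval (realCoords x) (Q i j))} := by
    ext x; simp
  rw [this]
  refine SAV.exists_finite fun i => SAV.and ?_ ?_
  · exact SAV.forall_finite fun j => SAV.eq_zero (Pol.reval _ hr)
  · exact SAV.forall_finite fun j => SAV.pos (Pol.reval _ hr)

end Crest.Agent.R264
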