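import Mathlib
import Crest.Agent.R264.AIface
import Crest.Agent.R264.SAV
import Crest.Agent.R264.CoGraph
import Crest.Agent.R266.SCV
import Crest.Agent.R264.TopSetup
import Crest.Agent.R264.BshIface
import Crest.Agent.R264.AChgDef

-- ▼ part R264/CoLin
section

/-!
Row 264, Part A, node A4c (helper633): linear normal form of a real subspace of `ℂ^n` that spans
`ℂ^n` over `ℂ`: in suitable complex linear coordinates it is `ℂ^m × ℝ^k`.
-/

set_option autoImplicit false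

open Set

namespace Crest.Agent.R264.Co

theorem exists_coord {n : ℕ} (R : Submodule ℝ (Fin n → ℂ))
    (hR : Submodule.span ℂ (R : Set (Fin n → ℂ)) = ⊤) :
    ∃ m k : ℕ, m + k = n ∧ ∃ Φ : (Fin n → ℂ) ≃ₗ[ℂ] ((Fin m → ℂ) × (Fin k → ℂ)),
      ∀ v, v ∈ R ↔ ∀ i, ((Φ v).2 i).im = 0 := by
  classical
  have key1 : ∀ (c : ℂ) (v : Fin n → ℂ), c • v = c.re • v + c.im • (Complex.I • v) := by
    intro c v
    funext i
    simp only [Pi.smul_apply, Pi.add_apply, smul_eq_mul, Complex.real_smul]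
    conv_lhs => rw [← Complex.re_add_im c]
    ring
  have key2 : ∀ (c : ℂ) (v : Fin n → ℂ),
      Complex.I • (c • v) = c.re • (Complex.I • v) - c.im • v := by
    intro c v
    funext i
    simp only [Pi.smul_apply, Pi.sub_apply, smul_eq_mul, Complex.real_smul]
    conv_lhs => rw [← Complex.re_add_im c]
    linear_combination (c.im * v i) * Complex.I_sq
  let H : Submodule ℂ (Fin n → ℂ) :=
    { carrier := {v | v ∈ R ∧ Complex.I • v ∈ R}
      add_mem' := by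
        rintro a b ⟨ha, ha'⟩ ⟨hb, hb'⟩
        exact ⟨R.add_mem ha hb, by rw [smul_add]; exact R.add_mem ha' hb'⟩
      zero_mem' := ⟨R.zero_mem, by rw [smul_zero]; exact R.zero_mem⟩
      smul_mem' := by
        rintro c v ⟨hv, hv'⟩
        refine ⟨?_, ?_⟩
        · rw [key1]
          exact R.add_mem (R.smul_mem _ hv) (R.smul_mem _ hv')
        · rw [key2]
          exact R.sub_mem (R.smul_mem _ hv') (R.smul_mem _ hv) }
  have hHmem : ∀ v, v ∈ H ↔ v ∈ R ∧ Complex.I • v ∈ R := fun v => Iff.rfl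
  let HR : Submodule ℝ (Fin n → ℂ) := H.restrictScalars ℝ
  have hHR : HR ≤ R := fun v hv => hv.1
  obtain ⟨S₁, hS₁⟩ := Submodule.exists_isCompl HR
  let S : Submodule ℝ (Fin n → ℂ) := S₁ ⊓ R
  have hHS : ∀ v, v ∈ H → v ∈ S → v = 0 := by
    intro v h1 h2
    have : v ∈ HR ⊓ S₁ := ⟨h1, h2.1⟩
    rw [hS₁.inf_eq_bot] at this
    exact (Submodule.mem_bot ℝ).1 this
  have hsum : ∀ v ∈ R, ∃ h ∈ H, ∃ s ∈ S, v = h + s := by
    intro v hv
    have hv' : v ∈ HR ⊔ S₁ := by rw [hS₁.sup_eq_top]; trivial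
    obtain ⟨h, hh, s, hs, rfl⟩ := Submodule.mem_sup.1 hv'
    refine ⟨h, hh, s, ⟨hs, ?_⟩, rfl⟩
    have := R.sub_mem hv (hHR hh)
    simpa using this
  have hSR : ∀ v ∈ S, v ∈ R := fun v hv => hv.2
  let bH := Module.finBasis ℂ H
  let bS := Module.finBasis ℝ S
  let Ψ : ((Fin (Module.finrank ℂ H) → ℂ) × (Fin (Module.finrank ℝ S) → ℂ)) →ₗ[ℂ] (Fin n → ℂ) :=
    LinearMap.coprod (Fintype.linearCombination ℂ (fun i => (bH i : Fin n → ℂ)))
      (Fintype.linearCombination ℂ (fun j => (bS j : Fin n → ℂ)))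
  have hΨ : ∀ z w, Ψ (z, w) = (∑ i, z i • (bH i : Fin n → ℂ)) + ∑ j, w j • (bS j : Fin n → ℂ) := by
    intro z w
    simp [Ψ, Fintype.linearCombination_apply]
  have hHsum : ∀ z : Fin (Module.finrank ℂ H) → ℂ, (∑ i, z i • (bH i : Fin n → ℂ)) ∈ H := by
    intro z
    exact H.sum_mem fun i _ => H.smul_mem _ (bH i).2
  have hSsum : ∀ x : Fin (Module.finrank ℝ S) → ℝ, (∑ i, x i • (bS i : Fin n → ℂ)) ∈ S := by
    intro z
    exact S.sum_mem fun i _ => S.smul_mem _ (bS i).2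
  have hsplit : ∀ w : Fin (Module.finrank ℝ S) → ℂ, (∑ j, w j • (bS j : Fin n → ℂ)) =
      (∑ j, (w j).re • (bS j : Fin n → ℂ)) + Complex.I • (∑ j, (w j).im • (bS j : Fin n → ℂ)) := by
    intro w
    rw [Finset.smul_sum, ← Finset.sum_add_distrib]
    refine Finset.sum_congr rfl fun j _ => ?_
    rw [key1 (w j)]
    congr 1
    funext i
    simp only [Pi.smul_apply, smul_eq_mul, Complex.real_smul]
    ring
  have hzS : ∀ x : Fin (Module.finrank ℝ S) → ℝ, (∑ i, x i • (bS i : Fin n → ℂ)) = 0 → x = 0 := by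
    intro x hx
    have h1 : (∑ i, x i • bS i : S) = 0 := by
      apply Subtype.ext
      rw [Submodule.coe_zero, ← hx]
      push_cast
      rfl
    funext i
    exact (Fintype.linearIndependent_iff.1 bS.linearIndependent) x h1 i
  have hzH : ∀ x : Fin (Module.finrank ℂ H) → ℂ, (∑ i, x i • (bH i : Fin n → ℂ)) = 0 → x = 0 := by
    intro x hx
    have h1 : (∑ i, x i • bH i : H) = 0 := by
      apply Subtype.ext
      rw [Submodule.coe_zero, ← hx]
      push_cast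
      rfl
    funext i
    exact (Fintype.linearIndependent_iff.1 bH.linearIndependent) x h1 i
  have hinj : Function.Injective Ψ := by
    rw [← LinearMap.ker_eq_bot, LinearMap.ker_eq_bot']
    rintro ⟨z, w⟩ h0
    rw [hΨ, hsplit] at h0
    set h := ∑ i, z i • (bH i : Fin n → ℂ) with hh
    set s := ∑ j, (w j).re • (bS j : Fin n → ℂ) with hs
    set s' := ∑ j, (w j).im • (bS j : Fin n → ℂ) with hs'
    have hhm : h ∈ H := hHsum z
    have hsm : s ∈ S := hSsum _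
    have hsm' : s' ∈ S := hSsum _
    have e1 : Complex.I • s' = -(h + s) := by
      rw [← add_assoc] at h0
      exact eq_neg_of_add_eq_zero_right h0
    have hs'H : s' ∈ H := by
      refine ⟨hSR _ hsm', ?_⟩
      rw [e1]
      exact R.neg_mem (R.add_mem hhm.1 (hSR _ hsm))
    have hs'0 : s' = 0 := hHS _ hs'H hsm'
    rw [hs'0, smul_zero, add_zero] at h0
    have hsH : s ∈ H := by
      have : s = -h := eq_neg_of_add_eq_zero_right h0
      rw [this]
      exact H.neg_mem hhm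
    have hs0 : s = 0 := hHS _ hsH hsm
    rw [hs0, add_zero] at h0
    have hz := hzH z h0
    have h1 := hzS _ hs0
    have h2 := hzS _ hs'0
    refine Prod.ext hz ?_
    funext j
    apply Complex.ext
    · exact congrFun h1 j
    · exact congrFun h2 j
  have hRΨ : ∀ v ∈ R, ∃ z : Fin (Module.finrank ℂ H) → ℂ, ∃ x : Fin (Module.finrank ℝ S) → ℝ,
      v = Ψ (z, fun j => (x j : ℂ)) := by
    intro v hv
    obtain ⟨h, hh, s, hs, rfl⟩ := hsum v hv
    refine ⟨fun i => bH.repr ⟨h, hh⟩ i, fun j => bS.repr ⟨s, hs⟩ j, ?_⟩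
    rw [hΨ]
    congr 1
    · have := congrArg (Subtype.val) (bH.sum_repr ⟨h, hh⟩)
      push_cast at this
      exact this.symm
    · have := congrArg (Subtype.val) (bS.sum_repr ⟨s, hs⟩)
      push_cast at this
      refine this.symm.trans ?_
      refine Finset.sum_congr rfl fun j _ => ?_
      funext i
      simp [Complex.real_smul]
  have hsurj : Function.Surjective Ψ := by
    rw [← LinearMap.range_eq_top, eq_top_iff, ← hR, Submodule.span_le]
    intro v hv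
    obtain ⟨z, x, rfl⟩ := hRΨ v hv
    exact ⟨_, rfl⟩
  let Φ := (LinearEquiv.ofBijective Ψ ⟨hinj, hsurj⟩).symm
  have hΦΨ : ∀ p, Φ (Ψ p) = p := fun p => (LinearEquiv.ofBijective Ψ ⟨hinj, hsurj⟩).symm_apply_apply p
  have hΨΦ : ∀ v, Ψ (Φ v) = v := fun v => (LinearEquiv.ofBijective Ψ ⟨hinj, hsurj⟩).apply_symm_apply v
  refine ⟨Module.finrank ℂ H, Module.finrank ℝ S, ?_, Φ, ?_⟩
  · have := LinearEquiv.finrank_eq Φ
    simp only [Module.finrank_prod, Module.finrank_fintype_fun_eq_card, Fintype.card_fin] at this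
    exact this.symm
  · intro v
    constructor
    · intro hv i
      obtain ⟨z, x, rfl⟩ := hRΨ v hv
      rw [hΦΨ]
      simp
    · intro hv
      rw [← hΨΦ v]
      have hv' : ∀ i, ((Φ v).2 i).im = 0 := hv
      generalize Φ v = q at hv'
      obtain ⟨z, w⟩ := q
      rw [hΨ, hsplit]
      have : (∑ j, (w j).im • (bS j : Fin n → ℂ)) = 0 :=
        Finset.sum_eq_zero fun j _ => by rw [hv' j, zero_smul]
      rw [this, smul_zero, add_zero]
      exact R.add_mem (hHsum z).1 (hSR _ (hSsum _))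

end Crest.Agent.R264.Co
end

-- ▼ part R264/CoMain
section

/-!
Row 264, Part A, node A4c (helper633): `coordStmt : AI.CoordStmt`.
-/

set_option autoImplicit false

open Set Topology Filter Metric Complex
open scoped ContDiff

namespace Crest.Agent.R264.Co

open Crest.AlgGeometry.Semialg
open Crest.Agent.R264.JL (P sig ofR)

theorem isClosed_alg {N : ℕ} {V : Set (Fin N → ℂ)} (h : IsAlgebraicSet V) : IsClosed V := by
  obtain ⟨I, rfl⟩ := h
  have : MvPolynomial.zeroLocus ℂ I = ⋂ p ∈ I, {x : Fin N → ℂ | MvPolynomial.aeval x p = 0} := by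
    ext x
    simp [MvPolynomial.mem_zeroLocus_iff]
  rw [this]
  refine isClosed_biInter fun p _ => ?_
  refine isClosed_eq ?_ continuous_const
  have h2 : (fun x : Fin N → ℂ => (MvPolynomial.aeval x) p) = fun x => MvPolynomial.eval x p := by
    funext x
    exact congrFun (congrArg DFunLike.coe (MvPolynomial.coe_aeval_eq_eval x)) p
  rw [h2]
  exact MvPolynomial.continuous_eval p

theorem contDiff_polyMap {N n : ℕ} (t : Fin n → MvPolynomial (Fin N) ℂ) :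
    ContDiff ℂ ω (polyMap t) := contDiff_pi.2 fun i => contDiff_eval (t i)

theorem contDiff_realCoords {N : ℕ} : ContDiff ℝ ω (realCoords (N := N)) := by
  refine contDiff_pi.2 fun i => ?_
  rcases i with i | i
  · exact Complex.reCLM.contDiff.comp (contDiff_apply ℝ ℂ i)
  · exact Complex.imCLM.contDiff.comp (contDiff_apply ℝ ℂ i)

theorem contDiff_tt {N r : ℕ} (t : Fin r → MvPolynomial (Fin N ⊕ Fin N) ℝ) :
    ContDiff ℝ ω (fun (x : Fin N → ℂ) (i : Fin r) => MvPolynomial.eval (realCoords x) (t i)) :=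
  contDiff_pi.2 fun i => (contDiff_eval (t i)).comp contDiff_realCoords

theorem pol_kappa {V : Type*} [AddCommGroup V] [Module ℝ V] {N n m k : ℕ}
    (t : Fin n → MvPolynomial (Fin N) ℂ) (c : Fin n → ℂ) (Φ : (Fin n → ℂ) →L[ℂ] EE m k)
    {g : V → (Fin N → ℂ)} (hg : Pol g) : Pol (fun v => Φ (polyMap t (g v) - c)) := by
  have h1 : Pol (fun v => polyMap t (g v) - c) := by
    refine Pol.pi fun i => ?_
    simp only [Pi.sub_apply, polyMap]
    exact (Pol.ceval (t i) hg).sub (Pol.const (c i))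
  exact (Pol.lin ((Φ.restrictScalars ℝ : (Fin n → ℂ) →L[ℝ] EE m k) :
    (Fin n → ℂ) →ₗ[ℝ] EE m k)).comp h1

theorem pol_mk {V : Type*} [AddCommGroup V] [Module ℝ V] {m k : ℕ} {a : V → P m k}
    {h : V → (Fin k → ℝ)} (ha : Pol a) (hh : Pol h) :
    Pol (fun v => (((a v).1, ofR (a v).2 + I • ofR (h v)) : EE m k)) := by
  refine Pol.prodMk (by fun_prop) ?_
  refine Pol.pi fun i => ?_
  simp only [Pi.add_apply, Pi.smul_apply, JL.ofR_apply, smul_eq_mul]
  fun_prop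

theorem hasFDerivAt_sig {m k : ℕ} {Ht : P m k → (Fin k → ℝ)} {a : P m k}
    {H' : P m k →L[ℝ] (Fin k → ℝ)} (h : HasFDerivAt Ht H' a) :
    HasFDerivAt (sig Ht) ((ContinuousLinearMap.fst ℝ (Fin m → ℂ) (Fin k → ℝ)).prod
      (ofR ∘L (ContinuousLinearMap.snd ℝ (Fin m → ℂ) (Fin k → ℝ)) + I • (ofR ∘L H'))) a := by
  refine HasFDerivAt.prodMk hasFDerivAt_fst ?_
  refine HasFDerivAt.add ((ofR ∘L (ContinuousLinearMap.snd ℝ (Fin m → ℂ) (Fin k → ℝ))).hasFDerivAt) ?_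
  exact ((ofR (k := k)).hasFDerivAt.comp a h).const_smul I

theorem coordStmt : AI.CoordStmt := by
  intro N n V U O hV hO hUO hsa hbd A K τ₁ hτ₁ hspan
  have hne : (∞ : WithTop ℕ∞) ≠ 0 := by simp
  have hVcl : IsClosed V := isClosed_alg hV
  have hUV : U ⊆ V := by rw [hUO]; exact inter_subset_right
  have hclV : closure U ⊆ V := closure_minimal hUV hVcl
  set x₁ := K.ε τ₁ with hx₁
  have hx₁V : x₁ ∈ V := hclV (K.mem τ₁ hτ₁)
  obtain ⟨C, hCπ, -⟩ := A.chart x₁ hx₁V (K.D_ne τ₁ hτ₁)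
  have hψπ : ∀ x ∈ V, x ∈ C.O → C.ψ (polyMap A.t x) = x := by
    intro x hx hxO
    rw [← hCπ]
    exact C.ψ_π x hx hxO
  have hpoly : ContDiff ℂ ω (polyMap A.t) := contDiff_polyMap A.t
  have hpolyR : ContDiff ℝ ω (polyMap A.t) := hpoly.restrict_scalars ℝ
  have hε : ContDiffOn ℝ ∞ K.ε K.T := K.hε.contDiffOn K.hT.uniqueDiffOn
  set f : (Fin K.r → ℝ) → (Fin n → ℂ) := fun τ => polyMap A.t (K.ε τ) with hf
  have hfs : ContDiffOn ℝ ∞ f K.T := (hpolyR.of_le le_top).comp_contDiffOn hε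
  have hfd : HasFDerivAt f (fderiv ℝ f τ₁) τ₁ :=
    ((hfs.contDiffAt (K.hT.mem_nhds hτ₁)).differentiableAt hne).hasFDerivAt
  set L := fderiv ℝ f τ₁ with hL
  -- injectivity of `L`
  have hεcont : ContinuousAt K.ε τ₁ := (K.hε τ₁ hτ₁).continuousAt
  have hLinj : ∀ v, L v = 0 → v = 0 := by
    have hW : f τ₁ ∈ C.W := by
      have := C.π_mem x₁ hx₁V C.mem
      rwa [hCπ] at this
    have hψd : DifferentiableAt ℝ C.ψ (f τ₁) :=
      ((C.hψ (f τ₁) hW).differentiableAt (C.hW.mem_nhds hW)).restrictScalars ℝ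
    set tt : (Fin N → ℂ) → (Fin K.r → ℝ) := fun x i =>
      MvPolynomial.eval (realCoords x) (K.t i) with htt
    have httd : Differentiable ℝ tt := (contDiff_tt K.t).differentiable (by simp)
    have hcd : DifferentiableAt ℝ (fun w => tt (C.ψ w)) (f τ₁) :=
      (httd _).comp (f τ₁) hψd
    have h1 : HasFDerivAt (fun τ => tt (C.ψ (f τ))) (fderiv ℝ (fun w => tt (C.ψ w)) (f τ₁) ∘L L) τ₁ :=
      hcd.hasFDerivAt.comp τ₁ hfd
    have h2 : (fun τ => tt (C.ψ (f τ))) =ᶠ[𝓝 τ₁] id := by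
      filter_upwards [K.hT.mem_nhds hτ₁, hεcont (C.hO.mem_nhds C.mem)] with τ hτ hτO
      have h3 : C.ψ (f τ) = K.ε τ := hψπ _ (hclV (K.mem τ hτ)) hτO
      funext i
      simp only [h3, htt]
      exact K.t_ε τ hτ i
    have h3 : fderiv ℝ (fun w => tt (C.ψ w)) (f τ₁) ∘L L = ContinuousLinearMap.id ℝ _ := by
      rw [← h1.fderiv, h2.fderiv_eq, fderiv_id]
    intro v hv
    have h4 := congrArg (fun l => l v) h3
    simp only [ContinuousLinearMap.comp_apply, hv, map_zero] at h4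
    exact h4.symm
  -- coordinates
  obtain ⟨m, k, hmk, Φ, hΦ⟩ := exists_coord
    (LinearMap.range (L : (Fin K.r → ℝ) →ₗ[ℝ] (Fin n → ℂ))) hspan
  refine ⟨m, k, hmk, ?_⟩
  let ΦL : (Fin n → ℂ) ≃L[ℂ] EE m k := Φ.toContinuousLinearEquiv
  have hΦL : ∀ v, ΦL v = Φ v := fun v => rfl
  set κ : (Fin N → ℂ) → EE m k := fun x => ΦL (polyMap A.t x - polyMap A.t x₁) with hκ
  set e : EE m k → (Fin N → ℂ) := fun y => C.ψ (ΦL.symm y + polyMap A.t x₁) with he
  have hκd : Differentiable ℂ κ := by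
    have h1 : Differentiable ℂ (polyMap A.t) := hpoly.differentiable (by simp)
    exact ΦL.differentiable.comp (h1.sub_const _)
  have hκc : Continuous κ := hκd.continuous
  have heκ : ∀ x ∈ V, x ∈ C.O → e (κ x) = x := by
    intro x hx hxO
    simp only [he, hκ, ContinuousLinearEquiv.symm_apply_apply, sub_add_cancel]
    exact hψπ x hx hxO
  set W0 : Set (EE m k) := {y | ΦL.symm y + polyMap A.t x₁ ∈ C.W} with hW0
  have hW0o : IsOpen W0 := C.hW.preimage (by fun_prop)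
  have hκe : ∀ y ∈ W0, κ (e y) = y := by
    intro y hy
    have h1 : polyMap A.t (C.ψ (ΦL.symm y + polyMap A.t x₁)) = ΦL.symm y + polyMap A.t x₁ := by
      rw [← hCπ]
      have h0 : ΦL.symm y + C.π x₁ ∈ C.W := by rw [hCπ]; exact hy
      exact C.π_ψ _ h0
    simp only [he, hκ, h1, add_sub_cancel_right, ContinuousLinearEquiv.apply_symm_apply]
  have heV : ∀ y ∈ W0, e y ∈ V := fun y hy => (C.ψ_mem _ hy).1
  have hed : DifferentiableOn ℂ e W0 := by
    refine C.hψ.comp (t := C.W) ?_ (fun y hy => hy)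
    exact (ΦL.symm.differentiable.add_const _).differentiableOn
  have h0W : (0 : EE m k) ∈ W0 := by
    have := C.π_mem x₁ hx₁V C.mem
    rw [hCπ] at this
    simpa [hW0] using this
  have hκ1 : κ x₁ = 0 := by simp [hκ]
  have he0 : e 0 = x₁ := by rw [← hκ1]; exact heκ x₁ hx₁V C.mem
  have hec : ContinuousAt e 0 := ((hed 0 h0W).differentiableAt (hW0o.mem_nhds h0W)).continuousAt
  -- radii
  obtain ⟨ρ, hρ, hρO⟩ := Metric.isOpen_iff.1 C.hO x₁ C.mem
  obtain ⟨δ₁, hδ₁, hδW⟩ : ∃ δ₁ > 0, ∀ y ∈ ball (0 : EE m k) δ₁, y ∈ W0 ∧ e y ∈ ball x₁ ρ := by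
    have h1 : ∀ᶠ y in 𝓝 (0 : EE m k), y ∈ W0 := hW0o.mem_nhds h0W
    have h2 : ∀ᶠ y in 𝓝 (0 : EE m k), e y ∈ ball x₁ ρ := by
      apply hec
      rw [he0]
      exact ball_mem_nhds _ hρ
    exact Metric.eventually_nhds_iff_ball.1 (h1.and h2)
  have hBo : IsOpen (ball x₁ ρ ∩ κ ⁻¹' ball (0 : EE m k) δ₁) :=
    isOpen_ball.inter (isOpen_ball.preimage hκc)
  have hx₁B : x₁ ∈ ball x₁ ρ ∩ κ ⁻¹' ball (0 : EE m k) δ₁ :=
    ⟨mem_ball_self hρ, by rw [mem_preimage, hκ1]; exact mem_ball_self hδ₁⟩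
  -- the graph
  have hqs : ContDiffOn ℝ ∞ (fun τ => κ (K.ε τ)) K.T := by
    have h1 : ContDiffOn ℝ ∞ (fun τ => f τ - polyMap A.t x₁) K.T := hfs.sub contDiffOn_const
    exact ((ΦL.contDiff (n := ∞)).restrict_scalars ℝ).comp_contDiffOn h1
  have hqd : fderiv ℝ (fun τ => κ (K.ε τ)) τ₁ =
      ((ΦL : (Fin n → ℂ) →L[ℂ] EE m k).restrictScalars ℝ) ∘L L := by
    have h1 : HasFDerivAt (fun τ => f τ - polyMap A.t x₁) L τ₁ := hfd.sub_const _
    exact (((ΦL : (Fin n → ℂ) →L[ℂ] EE m k).restrictScalars ℝ).hasFDerivAt.comp τ₁ h1).fderiv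
  have hqinj : ∀ v, fderiv ℝ (fun τ => κ (K.ε τ)) τ₁ v = 0 → v = 0 := by
    intro v hv
    rw [hqd] at hv
    apply hLinj
    have h1 : ΦL (L v) = 0 := hv
    simpa using h1
  have hqr : ∀ p : EE m k, (∀ i, (p.2 i).im = 0) ↔
      p ∈ range (fderiv ℝ (fun τ => κ (K.ε τ)) τ₁) := by
    intro p
    rw [hqd]
    have h1 := hΦ (Φ.symm p)
    rw [Φ.apply_symm_apply] at h1
    rw [← h1]
    constructor
    · rintro ⟨v, hv⟩
      refine ⟨v, ?_⟩
      change ΦL (L v) = p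
      have h2 : L v = Φ.symm p := hv
      rw [h2, hΦL, Φ.apply_symm_apply]
    · rintro ⟨v, hv⟩
      refine ⟨v, ?_⟩
      have h2 : Φ (L v) = p := hv
      change L v = Φ.symm p
      rw [← h2, Φ.symm_apply_apply]
  obtain ⟨η, δ, Ht, θ, hη, hδ, hδT, hHs, hθs, hprop, huniq⟩ :=
    graph_lemma K.hT hqs hτ₁ hκ1 hqinj hqr
      (B := K.ε ⁻¹' (ball x₁ ρ ∩ κ ⁻¹' ball (0 : EE m k) δ₁)) (hεcont (hBo.mem_nhds hx₁B))
  have hθT : ∀ a ∈ ball (0 : P m k) η, θ a ∈ K.T := fun a ha => hδT (hprop a ha).1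
  have hεB : ∀ a ∈ ball (0 : P m k) η, K.ε (θ a) ∈ ball x₁ ρ ∩ κ ⁻¹' ball (0 : EE m k) δ₁ :=
    fun a ha => (hprop a ha).2.1
  have hsig : ∀ a ∈ ball (0 : P m k) η, κ (K.ε (θ a)) = sig Ht a := fun a ha => (hprop a ha).2.2.1
  have hsigW : ∀ a ∈ ball (0 : P m k) η, sig Ht a ∈ ball (0 : EE m k) δ₁ := by
    intro a ha
    rw [← hsig a ha]
    exact (hεB a ha).2
  have hesig : ∀ a ∈ ball (0 : P m k) η, e (sig Ht a) = K.ε (θ a) := by
    intro a ha
    rw [← hsig a ha]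
    exact heκ _ (hclV (K.mem _ (hθT a ha))) (hρO (hεB a ha).1)
  refine ⟨{
    B := ball x₁ ρ ∩ κ ⁻¹' ball (0 : EE m k) δ₁
    W := ball (0 : EE m k) δ₁
    κ := κ
    e := e
    hB := hBo
    hW := isOpen_ball
    hκ := hκd
    he := hed.mono fun y hy => (hδW y hy).1
    e_mem := fun y hy => ⟨(hδW y hy).2, by rw [mem_preimage, hκe y (hδW y hy).1]; exact hy⟩
    κ_e := fun y hy => hκe y (hδW y hy).1
    κ_mem := fun x _ hx => hx.2
    e_κ := fun x hx hxB => heκ x (hclV hx) (hρO hxB.1)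
    UU := {y | y ∈ ball (0 : EE m k) δ₁ ∧ e y ∈ U}
    UU_iff := fun y => Iff.rfl
    UUopen := ?_
    UUsa := ?_
    O := ball 0 η
    Ht := Ht
    hO := isOpen_ball
    hOne := ⟨0, mem_ball_self hη⟩
    Hsm := hHs
    Hsa := ?_
    Hsmall := fun a ha => (hprop a ha).2.2.2.1
    sig_W := hsigW
    sig_cl := fun a ha => by rw [hesig a ha]; exact K.mem _ (hθT a ha)
    sig_nU := fun a ha => by rw [hesig a ha]; exact K.nmem _ (hθT a ha)
    g := K.g
    g_ne := fun a ha => by rw [hesig a ha]; exact K.g_ne _ (hθT a ha)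
    peak := ?_ }⟩
  · -- UU open
    have h1 : {y | y ∈ ball (0 : EE m k) δ₁ ∧ e y ∈ U} = ball (0 : EE m k) δ₁ ∩ e ⁻¹' O := by
      ext y
      constructor
      · rintro ⟨hy, hyU⟩
        rw [hUO] at hyU
        exact ⟨hy, hyU.1⟩
      · rintro ⟨hy, hyO⟩
        refine ⟨hy, ?_⟩
        rw [hUO]
        exact ⟨hyO, heV y (hδW y hy).1⟩
    rw [h1]
    exact (hed.mono fun y hy => (hδW y hy).1).continuousOn.isOpen_inter_preimage isOpen_ball hO
  · -- UU semialgebraic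
    have h1 : {y | y ∈ ball (0 : EE m k) δ₁ ∧ e y ∈ U} =
        {y : EE m k | dist y 0 < δ₁ ∧ ∃ x : Fin N → ℂ, (x ∈ U ∧ dist x x₁ < ρ) ∧ κ x = y} := by
      ext y
      constructor
      · rintro ⟨hy, hyU⟩
        exact ⟨hy, e y, ⟨hyU, (hδW y hy).2⟩, hκe y (hδW y hy).1⟩
      · rintro ⟨hy, x, ⟨hxU, hxρ⟩, rfl⟩
        refine ⟨hy, ?_⟩
        rw [heκ x (hUV hxU) (hρO hxρ)]
        exact hxU
    rw [h1]
    have hUs : SAV U := SAV.of_isSemialgebraic hsa
    refine SAV.and (SAV.dist_lt (by fun_prop) (by fun_prop) (by fun_prop)) ?_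
    refine SAV.bex (Q := fun (_ : EE m k) (x : Fin N → ℂ) => x ∈ U ∧ dist x x₁ < ρ)
      (P := fun y x => κ x = y) ?_ ?_
    · exact SAV.and (hUs.preimage Pol.snd')
        (SAV.dist_lt (by fun_prop) (by fun_prop) (by fun_prop))
    · exact SAV.eq (pol_kappa A.t _ (ΦL : (Fin n → ℂ) →L[ℂ] EE m k) Pol.snd') Pol.fst'
  · -- graph semialgebraic
    have h1 : {p : P m k × (Fin k → ℝ) | p.1 ∈ ball (0 : P m k) η ∧ p.2 = Ht p.1} =
        {p : P m k × (Fin k → ℝ) | dist p.1 0 < η ∧ ∃ s : (Fin K.r → ℝ) × (Fin N → ℂ),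
          ((s.1 ∈ K.T ∧ s.2 = K.ε s.1) ∧ dist s.1 τ₁ < δ) ∧
          κ s.2 = (p.1.1, ofR p.1.2 + I • ofR p.2)} := by
      ext p
      constructor
      · rintro ⟨hp, hp2⟩
        refine ⟨hp, (θ p.1, K.ε (θ p.1)), ⟨⟨hθT _ hp, rfl⟩, (hprop _ hp).1⟩, ?_⟩
        rw [hp2]
        exact hsig _ hp
      · rintro ⟨hp, s, ⟨⟨hs1, hs2⟩, hs3⟩, hs4⟩
        refine ⟨hp, ?_⟩
        rw [hs2] at hs4
        exact (huniq s.1 hs3 p.1 hp p.2 hs4).2
    rw [h1]
    refine SAV.and (SAV.dist_lt (by fun_prop) (by fun_prop) (by fun_prop)) ?_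
    refine SAV.bex (Q := fun (_ : P m k × (Fin k → ℝ)) (s : (Fin K.r → ℝ) × (Fin N → ℂ)) =>
      (s.1 ∈ K.T ∧ s.2 = K.ε s.1) ∧ dist s.1 τ₁ < δ)
      (P := fun p s => κ s.2 = (p.1.1, ofR p.1.2 + I • ofR p.2)) ?_ ?_
    · exact SAV.and (K.sa.preimage Pol.snd')
        (SAV.dist_lt (by fun_prop) (by fun_prop) (by fun_prop))
    · exact SAV.eq (pol_kappa A.t _ (ΦL : (Fin n → ℂ) →L[ℂ] EE m k) (by fun_prop))
        (pol_mk (by fun_prop) (by fun_prop))
  · -- peaks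
    intro a ha
    have hsm : sig Ht a ∈ W0 := (hδW _ (hsigW a ha)).1
    have h1 : HasFDerivAt e ((fderiv ℂ e (sig Ht a)).restrictScalars ℝ) (sig Ht a) :=
      ((hed _ hsm).differentiableAt (hW0o.mem_nhds hsm)).hasFDerivAt.restrictScalars ℝ
    have hHd : HasFDerivAt Ht (fderiv ℝ Ht a) a :=
      ((hHs.contDiffAt (isOpen_ball.mem_nhds ha)).differentiableAt hne).hasFDerivAt
    have h2 := h1.comp a (hasFDerivAt_sig hHd)
    have hεd : HasFDerivAt K.ε (fderiv ℝ K.ε (θ a)) (θ a) :=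
      (K.hε _ (hθT a ha)).differentiableAt.hasFDerivAt
    have hθd : HasFDerivAt θ (fderiv ℝ θ a) a :=
      ((hθs.contDiffAt (isOpen_ball.mem_nhds ha)).differentiableAt hne).hasFDerivAt
    have h3 : HasFDerivAt (fun a => K.ε (θ a)) (fderiv ℝ K.ε (θ a) ∘L fderiv ℝ θ a) a :=
      hεd.comp a hθd
    have h4 : (e ∘ sig Ht) =ᶠ[𝓝 a] fun a => K.ε (θ a) := by
      filter_upwards [isOpen_ball.mem_nhds ha] with b hb
      exact hesig b hb
    have h5 := h2.unique (h3.congr_of_eventuallyEq h4)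
    have h6 : ∀ ξ : P m k, fderiv ℂ e (sig Ht a) (ξ.1, ofR ξ.2 + I • ofR (fderiv ℝ Ht a ξ)) =
        fderiv ℝ K.ε (θ a) (fderiv ℝ θ a ξ) := fun ξ => congrArg (fun l => l ξ) h5
    have h7 : (range fun ξ : P m k =>
        fderiv ℂ e (sig Ht a) (ξ.1, ofR ξ.2 + I • ofR (fderiv ℝ Ht a ξ))) =
        range (fderiv ℝ K.ε (θ a)) := by
      ext v
      constructor
      · rintro ⟨ξ, rfl⟩
        exact ⟨fderiv ℝ θ a ξ, (h6 ξ).symm⟩
      · rintro ⟨w, rfl⟩
        obtain ⟨ξ, rfl⟩ := (hprop a ha).2.2.2.2 w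
        exact ⟨ξ, h6 ξ⟩
    rw [h7, hesig a ha]
    exact K.peak _ (hθT a ha)


end Crest.Agent.R264.Co
end

-- ▼ part R264/KSDet
section

/-!
Row 264, LEMMA KS: the determinant of the derivative; functions holomorphic on a subset; charts;
quantitative surjectivity. (helper163)
-/

set_option autoImplicit false

open Set Filter Topology Metric

namespace Crest.Agent.R264.KS

section Det

variable {E : Type*} [NormedAddCommGroup E] [NormedSpace ℂ E] [FiniteDimensional ℂ E]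

theorem differentiable_det : Differentiable ℂ (fun A : E →L[ℂ] E => A.det) := by
  classical
  set b := Module.finBasis ℂ E with hb
  have h1 : (fun A : E →L[ℂ] E => A.det) = fun A : E →L[ℂ] E =>
      ∑ σ : Equiv.Perm (Fin (Module.finrank ℂ E)), ((Equiv.Perm.sign σ : ℤ) : ℂ) *
        ∏ i, (LinearMap.toContinuousLinearMap (b.coord (σ i))) (A (b i)) := by
    funext A
    rw [ContinuousLinearMap.det, ← LinearMap.det_toMatrix b, Matrix.det_apply']
    refine Finset.sum_congr rfl (fun σ _ => ?_)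
    congr 1
    refine Finset.prod_congr rfl (fun i _ => ?_)
    rw [LinearMap.toMatrix_apply]
    simp
  rw [h1]
  refine Differentiable.fun_sum (fun σ _ => ?_)
  refine Differentiable.const_mul ?_ _
  intro A
  refine (HasFDerivAt.finsetProd (fun i _ => DifferentiableAt.hasFDerivAt ?_)).differentiableAt
  fun_prop

theorem det_comp (A B : E →L[ℂ] E) : (A.comp B).det = A.det * B.det := by
  simp only [ContinuousLinearMap.det, ContinuousLinearMap.coe_comp]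
  exact LinearMap.det_comp _ _

theorem range_eq_top_of_det_ne_zero {A : E →L[ℂ] E} (h : A.det ≠ 0) : A.range = ⊤ := by
  have h1 : LinearMap.det (A : E →ₗ[ℂ] E) ≠ 0 := h
  have h2 : IsUnit (A : E →ₗ[ℂ] E) := (LinearMap.isUnit_iff_isUnit_det _).2 (isUnit_iff_ne_zero.2 h1)
  have h3 := (Module.End.isUnit_iff _).1 h2
  exact LinearMap.range_eq_top.2 h3.2

end Det

section Hol

variable {H : Type*} [NormedAddCommGroup H] [NormedSpace ℂ H]
variable {E : Type*} [NormedAddCommGroup E] [NormedSpace ℂ E]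
variable {F : Type*} [NormedAddCommGroup F] [NormedSpace ℂ F]
variable {G : Type*} [NormedAddCommGroup G] [NormedSpace ℂ G]

/-- `f` is holomorphic on the subset `U`: locally the restriction of a holomorphic map of the
ambient space (same notion as `Crest.AlgGeometry.Semialg.IsHolomorphicMap`, for total maps) -/
def HolOn (U : Set H) (f : H → F) : Prop :=
  ∀ x ∈ U, ∃ O : Set H, IsOpen O ∧ x ∈ O ∧ ∃ g : H → F, DifferentiableOn ℂ g O ∧
    ∀ y ∈ U, y ∈ O → f y = g y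

theorem HolOn.of_differentiable {U : Set H} {f : H → F} (hf : Differentiable ℂ f) : HolOn U f :=
  fun _ _ => ⟨univ, isOpen_univ, mem_univ _, f, hf.differentiableOn, fun _ _ _ => rfl⟩

theorem HolOn.comp {U : Set H} {U' : Set F} {f : F → G} {t : H → F} (hf : HolOn U' f)
    (ht : HolOn U t) (hm : MapsTo t U U') : HolOn U (f ∘ t) := by
  intro x hx
  obtain ⟨O, hO, hxO, g, hg, hgt⟩ := ht x hx
  obtain ⟨O', hO', hxO', g', hg', hgf⟩ := hf (t x) (hm hx)
  refine ⟨O ∩ g ⁻¹' O', hg.continuousOn.isOpen_inter_preimage hO hO', ⟨hxO, ?_⟩, g' ∘ g, ?_, ?_⟩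
  · rw [mem_preimage, ← hgt x hx hxO]; exact hxO'
  · exact hg'.comp (hg.mono inter_subset_left) (fun y hy => hy.2)
  · intro y hy hyO
    have h1 := hgt y hy hyO.1
    have h2 : t y ∈ O' := by rw [h1]; exact hyO.2
    rw [Function.comp_apply, hgf (t y) (hm hy) h2, h1]
    rfl

/-- composition with a holomorphic parametrisation -/
theorem HolOn.comp_param {U : Set H} {f : H → F} (hf : HolOn U f) {B : Set E} {φ : E → H}
    (hφ : DifferentiableOn ℂ φ B) (hB : IsOpen B) (hm : MapsTo φ B U) :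
    DifferentiableOn ℂ (f ∘ φ) B := by
  intro b hb
  obtain ⟨O, hO, hxO, g, hg, hgf⟩ := hf (φ b) (hm hb)
  have hφb : DifferentiableAt ℂ φ b := hφ.differentiableAt (hB.mem_nhds hb)
  have h1 : (f ∘ φ) =ᶠ[𝓝 b] (g ∘ φ) := by
    filter_upwards [hB.mem_nhds hb, hφb.continuousAt (hO.mem_nhds hxO)] with c hc hcO
    exact hgf _ (hm hc) hcO
  have h2 : DifferentiableAt ℂ (g ∘ φ) b :=
    (hg.differentiableAt (hO.mem_nhds hxO)).comp b hφb
  exact (h2.congr_of_eventuallyEq h1).differentiableWithinAt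

/-- a holomorphic chart `φ : B → W` of an ambient manifold containing `U ∩ W`, with holomorphic
retraction `ξ` -/
structure IsChart (U : Set H) (B : Set E) (W : Set H) (φ : E → H) (ξ : H → E) : Prop where
  openB : IsOpen B
  openW : IsOpen W
  dphi : DifferentiableOn ℂ φ B
  dxi : DifferentiableOn ℂ ξ W
  mphi : MapsTo φ B W
  left : ∀ b ∈ B, ξ (φ b) = b
  mxi : ∀ x ∈ U, x ∈ W → ξ x ∈ B
  right : ∀ x ∈ U, x ∈ W → φ (ξ x) = x

end Hol

section Surj

variable {E : Type*} [NormedAddCommGroup E] [NormedSpace ℂ E] [FiniteDimensional ℂ E]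

/-- a uniform estimate on the second derivative -/
theorem norm_fderiv_sub_le {g : E → E} {a : E} {r M : ℝ} (hr : 0 < r)
    (hg : DifferentiableOn ℂ g (ball a (4 * r))) (hM : ∀ z ∈ ball a (4 * r), ‖g z‖ ≤ M) :
    (∀ z ∈ ball a (2 * r), ‖fderiv ℂ g z‖ ≤ M / r) ∧
    ∀ z ∈ ball a r, ∀ w ∈ ball a r, ‖fderiv ℂ g z - fderiv ℂ g w‖ ≤ M / r / r * ‖z - w‖ := by
  have hA : AnalyticOnNhd ℂ g (ball a (4 * r)) :=
    R266.SCV.analyticOnNhd_of_differentiableOn isOpen_ball hg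
  have hA' : AnalyticOnNhd ℂ (fderiv ℂ g) (ball a (4 * r)) := hA.fderiv
  have h1 : ∀ z ∈ ball a (2 * r), ‖fderiv ℂ g z‖ ≤ M / r := by
    intro z hz
    have hsub : ball z r ⊆ ball a (4 * r) := by
      intro w hw
      rw [mem_ball] at *
      linarith [dist_triangle w z a]
    exact R266.SCV.norm_fderiv_le_of_ball hr (hg.mono hsub) (fun w hw => hM w (hsub hw))
  refine ⟨h1, fun z hz w hw => ?_⟩
  have hd : ∀ z ∈ ball a r, DifferentiableAt ℂ (fderiv ℂ g) z := by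
    intro z hz
    exact (hA' z (ball_subset_ball (by linarith) hz)).differentiableAt
  have h2 : ∀ z ∈ ball a r, ‖fderiv ℂ (fderiv ℂ g) z‖ ≤ M / r / r := by
    intro z hz
    have hsub : ball z r ⊆ ball a (2 * r) := by
      intro w hw
      rw [mem_ball] at *
      linarith [dist_triangle w z a]
    exact R266.SCV.norm_fderiv_le_of_ball hr
      (fun w hw => (hA' w (ball_subset_ball (by linarith) (hsub hw))).differentiableAt.differentiableWithinAt)
      (fun w hw => h1 w (hsub hw))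
  exact (convex_ball a r).norm_image_sub_le_of_norm_fderiv_le hd h2 hw hz

end Surj

end Crest.Agent.R264.KS
end

-- ▼ part R264/KSAbs
section

/-!
Row 264, LEMMA KS (note 11285), abstract part: a family of holomorphic functions on an open set
`UU`, locally bounded on `UU` and blowing up at the boundary points of `UU` inside `P`, gives the
Kontinuitaetssatz for `UU` inside `P`. (helper163)
-/

set_option autoImplicit false

open Set Filter Topology Metric

namespace Crest.Agent.R264.KS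

/-- The abstract Kontinuitaetssatz. -/
theorem konti {E : Type*} [NormedAddCommGroup E] [NormedSpace ℂ E] {UU P : Set E}
    (hUU : IsOpen UU) {Hf : Set (E → ℂ)} (hd : ∀ h ∈ Hf, DifferentiableOn ℂ h UU)
    (hb : ∀ Q : Set E, IsCompact Q → Q ⊆ UU → ∃ C : ℝ, ∀ h ∈ Hf, ∀ x ∈ Q, ‖h x‖ ≤ C)
    (hblow : ∀ y ∈ P, y ∉ UU → ∀ C : ℝ, ∀ᶠ x in 𝓝[UU] y, ∃ h ∈ Hf, C < ‖h x‖)
    {A : ℝ → ℂ → E}
    (hA : ContinuousOn (fun q : ℝ × ℂ => A q.1 q.2) (Icc (0 : ℝ) 1 ×ˢ closedBall (0 : ℂ) 1))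
    (hAh : ∀ s ∈ Icc (0 : ℝ) 1, DifferentiableOn ℂ (A s) (ball (0 : ℂ) 1))
    (hAP : ∀ s ∈ Icc (0 : ℝ) 1, ∀ z ∈ closedBall (0 : ℂ) 1, A s z ∈ P)
    {Q : Set E} (hQ : IsCompact Q) (hQU : Q ⊆ UU)
    (hbd : ∀ s ∈ Icc (0 : ℝ) 1, ∀ z ∈ sphere (0 : ℂ) 1, A s z ∈ Q)
    (h0 : ∀ z ∈ closedBall (0 : ℂ) 1, A 0 z ∈ UU) :
    ∀ s ∈ Icc (0 : ℝ) 1, ∀ z ∈ closedBall (0 : ℂ) 1, A s z ∈ UU := by
  obtain ⟨C, hC⟩ := hb Q hQ hQU
  -- continuity of each `A s` on the closed disc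
  have hAc : ∀ s ∈ Icc (0 : ℝ) 1, ContinuousOn (A s) (closedBall (0 : ℂ) 1) := by
    intro s hs
    have : ContinuousOn (fun z : ℂ => (s, z)) (closedBall (0 : ℂ) 1) := by fun_prop
    exact hA.comp this (fun z hz => ⟨hs, hz⟩)
  -- maximum principle
  have hmax : ∀ s ∈ Icc (0 : ℝ) 1, (∀ z ∈ closedBall (0 : ℂ) 1, A s z ∈ UU) →
      ∀ h ∈ Hf, ∀ z ∈ closedBall (0 : ℂ) 1, ‖h (A s z)‖ ≤ C := by
    intro s hs hsU h hh z hz
    have hdc : DiffContOnCl ℂ (fun z => h (A s z)) (ball (0 : ℂ) 1) := by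
      refine ⟨?_, ?_⟩
      · exact (hd h hh).comp (hAh s hs) (fun z hz => hsU z (ball_subset_closedBall hz))
      · rw [closure_ball (0 : ℂ) one_ne_zero]
        exact (hd h hh).continuousOn.comp (hAc s hs) hsU
    refine Complex.norm_le_of_forall_mem_frontier_norm_le isBounded_ball hdc (fun w hw => ?_) ?_
    · rw [frontier_ball (0 : ℂ) one_ne_zero] at hw
      exact hC h hh _ (hbd s hs w hw)
    · rw [closure_ball (0 : ℂ) one_ne_zero]
      exact hz
  set S : Set ℝ := {s | ∀ z ∈ closedBall (0 : ℂ) 1, A s z ∈ UU} with hS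
  have hclosed : IsClosed (S ∩ Icc (0 : ℝ) 1) := by
    refine isClosed_of_closure_subset (fun s hs => ?_)
    obtain ⟨u, hu, hus⟩ := mem_closure_iff_seq_limit.1 hs
    have hsI : s ∈ Icc (0 : ℝ) 1 :=
      isClosed_Icc.mem_of_tendsto hus (Eventually.of_forall (fun k => (hu k).2))
    refine ⟨fun z hz => ?_, hsI⟩
    by_contra hzU
    have ht : Tendsto (fun k => A (u k) z) atTop (𝓝 (A s z)) := by
      have h1 : ContinuousWithinAt (fun q : ℝ × ℂ => A q.1 q.2)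
          (Icc (0 : ℝ) 1 ×ˢ closedBall (0 : ℂ) 1) (s, z) := hA (s, z) ⟨hsI, hz⟩
      have h2 : Tendsto (fun k => (u k, z)) atTop
          (𝓝[Icc (0 : ℝ) 1 ×ˢ closedBall (0 : ℂ) 1] (s, z)) := by
        refine tendsto_nhdsWithin_iff.2 ⟨hus.prodMk_nhds tendsto_const_nhds,
          Eventually.of_forall (fun k => ⟨(hu k).2, hz⟩)⟩
      exact h1.tendsto.comp h2
    have ht' : Tendsto (fun k => A (u k) z) atTop (𝓝[UU] (A s z)) :=
      tendsto_nhdsWithin_iff.2 ⟨ht, Eventually.of_forall (fun k => (hu k).1 z hz)⟩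
    obtain ⟨k, h, hh, hk⟩ := (ht'.eventually (hblow _ (hAP s hsI z hz) hzU C)).exists
    exact absurd (hmax (u k) (hu k).2 (hu k).1 h hh z hz) (not_le.2 hk)
  have hsub : Icc (0 : ℝ) 1 ⊆ S := by
    refine hclosed.Icc_subset_of_forall_mem_nhdsWithin (fun z hz => h0 z hz) ?_
    rintro s ⟨hsS, hsI⟩
    have hev : ∀ᶠ s' in 𝓝 s, ∀ z ∈ closedBall (0 : ℂ) 1,
        (s' ∈ Icc (0 : ℝ) 1 → z ∈ closedBall (0 : ℂ) 1 → A s' z ∈ UU) := by
      refine IsCompact.eventually_forall_of_forall_eventually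
        (isCompact_closedBall (0 : ℂ) 1) (fun z hz => ?_)
      have h1 : ContinuousWithinAt (fun q : ℝ × ℂ => A q.1 q.2)
          (Icc (0 : ℝ) 1 ×ˢ closedBall (0 : ℂ) 1) (s, z) :=
        hA (s, z) ⟨⟨hsI.1, hsI.2.le⟩, hz⟩
      have h2 := h1.eventually (hUU.mem_nhds (hsS z hz))
      rw [eventually_nhdsWithin_iff] at h2
      filter_upwards [h2] with q hq hq1 hq2
      exact hq ⟨hq1, hq2⟩
    have hI : Icc (0 : ℝ) 1 ∈ 𝓝[>] s := by
      have : Ioc s 1 ∈ 𝓝[>] s := Ioc_mem_nhdsGT hsI.2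
      exact mem_of_superset this (fun t ht => ⟨hsI.1.trans ht.1.le, ht.2⟩)
    filter_upwards [nhdsWithin_le_nhds hev, hI] with s' h1 h2
    exact fun z hz => h1 z hz h2 hz
  exact fun s hs => hsub hs

end Crest.Agent.R264.KS
end

-- ▼ part R264/KSBlow
section

/-!
Row 264, LEMMA KS: blow-up of the Caratheodory determinants at the boundary points of `UU` lying
in a chart, and the Kontinuitaetssatz. (helper163)
-/

set_option autoImplicit false

open Set Filter Topology Metric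

namespace Crest.Agent.R264.KS

variable {E : Type*} [NormedAddCommGroup E] [NormedSpace ℂ E] [FiniteDimensional ℂ E]
variable {H : Type*} [NormedAddCommGroup H] [NormedSpace ℂ H] [FiniteDimensional ℂ H]

/-- Caratheodory determinants in the parametrisation `φ` -/
def Hfam (U : Set H) (φ : E → H) : Set (E → ℂ) :=
  {h | ∃ F : H → E, HolOn U F ∧ (∀ x ∈ U, ‖F x‖ ≤ 1) ∧ h = fun x => (fderiv ℂ (F ∘ φ) x).det}

theorem hfam_differentiableOn {U : Set H} {φ : E → H} {UU : Set E} (hUU : IsOpen UU)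
    (hφ : DifferentiableOn ℂ φ UU) (hm : MapsTo φ UU U) :
    ∀ h ∈ Hfam U φ, DifferentiableOn ℂ h UU := by
  rintro h ⟨F, hF, -, rfl⟩
  have h1 : DifferentiableOn ℂ (F ∘ φ) UU := hF.comp_param hφ hUU hm
  have h2 : AnalyticOnNhd ℂ (F ∘ φ) UU := R266.SCV.analyticOnNhd_of_differentiableOn hUU h1
  intro x hx
  have h3 : DifferentiableAt ℂ (fderiv ℂ (F ∘ φ)) x := (h2.fderiv x hx).differentiableAt
  exact ((differentiable_det _).comp x h3).differentiableWithinAt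

theorem hfam_bdd {U : Set H} {φ : E → H} {UU : Set E} (hUU : IsOpen UU)
    (hφ : DifferentiableOn ℂ φ UU) (hm : MapsTo φ UU U) :
    ∀ Q : Set E, IsCompact Q → Q ⊆ UU → ∃ C : ℝ, ∀ h ∈ Hfam U φ, ∀ x ∈ Q, ‖h x‖ ≤ C := by
  intro Q hQ hQU
  obtain ⟨δ, hδ, hδU⟩ := hQ.exists_thickening_subset_open hUU hQU
  haveI : ProperSpace (E →L[ℂ] E) := FiniteDimensional.proper ℂ _
  obtain ⟨C, hC⟩ := (isCompact_closedBall (0 : E →L[ℂ] E) (1 / δ)).exists_bound_of_continuousOn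
    (f := fun A : E →L[ℂ] E => A.det) differentiable_det.continuous.continuousOn
  refine ⟨C, ?_⟩
  rintro h ⟨F, hF, hF1, rfl⟩ x hx
  have hsub : ball x δ ⊆ UU := by
    refine Subset.trans (fun y hy => ?_) hδU
    rw [mem_thickening_iff]
    exact ⟨x, hx, hy⟩
  have h1 : DifferentiableOn ℂ (F ∘ φ) UU := hF.comp_param hφ hUU hm
  have h2 : ‖fderiv ℂ (F ∘ φ) x‖ ≤ 1 / δ :=
    R266.SCV.norm_fderiv_le_of_ball hδ (h1.mono hsub) (fun y hy => hF1 _ (hm (hsub hy)))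
  exact hC _ (by simpa using h2)

/-- quantitative surjectivity: if `g` is holomorphic and bounded by `M` on `ball a (4r)` and its
derivative at `b` is close to an invertible map -/
theorem surj_small {A : E →L[ℂ] E} (hA : A.det ≠ 0) {M r : ℝ} (hr : 0 < r) (hM : 0 ≤ M) (a : E) :
    ∃ δ > 0, ∃ ε > 0, ∃ κ > 0, δ ≤ r / 2 ∧ ∀ (g : E → E), DifferentiableOn ℂ g (ball a (4 * r)) →
      (∀ z ∈ ball a (4 * r), ‖g z‖ ≤ M) → ∀ b ∈ ball a (r / 2), ‖fderiv ℂ g b - A‖ ≤ ε →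
        closedBall (g b) κ ⊆ g '' closedBall b δ := by
  obtain ⟨fs, hfs⟩ := ContinuousLinearMap.exists_nonlinearRightInverse_of_surjective A
    (range_eq_top_of_det_ne_zero hA)
  set N : ℝ := (fs.nnnorm : ℝ) with hN
  have hN0 : 0 < N := hfs
  set c : ℝ := N⁻¹ / 2 with hc
  have hc0 : 0 < c := by positivity
  set L : ℝ := M / r / r with hL
  have hL0 : 0 ≤ L := by positivity
  set δ : ℝ := min (r / 4) (c / (2 * (L + 1))) with hδ
  have hδ0 : 0 < δ := by positivity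
  have hδr : δ ≤ r / 4 := min_le_left _ _
  have hδL : L * δ ≤ c / 2 := by
    have h1 : δ ≤ c / (2 * (L + 1)) := min_le_right _ _
    calc L * δ ≤ L * (c / (2 * (L + 1))) := by gcongr
      _ = (L / (L + 1)) * (c / 2) := by field_simp
      _ ≤ 1 * (c / 2) := by
          gcongr
          rw [div_le_one (by positivity)]
          linarith
      _ = c / 2 := one_mul _
  refine ⟨δ, hδ0, c / 2, by positivity, c * δ, by positivity, by linarith, ?_⟩
  intro g hg hgM b hb hbA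
  obtain ⟨h1, h2⟩ := norm_fderiv_sub_le hr hg hgM
  have hsub : closedBall b δ ⊆ ball a r := by
    intro w hw
    rw [mem_closedBall] at hw
    rw [mem_ball] at *
    linarith [dist_triangle w b a]
  have hbr : b ∈ ball a r := hsub (mem_closedBall_self hδ0.le)
  have happ : ApproximatesLinearOn g A (closedBall b δ) ⟨c, hc0.le⟩ := by
    intro z hz w hw
    have hdiff : ∀ x ∈ closedBall b δ, DifferentiableAt ℂ g x := fun x hx =>
      hg.differentiableAt (isOpen_ball.mem_nhds (ball_subset_ball (by linarith) (hsub hx)))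
    have hbound : ∀ x ∈ closedBall b δ, ‖fderiv ℂ g x - A‖ ≤ c := by
      intro x hx
      calc ‖fderiv ℂ g x - A‖ = ‖(fderiv ℂ g x - fderiv ℂ g b) + (fderiv ℂ g b - A)‖ := by
            congr 1; abel
        _ ≤ ‖fderiv ℂ g x - fderiv ℂ g b‖ + ‖fderiv ℂ g b - A‖ := norm_add_le _ _
        _ ≤ L * ‖x - b‖ + c / 2 := add_le_add (h2 x (hsub hx) b hbr) hbA
        _ ≤ L * δ + c / 2 := by
            gcongr
            rw [← dist_eq_norm]
            exact hx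
        _ ≤ c / 2 + c / 2 := by linarith
        _ = c := by ring
    have := (convex_closedBall b δ).norm_image_sub_le_of_norm_fderiv_le' hdiff hbound hw hz
    exact this
  have hsurj := happ.surjOn_closedBall_of_nonlinearRightInverse fs hδ0.le (subset_refl _)
  have hrad : ((fs.nnnorm : ℝ)⁻¹ - ((⟨c, hc0.le⟩ : NNReal) : ℝ)) * δ = c * δ := by
    have h3 : ((⟨c, hc0.le⟩ : NNReal) : ℝ) = c := rfl
    rw [h3, ← hN]
    have h4 : N⁻¹ - c = c := by rw [hc]; ring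
    rw [h4]
  intro y hy
  refine hsurj ?_
  rw [mem_closedBall] at hy ⊢
  exact hy.trans (le_of_eq hrad.symm)

end Crest.Agent.R264.KS
end

-- ▼ part R264/KSMain
section

/-!
Row 264, LEMMA KS: blow-up of the Caratheodory determinants at the boundary points of `UU` lying
in a chart, and the Kontinuitaetssatz. (helper163)
-/

set_option autoImplicit false

open Set Filter Topology Metric

namespace Crest.Agent.R264.KS

variable {E : Type*} [NormedAddCommGroup E] [NormedSpace ℂ E] [FiniteDimensional ℂ E]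
variable {H : Type*} [NormedAddCommGroup H] [NormedSpace ℂ H] [FiniteDimensional ℂ H]

/-- derivative of the retraction composed with the derivative of the parametrisation -/
theorem chart_fderiv_comp {U : Set H} {B : Set E} {W : Set H} {φ : E → H} {ξ : H → E}
    (hc : IsChart U B W φ ξ) {b : E} (hb : b ∈ B) :
    (fderiv ℂ ξ (φ b)).comp (fderiv ℂ φ b) = ContinuousLinearMap.id ℂ E := by
  have h1 : DifferentiableAt ℂ φ b := hc.dphi.differentiableAt (hc.openB.mem_nhds hb)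
  have h2 : DifferentiableAt ℂ ξ (φ b) := hc.dxi.differentiableAt (hc.openW.mem_nhds (hc.mphi hb))
  have h3 : (ξ ∘ φ) =ᶠ[𝓝 b] id := by
    filter_upwards [hc.openB.mem_nhds hb] with c hcB
    exact hc.left c hcB
  have h4 : HasFDerivAt (ξ ∘ φ) ((fderiv ℂ ξ (φ b)).comp (fderiv ℂ φ b)) b :=
    h2.hasFDerivAt.comp b h1.hasFDerivAt
  have h5 : HasFDerivAt (ξ ∘ φ) (ContinuousLinearMap.id ℂ E) b :=
    (hasFDerivAt_id b).congr_of_eventuallyEq h3
  exact h4.unique h5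

/-- the data of a cocompact family of automorphisms of the bounded set `U` with charts at the points of `K0` -/
structure Cocpt (E : Type*) [NormedAddCommGroup E] [NormedSpace ℂ E] (U : Set H)
    (Θ : Set (H → H)) (K0 : Set H) : Prop where
  bdd : Bornology.IsBounded U
  hol : ∀ θ ∈ Θ, HolOn U θ ∧ MapsTo θ U U ∧
    ∃ θ' : H → H, HolOn U θ' ∧ MapsTo θ' U U ∧ ∀ x ∈ U, θ' (θ x) = x
  cpt : IsCompact K0
  sub : K0 ⊆ U
  cov : ∀ x ∈ U, ∃ θ ∈ Θ, ∃ κ ∈ K0, θ κ = x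
  chart : ∀ κ ∈ K0, ∃ (B : Set E) (W : Set H) (φ : E → H) (ξ : H → E),
    IsChart U B W φ ξ ∧ MapsTo φ B U ∧ κ ∈ W

theorem blowup {U : Set H} {Θ : Set (H → H)} {K0 : Set H} (hU : Cocpt E U Θ K0)
    {B : Set E} {W : Set H} {φ : E → H} {ξ : H → E} (hc : IsChart U B W φ ξ) {UU : Set E}
    (hUU : UU = B ∩ φ ⁻¹' U) (hUUo : IsOpen UU) {y : E} (hy : y ∈ B) (hyU : y ∉ UU) (C : ℝ) :
    ∀ᶠ x in 𝓝[UU] y, ∃ h ∈ Hfam U φ, C < ‖h x‖ := by
  classical
  by_contra hcon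
  rw [not_eventually] at hcon
  -- ultrafilter
  have hne : (𝓝[UU] y ⊓ 𝓟 {x | ¬ ∃ h ∈ Hfam U φ, C < ‖h x‖}).NeBot :=
    frequently_iff_neBot.1 hcon
  obtain ⟨u, hu⟩ : ∃ u : Ultrafilter E, (u : Filter E) ≤ 𝓝[UU] y ⊓ 𝓟 {x | ¬ ∃ h ∈ Hfam U φ, C < ‖h x‖} :=
    Ultrafilter.exists_le _
  have hux : Tendsto (fun x : E => x) u (𝓝 y) := by
    refine (hu.trans ?_)
    exact inf_le_left.trans nhdsWithin_le_nhds
  have huU : ∀ᶠ x in (u : Filter E), x ∈ UU :=
    (hu.trans (inf_le_left.trans inf_le_right)) (mem_principal_self _)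
  have huh : ∀ᶠ x in (u : Filter E), ∀ h ∈ Hfam U φ, ‖h x‖ ≤ C := by
    have h1 : ∀ᶠ x in (u : Filter E), ¬ ∃ h ∈ Hfam U φ, C < ‖h x‖ :=
      (hu.trans inf_le_right) (mem_principal_self _)
    filter_upwards [h1] with x hx h hh
    by_contra h2
    exact hx ⟨h, hh, not_le.1 h2⟩
  have hφU : ∀ x ∈ UU, φ x ∈ U := by
    intro x hx; rw [hUU] at hx; exact hx.2
  have hUUB : ∀ x ∈ UU, x ∈ B := by
    intro x hx; rw [hUU] at hx; exact hx.1
  -- choose automorphisms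
  have hch : ∀ x : E, ∃ (θ θ' : H → H) (κ : H), x ∈ UU → (HolOn U θ ∧ MapsTo θ U U ∧ HolOn U θ' ∧
      MapsTo θ' U U ∧ (∀ z ∈ U, θ' (θ z) = z) ∧ κ ∈ K0 ∧ θ κ = φ x) := by
    intro x
    by_cases hx : x ∈ UU
    · obtain ⟨θ, hθ, κ, hκ, hθκ⟩ := hU.cov _ (hφU x hx)
      obtain ⟨h1, h2, θ', h3, h4, h5⟩ := hU.hol θ hθ
      exact ⟨θ, θ', κ, fun _ => ⟨h1, h2, h3, h4, h5, hκ, hθκ⟩⟩
    · exact ⟨id, id, 0, fun h => (hx h).elim⟩
  choose θ θ' κ hθκ using hch
  -- limit of κ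
  obtain ⟨k, hkK, hk⟩ : ∃ k ∈ K0, Tendsto κ (u : Filter E) (𝓝 k) := by
    have h1 : ((u.map κ : Ultrafilter H) : Filter H) ≤ 𝓟 K0 := by
      rw [le_principal_iff]
      change ∀ᶠ x in (u : Filter E), κ x ∈ K0
      filter_upwards [huU] with x hx using (hθκ x hx).2.2.2.2.2.1
    obtain ⟨k, hk, hk2⟩ := isCompact_iff_ultrafilter_le_nhds.1 hU.cpt (u.map κ) h1
    exact ⟨k, hk, hk2⟩
  obtain ⟨B', W', ψ, π, hc', hψU, hkW⟩ := hU.chart k hkK
  have hkU : k ∈ U := hU.sub hkK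
  set ζ : E → E := fun x => π (κ x) with hζ
  set ζ0 : E := π k with hζ0
  have hζ0B : ζ0 ∈ B' := hc'.mxi k hkU hkW
  have hζt : Tendsto ζ (u : Filter E) (𝓝 ζ0) :=
    ((hc'.dxi.differentiableAt (hc'.openW.mem_nhds hkW)).continuousAt.tendsto).comp hk
  have hκW : ∀ᶠ x in (u : Filter E), κ x ∈ W' := hk (hc'.openW.mem_nhds hkW)
  have hψζ : ∀ᶠ x in (u : Filter E), ψ (ζ x) = κ x := by
    filter_upwards [huU, hκW] with x hx hxW
    exact hc'.right _ (hU.sub (hθκ x hx).2.2.2.2.2.1) hxW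
  -- a ball around ζ0
  obtain ⟨r₀, hr₀, hr₀B⟩ := Metric.isOpen_iff.1 hc'.openB ζ0 hζ0B
  obtain ⟨R, hR⟩ := hU.bdd.exists_norm_le
  have hR0 : 0 ≤ R := (norm_nonneg _).trans (hR k hkU)
  -- the maps G x := θ x ∘ ψ
  have hGd : ∀ x ∈ UU, DifferentiableOn ℂ (θ x ∘ ψ) B' := fun x hx =>
    (hθκ x hx).1.comp_param hc'.dphi hc'.openB hψU
  have hGm : ∀ x ∈ UU, ∀ z ∈ B', (θ x ∘ ψ) z ∈ U := fun x hx z hz => (hθκ x hx).2.1 (hψU hz)
  have hGlip : ∀ x ∈ UU, ∀ z ∈ ball ζ0 (r₀ / 2), ∀ w ∈ ball ζ0 (r₀ / 2),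
      ‖(θ x ∘ ψ) z - (θ x ∘ ψ) w‖ ≤ R / (r₀ / 2) * ‖z - w‖ := by
    intro x hx z hz w hw
    refine (convex_ball ζ0 (r₀ / 2)).norm_image_sub_le_of_norm_fderiv_le (𝕜 := ℂ) ?_ ?_ hw hz
    · intro p hp
      exact (hGd x hx).differentiableAt (hc'.openB.mem_nhds
        (hr₀B (ball_subset_ball (by linarith) hp)))
    · intro p hp
      have hsub : ball p (r₀ / 2) ⊆ B' := by
        intro q hq
        refine hr₀B ?_
        rw [mem_ball] at *
        linarith [dist_triangle q p ζ0]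
      exact R266.SCV.norm_fderiv_le_of_ball (by positivity) ((hGd x hx).mono hsub)
        (fun q hq => hR _ (hGm x hx q (hsub hq)))
  -- neighbourhood of φ y
  have hyW : φ y ∈ W := hc.mphi hy
  have hξc : ContinuousAt ξ (φ y) := (hc.dxi.differentiableAt (hc.openW.mem_nhds hyW)).continuousAt
  have hφt : Tendsto (fun x => φ x) (u : Filter E) (𝓝 (φ y)) :=
    ((hc.dphi.differentiableAt (hc.openB.mem_nhds hy)).continuousAt.tendsto).comp hux
  set M : ℝ := ‖ξ (φ y)‖ + 1 with hM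
  have hM0 : 0 ≤ M := by positivity
  obtain ⟨ρ, hρ, hρW⟩ : ∃ ρ > 0, ∀ p ∈ ball (φ y) ρ, p ∈ W ∧ ‖ξ p‖ ≤ M := by
    have h1 : ∀ᶠ p in 𝓝 (φ y), ‖ξ p‖ < M := by
      have := hξc.norm.tendsto
      exact this.eventually_lt_const (by rw [hM]; linarith)
    obtain ⟨ρ, hρ, h2⟩ := Metric.eventually_nhds_iff_ball.1 (h1.and (hc.openW.mem_nhds hyW))
    exact ⟨ρ, hρ, fun p hp => ⟨(h2 p hp).2, (h2 p hp).1.le⟩⟩
  -- radius r with `4 r` as radius of the working ball
  set r : ℝ := min (r₀ / 8) (ρ * r₀ / (32 * (R + 1))) with hr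
  have hr0 : 0 < r := by positivity
  have hr1 : 4 * r ≤ r₀ / 2 := by
    have : r ≤ r₀ / 8 := min_le_left _ _
    linarith
  have hr2 : R / (r₀ / 2) * (8 * r) ≤ ρ / 2 := by
    have h1 : r ≤ ρ * r₀ / (32 * (R + 1)) := min_le_right _ _
    calc R / (r₀ / 2) * (8 * r) ≤ R / (r₀ / 2) * (8 * (ρ * r₀ / (32 * (R + 1)))) := by gcongr
      _ = (R / (R + 1)) * (ρ / 2) := by field_simp; ring
      _ ≤ 1 * (ρ / 2) := by
          gcongr
          rw [div_le_one (by positivity)]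
          linarith
      _ = ρ / 2 := one_mul _
  -- eventually the working ball is mapped into the chart
  have hev1 : ∀ᶠ x in (u : Filter E), ζ x ∈ ball ζ0 (r / 2) :=
    hζt (ball_mem_nhds _ (by positivity))
  have hev2 : ∀ᶠ x in (u : Filter E), φ x ∈ ball (φ y) (ρ / 2) :=
    hφt (ball_mem_nhds _ (by positivity))
  have hGball : ∀ᶠ x in (u : Filter E), ∀ z ∈ ball ζ0 (4 * r), (θ x ∘ ψ) z ∈ ball (φ y) ρ := by
    filter_upwards [huU, hev1, hev2, hψζ] with x hx h1 h2 h3 z hz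
    have h4 : (θ x ∘ ψ) (ζ x) = φ x := by
      rw [Function.comp_apply, h3]
      exact (hθκ x hx).2.2.2.2.2.2
    have h5 : ζ x ∈ ball ζ0 (r₀ / 2) := ball_subset_ball (by linarith) h1
    have h6 := hGlip x hx z (ball_subset_ball hr1 hz) (ζ x) h5
    rw [h4] at h6
    have h7 : ‖z - ζ x‖ < 8 * r := by
      rw [← dist_eq_norm]
      rw [mem_ball] at hz h1
      have := dist_triangle_right z (ζ x) ζ0
      linarith
    rw [mem_ball, dist_eq_norm]
    rw [mem_ball, dist_eq_norm] at h2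
    calc ‖(θ x ∘ ψ) z - φ y‖ = ‖((θ x ∘ ψ) z - φ x) + (φ x - φ y)‖ := by congr 1; abel
      _ ≤ ‖(θ x ∘ ψ) z - φ x‖ + ‖φ x - φ y‖ := norm_add_le _ _
      _ < R / (r₀ / 2) * (8 * r) + ρ / 2 := by
          refine add_lt_add_of_le_of_lt (h6.trans ?_) h2
          gcongr
      _ ≤ ρ / 2 + ρ / 2 := by linarith
      _ = ρ := by ring
  -- the maps g x := ξ ∘ θ x ∘ ψ
  set g : E → E → E := fun x => ξ ∘ (θ x ∘ ψ) with hg
  have hgall : ∀ᶠ x in (u : Filter E), DifferentiableOn ℂ (g x) (ball ζ0 (4 * r)) ∧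
      (∀ z ∈ ball ζ0 (4 * r), ‖g x z‖ ≤ M) ∧ (∀ z ∈ ball ζ0 (4 * r), g x z ∈ UU) ∧
      (∀ z ∈ ball ζ0 (4 * r), φ (g x z) = (θ x ∘ ψ) z) ∧ g x (ζ x) = x := by
    filter_upwards [huU, hGball, hψζ] with x hx h1 h3
    have hsub : ball ζ0 (4 * r) ⊆ B' := (ball_subset_ball (by linarith)).trans hr₀B
    have hm : ∀ z ∈ ball ζ0 (4 * r), (θ x ∘ ψ) z ∈ U := fun z hz => hGm x hx z (hsub hz)
    have hm2 : ∀ z ∈ ball ζ0 (4 * r), φ (g x z) = (θ x ∘ ψ) z := fun z hz =>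
      hc.right _ (hm z hz) (hρW _ (h1 z hz)).1
    refine ⟨?_, fun z hz => (hρW _ (h1 z hz)).2, ?_, hm2, ?_⟩
    · exact hc.dxi.comp ((hGd x hx).mono hsub) (fun z hz => (hρW _ (h1 z hz)).1)
    · intro z hz
      rw [hUU]
      refine ⟨hc.mxi _ (hm z hz) (hρW _ (h1 z hz)).1, ?_⟩
      rw [mem_preimage, hm2 z hz]
      exact hm z hz
    · have h4 : (θ x ∘ ψ) (ζ x) = φ x := by
        rw [Function.comp_apply, h3]
        exact (hθκ x hx).2.2.2.2.2.2
      change ξ ((θ x ∘ ψ) (ζ x)) = x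
      rw [h4]
      exact hc.left x (hUUB x hx)
  -- derivatives at ζ x and their limit
  set A : E → (E →L[ℂ] E) := fun x => fderiv ℂ (g x) (ζ x) with hA
  have hAb : ∀ᶠ x in (u : Filter E), ‖A x‖ ≤ M / r := by
    filter_upwards [hgall, hev1] with x hx h1
    exact (norm_fderiv_sub_le hr0 hx.1 hx.2.1).1 _ (ball_subset_ball (by linarith) h1)
  obtain ⟨A0, hA0⟩ : ∃ A0 : E →L[ℂ] E, Tendsto A (u : Filter E) (𝓝 A0) := by
    have : ProperSpace (E →L[ℂ] E) := FiniteDimensional.proper ℂ _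
    have h1 : ((u.map A : Ultrafilter (E →L[ℂ] E)) : Filter (E →L[ℂ] E)) ≤
        𝓟 (closedBall 0 (M / r)) := by
      rw [le_principal_iff]
      change ∀ᶠ x in (u : Filter E), A x ∈ closedBall 0 (M / r)
      filter_upwards [hAb] with x hx
      simpa using hx
    obtain ⟨A0, -, h2⟩ := isCompact_iff_ultrafilter_le_nhds.1
      (isCompact_closedBall (0 : E →L[ℂ] E) (M / r)) (u.map A) h1
    exact ⟨A0, h2⟩
  -- the fixed map F0
  set L0 : H →L[ℂ] E := fderiv ℂ π k with hL0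
  set ε : ℝ := ((‖L0‖ + 1) * (R + 1))⁻¹ with hε
  have hε0 : 0 < ε := by positivity
  set F0 : H →L[ℂ] E := (ε : ℂ) • L0 with hF0
  have hF0b : ∀ x ∈ U, ‖F0 x‖ ≤ 1 := by
    intro x hx
    have h1 : ‖F0 x‖ = ε * ‖L0 x‖ := by
      rw [hF0, ContinuousLinearMap.smul_apply, norm_smul, Complex.norm_real, Real.norm_eq_abs,
        abs_of_pos hε0]
    rw [h1]
    calc ε * ‖L0 x‖ ≤ ε * (‖L0‖ * ‖x‖) := by gcongr; exact L0.le_opNorm x
      _ ≤ ε * ((‖L0‖ + 1) * (R + 1)) := by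
          gcongr
          · linarith
          · linarith [hR x hx]
      _ = 1 := by rw [hε]; field_simp
  have hF0d : DifferentiableOn ℂ (F0 ∘ ψ) B' := F0.differentiable.comp_differentiableOn hc'.dphi
  have hF0det : (fderiv ℂ (F0 ∘ ψ) ζ0).det ≠ 0 := by
    have h1 : DifferentiableAt ℂ ψ ζ0 := hc'.dphi.differentiableAt (hc'.openB.mem_nhds hζ0B)
    have h2 : fderiv ℂ (F0 ∘ ψ) ζ0 = F0.comp (fderiv ℂ ψ ζ0) :=
      (F0.hasFDerivAt.comp ζ0 h1.hasFDerivAt).fderiv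
    have h3 : ψ ζ0 = k := hc'.right k hkU hkW
    have h4 := chart_fderiv_comp hc' hζ0B
    rw [h3] at h4
    have h5 : F0.comp (fderiv ℂ ψ ζ0) = (ε : ℂ) • ContinuousLinearMap.id ℂ E := by
      rw [hF0, ContinuousLinearMap.smul_comp, ← h4]
    rw [h2, h5]
    have h6 : (((ε : ℂ) • ContinuousLinearMap.id ℂ E : E →L[ℂ] E)).det =
        (ε : ℂ) ^ Module.finrank ℂ E := by
      change LinearMap.det ((ε : ℂ) • (LinearMap.id : E →ₗ[ℂ] E)) = _
      rw [LinearMap.det_smul]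
      simp
    rw [h6]
    exact pow_ne_zero _ (by exact_mod_cast hε0.ne')
  have hF0t : Tendsto (fun x => (fderiv ℂ (F0 ∘ ψ) (ζ x)).det) (u : Filter E)
      (𝓝 (fderiv ℂ (F0 ∘ ψ) ζ0).det) := by
    have h1 : AnalyticOnNhd ℂ (F0 ∘ ψ) B' :=
      R266.SCV.analyticOnNhd_of_differentiableOn hc'.openB hF0d
    have h2 : ContinuousAt (fderiv ℂ (F0 ∘ ψ)) ζ0 := (h1.fderiv ζ0 hζ0B).continuousAt
    have h3 : ContinuousAt (fun z => (fderiv ℂ (F0 ∘ ψ) z).det) ζ0 :=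
      (differentiable_det.continuous.continuousAt).comp h2
    exact h3.tendsto.comp hζt
  -- chain rule
  have hchain : ∀ᶠ x in (u : Filter E), ∃ h ∈ Hfam U φ,
      (fderiv ℂ (F0 ∘ ψ) (ζ x)).det = h x * (A x).det := by
    filter_upwards [huU, hgall, hev1] with x hx h1 h2
    obtain ⟨hgd, -, hgU, hgφ, hgx⟩ := h1
    obtain ⟨-, hθm, hθ'h, hθ'm, hθ'θ, -, -⟩ := hθκ x hx
    have hFa : HolOn U (F0 ∘ θ' x) :=
      (HolOn.of_differentiable (U := U) F0.differentiable).comp hθ'h hθ'm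
    refine ⟨_, ⟨F0 ∘ θ' x, hFa, fun z hz => hF0b _ (hθ'm hz), rfl⟩, ?_⟩
    have h3 : DifferentiableAt ℂ ((F0 ∘ θ' x) ∘ φ) x :=
      (hFa.comp_param (hc.dphi.mono hUUB) hUUo hφU).differentiableAt (hUUo.mem_nhds hx)
    have hζb : ζ x ∈ ball ζ0 (4 * r) := ball_subset_ball (by linarith) h2
    have h4 : DifferentiableAt ℂ (g x) (ζ x) := hgd.differentiableAt (isOpen_ball.mem_nhds hζb)
    have h5 : HasFDerivAt (((F0 ∘ θ' x) ∘ φ) ∘ g x)
        ((fderiv ℂ ((F0 ∘ θ' x) ∘ φ) x).comp (A x)) (ζ x) := by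
      have h6 : HasFDerivAt ((F0 ∘ θ' x) ∘ φ) (fderiv ℂ ((F0 ∘ θ' x) ∘ φ) x) (g x (ζ x)) := by
        rw [hgx]
        exact h3.hasFDerivAt
      exact h6.comp (ζ x) h4.hasFDerivAt
    have h7 : (F0 ∘ ψ) =ᶠ[𝓝 (ζ x)] (((F0 ∘ θ' x) ∘ φ) ∘ g x) := by
      filter_upwards [isOpen_ball.mem_nhds hζb] with z hz
      have hzB : z ∈ B' := hr₀B (ball_subset_ball (by linarith) hz)
      simp only [Function.comp_apply]
      rw [hgφ z hz]
      simp only [Function.comp_apply]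
      rw [hθ'θ _ (hψU hzB)]
    have h8 : fderiv ℂ (F0 ∘ ψ) (ζ x) = (fderiv ℂ ((F0 ∘ θ' x) ∘ φ) x).comp (A x) :=
      (h5.congr_of_eventuallyEq h7).fderiv
    rw [h8, det_comp]
  -- the limit of the determinants is nonzero
  have hA0det : A0.det ≠ 0 := by
    intro h0
    have h1 : Tendsto (fun x => (A x).det) (u : Filter E) (𝓝 A0.det) :=
      (differentiable_det.continuous.tendsto A0).comp hA0
    rw [h0] at h1
    have h2 : Tendsto (fun x => (fderiv ℂ (F0 ∘ ψ) (ζ x)).det) (u : Filter E) (𝓝 0) := by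
      refine squeeze_zero_norm' (a := fun x => |C| * ‖(A x).det‖) ?_ ?_
      · filter_upwards [hchain, huh] with x hx hxC
        obtain ⟨h, hh, heq⟩ := hx
        rw [heq, norm_mul]
        gcongr
        exact (hxC h hh).trans (le_abs_self C)
      · have := (h1.norm).const_mul |C|
        simpa using this
    exact hF0det (tendsto_nhds_unique hF0t h2)
  -- surjectivity
  obtain ⟨δ, hδ, ε', hε', κ', hκ', hδr, hsur⟩ := surj_small hA0det hr0 hM0 ζ0
  have hAclose : ∀ᶠ x in (u : Filter E), ‖A x - A0‖ ≤ ε' := by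
    have := hA0 (closedBall_mem_nhds A0 hε')
    filter_upwards [this] with x hx
    simpa [dist_eq_norm] using hx
  have hxy : ∀ᶠ x in (u : Filter E), x ∈ closedBall y κ' := hux (closedBall_mem_nhds y hκ')
  obtain ⟨x, hx1, hx2, hx3, hx4⟩ := (hgall.and (hev1.and (hAclose.and hxy))).exists
  have hfin := hsur (g x) hx1.1 hx1.2.1 (ζ x) hx2 hx3
  rw [hx1.2.2.2.2] at hfin
  obtain ⟨z, hz, hzy⟩ := hfin (mem_closedBall_comm.1 hx4)
  refine hyU ?_
  rw [← hzy]
  refine hx1.2.2.1 z ?_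
  rw [mem_closedBall] at hz
  rw [mem_ball] at hx2 ⊢
  linarith [dist_triangle z (ζ x) ζ0]

/-- **Kontinuitaetssatz (KS)** in a chart `φ : B → W` near a boundary point of `U`. -/
theorem ks_chart {U : Set H} {Θ : Set (H → H)} {K0 : Set H} (hU : Cocpt E U Θ K0)
    {B : Set E} {W : Set H} {φ : E → H} {ξ : H → E} (hc : IsChart U B W φ ξ)
    (hUUo : IsOpen (B ∩ φ ⁻¹' U)) {A : ℝ → ℂ → E}
    (hA : ContinuousOn (fun q : ℝ × ℂ => A q.1 q.2) (Icc (0 : ℝ) 1 ×ˢ closedBall (0 : ℂ) 1))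
    (hAh : ∀ s ∈ Icc (0 : ℝ) 1, DifferentiableOn ℂ (A s) (ball (0 : ℂ) 1))
    (hAP : ∀ s ∈ Icc (0 : ℝ) 1, ∀ z ∈ closedBall (0 : ℂ) 1, A s z ∈ B)
    {Q : Set E} (hQ : IsCompact Q) (hQU : Q ⊆ B ∩ φ ⁻¹' U)
    (hbd : ∀ s ∈ Icc (0 : ℝ) 1, ∀ z ∈ sphere (0 : ℂ) 1, A s z ∈ Q)
    (h0 : ∀ z ∈ closedBall (0 : ℂ) 1, A 0 z ∈ B ∩ φ ⁻¹' U) :
    ∀ s ∈ Icc (0 : ℝ) 1, ∀ z ∈ closedBall (0 : ℂ) 1, A s z ∈ B ∩ φ ⁻¹' U :=
  konti hUUo (P := B)
    (hfam_differentiableOn hUUo (hc.dphi.mono inter_subset_left) (fun _ hx => hx.2))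
    (hfam_bdd hUUo (hc.dphi.mono inter_subset_left) (fun _ hx => hx.2))
    (fun _ hy hyU C => blowup hU hc rfl hUUo hy hyU C) hA hAh hAP hQ hQU hbd h0

end Crest.Agent.R264.KS
end

-- ▼ part R264/KSTop
section

/-!
Row 264, LEMMA KS, final form: for the data of S0402, the Kontinuitaetssatz `Bsh.KSHyp` holds for
`UU = B ∩ φ⁻¹(U)` in every polydisc contained in the parameter domain `B` of a chart
`φ : B → W ⊆ ℂ^N` whose image contains `U ∩ W`. (helper163)
-/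

set_option autoImplicit false

open Set Filter Topology Metric

namespace Crest.Agent.R264.KS

open Crest.AlgGeometry.Semialg

variable {N : ℕ} {U : Set (Fin N → ℂ)}

open Classical in
/-- total extension of a permutation of `U` -/
noncomputable def extP (γ : Equiv.Perm U) (y : Fin N → ℂ) : Fin N → ℂ :=
  if h : y ∈ U then (γ ⟨y, h⟩ : U) else y

theorem extP_of_mem (γ : Equiv.Perm U) {y : Fin N → ℂ} (h : y ∈ U) :
    extP γ y = (γ ⟨y, h⟩ : U) := by
  simp [extP, h]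

theorem extP_mem (γ : Equiv.Perm U) {y : Fin N → ℂ} (h : y ∈ U) : extP γ y ∈ U := by
  rw [extP_of_mem γ h]; exact (γ ⟨y, h⟩).2

theorem holOn_extP {γ : Equiv.Perm U}
    (hγ : IsHolomorphicMap U (fun y : U => ((γ y : U) : Fin N → ℂ))) : HolOn U (extP γ) := by
  intro x hx
  obtain ⟨O, hO, hxO, G, hG, h⟩ := hγ ⟨x, hx⟩
  refine ⟨O, hO, hxO, G, hG, fun y hy hyO => ?_⟩
  rw [extP_of_mem γ hy]
  exact h ⟨y, hy⟩ hyO

theorem extP_inv (γ : Equiv.Perm U) {y : Fin N → ℂ} (h : y ∈ U) : extP γ⁻¹ (extP γ y) = y := by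
  have h1 : extP γ y = (γ ⟨y, h⟩ : U) := extP_of_mem γ h
  rw [h1, extP_of_mem γ⁻¹ (γ ⟨y, h⟩).2]
  simp

/-- the data of S0402 on a submanifold give a `Cocpt` structure modelled on any `E` of the right
dimension -/
theorem exists_cocpt {n : ℕ} {Γ : Subgroup (Equiv.Perm U)} (S : Setup N U Γ) (hS : IsSubmfd n U)
    (E : Type*) [NormedAddCommGroup E] [NormedSpace ℂ E] [FiniteDimensional ℂ E]
    (hE : Module.finrank ℂ E = n) :
    ∃ (Θ : Set ((Fin N → ℂ) → (Fin N → ℂ))) (K0 : Set (Fin N → ℂ)), Cocpt E U Θ K0 := by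
  obtain ⟨K, hK, hcov⟩ := S.exists_compact
  have e : (Fin n → ℂ) ≃L[ℂ] E :=
    ContinuousLinearEquiv.ofFinrankEq (by rw [hE]; simp)
  refine ⟨{θ | ∃ γ ∈ Γ, θ = extP γ}, Subtype.val '' K, ?_⟩
  refine ⟨S.bdd, ?_, hK.image continuous_subtype_val, ?_, ?_, ?_⟩
  · rintro θ ⟨γ, hγ, rfl⟩
    exact ⟨holOn_extP (S.hol γ hγ), fun y hy => extP_mem γ hy, extP γ⁻¹,
      holOn_extP (S.hol _ (Γ.inv_mem hγ)), fun y hy => extP_mem _ hy, fun y hy => extP_inv γ hy⟩
  · rintro _ ⟨y, -, rfl⟩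
    exact y.2
  · intro x hx
    obtain ⟨γ, hγ, k, hk, hkx⟩ := hcov ⟨x, hx⟩
    refine ⟨extP γ, ⟨γ, hγ, rfl⟩, k, ⟨k, hk, rfl⟩, ?_⟩
    rw [extP_of_mem γ k.2]
    exact congrArg Subtype.val hkx
  · rintro _ ⟨k, -, rfl⟩
    obtain ⟨L⟩ := hS k k.2
    refine ⟨e.symm ⁻¹' L.W, L.O, L.ψ ∘ e.symm, e ∘ L.π, ?_, ?_, L.mem⟩
    · refine ⟨L.hW.preimage e.symm.continuous, L.hO, ?_, ?_, ?_, ?_, ?_, ?_⟩
      · exact L.hψ.comp e.symm.differentiable.differentiableOn (fun x hx => hx)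
      · exact e.differentiable.comp_differentiableOn L.hπ
      · exact fun b hb => (L.ψ_mem _ hb).2
      · intro b hb
        simp only [Function.comp_apply]
        rw [L.π_ψ _ hb, e.apply_symm_apply]
      · intro x hx hxO
        simp only [Function.comp_apply, mem_preimage, e.symm_apply_apply]
        exact L.π_mem x hx hxO
      · intro x hx hxO
        simp only [Function.comp_apply, e.symm_apply_apply]
        exact L.ψ_π x hx hxO
    · exact fun b hb => (L.ψ_mem _ hb).1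

/-- **LEMMA KS**, final form. -/
theorem ksHyp {n m k : ℕ} {Γ : Subgroup (Equiv.Perm U)} (S : Setup N U Γ) (hS : IsSubmfd n U)
    (hmk : m + k = n) {B : Set ((Fin m → ℂ) × (Fin k → ℂ))} {W : Set (Fin N → ℂ)}
    {φ : (Fin m → ℂ) × (Fin k → ℂ) → (Fin N → ℂ)} {ξ : (Fin N → ℂ) → (Fin m → ℂ) × (Fin k → ℂ)}
    (hc : IsChart U B W φ ξ) (hUUo : IsOpen (B ∩ φ ⁻¹' U)) {ρ₁ : ℝ} (hρ : ball 0 ρ₁ ⊆ B) :
    Bsh.KSHyp (B ∩ φ ⁻¹' U) ρ₁ := by
  obtain ⟨Θ, K0, hU⟩ := exists_cocpt S hS ((Fin m → ℂ) × (Fin k → ℂ))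
    (by rw [Module.finrank_prod]; simpa using hmk)
  intro z₀ A hz₀ hA hAh hAρ Q hQ hQU hbd h0
  have hmem : ∀ l ∈ Icc (0 : ℝ) 1, ∀ ζ ∈ closedBall (0 : ℂ) 1, (z₀, A l ζ) ∈ B := by
    intro l hl ζ hζ
    refine hρ ?_
    rw [mem_ball_zero_iff, Prod.norm_def]
    exact max_lt hz₀ (hAρ l hl ζ hζ)
  have := ks_chart hU hc hUUo (A := fun l ζ => (z₀, A l ζ))
    (by
      have h1 : Continuous (fun q : ℝ × ℂ => (z₀, A q.1 q.2)) := by
        exact continuous_const.prodMk hA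
      exact h1.continuousOn)
    (fun l _ => ((differentiable_const z₀).prodMk (hAh l)).differentiableOn)
    hmem hQ hQU hbd h0
  exact this 1 ⟨zero_le_one, le_refl 1⟩

end Crest.Agent.R264.KS
end

-- ▼ part R264/AChg

/-!
Row 264, Part A, CHANGE OF COORDINATES (helper163): from the coordinates of `AI.GraphData` to the
final coordinates at `a ∈ O` (the affine normalisation `JL.Amap`).

* `Alin D`, `AE D hD`  : linear part of `Amap`, as a continuous linear equivalence (`‖D‖ ≤ 1/4`).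
* `Ainv Ht a h`        : inverse of `Amap Ht a`.
* `FinData G a`        : the final chart (`e'`, `κ'`, `W'`, `UU'`), KSHyp, PeakAt.
-/

set_option autoImplicit false

open Topology Filter Set Metric Complex
open scoped ContDiff

namespace Crest.Agent.R264.AChg

open Crest.AlgGeometry.Semialg Crest.Agent.R264.AI
open Crest.Agent.R264.JL (P sig Amap ofR reV imV alpha beta alpha_apply beta_apply ofR_apply
  reV_apply imV_apply)

variable {m k : ℕ}

/-- linear part of the affine normalisation -/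
noncomputable def Alin (D : P m k →L[ℝ] (Fin k → ℝ)) : EE m k →L[ℂ] EE m k :=
  (ContinuousLinearMap.fst ℂ (Fin m → ℂ) (Fin k → ℂ)).prod
    (ContinuousLinearMap.snd ℂ (Fin m → ℂ) (Fin k → ℂ)
      - I • (beta D).comp (ContinuousLinearMap.snd ℂ (Fin m → ℂ) (Fin k → ℂ))
      - (2 * I) • (alpha D).comp (ContinuousLinearMap.fst ℂ (Fin m → ℂ) (Fin k → ℂ)))

theorem Alin_apply (D : P m k →L[ℝ] (Fin k → ℝ)) (p : EE m k) :
    Alin D p = (p.1, p.2 - I • beta D p.2 - (2 * I) • alpha D p.1) := rfl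

theorem Amap_eq (Ht : P m k → (Fin k → ℝ)) (a : P m k) (p : EE m k) :
    Amap Ht a p = Alin (fderiv ℝ Ht a) (p - sig Ht a) := rfl

theorem norm_reV_le (w : Fin k → ℂ) : ‖reV w‖ ≤ ‖w‖ := by
  refine (pi_norm_le_iff_of_nonneg (norm_nonneg _)).2 fun i => ?_
  rw [reV_apply, Real.norm_eq_abs]
  exact (Complex.abs_re_le_norm _).trans (norm_le_pi_norm w i)

theorem norm_imV_le (w : Fin k → ℂ) : ‖imV w‖ ≤ ‖w‖ := by
  refine (pi_norm_le_iff_of_nonneg (norm_nonneg _)).2 fun i => ?_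
  rw [imV_apply, Real.norm_eq_abs]
  exact (Complex.abs_im_le_norm _).trans (norm_le_pi_norm w i)

theorem norm_ofR (u : Fin k → ℝ) : ‖ofR u‖ = ‖u‖ := by
  refine le_antisymm ?_ ?_
  · refine (pi_norm_le_iff_of_nonneg (norm_nonneg _)).2 fun i => ?_
    rw [ofR_apply, Complex.norm_real]
    exact norm_le_pi_norm u i
  · refine (pi_norm_le_iff_of_nonneg (norm_nonneg _)).2 fun i => ?_
    have := norm_le_pi_norm (ofR u) i
    rwa [ofR_apply, Complex.norm_real] at this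

theorem norm_beta_le (D : P m k →L[ℝ] (Fin k → ℝ)) (w : Fin k → ℂ) :
    ‖beta D w‖ ≤ 2 * ‖D‖ * ‖w‖ := by
  rw [beta_apply]
  have h1 : ‖ofR (D (0, reV w))‖ ≤ ‖D‖ * ‖w‖ := by
    rw [norm_ofR]
    refine (D.le_opNorm _).trans ?_
    gcongr
    rw [Prod.norm_def]
    simpa using norm_reV_le w
  have h2 : ‖I • ofR (D (0, imV w))‖ ≤ ‖D‖ * ‖w‖ := by
    rw [norm_smul, Complex.norm_I, one_mul, norm_ofR]
    refine (D.le_opNorm _).trans ?_
    gcongr
    rw [Prod.norm_def]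
    simpa using norm_imV_le w
  calc ‖ofR (D (0, reV w)) + I • ofR (D (0, imV w))‖ ≤ _ := norm_add_le _ _
    _ ≤ ‖D‖ * ‖w‖ + ‖D‖ * ‖w‖ := add_le_add h1 h2
    _ = 2 * ‖D‖ * ‖w‖ := by ring

theorem Alin_inj {D : P m k →L[ℝ] (Fin k → ℝ)} (hD : ‖D‖ ≤ 1 / 4) :
    Function.Injective (Alin D) := by
  rw [injective_iff_map_eq_zero]
  intro p hp
  rw [Alin_apply, Prod.mk_eq_zero] at hp
  obtain ⟨h1, h2⟩ := hp
  rw [h1, map_zero, smul_zero, sub_zero, sub_eq_zero] at h2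
  have h3 : ‖p.2‖ ≤ 2 * ‖D‖ * ‖p.2‖ := by
    conv_lhs => rw [h2]
    rw [norm_smul, Complex.norm_I, one_mul]
    exact norm_beta_le D p.2
  have h4 : ‖p.2‖ = 0 := by
    have := norm_nonneg p.2
    nlinarith
  exact Prod.ext h1 (norm_eq_zero.1 h4)

/-- `Alin` as an equivalence -/
noncomputable def AE {D : P m k →L[ℝ] (Fin k → ℝ)} (hD : ‖D‖ ≤ 1 / 4) : EE m k ≃L[ℂ] EE m k :=
  (LinearEquiv.ofInjectiveEndo (Alin D : EE m k →ₗ[ℂ] EE m k)
    (Alin_inj hD)).toContinuousLinearEquiv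

@[simp] theorem AE_apply {D : P m k →L[ℝ] (Fin k → ℝ)} (hD : ‖D‖ ≤ 1 / 4) (p : EE m k) :
    AE hD p = Alin D p := rfl

/-- inverse of `Amap Ht a` -/
noncomputable def Ainv (Ht : P m k → (Fin k → ℝ)) (a : P m k) (hD : ‖fderiv ℝ Ht a‖ ≤ 1 / 4)
    (y : EE m k) : EE m k := sig Ht a + (AE hD).symm y

section inv

variable {Ht : P m k → (Fin k → ℝ)} {a : P m k} (hD : ‖fderiv ℝ Ht a‖ ≤ 1 / 4)

theorem Amap_Ainv (y : EE m k) : Amap Ht a (Ainv Ht a hD y) = y := by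
  rw [Amap_eq, Ainv, add_sub_cancel_left, ← AE_apply hD, (AE hD).apply_symm_apply]

theorem Ainv_Amap (p : EE m k) : Ainv Ht a hD (Amap Ht a p) = p := by
  rw [Amap_eq, Ainv, ← AE_apply hD, (AE hD).symm_apply_apply, add_sub_cancel]


theorem Ainv_zero : Ainv Ht a hD 0 = sig Ht a := by
  rw [Ainv, map_zero, add_zero]

theorem differentiable_Amap (Ht : P m k → (Fin k → ℝ)) (a : P m k) :
    Differentiable ℂ (Amap Ht a) := by
  have h1 : Differentiable ℂ (fun p : EE m k => p - sig Ht a) :=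
    differentiable_id.sub_const _
  exact (Alin (fderiv ℝ Ht a)).differentiable.comp h1

theorem hasFDerivAt_Ainv (y : EE m k) :
    HasFDerivAt (Ainv Ht a hD) ((AE hD).symm : EE m k →L[ℂ] EE m k) y := by
  have h1 := ((AE hD).symm : EE m k →L[ℂ] EE m k).hasFDerivAt (x := y)
  exact h1.const_add _

theorem differentiable_Ainv : Differentiable ℂ (Ainv Ht a hD) := fun y =>
  (hasFDerivAt_Ainv hD y).differentiableAt

theorem image_Amap (s : Set (EE m k)) : Amap Ht a '' s = Ainv Ht a hD ⁻¹' s := by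
  ext y
  constructor
  · rintro ⟨p, hp, rfl⟩
    rw [mem_preimage, Ainv_Amap]
    exact hp
  · intro hy
    exact ⟨Ainv Ht a hD y, hy, Amap_Ainv hD y⟩

theorem isOpen_image_Amap {s : Set (EE m k)} (hs : IsOpen s)
    (hD : ‖fderiv ℝ Ht a‖ ≤ 1 / 4) : IsOpen (Amap Ht a '' s) := by
  rw [image_Amap hD]
  exact hs.preimage (differentiable_Ainv hD).continuous

end inv

/-! ### the tangent space -/

/-- tangent vectors of the graph -/
noncomputable def tanv (D : P m k →L[ℝ] (Fin k → ℝ)) (ξ : P m k) : EE m k :=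
  (ξ.1, ofR ξ.2 + I • ofR (D ξ))

/-- tangent vectors of `ℂ^m × ℝ^k` -/
noncomputable def tan0 (ξ : P m k) : EE m k := (ξ.1, ofR ξ.2)

/-- the induced map of the parameters -/
noncomputable def Rmap (D : P m k →L[ℝ] (Fin k → ℝ)) : P m k →ₗ[ℝ] P m k where
  toFun ξ := (ξ.1, ξ.2 + D (0, D ξ) + (2 : ℝ) • imV (alpha D ξ.1))
  map_add' x y := by
    have h2 : ((0, D (x + y)) : P m k) = (0, D x) + (0, D y) := by simp
    rw [h2]
    refine Prod.ext (by simp) ?_
    simp only [Prod.snd_add, Prod.fst_add, map_add, smul_add]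
    abel
  map_smul' c x := by
    have h2 : ((0, D (c • x)) : P m k) = c • (0, D x) := by simp
    rw [h2]
    refine Prod.ext (by simp) ?_
    have h3 : alpha D (c • x.1) = c • alpha D x.1 := by
      have := (alpha D).map_smul (c : ℂ) x.1
      rw [Complex.coe_smul, Complex.coe_smul] at this
      exact this
    simp only [Prod.smul_fst, Prod.smul_snd, map_smul, h3, RingHom.id_apply, smul_add]
    rw [smul_comm c (2 : ℝ)]

theorem Rmap_apply (D : P m k →L[ℝ] (Fin k → ℝ)) (ξ : P m k) :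
    Rmap D ξ = (ξ.1, ξ.2 + D (0, D ξ) + (2 : ℝ) • imV (alpha D ξ.1)) := rfl

theorem reV_ofR (u v : Fin k → ℝ) : reV (ofR u + I • ofR v) = u := by
  funext i; simp

theorem imV_ofR (u v : Fin k → ℝ) : imV (ofR u + I • ofR v) = v := by
  funext i; simp

theorem D_split (D : P m k →L[ℝ] (Fin k → ℝ)) (ξ : P m k) :
    D ξ = (2 : ℝ) • reV (alpha D ξ.1) + D (0, ξ.2) := by
  have h1 : ξ = (ξ.1, 0) + (0, ξ.2) := by simp
  conv_lhs => rw [h1, map_add]
  congr 1
  rw [alpha_apply]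
  funext i
  simp [Complex.mul_re, Complex.sub_re]

theorem Alin_tanv (D : P m k →L[ℝ] (Fin k → ℝ)) (ξ : P m k) :
    Alin D (tanv D ξ) = tan0 (Rmap D ξ) := by
  rw [Alin_apply, Rmap_apply, tan0, tanv]
  refine Prod.ext rfl ?_
  simp only
  rw [beta_apply, reV_ofR, imV_ofR]
  have h1 := D_split D ξ
  funext i
  have h1i : D ξ i = 2 * (alpha D ξ.1 i).re + D (0, ξ.2) i := by
    have := congrFun h1 i
    simpa using this
  simp only [Pi.add_apply, Pi.sub_apply, Pi.smul_apply, ofR_apply, smul_eq_mul, imV_apply,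
    Complex.ofReal_add, Complex.ofReal_mul, Complex.ofReal_ofNat]
  rw [h1i]
  have h2 := Complex.re_add_im (alpha D ξ.1 i)
  push_cast
  linear_combination (-((D (0, D ξ) i : ℝ) : ℂ) - 2 * (alpha D ξ.1 i).im) * Complex.I_sq + 2 * I * h2

theorem tanv_inj (D : P m k →L[ℝ] (Fin k → ℝ)) : Function.Injective (tanv D) := by
  intro x y h
  have h1 : x.1 = y.1 := by
    have := congrArg Prod.fst h
    exact this
  have h2 : ofR x.2 + I • ofR (D x) = ofR y.2 + I • ofR (D y) := by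
    have := congrArg Prod.snd h
    exact this
  have h3 := congrArg (fun w => reV w) h2
  simp only [reV_ofR] at h3
  exact Prod.ext h1 h3

theorem Rmap_surj {D : P m k →L[ℝ] (Fin k → ℝ)} (hD : ‖D‖ ≤ 1 / 4) :
    Function.Surjective (Rmap D) := by
  have hinj : Function.Injective (Rmap D) := by
    intro x y h
    have h1 : Alin D (tanv D x) = Alin D (tanv D y) := by rw [Alin_tanv, Alin_tanv, h]
    exact tanv_inj D (Alin_inj hD h1)
  exact LinearMap.injective_iff_surjective.1 hinj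

/-- the tangent space of the graph is mapped onto `ℂ^m × ℝ^k` by `Alin` -/
theorem image_tanv {D : P m k →L[ℝ] (Fin k → ℝ)} (hD : ‖D‖ ≤ 1 / 4) :
    range (fun ξ : P m k => (AE hD).symm (tan0 ξ)) = range (tanv D) := by
  ext v
  constructor
  · rintro ⟨ξ, rfl⟩
    obtain ⟨η, rfl⟩ := Rmap_surj hD ξ
    refine ⟨η, ?_⟩
    simp only
    rw [← Alin_tanv, ← AE_apply hD, (AE hD).symm_apply_apply]
  · rintro ⟨η, rfl⟩
    refine ⟨Rmap D η, ?_⟩
    simp only
    rw [← Alin_tanv, ← AE_apply hD, (AE hD).symm_apply_apply]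

/-! ### the final chart -/

section final

variable {N : ℕ} {U : Set (Fin N → ℂ)} (G : GraphData m k U) {a : P m k} (ha : a ∈ G.O)

/-- inverse chart in the final coordinates -/
noncomputable def eF (y : EE m k) : Fin N → ℂ := G.e (Ainv G.Ht a (G.Hsmall a ha) y)

/-- chart in the final coordinates -/
noncomputable def κF (_ha : a ∈ G.O) (x : Fin N → ℂ) : EE m k := Amap G.Ht a (G.κ x)

theorem κF_differentiable : Differentiable ℂ (κF G ha) :=
  (differentiable_Amap G.Ht a).comp G.hκ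

include ha in
theorem isOpen_WF : IsOpen (Amap G.Ht a '' G.W) := isOpen_image_Amap G.hW (G.Hsmall a ha)

include ha in
theorem isOpen_UUF : IsOpen (Amap G.Ht a '' G.UU) := isOpen_image_Amap G.UUopen (G.Hsmall a ha)

theorem mem_WF {y : EE m k} :
    y ∈ Amap G.Ht a '' G.W ↔ Ainv G.Ht a (G.Hsmall a ha) y ∈ G.W := by
  rw [image_Amap (G.Hsmall a ha)]; rfl

include ha in
theorem zero_mem_WF : (0 : EE m k) ∈ Amap G.Ht a '' G.W := by
  rw [mem_WF G ha, Ainv_zero]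
  exact G.sig_W a ha

theorem eF_zero : eF G ha 0 = G.e (sig G.Ht a) := by
  rw [eF, Ainv_zero]

theorem eF_differentiableOn : DifferentiableOn ℂ (eF G ha) (Amap G.Ht a '' G.W) := by
  refine G.he.comp (differentiable_Ainv (G.Hsmall a ha)).differentiableOn ?_
  intro y hy
  exact (mem_WF G ha).1 hy

theorem eF_mem {y : EE m k} (hy : y ∈ Amap G.Ht a '' G.W) : eF G ha y ∈ G.B :=
  G.e_mem _ ((mem_WF G ha).1 hy)

theorem κF_eF {y : EE m k} (hy : y ∈ Amap G.Ht a '' G.W) : κF G ha (eF G ha y) = y := by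
  rw [κF, eF, G.κ_e _ ((mem_WF G ha).1 hy), Amap_Ainv]

theorem κF_mem {x : Fin N → ℂ} (hx : x ∈ closure U) (hxB : x ∈ G.B) :
    κF G ha x ∈ Amap G.Ht a '' G.W := ⟨_, G.κ_mem x hx hxB, rfl⟩

theorem eF_κF {x : Fin N → ℂ} (hx : x ∈ closure U) (hxB : x ∈ G.B) :
    eF G ha (κF G ha x) = x := by
  rw [eF, κF, Ainv_Amap]
  exact G.e_κ x hx hxB

theorem UUF_iff {y : EE m k} :
    y ∈ Amap G.Ht a '' G.UU ↔ y ∈ Amap G.Ht a '' G.W ∧ eF G ha y ∈ U := by
  rw [image_Amap (G.Hsmall a ha), image_Amap (G.Hsmall a ha)]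
  exact G.UU_iff _

theorem UUF_eq :
    Amap G.Ht a '' G.UU = Amap G.Ht a '' G.W ∩ eF G ha ⁻¹' U := by
  ext y; exact UUF_iff G ha





/-- the peak package in the form of `CtrlStmt` -/
theorem peak_eF :
    PeakAt (closure U) G.g (eF G ha 0)
      (range fun ξ : P m k => fderiv ℂ (eF G ha) 0 (ξ.1, ofR ξ.2)) := by
  have h1 := G.peak a ha
  rw [eF_zero]
  have h2 : HasFDerivAt (eF G ha)
      ((fderiv ℂ G.e (sig G.Ht a)).comp
        ((AE (G.Hsmall a ha)).symm : EE m k →L[ℂ] EE m k)) 0 := by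
    have h3 : HasFDerivAt G.e (fderiv ℂ G.e (sig G.Ht a)) (Ainv G.Ht a (G.Hsmall a ha) 0) := by
      rw [Ainv_zero]
      exact (G.he.differentiableAt (G.hW.mem_nhds (G.sig_W a ha))).hasFDerivAt
    exact h3.comp 0 (hasFDerivAt_Ainv (G.Hsmall a ha) 0)
  rw [h2.fderiv]
  convert h1 using 1
  have h4 := image_tanv (G.Hsmall a ha)
  have h5 : (range fun ξ : P m k => fderiv ℂ G.e (sig G.Ht a)
      (ξ.1, ofR ξ.2 + I • ofR (fderiv ℝ G.Ht a ξ)))
      = fderiv ℂ G.e (sig G.Ht a) '' range (tanv (fderiv ℝ G.Ht a)) := by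
    rw [← range_comp]; rfl
  rw [h5, ← h4, ← range_comp]
  rfl

/-- the Kontinuitätssatz in the final coordinates -/
theorem ksHyp_eF {n : ℕ} {Γ : Subgroup (Equiv.Perm U)} (S : Setup N U Γ) (hS : IsSubmfd n U)
    (hmk : m + k = n) (ha : a ∈ G.O) : ∃ ρ₁ > 0, Bsh.KSHyp (Amap G.Ht a '' G.UU) ρ₁ := by
  obtain ⟨ρ₁, hρ₁, hball⟩ := Metric.isOpen_iff.1 (isOpen_WF G ha) 0 (zero_mem_WF G ha)
  refine ⟨ρ₁, hρ₁, ?_⟩
  rw [UUF_eq G ha]
  have hc : KS.IsChart U (Amap G.Ht a '' G.W) G.B (eF G ha) (κF G ha) :=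
    { openB := isOpen_WF G ha
      openW := G.hB
      dphi := eF_differentiableOn G ha
      dxi := (κF_differentiable G ha).differentiableOn
      mphi := fun y hy => eF_mem G ha hy
      left := fun y hy => κF_eF G ha hy
      mxi := fun x hx hxB => κF_mem G ha (subset_closure hx) hxB
      right := fun x hx hxB => eF_κF G ha (subset_closure hx) hxB }
  exact KS.ksHyp S hS hmk hc (by rw [← UUF_eq G ha]; exact isOpen_UUF G ha) hball

end final

/-- **the final chart** (interface `AChgDef`) -/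
theorem fchartStmt : FChartStmt := by
  intro N U Γ S n hS m k hmk G a ha
  obtain ⟨ρ₁, hρ₁, hKS⟩ := ksHyp_eF G S hS hmk ha
  exact ⟨{
    W := Amap G.Ht a '' G.W
    κ := κF G ha
    e := eF G ha
    hW := isOpen_WF G ha
    W0 := zero_mem_WF G ha
    hκ := κF_differentiable G ha
    he := eF_differentiableOn G ha
    e_mem := fun y hy => eF_mem G ha hy
    κ_e := fun y hy => κF_eF G ha hy
    κ_mem := fun x hx hxB => κF_mem G ha hx hxB
    e_κ := fun x hx hxB => eF_κF G ha hx hxB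
    e0 := eF_zero G ha
    UU_iff := fun y => UUF_iff G ha
    UUo := isOpen_UUF G ha
    peak := peak_eF G ha
    ks := ⟨ρ₁, hρ₁, hKS⟩ }⟩

end Crest.Agent.R264.AChg
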