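import Crest.Agent.R264.CN4
import Crest.Agent.R264.CPFlow
import Crest.Agent.R264.AIface
import Crest.Agent.R264.AChgDef
import Crest.Agent.R264.SAV
import Mathlib
import Crest.Prelude.Def_SemialgDomain

-- ▼ part R264/CN5
section

/-!
Row 264, module CN (helper190), part 5: `PropC2`.
-/

set_option autoImplicit false

open Topology Filter Set Metric

namespace Crest.Agent.R264.CN

open Crest.Agent.R264 Crest.AlgGeometry.Semialg

variable {N n : ℕ} {U : Set (Fin N → ℂ)} {Γ : Subgroup (Equiv.Perm U)}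

theorem differentiable_Dil {m k : ℕ} (ε : ℝ) : Differentiable ℂ (Dil (m := m) (k := k) ε) := by
  unfold Dil
  exact (differentiable_fst.const_smul (ε : ℂ)).prodMk (differentiable_snd.const_smul ((ε : ℂ) ^ 2))

/-- C0 + C1 + C2 -/
theorem propC2 : PropC2 := by
  intro N U Γ S n hn hU P
  have hLC := S.locallyCompact
  obtain ⟨K0, hK0, hcov⟩ := S.exists_compact
  -- the scales
  have hts := P.hts
  set s0 : ℝ := Real.sqrt (P.ts / 2) with hs0
  have hs0p : 0 < s0 := Real.sqrt_pos.2 (by linarith)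
  have hs02 : s0 ^ 2 = P.ts / 2 := Real.sq_sqrt (by linarith)
  let ε : ℕ → ℝ := fun j => s0 / ((j : ℝ) + 1)
  have hεpos : ∀ j, 0 < ε j := fun j => by
    simp only [ε]; positivity
  have hεlt : ∀ j, ε j ^ 2 < P.ts := by
    intro j
    have h1 : ε j ≤ s0 := by
      simp only [ε]
      rw [div_le_iff₀ (by positivity)]
      nlinarith [Nat.cast_nonneg (α := ℝ) j]
    have h2 : ε j ^ 2 ≤ s0 ^ 2 := by
      have := hεpos j
      gcongr
    linarith
  have hεlim : Tendsto ε atTop (𝓝 0) := by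
    have h1 := (tendsto_one_div_add_atTop_nhds_zero_nat (𝕜 := ℝ)).const_mul s0
    rw [mul_zero] at h1
    refine h1.congr fun j => ?_
    simp only [ε]
    ring
  -- the points
  have hy : ∀ j, ∃ φ ∈ Γ, ∃ x ∈ K0, Sc P φ x (ε j) := by
    intro j
    have h1 : 0 < ε j ^ 2 := by have := hεpos j; positivity
    have h2 := Yp_mem P h1 (hεlt j)
    obtain ⟨h3, h4⟩ := P.χ_mem _ h2
    obtain ⟨γ, hγ, k, hk, hkγ⟩ := hcov ⟨P.χ (Yp P (ε j ^ 2)), h3⟩
    refine ⟨γ, hγ, k, hk, hεpos j, hεlt j, ?_, ?_⟩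
    · rw [hkγ]; exact h4
    · rw [hkγ]; exact P.κ_χ _ h2
  choose φ hφ x hx hsc using hy
  obtain ⟨xs, hxs, σ1, hσ1, hlim1⟩ := hK0.tendsto_subseq hx
  -- the scaled maps
  let F : ℕ → U → EE P.m P.k := fun j z => Dil (ε (σ1 j))⁻¹ (P.κ (φ (σ1 j) z : U))
  have hε1 : Tendsto (fun j => ε (σ1 j)) atTop (𝓝 0) := hεlim.comp hσ1.tendsto_atTop
  have hloc : ∀ K : Set U, IsCompact K → ∀ᶠ j in atTop, ∀ z ∈ K,
      ((φ (σ1 j) z : U) : Fin N → ℂ) ∈ P.O := by
    intro K hK
    obtain ⟨ε0, hε0, h⟩ := loc S hU P hK0 hK P.hO P.hpO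
    filter_upwards [hε1.eventually (gt_mem_nhds hε0)] with j hj z hz
    exact h _ (hφ _) _ (hx _) _ (hsc _) hj z hz
  obtain ⟨σ2, Φ, hσ2, hΦ, hlim2⟩ := montel_U hU F (by
    intro z
    obtain ⟨V, hVc, hV⟩ := exists_compact_mem_nhds z
    obtain ⟨C, hC⟩ := scaled_bound S hU P hK0 hVc
    refine ⟨V, hV, C, ?_⟩
    filter_upwards [hloc V hVc] with j hj y hy
    refine ⟨?_, hC _ (hφ _) _ (hx _) _ (hsc _) y hy (hj y hy)⟩
    have h1 : HolAt U (fun z : U => ((φ (σ1 j) z : U) : Fin N → ℂ)) y := S.hol _ (hφ _) y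
    have h2 : HolAt U (fun z : U => P.κ (φ (σ1 j) z : U)) y := h1.comp P.hO P.hκ (hj y hy)
    exact h2.comp isOpen_univ (differentiable_Dil _).differentiableOn (mem_univ _))
  refine ⟨{ φ := fun j => φ (σ1 (σ2 j)), hφ := fun j => hφ _, x := fun j => x (σ1 (σ2 j)),
            xs := xs, hx := hlim1.comp hσ2.tendsto_atTop, ε := fun j => ε (σ1 (σ2 j)),
            ε_pos := fun j => hεpos _, ε_lt := fun j => hεlt _,
            ε_lim := hε1.comp hσ2.tendsto_atTop, φx_mem := fun j => (hsc _).mem,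
            κφx := fun j => (hsc _).eq,
            ev_mem := fun K hK => hσ2.tendsto_atTop.eventually (hloc K hK),
            Φ := Φ, hΦ := hΦ, lim := hlim2 }⟩

end Crest.Agent.R264.CN
end

-- ▼ part R264/CPBound
section

/-!
Row 264 (S0402), Part C, module C6 (helper484): the bounded model and the assembly of Part C.
-/

set_option autoImplicit false

open Topology Filter Set

namespace Crest.Agent.R264.CP

open Crest.Agent.R264

section Est

variable {N : ℕ} {U : Set (Fin N → ℂ)} {n : ℕ} {Γ : Subgroup (Equiv.Perm U)} (P : PeakData U n)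

lemma Cp_nonneg : 0 ≤ P.Cp :=
  (norm_nonneg _).trans (P.e_le (P.ts / 2) (by linarith [P.hts]) (by linarith [P.hts]))

lemma tauF_Dil {m k : ℕ} (ν : Fin k → ℝ) (Q : (Fin m → ℂ) →L[ℂ] (Fin m → ℂ) →L[ℂ] ℂ) (ε : ℝ)
    (y : EE m k) : tauF ν Q (Dil ε y) = (ε : ℂ) ^ 2 * tauF ν Q y := by
  unfold tauF Dil
  simp only [Pi.smul_apply, smul_eq_mul, map_smul, smul_apply]
  have : ∀ j, (ν j : ℂ) * ((ε : ℂ) ^ 2 * y.2 j) = (ε : ℂ) ^ 2 * ((ν j : ℂ) * y.2 j) := by
    intro j; ring
  simp only [this, ← Finset.mul_sum]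
  ring

lemma continuous_tauF {m k : ℕ} (ν : Fin k → ℝ) (Q : (Fin m → ℂ) →L[ℂ] (Fin m → ℂ) →L[ℂ] ℂ) :
    Continuous (tauF ν Q) := by
  unfold tauF
  have h1 : Continuous fun y : EE m k => Q y.1 y.1 :=
    (Q.continuous.comp continuous_fst).clm_apply continuous_fst
  have h2 : Continuous fun y : EE m k => ∑ j, (ν j : ℂ) * y.2 j :=
    continuous_finsetSum _ fun j _ =>
      continuous_const.mul ((continuous_apply j).comp continuous_snd)
  exact (continuous_const.mul h2).add h1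

lemma differentiable_tauF {m k : ℕ} (ν : Fin k → ℝ)
    (Q : (Fin m → ℂ) →L[ℂ] (Fin m → ℂ) →L[ℂ] ℂ) : Differentiable ℂ (tauF ν Q) := by
  unfold tauF
  have h1 : Differentiable ℂ fun y : EE m k => Q y.1 y.1 :=
    (Q.differentiable.comp differentiable_fst).clm_apply differentiable_fst
  have h2 : Differentiable ℂ fun y : EE m k => ∑ j, (ν j : ℂ) * y.2 j := by
    refine Differentiable.fun_sum fun j _ => ?_
    fun_prop
  exact ((differentiable_const _).mul h2).add h1

lemma Dil_Dil {m k : ℕ} {ε : ℝ} (hε : ε ≠ 0) (y : EE m k) : Dil ε (Dil ε⁻¹ y) = y := by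
  have h : (ε : ℂ) ≠ 0 := by exact_mod_cast hε
  unfold Dil
  refine Prod.ext ?_ ?_
  · simp only [smul_smul]
    rw [show (ε : ℂ) * ((ε⁻¹ : ℝ) : ℂ) = 1 by push_cast; exact mul_inv_cancel₀ h, one_smul]
  · simp only [smul_smul]
    rw [show (ε : ℂ) ^ 2 * (((ε⁻¹ : ℝ) : ℂ)) ^ 2 = 1 by
      push_cast; rw [← mul_pow, mul_inv_cancel₀ h, one_pow], one_smul]

lemma h_le (i : Fin P.k) {x : Fin N → ℂ} (hx : x ∈ closure U) : (P.h i x).re ≤ P.M i := by
  by_cases h : x = P.p0
  · rw [h, P.h_p0]; simp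
  · exact (P.h_lt i x hx h).le

/-- the two inequalities in rescaled form at a point `Dil ε v ∈ UU` -/
lemma rescaled {ε : ℝ} (hε : 0 < ε) {v : EE P.m P.k} (hv : Dil ε v ∈ P.UU) (i : Fin P.k) :
    -(P.Cp * (ε * ‖v.1‖ ^ 3 + ε * ‖v.1‖ * ‖v.2‖ + ε ^ 2 * ‖v.2‖ ^ 2))
        ≤ (tauF (P.ν i) (P.Q i) v).re ∧
    ‖v.1‖ ^ 2 ≤ P.Cp * ((tauF (P.ν i) (P.Q i) v).re
        + P.Cp * (ε * ‖v.1‖ ^ 3 + ε * ‖v.1‖ * ‖v.2‖ + ε ^ 2 * ‖v.2‖ ^ 2)) := by
  have hC := Cp_nonneg P
  have hn1 : ‖(Dil ε v).1‖ = ε * ‖v.1‖ := by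
    simp [Dil, norm_smul, abs_of_pos hε]
  have hn2 : ‖(Dil ε v).2‖ = ε ^ 2 * ‖v.2‖ := by
    simp [Dil, norm_smul, abs_of_pos hε]
  have hχ := P.χ_mem _ hv
  have hle : 0 ≤ P.M i - (P.h i (P.χ (Dil ε v))).re := by
    have := h_le P i (subset_closure hχ.1)
    linarith
  have h1 := P.expand i _ hv
  rw [tauF_Dil, hn1, hn2] at h1
  have h2 := P.ctrl i _ hv
  rw [hn1, hn2] at h2
  have h3 : |(P.M i - (P.h i (P.χ (Dil ε v))).re) - ε ^ 2 * (tauF (P.ν i) (P.Q i) v).re|
      ≤ P.Cp * ((ε * ‖v.1‖) ^ 3 + (ε * ‖v.1‖) * (ε ^ 2 * ‖v.2‖) + (ε ^ 2 * ‖v.2‖) ^ 2) := by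
    refine le_trans ?_ h1
    refine le_trans (le_of_eq ?_) (Complex.abs_re_le_norm _)
    congr 1
    have : ((ε : ℂ) ^ 2 * tauF (P.ν i) (P.Q i) v).re = ε ^ 2 * (tauF (P.ν i) (P.Q i) v).re := by
      rw [show ((ε : ℂ) ^ 2) = ((ε ^ 2 : ℝ) : ℂ) by push_cast; rfl, Complex.re_ofReal_mul]
    rw [Complex.sub_re, Complex.sub_re, this, Complex.ofReal_re]
  have hR : P.Cp * ((ε * ‖v.1‖) ^ 3 + (ε * ‖v.1‖) * (ε ^ 2 * ‖v.2‖) + (ε ^ 2 * ‖v.2‖) ^ 2)
      = ε ^ 2 * (P.Cp * (ε * ‖v.1‖ ^ 3 + ε * ‖v.1‖ * ‖v.2‖ + ε ^ 2 * ‖v.2‖ ^ 2)) := by ring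
  rw [hR] at h3
  obtain ⟨h4, h5⟩ := abs_le.mp h3
  have hε2 : 0 < ε ^ 2 := by positivity
  constructor
  · by_contra hcon
    push Not at hcon
    nlinarith
  · have h6 : (ε * ‖v.1‖) ^ 2 ≤ P.Cp * (P.M i - (P.h i (P.χ (Dil ε v))).re) := by
      refine le_trans ?_ h2
      have : 0 ≤ (ε ^ 2 * ‖v.2‖) ^ 2 := by positivity
      linarith
    have h7 : P.Cp * (P.M i - (P.h i (P.χ (Dil ε v))).re) ≤ P.Cp * (ε ^ 2 *
        ((tauF (P.ν i) (P.Q i) v).re + P.Cp * (ε * ‖v.1‖ ^ 3 + ε * ‖v.1‖ * ‖v.2‖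
          + ε ^ 2 * ‖v.2‖ ^ 2))) := by
      refine mul_le_mul_of_nonneg_left ?_ hC
      nlinarith
    have h8 : ε ^ 2 * ‖v.1‖ ^ 2 ≤ ε ^ 2 * (P.Cp * ((tauF (P.ν i) (P.Q i) v).re
        + P.Cp * (ε * ‖v.1‖ ^ 3 + ε * ‖v.1‖ * ‖v.2‖ + ε ^ 2 * ‖v.2‖ ^ 2))) := by
      calc ε ^ 2 * ‖v.1‖ ^ 2 = (ε * ‖v.1‖) ^ 2 := by ring
        _ ≤ _ := h6
        _ ≤ _ := h7
        _ = _ := by ring
    exact le_of_mul_le_mul_left h8 hε2

/-- the limit inequalities on `Om = Φ(U)` -/
lemma limit_ineq (S : ScaleSeq Γ P) (y : U) (i : Fin P.k) :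
    0 ≤ (tauF (P.ν i) (P.Q i) (S.Φ y)).re ∧
    ‖(S.Φ y).1‖ ^ 2 ≤ P.Cp * (tauF (P.ν i) (P.Q i) (S.Φ y)).re := by
  set v : ℕ → EE P.m P.k := fun j => Dil (S.ε j)⁻¹ (P.κ (S.φ j y : U)) with hv
  have hlim : Tendsto v atTop (𝓝 (S.Φ y)) :=
    (tendstoLocallyUniformlyOn_univ.mpr S.lim).tendsto_at (mem_univ y)
  have hmem : ∀ᶠ j in atTop, Dil (S.ε j) (v j) ∈ P.UU := by
    filter_upwards [S.ev_mem {y} isCompact_singleton] with j hj
    have := hj y (mem_singleton _)
    rw [hv]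
    simp only
    rw [Dil_Dil (S.ε_pos j).ne']
    exact P.κ_mem _ (S.φ j y).2 this
  have h1 : Tendsto (fun j => ‖(v j).1‖) atTop (𝓝 ‖(S.Φ y).1‖) :=
    ((continuous_fst.norm).tendsto _).comp hlim
  have h2 : Tendsto (fun j => ‖(v j).2‖) atTop (𝓝 ‖(S.Φ y).2‖) :=
    ((continuous_snd.norm).tendsto _).comp hlim
  have hτ : Tendsto (fun j => (tauF (P.ν i) (P.Q i) (v j)).re) atTop
      (𝓝 (tauF (P.ν i) (P.Q i) (S.Φ y)).re) :=
    ((Complex.continuous_re.comp (continuous_tauF _ _)).tendsto _).comp hlim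
  have herr : Tendsto (fun j => P.Cp * (S.ε j * ‖(v j).1‖ ^ 3 + S.ε j * ‖(v j).1‖ * ‖(v j).2‖
      + S.ε j ^ 2 * ‖(v j).2‖ ^ 2)) atTop (𝓝 0) := by
    have := ((((S.ε_lim.mul (h1.pow 3)).add ((S.ε_lim.mul h1).mul h2)).add
      ((S.ε_lim.pow 2).mul (h2.pow 2))).const_mul P.Cp)
    simpa using this
  constructor
  · have h3 := hτ.add herr
    rw [add_zero] at h3
    refine ge_of_tendsto h3 ?_
    filter_upwards [hmem] with j hj
    have := (rescaled P (S.ε_pos j) hj i).1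
    linarith
  · have h3 := ((hτ.add herr).const_mul P.Cp)
    rw [add_zero] at h3
    refine le_of_tendsto_of_tendsto (h1.pow 2) h3 ?_
    filter_upwards [hmem] with j hj
    exact (rescaled P (S.ε_pos j) hj i).2

end Est

section Model

variable {N : ℕ} {U : Set (Fin N → ℂ)} {n : ℕ} {Γ : Subgroup (Equiv.Perm U)} (P : PeakData U n)

/-- the matrix of the `ν_i` -/
noncomputable def Nc : Matrix (Fin P.k) (Fin P.k) ℂ :=
  Complex.ofRealHom.mapMatrix (Matrix.of P.ν)

lemma isUnit_Nc : IsUnit (Nc P) := by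
  have h : IsUnit (Matrix.of P.ν) := by
    rw [← Matrix.linearIndependent_rows_iff_isUnit]
    exact P.hν
  exact h.map _

lemma tauF_eq (i : Fin P.k) (y : EE P.m P.k) :
    tauF (P.ν i) (P.Q i) y = -Complex.I * (Nc P).mulVec y.2 i + P.Q i y.1 y.1 := by
  unfold tauF Matrix.mulVec dotProduct Nc
  rfl

/-- the index `0` -/
def i0 : Fin P.k := ⟨0, P.hk⟩

/-- the Cayley type map -/
noncomputable def Fm (y : EE P.m P.k) : EE P.m P.k :=
  ((tauF (P.ν (i0 P)) (P.Q (i0 P)) y + 1)⁻¹ • y.1,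
    fun i => (tauF (P.ν i) (P.Q i) y - 1) * (tauF (P.ν i) (P.Q i) y + 1)⁻¹)

/-- its inverse -/
noncomputable def Gz (y : EE P.m P.k) : Fin P.m → ℂ :=
  ((1 + y.2 (i0 P)) * (1 - y.2 (i0 P))⁻¹ + 1) • y.1

/-- its inverse -/
noncomputable def Gm (y : EE P.m P.k) : EE P.m P.k :=
  (Gz P y, (Nc P)⁻¹.mulVec fun i => Complex.I *
    ((1 + y.2 i) * (1 - y.2 i)⁻¹ - P.Q i (Gz P y) (Gz P y)))

lemma tauF_Gm (y : EE P.m P.k) (i : Fin P.k) :
    tauF (P.ν i) (P.Q i) (Gm P y) = (1 + y.2 i) * (1 - y.2 i)⁻¹ := by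
  rw [tauF_eq]
  have h : (Nc P).mulVec (Gm P y).2 = fun i => Complex.I *
      ((1 + y.2 i) * (1 - y.2 i)⁻¹ - P.Q i (Gz P y) (Gz P y)) := by
    unfold Gm
    simp only
    rw [Matrix.mulVec_mulVec, Matrix.mul_nonsing_inv _
      ((Matrix.isUnit_iff_isUnit_det _).mp (isUnit_Nc P)), Matrix.one_mulVec]
  rw [h]
  have hI : Complex.I * Complex.I = -1 := Complex.I_mul_I
  show -Complex.I * (Complex.I * ((1 + y.2 i) * (1 - y.2 i)⁻¹ - P.Q i (Gz P y) (Gz P y)))
    + P.Q i (Gz P y) (Gz P y) = _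
  linear_combination (-((1 + y.2 i) * (1 - y.2 i)⁻¹ - P.Q i (Gz P y) (Gz P y))) * hI

lemma Gm_Fm {y : EE P.m P.k} (hy : ∀ i, tauF (P.ν i) (P.Q i) y + 1 ≠ 0) :
    Gm P (Fm P y) = y := by
  have ht : ∀ i, (1 + (Fm P y).2 i) * (1 - (Fm P y).2 i)⁻¹ = tauF (P.ν i) (P.Q i) y := by
    intro i
    have h := hy i
    simp only [Fm]
    set t := tauF (P.ν i) (P.Q i) y
    have h1 : 1 + (t - 1) * (t + 1)⁻¹ = 2 * t * (t + 1)⁻¹ := by field_simp; ring
    have h2 : 1 - (t - 1) * (t + 1)⁻¹ = 2 * (t + 1)⁻¹ := by field_simp; ring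
    rw [h1, h2]
    field_simp
  have hz : Gz P (Fm P y) = y.1 := by
    unfold Gz
    rw [ht]
    show (tauF (P.ν (i0 P)) (P.Q (i0 P)) y + 1) • ((tauF (P.ν (i0 P)) (P.Q (i0 P)) y + 1)⁻¹ • y.1)
      = y.1
    rw [smul_smul, mul_inv_cancel₀ (hy _), one_smul]
  refine Prod.ext hz ?_
  show (Nc P)⁻¹.mulVec (fun i => Complex.I * ((1 + (Fm P y).2 i) * (1 - (Fm P y).2 i)⁻¹
    - P.Q i (Gz P (Fm P y)) (Gz P (Fm P y)))) = y.2
  have : (fun i => Complex.I * ((1 + (Fm P y).2 i) * (1 - (Fm P y).2 i)⁻¹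
      - P.Q i (Gz P (Fm P y)) (Gz P (Fm P y)))) = (Nc P).mulVec y.2 := by
    funext i
    rw [ht, hz, tauF_eq]
    have hI : Complex.I * Complex.I = -1 := Complex.I_mul_I
    linear_combination (-((Nc P).mulVec y.2 i)) * hI
  rw [this, Matrix.mulVec_mulVec, Matrix.nonsing_inv_mul _
    ((Matrix.isUnit_iff_isUnit_det _).mp (isUnit_Nc P)), Matrix.one_mulVec]

lemma Fm_Gm {y : EE P.m P.k} (hy : ∀ i, 1 - y.2 i ≠ 0) : Fm P (Gm P y) = y := by
  have hne : ∀ i, (1 + y.2 i) * (1 - y.2 i)⁻¹ + 1 = 2 * (1 - y.2 i)⁻¹ := by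
    intro i
    have := hy i
    field_simp; ring
  refine Prod.ext ?_ ?_
  · show (tauF (P.ν (i0 P)) (P.Q (i0 P)) (Gm P y) + 1)⁻¹ • Gz P y = y.1
    rw [tauF_Gm]
    unfold Gz
    rw [smul_smul, inv_mul_cancel₀, one_smul]
    rw [hne]
    exact mul_ne_zero two_ne_zero (inv_ne_zero (hy _))
  · funext i
    show (tauF (P.ν i) (P.Q i) (Gm P y) - 1) * (tauF (P.ν i) (P.Q i) (Gm P y) + 1)⁻¹ = y.2 i
    rw [tauF_Gm, hne]
    have := hy i
    field_simp
    ring

lemma differentiableOn_Fm {A : Set (EE P.m P.k)}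
    (hA : ∀ y ∈ A, ∀ i, tauF (P.ν i) (P.Q i) y + 1 ≠ 0) : DifferentiableOn ℂ (Fm P) A := by
  have hτ : ∀ i, DifferentiableOn ℂ (tauF (P.ν i) (P.Q i)) A := fun i =>
    (differentiable_tauF _ _).differentiableOn
  unfold Fm
  refine DifferentiableOn.prodMk ?_ ?_
  · exact (((hτ _).add_const 1).fun_inv fun y hy => hA y hy _).fun_smul differentiableOn_fst
  · rw [differentiableOn_pi]
    intro i
    exact ((hτ i).sub_const 1).fun_mul (((hτ i).add_const 1).fun_inv fun y hy => hA y hy _)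

lemma differentiableOn_Gm {A : Set (EE P.m P.k)}
    (hA : ∀ y ∈ A, ∀ i, 1 - y.2 i ≠ 0) : DifferentiableOn ℂ (Gm P) A := by
  have hs : ∀ i, DifferentiableOn ℂ (fun y : EE P.m P.k => y.2 i) A := fun i => by fun_prop
  have ht : ∀ i, DifferentiableOn ℂ
      (fun y : EE P.m P.k => (1 + y.2 i) * (1 - y.2 i)⁻¹) A := fun i =>
    ((hs i).const_add 1).fun_mul (((hs i).const_sub 1).fun_inv fun y hy => hA y hy _)
  have hz : DifferentiableOn ℂ (Gz P) A :=
    ((ht (i0 P)).add_const 1).fun_smul differentiableOn_fst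
  unfold Gm
  refine hz.prodMk ?_
  have hQ : ∀ i, DifferentiableOn ℂ (fun y : EE P.m P.k => P.Q i (Gz P y) (Gz P y)) A :=
    fun i => ((P.Q i).differentiable.comp_differentiableOn hz).clm_apply hz
  have hu : DifferentiableOn ℂ (fun y : EE P.m P.k => fun i => Complex.I *
    ((1 + y.2 i) * (1 - y.2 i)⁻¹ - P.Q i (Gz P y) (Gz P y))) A := by
    rw [differentiableOn_pi]
    intro i
    exact (differentiableOn_const _).fun_mul ((ht i).fun_sub (hQ i))
  have hL : Differentiable ℂ fun u : Fin P.k → ℂ => (Nc P)⁻¹.mulVec u :=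
    (LinearMap.toContinuousLinearMap (Matrix.mulVecLin (Nc P)⁻¹)).differentiable
  exact hL.comp_differentiableOn hu

/-- the bounded model -/
def DD0 (Om : Set (EE P.m P.k)) : Set (EE P.m P.k) :=
  {y | ∀ i, 1 - y.2 i ≠ 0} ∩ Gm P ⁻¹' Om

lemma isOpen_B0 : IsOpen {y : EE P.m P.k | ∀ i, 1 - y.2 i ≠ 0} := by
  have : {y : EE P.m P.k | ∀ i, 1 - y.2 i ≠ 0} = ⋂ i, {y | 1 - y.2 i ≠ 0} := by
    ext y; simp
  rw [this]
  refine isOpen_iInter_of_finite fun i => ?_
  exact isOpen_ne_fun (by fun_prop) continuous_const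

theorem bih_Om {Om : Set (EE P.m P.k)} (hop : IsOpen Om)
    (hre : ∀ y ∈ Om, ∀ i, 0 ≤ (tauF (P.ν i) (P.Q i) y).re) :
    Bih Om (DD0 P Om) (Fm P) (Gm P) := by
  have hne : ∀ y ∈ Om, ∀ i, tauF (P.ν i) (P.Q i) y + 1 ≠ 0 := by
    intro y hy i h
    have h1 := hre y hy i
    have h2 := congrArg Complex.re h
    simp at h2
    linarith
  refine ⟨hop, ?_, differentiableOn_Fm P hne, ?_, ?_, ?_, ?_, ?_⟩
  · exact (differentiableOn_Gm P (A := {y | ∀ i, 1 - y.2 i ≠ 0})
      (fun y hy => hy)).continuousOn.isOpen_inter_preimage (isOpen_B0 P) hop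
  · exact differentiableOn_Gm P fun y hy => hy.1
  · intro y hy
    refine ⟨fun i => ?_, ?_⟩
    · have h := hne y hy i
      simp only [Fm]
      have h2 : 1 - (tauF (P.ν i) (P.Q i) y - 1) * (tauF (P.ν i) (P.Q i) y + 1)⁻¹
          = 2 * (tauF (P.ν i) (P.Q i) y + 1)⁻¹ := by field_simp; ring
      rw [h2]
      exact mul_ne_zero two_ne_zero (inv_ne_zero h)
    · show Gm P (Fm P y) ∈ Om
      rw [Gm_Fm P (hne y hy)]
      exact hy
  · intro y hy
    exact hy.2
  · intro y hy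
    exact Gm_Fm P (hne y hy)
  · intro y hy
    exact Fm_Gm P hy.1

lemma norm_cayley {τ : ℂ} (h : 0 ≤ τ.re) : ‖(τ - 1) * (τ + 1)⁻¹‖ ≤ 1 := by
  rw [norm_mul, norm_inv]
  have hne : 0 < ‖τ + 1‖ := by
    rw [norm_pos_iff]
    intro h'
    have := congrArg Complex.re h'
    simp at this
    linarith
  rw [← div_eq_mul_inv, div_le_one hne]
  have h1 : Complex.normSq (τ - 1) ≤ Complex.normSq (τ + 1) := by
    simp only [Complex.normSq_apply, Complex.sub_re, Complex.sub_im, Complex.add_re,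
      Complex.add_im, Complex.one_re, Complex.one_im]
    nlinarith
  rw [Complex.norm_def, Complex.norm_def]
  exact Real.sqrt_le_sqrt h1

theorem bounded_DD0 {Om : Set (EE P.m P.k)}
    (hre : ∀ y ∈ Om, ∀ i, 0 ≤ (tauF (P.ν i) (P.Q i) y).re ∧
      ‖y.1‖ ^ 2 ≤ P.Cp * (tauF (P.ν i) (P.Q i) y).re) :
    Bornology.IsBounded (DD0 P Om) := by
  have hC := Cp_nonneg P
  refine (Metric.isBounded_closedBall (x := (0 : EE P.m P.k)) (r := P.Cp + 1)).subset ?_
  intro y hy
  rw [mem_closedBall_zero_iff]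
  have hx := hy.2
  have hy' : y = Fm P (Gm P y) := (Fm_Gm P hy.1).symm
  set x := Gm P y with hxdef
  rw [hy', Prod.norm_def, max_le_iff]
  constructor
  · obtain ⟨h1, h2⟩ := hre x hx (i0 P)
    set τ := tauF (P.ν (i0 P)) (P.Q (i0 P)) x with hτ
    show ‖(τ + 1)⁻¹ • x.1‖ ≤ P.Cp + 1
    rw [norm_smul, norm_inv]
    have hre1 : 1 + τ.re ≤ ‖τ + 1‖ := by
      have := Complex.re_le_norm (τ + 1)
      simp at this
      linarith
    have hpos : 0 < ‖τ + 1‖ := by linarith
    rw [inv_mul_le_iff₀ hpos]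
    have h3 : ‖x.1‖ ≤ (P.Cp + 1) * (1 + τ.re) := by
      have h4 : 0 ≤ (P.Cp + 1) * (1 + τ.re) := by positivity
      refine abs_le_of_sq_le_sq' ?_ h4 |>.2
      refine h2.trans ?_
      nlinarith [mul_nonneg hC h1, mul_nonneg hC hC, sq_nonneg (τ.re), mul_nonneg (mul_nonneg hC h1) h1]
    calc ‖x.1‖ ≤ (P.Cp + 1) * (1 + τ.re) := h3
      _ ≤ (P.Cp + 1) * ‖τ + 1‖ := by
          exact mul_le_mul_of_nonneg_left hre1 (by linarith)
      _ = ‖τ + 1‖ * (P.Cp + 1) := by ring
  · rw [pi_norm_le_iff_of_nonneg (by linarith)]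
    intro i
    have := norm_cayley (hre x hx i).1
    show ‖(tauF (P.ν i) (P.Q i) x - 1) * (tauF (P.ν i) (P.Q i) x + 1)⁻¹‖ ≤ P.Cp + 1
    linarith

end Model

section Assembly

variable {N : ℕ} {U : Set (Fin N → ℂ)} {n : ℕ} {Γ : Subgroup (Equiv.Perm U)}

/-- the identification `ℂ^m × ℂ^k ≃ ℂ^n` -/
noncomputable def eqv (P : PeakData U n) : EE P.m P.k ≃L[ℂ] (Fin n → ℂ) :=
  ContinuousLinearEquiv.ofFinrankEq (by simp [P.hmk])

/-- C6 + assembly for given data. -/
theorem model_of (P : PeakData U n) (S : ScaleSeq Γ P) (L : LimDom P S.Φ) :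
    ∃ (D : Set (Fin n → ℂ)) (Ψ : U → (Fin n → ℂ)) (Θ : (Fin n → ℂ) → (Fin N → ℂ)),
      IsOpen D ∧ Bornology.IsBounded D ∧ Biholo U D Ψ Θ ∧ Spans D := by
  set Om := range S.Φ with hOm
  have hineq : ∀ y ∈ Om, ∀ i, 0 ≤ (tauF (P.ν i) (P.Q i) y).re ∧
      ‖y.1‖ ^ 2 ≤ P.Cp * (tauF (P.ν i) (P.Q i) y).re := by
    rintro _ ⟨y, rfl⟩ i
    exact limit_ineq P S y i
  have hb := bih_Om P L.isOpen fun y hy i => (hineq y hy i).1
  have hspan : Spans Om := spans_Om P.inv L.isOpen L.sub L.closed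
  set e := eqv P with he
  have hb2 : Bih (DD0 P Om) (e.symm ⁻¹' (DD0 P Om)) e e.symm := by
    refine ⟨hb.opB, hb.opB.preimage e.symm.continuous, e.differentiable.differentiableOn,
      e.symm.differentiable.differentiableOn, ?_, ?_, ?_, ?_⟩
    · intro x hx
      show e.symm (e x) ∈ DD0 P Om
      rw [e.symm_apply_apply]; exact hx
    · intro x hx; exact hx
    · intro x _; exact e.symm_apply_apply x
    · intro x _; exact e.apply_symm_apply x
  refine ⟨e.symm ⁻¹' (DD0 P Om), fun y => e (Fm P (S.Φ y)), fun z => L.Θ0 (Gm P (e.symm z)),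
    hb2.opB, ?_, ⟨?_, ?_, ?_, ?_, ?_⟩, hb2.spans (hb.spans hspan)⟩
  · have h1 := bounded_DD0 P hineq
    have h2 : Bornology.IsBounded (e '' DD0 P Om) :=
      (e : EE P.m P.k →L[ℂ] (Fin n → ℂ)).lipschitz.isBounded_image h1
    refine h2.subset ?_
    intro z hz
    exact ⟨e.symm z, hz, e.apply_symm_apply z⟩
  · intro x
    obtain ⟨O, hO, hxO, g, hg, hgy⟩ := S.hΦ x
    refine ⟨O ∩ g ⁻¹' Om, hg.continuousOn.isOpen_inter_preimage hO L.isOpen, ⟨hxO, ?_⟩,
      fun y => e (Fm P (g y)), ?_, ?_⟩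
    · show g x ∈ Om
      rw [← hgy x hxO]
      exact mem_range_self _
    · exact e.differentiable.comp_differentiableOn
        (hb.hF.comp (hg.mono inter_subset_left) fun y hy => hy.2)
    · intro y hy
      show e (Fm P (S.Φ y)) = e (Fm P (g y))
      rw [hgy y hy.1]
  · refine L.hΘ0.comp (hb.hG.comp e.symm.differentiable.differentiableOn fun z hz => hz) ?_
    intro z hz
    exact hb.mapsG hz
  · intro y
    show e.symm (e (Fm P (S.Φ y))) ∈ DD0 P Om
    rw [e.symm_apply_apply]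
    exact hb.mapsF (mem_range_self _)
  · intro y
    show L.Θ0 (Gm P (e.symm (e (Fm P (S.Φ y))))) = y
    rw [e.symm_apply_apply, hb.left _ (mem_range_self _), L.left]
  · intro z hz
    have hz' : e.symm z ∈ DD0 P Om := hz
    obtain ⟨y, hy⟩ := hb.mapsG hz'
    refine ⟨y, ?_, ?_⟩
    · show (y : Fin N → ℂ) = L.Θ0 (Gm P (e.symm z))
      rw [← hy, L.left]
    · show e (Fm P (S.Φ y)) = z
      rw [hy, hb.right _ hz', e.apply_symm_apply]

end Assembly


end Crest.Agent.R264.CP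
end

-- ▼ part R264/AAsm0
section

/-!
Row 264 (S0402), PART A, ASSEMBLY, node ASM0 (helper369): the generic point (LEMMA J applied to
the coordinates of the ambient variety restricted to the peak stratum), and
`PKStmt → LemJ → CoordStmt → Asm1Stmt → ThmAT`.
-/

set_option autoImplicit false

open Topology Filter Set Metric Complex
open scoped ContDiff

namespace Crest.Agent.R264.AI

open Crest.AlgGeometry.Semialg

/-- statement of `asm1` (node ASM1): `GraphData ⟹ PeakData`. -/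
def Asm1Stmt : Prop :=
  ∀ (N : ℕ) (U : Set (Fin N → ℂ)) (Γ : Subgroup (Equiv.Perm U)), Setup N U Γ →
    ∀ n : ℕ, 0 < n → IsSubmfd n U → ∀ m k : ℕ, m + k = n → GraphData m k U →
      Nonempty (PeakData U n)

/-- evaluation of a substituted polynomial -/
theorem eval_bind₁_poly {N n : ℕ} (t : Fin n → MvPolynomial (Fin N) ℂ)
    (R : MvPolynomial (Fin n) ℂ) (x : Fin N → ℂ) :
    MvPolynomial.eval x (MvPolynomial.bind₁ t R) = MvPolynomial.eval (polyMap t x) R := by
  have := MvPolynomial.aeval_bind₁ (S := ℂ) x t R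
  rw [show polyMap t x = fun i => MvPolynomial.eval x (t i) from rfl]
  simpa [MvPolynomial.aeval_eq_eval] using this

/-- LEMMA J gives the generic point on the peak stratum. -/
theorem exists_tau1 (hJ : LemJ) {N n : ℕ} {V U : Set (Fin N → ℂ)} (A : AlgData n V U)
    (K : PKData U A.I0 A.D) :
    ∃ τ₁ ∈ K.T,
      Submodule.span ℂ (range (fderiv ℝ (fun τ => polyMap A.t (K.ε τ)) τ₁)) = ⊤ := by
  refine hJ K.r n K.T (fun τ => polyMap A.t (K.ε τ)) K.hT K.hTne K.hTconv ?_ ?_ ?_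
  · intro τ hτ
    refine analyticAt_pi_iff.2 fun i => ?_
    have h1 : AnalyticAt ℝ K.ε τ := K.hε τ hτ
    have h2 : ∀ j, AnalyticAt ℝ (fun τ => K.ε τ j) τ := fun j => (analyticAt_pi_iff.1 h1) j
    have h3 := AnalyticAt.aeval_mvPolynomial (A := ℂ) (B := ℂ) h2 (A.t i)
    simpa [polyMap, MvPolynomial.aeval_eq_eval] using h3
  · intro R hR
    apply A.indep
    apply K.gen
    intro τ hτ
    rw [eval_bind₁_poly]
    exact hR τ hτ
  · intro i
    exact K.alg (A.t i)

/-- `PKStmt → LemJ → CoordStmt → Asm1Stmt → ThmAT`. -/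
theorem thmAT_of0 (hPK : PKStmt) (hJ : LemJ) (hC : CoordStmt) (h1 : Asm1Stmt) : ThmAT := by
  intro N U Γ S V O hV hO hUO n hn hU A
  obtain ⟨K⟩ := hPK N U Γ S V O hV hO hUO n hn hU A
  obtain ⟨τ₁, hτ₁, hsp⟩ := exists_tau1 hJ A K
  obtain ⟨m, k, hmk, ⟨G⟩⟩ := hC N n V U O hV hO hUO S.sa S.bdd A K τ₁ hτ₁ hsp
  exact h1 N U Γ S n hn hU m k hmk G

end Crest.Agent.R264.AI
end

-- ▼ part R264/ASM
section

/-!
Row 264 (S0402), PART A, ASSEMBLY (helper369): `GraphData ⟹ PeakData`, and `ThmAT`.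
-/

set_option autoImplicit false

open Topology Filter Set Metric Complex
open scoped ContDiff

namespace Crest.Agent.R264.AI

open Crest.AlgGeometry.Semialg
open Crest.Agent.R264.JL (P sig Amap ofR reV dil Far OMs)

variable {N m k : ℕ} {U : Set (Fin N → ℂ)}

namespace ASM

/-! ### boundary points in the chart -/

theorem sig_closure (G : GraphData m k U) {a : P m k} (ha : a ∈ G.O) :
    sig G.Ht a ∈ closure G.UU := by
  have hW := G.sig_W a ha
  have hp : G.e (sig G.Ht a) ∈ closure U := G.sig_cl a ha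
  have hB : G.e (sig G.Ht a) ∈ G.B := G.e_mem _ hW
  have hk : G.κ (G.e (sig G.Ht a)) = sig G.Ht a := G.κ_e _ hW
  rw [mem_closure_iff_nhds]
  intro S hS
  have hc : Tendsto G.κ (𝓝 (G.e (sig G.Ht a))) (𝓝 (sig G.Ht a)) := by
    have := G.hκ.continuous.tendsto (G.e (sig G.Ht a))
    rwa [hk] at this
  have h1 : G.κ ⁻¹' S ∩ G.B ∈ 𝓝 (G.e (sig G.Ht a)) :=
    inter_mem (hc hS) (G.hB.mem_nhds hB)
  obtain ⟨x, ⟨hxS, hxB⟩, hxU⟩ := mem_closure_iff_nhds.1 hp _ h1
  refine ⟨G.κ x, hxS, (G.UU_iff _).2 ⟨G.κ_mem x (subset_closure hxU) hxB, ?_⟩⟩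
  rw [G.e_κ x (subset_closure hxU) hxB]
  exact hxU

theorem sig_notMem (G : GraphData m k U) {a : P m k} (ha : a ∈ G.O) : sig G.Ht a ∉ G.UU := by
  intro h
  exact G.sig_nU a ha ((G.UU_iff _).1 h).2

/-- the codimension `k` of the peak stratum is positive -/
theorem k_pos (G : GraphData m k U) : 0 < k := by
  rcases Nat.eq_zero_or_pos k with hk | hk
  swap
  · exact hk
  exfalso
  subst hk
  obtain ⟨a, ha⟩ := G.hOne
  have hcl := sig_closure G ha
  have hop : IsOpen {y : EE m 0 | ((y.1, 0) : P m 0) ∈ G.O} :=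
    G.hO.preimage (continuous_fst.prodMk continuous_const)
  have hmem : sig G.Ht a ∈ {y : EE m 0 | ((y.1, 0) : P m 0) ∈ G.O} := by
    have h0 : ((sig G.Ht a).1, (0 : Fin 0 → ℝ)) = a := Prod.ext rfl (Subsingleton.elim _ _)
    show ((sig G.Ht a).1, (0 : Fin 0 → ℝ)) ∈ G.O
    rw [h0]
    exact ha
  obtain ⟨y, hy1, hy2⟩ := mem_closure_iff_nhds.1 hcl _ (hop.mem_nhds hmem)
  have hy : sig G.Ht (y.1, 0) = y := Prod.ext rfl (Subsingleton.elim _ _)
  have h2 := sig_notMem G (a := (y.1, 0)) hy1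
  rw [hy] at h2
  exact h2 hy2

/-! ### dilations, the limit domain, the maps `L_{b,t}` -/

theorem Dil_eq (ε : ℝ) (y : EE m k) : Dil ε y = dil ε y := by
  refine Prod.ext ?_ ?_
  · funext i
    simp [Dil, dil]
  · funext i
    simp [Dil, dil]

theorem norm_dil_le {ε : ℝ} (h0 : 0 ≤ ε) (h1 : ε ≤ 1) (y : EE m k) : ‖Dil ε y‖ ≤ ε * ‖y‖ := by
  rw [Dil_eq]
  have ha : ‖y.1‖ ≤ ‖y‖ := norm_fst_le y
  have hb : ‖y.2‖ ≤ ‖y‖ := norm_snd_le y
  refine norm_prod_le_iff.2 ⟨?_, ?_⟩
  · show ‖ε • y.1‖ ≤ ε * ‖y‖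
    rw [norm_smul, Real.norm_of_nonneg h0]
    exact mul_le_mul_of_nonneg_left ha h0
  · show ‖(ε ^ 2) • y.2‖ ≤ ε * ‖y‖
    rw [norm_smul, Real.norm_of_nonneg (by positivity)]
    calc ε ^ 2 * ‖y.2‖ ≤ ε * ‖y.2‖ :=
          mul_le_mul_of_nonneg_right (by nlinarith) (norm_nonneg _)
      _ ≤ ε * ‖y‖ := mul_le_mul_of_nonneg_left hb h0

theorem isOpen_OMs (UU' : Set (EE m k)) : IsOpen (OMs UU') := by
  rw [isOpen_iff_mem_nhds]
  rintro x ⟨r, hr, h⟩
  filter_upwards [ball_mem_nhds x hr] with y hy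
  have hy' : dist y x < r := hy
  refine ⟨r - dist y x, by linarith, ?_⟩
  filter_upwards [h] with ε hε
  refine Subset.trans (ball_subset_ball' ?_) hε
  linarith

/-- the form `DD` -/
noncomputable def toDD (DD : (Fin m → ℂ) →L[ℝ] ((Fin m → ℂ) →L[ℂ] (Fin k → ℂ))) : DDForm m k where
  toFun b := (DD b : (Fin m → ℂ) →ₗ[ℂ] (Fin k → ℂ))
  map_add' x y := by
    ext z : 1
    simp
  map_smul' c x := by
    ext z : 1
    simp

theorem Lmap_eq (DD : (Fin m → ℂ) →L[ℝ] ((Fin m → ℂ) →L[ℂ] (Fin k → ℂ))) (b : Fin m → ℂ)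
    (t : Fin k → ℝ) (x : EE m k) : Lmap (toDD DD) b t x = JL.Lmap DD b t x := by
  refine Prod.ext rfl ?_
  funext i
  simp [Lmap, JL.Lmap, toDD, mul_assoc]

end ASM

open ASM

/-- NODE ASM1: `GraphData ⟹ PeakData`. -/
theorem asm1 (hFC : FChartStmt) (hArc : ArcStmt) (hFar : FarStmt) (hJL : JL.Main)
    (hCtrl : CtrlStmt) (hBox : BoxStmt) : Asm1Stmt := by
  intro N U Γ S n hn hU m k hmk G
  have hk : 0 < k := k_pos G
  -- arcs
  obtain ⟨A⟩ := hArc m k G.O G.Ht G.UU G.hO G.hOne G.Hsm G.Hsa G.UUopen G.UUsa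
    (fun a ha => sig_closure G ha) (fun a ha => sig_notMem G ha)
  -- joint limit
  obtain ⟨a0, ha0, DD, hL, hK2⟩ := hJL m k G.Ht A.O' G.UU A.hO' A.hne
    (ContDiffOn.mono (by exact_mod_cast contDiffOn_infty.1 G.Hsm 2) A.sub)
    (fun a ha => G.Hsmall a (A.sub ha)) G.UUopen
    (fun a _ x r hr => hFar m k G.Ht G.UU G.UUsa a x r hr)
  have haO : a0 ∈ G.O := A.sub ha0
  -- final chart
  obtain ⟨F⟩ := hFC N U Γ S n hU m k hmk G a0 haO
  obtain ⟨ρ₁, hρ₁, hKS⟩ := F.ks
  -- peak functions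
  obtain ⟨h, M, ν, Q, C, ρ, hρ, hρW, hh, hM, hlt, hν, hexp, hctl⟩ :=
    hCtrl N m k U G.g F.W F.e G.B F.κ F.hW F.W0 F.he G.hB F.hκ.differentiableOn F.e_mem F.κ_e
      (by rw [F.e0]; exact G.g_ne a0 haO) F.peak
  -- boxes
  obtain ⟨c, Cb, t₀, hc, ht₀, hbox⟩ := hBox m k G.O G.Ht G.UU G.hO G.Hsm G.Hsmall G.UUopen A a0 ha0
    ρ₁ hρ₁ hKS
  choose! eb heb hbx using hbox
  set UU' : Set (EE m k) := Amap G.Ht a0 '' G.UU with hUU'
  have hsubW : ∀ y ∈ UU' ∩ ball 0 ρ, y ∈ F.W := fun y hy => ((F.UU_iff y).1 hy.1).1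
  have hcl0 : F.e 0 ∈ closure U := by
    rw [F.e0]
    exact G.sig_cl a0 haO
  -- the size of the boxes
  obtain ⟨ts, hts, hts₀, hts1, htsρ⟩ : ∃ ts : ℝ, 0 < ts ∧ ts ≤ t₀ ∧ ts ≤ 1 ∧
      ∀ t, 0 < t → t < ts → (c + |Cb| + 1) * Real.sqrt t < ρ := by
    have hKp : 0 < c + |Cb| + 1 := by positivity
    refine ⟨min t₀ (min 1 ((ρ / (c + |Cb| + 1)) ^ 2)), by positivity, min_le_left _ _,
      (min_le_right _ _).trans (min_le_left _ _), ?_⟩
    intro t ht htt
    have h1 : t < (ρ / (c + |Cb| + 1)) ^ 2 :=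
      lt_of_lt_of_le htt ((min_le_right _ _).trans (min_le_right _ _))
    have h2 : Real.sqrt t < ρ / (c + |Cb| + 1) := by
      rw [Real.sqrt_lt' (by positivity)]
      exact h1
    rwa [lt_div_iff₀ hKp, mul_comm] at h2
  refine ⟨{
    m := m
    k := k
    hmk := hmk
    hk := hk
    p0 := F.e 0
    hp0 := hcl0
    O := G.B ∩ {x | ‖F.κ x‖ < ρ}
    hO := G.hB.inter (isOpen_lt F.hκ.continuous.norm continuous_const)
    hpO := ?_
    κ := F.κ
    hκ := F.hκ.differentiableOn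
    κ_p0 := F.κ_e 0 F.W0
    UU := UU' ∩ ball 0 ρ
    hUU := F.UUo.inter isOpen_ball
    χ := F.e
    hχ := F.he.mono hsubW
    hχ0 := ?_
    κ_mem := ?_
    χ_mem := ?_
    χ_κ := fun x hx hxO => F.e_κ x (subset_closure hx) hxO.1
    κ_χ := fun y hy => F.κ_e y (hsubW y hy)
    h := h
    hh := hh
    M := M
    h_p0 := hM
    h_lt := hlt
    ν := ν
    hν := hν
    Q := Q
    Cp := max C (max Cb 0)
    expand := ?_
    ctrl := ?_
    c := c
    hc := hc
    ts := ts
    hts := hts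
    e := eb
    e_le := ?_
    box := ?_
    OM := OMs UU'
    OM_open := isOpen_OMs UU'
    kernel₁ := ?_
    kernel₂ := ?_
    DD := toDD DD
    inv := ?_ }⟩
  · refine ⟨F.e_mem 0 F.W0, ?_⟩
    show ‖F.κ (F.e 0)‖ < ρ
    rw [F.κ_e 0 F.W0, norm_zero]
    exact hρ
  · have h1 : ContinuousAt F.e 0 :=
      ((F.he 0 F.W0).differentiableAt (F.hW.mem_nhds F.W0)).continuousAt
    exact h1.tendsto.mono_left nhdsWithin_le_nhds
  · intro x hx hxO
    refine ⟨(F.UU_iff _).2 ⟨F.κ_mem x (subset_closure hx) hxO.1, ?_⟩, ?_⟩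
    · rw [F.e_κ x (subset_closure hx) hxO.1]
      exact hx
    · rw [mem_ball_zero_iff]
      exact hxO.2
  · intro y hy
    refine ⟨((F.UU_iff y).1 hy.1).2, F.e_mem y (hsubW y hy), ?_⟩
    show ‖F.κ (F.e y)‖ < ρ
    rw [F.κ_e y (hsubW y hy)]
    exact mem_ball_zero_iff.1 hy.2
  · intro i y hy
    refine (hexp i y hy.2).trans ?_
    exact mul_le_mul_of_nonneg_right (le_max_left _ _) (by positivity)
  · intro i y hy
    have hyU := ((F.UU_iff y).1 hy.1).2
    refine (hctl i y hy.2 hyU).trans ?_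
    refine mul_le_mul_of_nonneg_right (le_max_left _ _) ?_
    rcases eq_or_ne (F.e y) (F.e 0) with h0 | h0
    · rw [h0, hM i, Complex.ofReal_re, sub_self]
    · have := hlt i _ (subset_closure hyU) h0
      linarith
  · intro t ht htt
    exact (heb t ht (lt_of_lt_of_le htt hts₀)).trans ((le_max_left _ _).trans (le_max_right _ _))
  · intro t ht htt y hy1 hy2
    have htt' := lt_of_lt_of_le htt hts₀
    have hv : (Complex.I * (t : ℂ)) • cvec (eb t) = fun i => Complex.I * (t * (eb t i : ℂ)) := by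
      funext i
      simp [cvec, mul_assoc]
    rw [hv] at hy2
    refine ⟨hbx t ht htt' y hy1 hy2, ?_⟩
    have hs := htsρ t ht htt
    have ht1 : t ≤ 1 := (htt.le).trans hts1
    have hs0 : 0 ≤ Real.sqrt t := Real.sqrt_nonneg t
    have hts' : t ≤ Real.sqrt t := by
      rw [Real.le_sqrt' ht]
      nlinarith
    have hC0 : 0 ≤ |Cb| := abs_nonneg _
    rw [mem_ball_zero_iff]
    refine lt_of_le_of_lt (norm_prod_le_iff.2 ⟨?_, ?_⟩) hs
    · refine hy1.le.trans ?_
      nlinarith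
    · have h2 : ‖(fun i => Complex.I * (t * (eb t i : ℂ)) : Fin k → ℂ)‖ ≤ t * |Cb| := by
        refine (pi_norm_le_iff_of_nonneg (by positivity)).2 fun i => ?_
        have h3 : ‖Complex.I * ((t : ℂ) * (eb t i : ℂ))‖ = t * |eb t i| := by
          rw [norm_mul, Complex.norm_I, one_mul, norm_mul, Complex.norm_real, Complex.norm_real,
            Real.norm_of_nonneg ht.le, Real.norm_eq_abs]
        rw [h3]
        refine mul_le_mul_of_nonneg_left ?_ ht.le
        have h4 : |eb t i| ≤ ‖eb t‖ := by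
          rw [← Real.norm_eq_abs]
          exact norm_le_pi_norm (eb t) i
        exact h4.trans ((heb t ht htt').trans (le_abs_self _))
      have h5 : ‖y.2‖ ≤ ‖y.2 - (fun i => Complex.I * (t * (eb t i : ℂ)))‖
          + ‖(fun i => Complex.I * (t * (eb t i : ℂ)) : Fin k → ℂ)‖ := by
        have := norm_add_le (y.2 - (fun i => Complex.I * (t * (eb t i : ℂ))))
          (fun i => Complex.I * (t * (eb t i : ℂ)) : Fin k → ℂ)
        rwa [sub_add_cancel] at this
      have h6 : t * |Cb| ≤ Real.sqrt t * |Cb| := mul_le_mul_of_nonneg_right hts' hC0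
      have h7 : c * t ≤ c * Real.sqrt t := mul_le_mul_of_nonneg_left hts' hc.le
      nlinarith
  · rintro x ⟨r, hr, hx⟩
    refine ⟨r, hr, ?_⟩
    have hsm : ∀ᶠ ε : ℝ in 𝓝[>] (0 : ℝ), ε * (‖x‖ + r) < ρ := by
      have h1 : Tendsto (fun ε : ℝ => ε * (‖x‖ + r)) (𝓝[>] (0 : ℝ)) (𝓝 (0 * (‖x‖ + r))) :=
        (tendsto_id.mono_left nhdsWithin_le_nhds).mul_const _
      rw [zero_mul] at h1
      exact h1.eventually (Iio_mem_nhds hρ)
    have hle : ∀ᶠ ε : ℝ in 𝓝[>] (0 : ℝ), ε ≤ 1 :=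
      nhdsWithin_le_nhds (Iic_mem_nhds one_pos)
    filter_upwards [hx, hsm, hle, self_mem_nhdsWithin] with ε h1 h2 h3 h4 y hy
    have h4' : (0 : ℝ) < ε := h4
    refine ⟨?_, ?_⟩
    · have := h1 hy
      rw [Dil_eq]
      exact this
    · rw [mem_ball_zero_iff]
      refine lt_of_le_of_lt ((norm_dil_le h4'.le h3 y).trans ?_) h2
      refine mul_le_mul_of_nonneg_left ?_ h4'.le
      have h5 : ‖y - x‖ < r := by simpa [dist_eq_norm] using hy
      have h6 : ‖y‖ ≤ ‖x‖ + ‖y - x‖ := by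
        have := norm_add_le x (y - x)
        rwa [add_sub_cancel] at this
      linarith
  · intro x r hr hx
    refine hK2 x r hr (hx.mono fun ε hε y hy => ?_)
    have := (hε y hy).1
    rw [Dil_eq] at this
    exact this
  · intro b t x hx
    rw [Lmap_eq]
    have h1 : JL.Lmap DD b t x ∈ JL.Lmap DD b t '' OMs UU' := ⟨x, hx, rfl⟩
    rw [hL b t] at h1
    exact h1

/-- **THEOREM A (ThmAT) from the nodes of Part A.** -/
theorem thmAT_of (hPK : PKStmt) (hJ : LemJ) (hC : CoordStmt) (hFC : FChartStmt) (hArc : ArcStmt)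
    (hFar : FarStmt) (hJL : JL.Main) (hCtrl : CtrlStmt) (hBox : BoxStmt) : ThmAT :=
  thmAT_of0 hPK hJ hC (asm1 hFC hArc hFar hJL hCtrl hBox)

end Crest.Agent.R264.AI
end

-- ▼ part R264/APk
section

/-!
Row 264, Part A: `AI.PKStmt` from `StrataStmt`, `MSmooth`, `PKCalc` (helper541).
-/

set_option autoImplicit false

open Topology Filter Set Metric Complex
open scoped ContDiff

namespace Crest.Agent.R264.AI

open Crest.AlgGeometry.Semialg

/-- maximum principle: the real part of a holomorphic function has no strict local maximum -/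
theorem no_strict_max {n : ℕ} (hn : 0 < n) {W : Set (Fin n → ℂ)} (hW : IsOpen W)
    {w₀ : Fin n → ℂ} (h0 : w₀ ∈ W) {f : (Fin n → ℂ) → ℂ} (hf : DifferentiableOn ℂ f W)
    (h : ∀ w ∈ W, w ≠ w₀ → (f w).re < (f w₀).re) : False := by
  haveI : Nonempty (Fin n) := ⟨⟨0, hn⟩⟩
  have h1 : ∀ᶠ z in 𝓝 w₀, DifferentiableAt ℂ (fun z => Complex.exp (f z)) z := by
    filter_upwards [hW.mem_nhds h0] with z hz
    exact (hf.differentiableAt (hW.mem_nhds hz)).cexp
  have h2 : IsLocalMax (norm ∘ fun z => Complex.exp (f z)) w₀ := by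
    filter_upwards [hW.mem_nhds h0] with z hz
    simp only [Function.comp, Complex.norm_exp]
    by_cases hz0 : z = w₀
    · rw [hz0]
    · exact Real.exp_le_exp.2 (h z hz hz0).le
  have h3 := Complex.eventually_eq_of_isLocalMax_norm h1 h2
  haveI : (𝓝[≠] w₀).NeBot := Module.punctured_nhds_neBot ℂ (Fin n → ℂ) w₀
  have h4 : ∀ᶠ z in 𝓝[≠] w₀, z ∈ W ∧ z ≠ w₀ ∧ Complex.exp (f z) = Complex.exp (f w₀) := by
    filter_upwards [self_mem_nhdsWithin, mem_nhdsWithin_of_mem_nhds (hW.mem_nhds h0),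
      mem_nhdsWithin_of_mem_nhds h3] with z hz hzW hz3
    exact ⟨hzW, hz, hz3⟩
  obtain ⟨z, hzW, hz, hz3⟩ := h4.exists
  have h5 := congrArg norm hz3
  rw [Complex.norm_exp, Complex.norm_exp] at h5
  exact absurd (Real.exp_injective h5) (h z hzW hz).ne

theorem continuous_realCoords' {N : ℕ} : Continuous (realCoords : (Fin N → ℂ) → _) := by
  refine continuous_pi fun i => ?_
  cases i with
  | inl i => exact Complex.continuous_re.comp (continuous_apply i)
  | inr i => exact Complex.continuous_im.comp (continuous_apply i)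

theorem continuous_tS {N : ℕ} (S : RStrat N) : Continuous S.tS :=
  continuous_pi fun i => (MvPolynomial.continuous_eval (S.t i)).comp continuous_realCoords'

theorem pol_realCoords {V : Type*} [AddCommGroup V] [Module ℝ V] {N : ℕ}
    {f : V → (Fin N → ℂ)} (hf : Pol f) : Pol (fun v => realCoords (f v)) := by
  refine Pol.pi fun i => ?_
  cases i with
  | inl i => exact (hf.apply i).re
  | inr i => exact (hf.apply i).im

theorem continuous_gq {N : ℕ} (g : MvPolynomial (Fin N) ℂ) (c : QV N) :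
    Continuous (gq g c) := by
  have h1 : Continuous fun x : Fin N → ℂ => Pk.qev c x := by
    unfold Pk.qev
    fun_prop
  exact (MvPolynomial.continuous_eval g).mul h1

theorem le_Mfun {N : ℕ} {K : Set (Fin N → ℂ)} (hK : IsCompact K) (g : MvPolynomial (Fin N) ℂ)
    (c : QV N) {x : Fin N → ℂ} (hx : x ∈ K) : (gq g c x).re ≤ Mfun K g c :=
  le_csSup (hK.bddAbove_image (Complex.continuous_re.comp (continuous_gq g c)).continuousOn)
    (mem_image_of_mem _ hx)

theorem differentiable_gq {N : ℕ} (g : MvPolynomial (Fin N) ℂ) (c : QV N) :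
    Differentiable ℂ (gq g c) := by
  have h1 : Differentiable ℂ fun x : Fin N → ℂ => Pk.qev c x := by
    unfold Pk.qev
    fun_prop
  have h2 : Differentiable ℂ fun x : Fin N → ℂ => MvPolynomial.eval x g := by
    induction g using MvPolynomial.induction_on with
    | C a => simp
    | add p q hp hq =>
      simp only [map_add]
      exact hp.add hq
    | mul_X p i hp =>
      simp only [map_mul, MvPolynomial.eval_X]
      exact hp.mul (by fun_prop)
  exact h2.mul h1

theorem pkStmt (hSt : StrataStmt) (hMS : MSmooth) (hPK : PKCalc) : PKStmt := by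
  classical
  intro N U Γ S V O hV hO hUO n hn hU A
  have hKc : IsCompact (closure U) :=
    Metric.isCompact_of_isClosed_isBounded isClosed_closure S.bdd.closure
  have hUne : U.Nonempty := S.conn.nonempty
  have hKne : (closure U).Nonempty := hUne.closure
  have hKsa : SAV (closure U) := (SAV.of_isSemialgebraic S.sa).closure
  obtain ⟨ν, St, hcov, hrel⟩ := hSt N (closure U) hKsa
  have hone : (1 : MvPolynomial (Fin N) ℂ) ∉ A.I0 := by
    intro h
    exact A.prime.ne_top ((Ideal.eq_top_iff_one _).2 h)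
  have hfa : ∀ a : Fin ν, ∃ f : MvPolynomial (Fin N) ℂ, f ∉ A.I0 ∧
      ((∀ x ∈ (St a).S, MvPolynomial.eval x f = 0) ∨
        ∀ f' : MvPolynomial (Fin N) ℂ, (∀ x ∈ (St a).S, MvPolynomial.eval x f' = 0) →
          f' ∈ A.I0) := by
    intro a
    by_cases h : ∃ f : MvPolynomial (Fin N) ℂ, f ∉ A.I0 ∧ ∀ x ∈ (St a).S, MvPolynomial.eval x f = 0
    · obtain ⟨f, hf, hf0⟩ := h
      exact ⟨f, hf, Or.inl hf0⟩
    · push Not at h
      refine ⟨1, hone, Or.inr fun f' hf' => ?_⟩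
      by_contra hn'
      obtain ⟨x, hx, hx0⟩ := h f' hn'
      exact hx0 (hf' x hx)
  choose fa hfa0 hfa1 using hfa
  set g : MvPolynomial (Fin N) ℂ := A.D * ∏ a, fa a with hgdef
  have hg : g ∉ A.I0 := by
    rw [hgdef, A.prime.mul_mem_iff_mem_or_mem]
    rintro (h | h)
    · exact A.hD h
    · obtain ⟨a, -, ha⟩ := (A.prime.prod_mem_iff).1 h
      exact hfa0 a ha
  -- the support function is positive somewhere
  have hpos : ∃ c, 0 < Mfun (closure U) g c := by
    rw [A.van] at hg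
    push Not at hg
    obtain ⟨x, hx, hx0⟩ := hg
    refine ⟨((starRingEnd ℂ) (MvPolynomial.eval x g), 0, 0), ?_⟩
    refine lt_of_lt_of_le ?_ (le_Mfun hKc g _ (subset_closure hx))
    have h1 : gq g ((starRingEnd ℂ) (MvPolynomial.eval x g), 0, 0) x
        = ((Complex.normSq (MvPolynomial.eval x g) : ℝ) : ℂ) := by
      simp [gq, Pk.qev, Complex.mul_conj]
    rw [h1, Complex.ofReal_re]
    exact Complex.normSq_pos.2 hx0
  obtain ⟨W, hWo, hWne, hWpos, hWsm⟩ := hMS N (closure U) g hKc hKne hKsa hpos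
  obtain ⟨a, x₀, O₁, hx₀S, hO₁, hx₀O, hpk⟩ :=
    hPK N (closure U) g ν St W hKc hKne hWo hWne hWpos hWsm hcov hrel
  -- the stratum is dense
  have hdense : ∀ f' : MvPolynomial (Fin N) ℂ, (∀ x ∈ (St a).S, MvPolynomial.eval x f' = 0) →
      f' ∈ A.I0 := by
    rcases hfa1 a with h | h
    · exfalso
      refine (hpk x₀ hx₀S hx₀O).2.1 ?_
      rw [hgdef, map_mul, map_prod]
      rw [Finset.prod_eq_zero (Finset.mem_univ a) (h x₀ hx₀S), mul_zero]
    · exact h
  obtain ⟨B, T, ε, hx₀B, hc'⟩ := (St a).chart x₀ hx₀S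
  have hc : IsRChart (St a).S (St a).tS B T ε := hc'
  obtain ⟨hτ₀, hετ₀⟩ := hc.back x₀ hx₀B hx₀S
  set τ₀ := (St a).tS x₀ with hτ₀def
  obtain ⟨ρ₁, hρ₁, hρ₁sub⟩ := Metric.isOpen_iff.1 (hc.hB.inter hO₁) x₀ ⟨hx₀B, hx₀O⟩
  have h1 : ∀ᶠ τ in 𝓝 τ₀, ε τ ∈ ball x₀ ρ₁ := by
    have h2 : ContinuousAt ε τ₀ := (hc.hε τ₀ hτ₀).continuousAt
    have h3 : ball x₀ ρ₁ ∈ 𝓝 (ε τ₀) := by rw [hετ₀]; exact ball_mem_nhds _ hρ₁
    exact h2.eventually h3
  obtain ⟨δ, hδ, hδsub⟩ := Metric.eventually_nhds_iff_ball.1 (h1.and (hc.hT.mem_nhds hτ₀))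
  have hT' : ∀ τ ∈ ball τ₀ δ, ε τ ∈ ball x₀ ρ₁ ∧ τ ∈ T := hδsub
  have hTS : ∀ τ ∈ ball τ₀ δ, ε τ ∈ B ∧ ε τ ∈ (St a).S ∧ (St a).tS (ε τ) = τ :=
    fun τ hτ => hc.maps τ (hT' τ hτ).2
  have hp : ∀ τ ∈ ball τ₀ δ, ε τ ∈ closure U ∧ MvPolynomial.eval (ε τ) g ≠ 0 ∧
      PeakAt (closure U) g (ε τ) (range (fderiv ℝ ε τ)) := by
    intro τ hτ
    obtain ⟨hB', hS', ht'⟩ := hTS τ hτ
    obtain ⟨h2, h3, h4⟩ := hpk (ε τ) hS' (hρ₁sub (hT' τ hτ).1).2
    have h5 := h4 B T ε hc hB'
    rw [ht'] at h5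
    exact ⟨h2, h3, h5⟩
  refine ⟨{ r := (St a).r, T := ball τ₀ δ, ε := ε, t := (St a).t, hT := isOpen_ball,
            hTne := ⟨τ₀, mem_ball_self hδ⟩, hTconv := convex_ball _ _, hTsa := ?_, hε := ?_,
            t_ε := ?_, sa := ?_, mem := fun τ hτ => (hp τ hτ).1, nmem := ?_, D_ne := ?_, g := g,
            g_ne := fun τ hτ => (hp τ hτ).2.1, peak := fun τ hτ => (hp τ hτ).2.2, gen := ?_,
            alg := ?_ }⟩
  · exact SAV.dist_lt (f := fun v => v) (g := fun _ => τ₀) (r := fun _ => δ) (by fun_prop)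
      (by fun_prop) (by fun_prop)
  · exact fun τ hτ => hc.hε τ (hT' τ hτ).2
  · intro τ hτ i
    exact congrFun (hTS τ hτ).2.2 i
  · -- the graph is semialgebraic
    have e1 : {p : (Fin (St a).r → ℝ) × (Fin N → ℂ) | p.1 ∈ ball τ₀ δ ∧ p.2 = ε p.1}
        = {p | dist p.1 τ₀ < δ ∧ (p.2 ∈ (St a).S ∧ (dist p.2 x₀ < ρ₁ ∧
            ∀ i, MvPolynomial.eval (realCoords p.2) ((St a).t i) = p.1 i))} := by
      ext p
      constructor
      · rintro ⟨h2, h3⟩
        refine ⟨h2, ?_⟩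
        rw [h3]
        exact ⟨(hTS p.1 h2).2.1, (hT' p.1 h2).1, fun i => congrFun (hTS p.1 h2).2.2 i⟩
      · rintro ⟨h2, h3, h4, h5⟩
        refine ⟨h2, ?_⟩
        have h6 : (St a).tS p.2 = p.1 := funext h5
        have h7 := (hc.back p.2 (hρ₁sub h4).1 h3).2
        rw [h6] at h7
        exact h7.symm
    rw [e1]
    refine SAV.and ?_ (SAV.and ?_ (SAV.and ?_ (SAV.forall_finite fun i => ?_)))
    · exact SAV.dist_lt (f := fun p : (Fin (St a).r → ℝ) × (Fin N → ℂ) => p.1)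
        (g := fun _ => τ₀) (r := fun _ => δ) (by fun_prop) (by fun_prop) (by fun_prop)
    · exact (St a).sa.preimage Pol.snd'
    · exact SAV.dist_lt (f := fun p : (Fin (St a).r → ℝ) × (Fin N → ℂ) => p.2)
        (g := fun _ => x₀) (r := fun _ => ρ₁) (by fun_prop) (by fun_prop) (by fun_prop)
    · exact SAV.eq (f := fun p : (Fin (St a).r → ℝ) × (Fin N → ℂ) =>
          MvPolynomial.eval (realCoords p.2) ((St a).t i)) (g := fun p => p.1 i)
        (Pol.reval _ (pol_realCoords Pol.snd')) (by fun_prop)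
  · -- not in `U`: maximum principle
    intro τ hτ hτU
    obtain ⟨c₀, δ', hδ', hc₀, hpeak⟩ := (hp τ hτ).2.2
    have hstrict := hpeak c₀ (by simpa using hδ') hc₀
    obtain ⟨C⟩ := hU (ε τ) hτU
    have hw₀ : C.π (ε τ) ∈ C.W := C.π_mem _ hτU C.mem
    have hψ₀ : C.ψ (C.π (ε τ)) = ε τ := C.ψ_π _ hτU C.mem
    refine no_strict_max hn C.hW hw₀ (f := fun w => gq g c₀ (C.ψ w)) ?_ ?_
    · exact (differentiable_gq g c₀).comp_differentiableOn C.hψ
    · intro w hw hwne
      change (gq g c₀ (C.ψ w)).re < (gq g c₀ (C.ψ (C.π (ε τ)))).re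
      rw [hψ₀]
      refine hstrict _ (subset_closure (C.ψ_mem w hw).1) fun h2 => hwne ?_
      rw [← C.π_ψ w hw, h2]
  · intro τ hτ h2
    refine (hp τ hτ).2.1 ?_
    rw [hgdef, map_mul, h2, zero_mul]
  · -- density
    intro f hf
    refine hdense f ?_
    refine (St a).ov f (B ∩ (St a).tS ⁻¹' ball τ₀ δ)
      (hc.hB.inter (isOpen_ball.preimage (continuous_tS _)))
      ⟨x₀, ⟨hx₀B, mem_ball_self hδ⟩, hx₀S⟩ ?_
    rintro x ⟨⟨hxB, hxt⟩, hxS⟩
    have h2 := hf _ hxt
    rwa [(hc.back x hxB hxS).2] at h2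
  · intro f
    obtain ⟨q, hq, hq0⟩ := (St a).int f
    refine ⟨q, hq, fun τ hτ => ?_⟩
    have h2 := hq0 (ε τ) (hTS τ hτ).2.1
    have h3 : (fun i => ((MvPolynomial.eval (realCoords (ε τ)) ((St a).t i) : ℝ) : ℂ))
        = fun i => ((τ i : ℝ) : ℂ) := by
      funext i
      have := congrFun (hTS τ hτ).2.2 i
      exact congrArg _ this
    rw [h3] at h2
    exact h2

end Crest.Agent.R264.AI
end

-- ▼ part R264/AS1
section

set_option autoImplicit false
set_option linter.unusedSectionVars false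

/-! Row 264, module AS part 1: commutative algebra behind the algebraic structure lemma. -/

open Polynomial nonZeroDivisors

namespace Crest.Agent.R264.AS

section Abstract

variable (T A : Type) [CommRing T] [IsDomain T] [CommRing A] [IsDomain A] [Algebra T A]
  [Module.Finite T A] [FaithfulSMul T A]

attribute [local instance] FractionRing.liftAlgebra FractionRing.isScalarTower_liftAlgebra

theorem exists_mul_eq {b : A} (hb : b ≠ 0) : ∃ c : A, ∃ n : T, n ≠ 0 ∧ b * c = algebraMap T A n := by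
  have hint : IsIntegral T b := Algebra.IsIntegral.isIntegral b
  obtain ⟨r, hr, c, hc⟩ := hint.isAlgebraic.exists_nonzero_dvd (mem_nonZeroDivisors_of_ne_zero hb)
  exact ⟨c, r, hr, hc.symm⟩

theorem frac_eq (x : FractionRing A) : ∃ a : A, ∃ n : T, n ≠ 0 ∧
    algebraMap T (FractionRing A) n * x = algebraMap A (FractionRing A) a := by
  obtain ⟨a, b, hb, rfl⟩ := IsFractionRing.div_surjective (A := A) x
  have hb0 : b ≠ 0 := nonZeroDivisors.ne_zero hb
  obtain ⟨c, n, hn, hc⟩ := exists_mul_eq T A hb0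
  refine ⟨a * c, n, hn, ?_⟩
  have hb' : algebraMap A (FractionRing A) b ≠ 0 := by
    simpa using (IsFractionRing.injective A (FractionRing A)).ne hb0
  rw [IsScalarTower.algebraMap_apply T A (FractionRing A), ← hc, map_mul, map_mul]
  field_simp

theorem finite_frac : Module.Finite (FractionRing T) (FractionRing A) := by
  classical
  obtain ⟨s, hs⟩ := (Module.Finite.fg_top : (⊤ : Submodule T A).FG)
  refine ⟨⟨s.image (algebraMap A (FractionRing A)), ?_⟩⟩
  rw [eq_top_iff]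
  intro x _
  obtain ⟨a, n, hn, h⟩ := frac_eq T A x
  have ha : a ∈ Submodule.span T (s : Set A) := by rw [hs]; trivial
  have h1 : algebraMap A (FractionRing A) a ∈ Submodule.span (FractionRing T)
      ((s.image (algebraMap A (FractionRing A)) : Finset (FractionRing A)) : Set (FractionRing A)) := by
    have h2 : (Algebra.linearMap A (FractionRing A)).restrictScalars T a ∈
        Submodule.map ((Algebra.linearMap A (FractionRing A)).restrictScalars T)
          (Submodule.span T (s : Set A)) := Submodule.mem_map_of_mem ha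
    rw [Submodule.map_span] at h2
    have h3 : Submodule.span T (((Algebra.linearMap A (FractionRing A)).restrictScalars T) '' (s : Set A))
        ≤ (Submodule.span (FractionRing T)
      ((s.image (algebraMap A (FractionRing A)) : Finset (FractionRing A)) : Set (FractionRing A))).restrictScalars T := by
      rw [Submodule.span_le]
      rintro _ ⟨y, hy, rfl⟩
      apply Submodule.subset_span
      rw [Finset.coe_image]
      exact ⟨y, hy, rfl⟩
    exact h3 h2
  have hn' : algebraMap T (FractionRing T) n ≠ 0 := by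
    simpa using (IsFractionRing.injective T (FractionRing T)).ne hn
  have : x = (algebraMap T (FractionRing T) n)⁻¹ • algebraMap A (FractionRing A) a := by
    rw [← h, Algebra.smul_def, map_inv₀, ← IsScalarTower.algebraMap_apply]
    have : algebraMap T (FractionRing A) n ≠ 0 := by
      rw [IsScalarTower.algebraMap_apply T (FractionRing T) (FractionRing A)]
      simpa using hn
    field_simp
  rw [this]
  exact Submodule.smul_mem _ _ h1

theorem exists_prim [CharZero T] : ∃ a : A, ∀ x : FractionRing A, ∃ p : (FractionRing T)[X],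
    x = aeval (algebraMap A (FractionRing A) a) p := by
  have := finite_frac T A
  have : CharZero (FractionRing T) := charZero_of_injective_algebraMap
    (IsFractionRing.injective T (FractionRing T))
  obtain ⟨α, hα⟩ := Field.exists_primitive_element (FractionRing T) (FractionRing A)
  obtain ⟨a, n, hn, h⟩ := frac_eq T A α
  refine ⟨a, fun x => ?_⟩
  have hn' : algebraMap T (FractionRing T) n ≠ 0 := by
    simpa using (IsFractionRing.injective T (FractionRing T)).ne hn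
  have hmem : x ∈ (IntermediateField.adjoin (FractionRing T) {algebraMap A (FractionRing A) a}) := by
    have h1 : (⊤ : IntermediateField (FractionRing T) (FractionRing A)) ≤
        IntermediateField.adjoin (FractionRing T) {algebraMap A (FractionRing A) a} := by
      rw [← hα, IntermediateField.adjoin_simple_le_iff]
      have h2 : α = algebraMap (FractionRing T) (FractionRing A) (algebraMap T (FractionRing T) n)⁻¹ *
          algebraMap A (FractionRing A) a := by
        rw [← h, map_inv₀, ← IsScalarTower.algebraMap_apply]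
        have : algebraMap T (FractionRing A) n ≠ 0 := by
          rw [IsScalarTower.algebraMap_apply T (FractionRing T) (FractionRing A)]
          simpa using hn
        field_simp
      rw [h2]
      exact mul_mem (IntermediateField.algebraMap_mem _ _)
        (IntermediateField.mem_adjoin_simple_self _ _)
    exact h1 trivial
  have halg : IsAlgebraic (FractionRing T) (algebraMap A (FractionRing A) a) :=
    Algebra.IsAlgebraic.isAlgebraic _
  rw [← IntermediateField.mem_toSubalgebra,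
    IntermediateField.adjoin_simple_toSubalgebra_of_isAlgebraic halg,
    Algebra.adjoin_singleton_eq_range_aeval] at hmem
  obtain ⟨p, hp⟩ := hmem
  exact ⟨p, hp.symm⟩

/-- common denominator form -/
theorem exists_coords [CharZero T] {ι : Type} [Finite ι] (x : ι → A) :
    ∃ a : A, ∃ d : T, d ≠ 0 ∧ ∀ i, ∃ R : T[X], algebraMap T A d * x i = aeval a R := by
  classical
  obtain ⟨a, ha⟩ := exists_prim T A
  choose p hp using fun i => ha (algebraMap A (FractionRing A) (x i))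
  have h1 : ∀ i, ∃ b : T, b ≠ 0 ∧ ∃ q : T[X], algebraMap T A b * x i = aeval a q := by
    intro i
    obtain ⟨b, hb, hq⟩ := IsLocalization.integerNormalization_spec T⁰ (p i)
    refine ⟨b, nonZeroDivisors.ne_zero hb, IsLocalization.integerNormalization T⁰ (p i), ?_⟩
    apply IsFractionRing.injective A (FractionRing A)
    rw [map_mul, ← IsScalarTower.algebraMap_apply, hp i]
    have e1 : algebraMap A (FractionRing A) (aeval a (IsLocalization.integerNormalization T⁰ (p i))) =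
        aeval (algebraMap A (FractionRing A) a)
          ((IsLocalization.integerNormalization T⁰ (p i)).map (algebraMap T (FractionRing T))) := by
      rw [aeval_map_algebraMap, aeval_algebraMap_apply]
    have e2 : (b • p i : (FractionRing T)[X]) = C (algebraMap T (FractionRing T) b) * p i := by
      rw [Algebra.smul_def]; rfl
    rw [e1, hq, e2, map_mul, aeval_C, ← IsScalarTower.algebraMap_apply]
  choose b hb0 q hq using h1
  have := Fintype.ofFinite ι
  refine ⟨a, ∏ i, b i, Finset.prod_ne_zero_iff.2 fun i _ => hb0 i, fun i => ?_⟩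
  refine ⟨C (∏ j ∈ Finset.univ.erase i, b j) * q i, ?_⟩
  rw [← Finset.mul_prod_erase _ _ (Finset.mem_univ i), map_mul, map_mul, aeval_C, ← hq i]
  ring

theorem sep_bezout [CharZero T] [IsIntegrallyClosed T] (a : A) : ∃ δ : T, δ ≠ 0 ∧
    ∃ U V : T[X], U * minpoly T a + V * derivative (minpoly T a) = C δ := by
  have hint : IsIntegral T a := Algebra.IsIntegral.isIntegral a
  have : CharZero (FractionRing T) := charZero_of_injective_algebraMap
    (IsFractionRing.injective T (FractionRing T))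
  have hirr : Irreducible ((minpoly T a).map (algebraMap T (FractionRing T))) := by
    rw [← minpoly.isIntegrallyClosed_eq_field_fractions (FractionRing T) (FractionRing A) hint]
    exact minpoly.irreducible (hint.map (IsScalarTower.toAlgHom T A (FractionRing A))).tower_top
  have hsep : ((minpoly T a).map (algebraMap T (FractionRing T))).Separable := hirr.separable
  obtain ⟨U, V, h⟩ := hsep
  obtain ⟨b1, hb1, hU⟩ := IsLocalization.integerNormalization_spec T⁰ U
  obtain ⟨b2, hb2, hV⟩ := IsLocalization.integerNormalization_spec T⁰ V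
  refine ⟨b1 * b2, mul_ne_zero (nonZeroDivisors.ne_zero hb1) (nonZeroDivisors.ne_zero hb2),
    C b2 * IsLocalization.integerNormalization T⁰ U, C b1 * IsLocalization.integerNormalization T⁰ V, ?_⟩
  apply Polynomial.map_injective _ (IsFractionRing.injective T (FractionRing T))
  rw [Polynomial.map_add, Polynomial.map_mul, Polynomial.map_mul, Polynomial.map_mul,
    Polynomial.map_mul, hU, hV, map_C, map_C, map_C, ← derivative_map]
  have : (b1 • U : (FractionRing T)[X]) = C (algebraMap T (FractionRing T) b1) * U := by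
    rw [Algebra.smul_def]; rfl
  rw [this]
  have : (b2 • V : (FractionRing T)[X]) = C (algebraMap T (FractionRing T) b2) * V := by
    rw [Algebra.smul_def]; rfl
  rw [this, map_mul, map_mul]
  linear_combination (C (algebraMap T (FractionRing T) b1) * C (algebraMap T (FractionRing T) b2)) * h

end Abstract

end Crest.Agent.R264.AS
end

-- ▼ part R264/AS2
section

set_option autoImplicit false
set_option linter.unusedSectionVars false

/-! Row 264, module AS part 2: the ALGEBRAIC STRUCTURE LEMMA. `ASD σ K` is the data, `exists_asd`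
the existence for every prime ideal (K a field of characteristic zero, σ finite). -/

open Polynomial nonZeroDivisors

namespace Crest.Agent.R264.AS

variable {σ K : Type} [Field K]

/-- value at `(τ, y)` of a polynomial in `Y` with coefficients in `K[T_1..T_r]` -/
noncomputable def ev2 {r : ℕ} (τ : Fin r → K) (y : K) (p : Polynomial (MvPolynomial (Fin r) K)) : K :=
  p.eval₂ (MvPolynomial.eval τ) y

/-- substitution of polynomials `t, θ` in `x` into a polynomial in `T, Y` -/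
noncomputable def sub2 {r : ℕ} (t : Fin r → MvPolynomial σ K) (θ : MvPolynomial σ K)
    (p : Polynomial (MvPolynomial (Fin r) K)) : MvPolynomial σ K :=
  p.eval₂ (MvPolynomial.aeval t : MvPolynomial (Fin r) K →ₐ[K] MvPolynomial σ K).toRingHom θ

theorem eval_sub2 {r : ℕ} (t : Fin r → MvPolynomial σ K) (θ : MvPolynomial σ K)
    (p : Polynomial (MvPolynomial (Fin r) K)) (x : σ → K) :
    MvPolynomial.eval x (sub2 t θ p) = ev2 (fun i => MvPolynomial.eval x (t i)) (MvPolynomial.eval x θ) p := by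
  unfold sub2 ev2
  rw [Polynomial.hom_eval₂]
  congr 1
  ext i
  · simp
  · simp

theorem ev2_eq {r : ℕ} (τ : Fin r → K) (y : K) (p : Polynomial (MvPolynomial (Fin r) K)) :
    ev2 τ y p = (p.map (MvPolynomial.eval τ)).eval y := by
  unfold ev2
  rw [Polynomial.eval_map]

/-- ALGEBRAIC STRUCTURE DATA of a prime ideal `I` of `K[x_σ]`. -/
structure ASD (σ K : Type) [Field K] where
  I : Ideal (MvPolynomial σ K)
  prime : I.IsPrime
  r : ℕ
  t : Fin r → MvPolynomial σ K
  θ : MvPolynomial σ K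
  P : Polynomial (MvPolynomial (Fin r) K)
  d : MvPolynomial (Fin r) K
  Δ : MvPolynomial (Fin r) K
  R : σ → Polynomial (MvPolynomial (Fin r) K)
  monic : P.Monic
  d_ne : d ≠ 0
  Δ_ne : Δ ≠ 0
  ind : ∀ g : MvPolynomial (Fin r) K, MvPolynomial.aeval t g ∈ I → g = 0
  int : ∀ h : MvPolynomial σ K, ∃ q : Polynomial (MvPolynomial (Fin r) K), q.Monic ∧ sub2 t h q ∈ I
  root : sub2 t θ P ∈ I
  coord : ∀ j, MvPolynomial.aeval t d * MvPolynomial.X j - sub2 t θ (R j) ∈ I
  sep : ∀ τ : Fin r → K, MvPolynomial.eval τ Δ ≠ 0 →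
    MvPolynomial.eval τ d ≠ 0 ∧ (P.map (MvPolynomial.eval τ)).Separable
  pt : ∀ (τ : Fin r → K) (y : K), MvPolynomial.eval τ d ≠ 0 → ev2 τ y P = 0 →
    ∀ x : σ → K, (∀ j, MvPolynomial.eval τ d * x j = ev2 τ y (R j)) →
      (∀ f ∈ I, MvPolynomial.eval x f = 0) ∧ (∀ i, MvPolynomial.eval x (t i) = τ i) ∧
        MvPolynomial.eval x θ = y
  norm : ∀ f, f ∉ I → ∃ Nf : MvPolynomial (Fin r) K, Nf ≠ 0 ∧ ∃ g, MvPolynomial.aeval t Nf - g * f ∈ I

theorem exists_asd_aux [Finite σ] [CharZero K] (A : Type) [CommRing A] [IsDomain A] [Algebra K A]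
    (π : MvPolynomial σ K →ₐ[K] A) (hπ : Function.Surjective π)
    (I : Ideal (MvPolynomial σ K)) (hI : I.IsPrime) (hker : ∀ f, f ∈ I ↔ π f = 0)
    (r : ℕ) [Algebra (MvPolynomial (Fin r) K) A] [IsScalarTower K (MvPolynomial (Fin r) K) A]
    [Module.Finite (MvPolynomial (Fin r) K) A] [FaithfulSMul (MvPolynomial (Fin r) K) A] :
    ∃ D : ASD σ K, D.I = I := by
  classical
  set T := MvPolynomial (Fin r) K with hT
  obtain ⟨a, d, hd, hR⟩ := exists_coords T A (fun j : σ => π (MvPolynomial.X j))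
  choose R hR using hR
  obtain ⟨δ, hδ, U, V, hUV⟩ := sep_bezout T A a
  obtain ⟨θ, hθ⟩ := hπ a
  choose t ht using fun i : Fin r => hπ (algebraMap T A (MvPolynomial.X i))
  have hsub1 : ∀ q : T, π (MvPolynomial.aeval t q) = algebraMap T A q := by
    intro q
    have : π.comp (MvPolynomial.aeval t) = IsScalarTower.toAlgHom K T A := by
      apply MvPolynomial.algHom_ext
      intro i
      rw [AlgHom.comp_apply, MvPolynomial.aeval_X, ht i]
      rfl
    exact DFunLike.congr_fun this q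
  have hsub2 : ∀ (h : MvPolynomial σ K) (p : Polynomial T),
      π (sub2 t h p) = aeval (π h) p := by
    intro h p
    unfold sub2
    have := Polynomial.hom_eval₂ p (MvPolynomial.aeval t : T →ₐ[K] MvPolynomial σ K).toRingHom
      (π : MvPolynomial σ K →+* A) h
    rw [aeval_def]
    refine Eq.trans this ?_
    congr 1
    exact RingHom.ext (fun q => hsub1 q)
  have hint : IsIntegral T a := Algebra.IsIntegral.isIntegral a
  refine ⟨{ I := I, prime := hI, r := r, t := t, θ := θ, P := minpoly T a, d := d, Δ := d * δ, R := R,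
            monic := minpoly.monic hint, d_ne := hd, Δ_ne := mul_ne_zero hd hδ, ind := ?_, int := ?_,
            root := ?_, coord := ?_, sep := ?_, pt := ?_, norm := ?_ }, rfl⟩
  · intro q hq
    rw [hker, hsub1] at hq
    exact (FaithfulSMul.algebraMap_injective T A) (by rw [hq, map_zero])
  · intro h
    refine ⟨minpoly T (π h), minpoly.monic (Algebra.IsIntegral.isIntegral _), ?_⟩
    rw [hker, hsub2, minpoly.aeval]
  · rw [hker, hsub2, hθ, minpoly.aeval]
  · intro j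
    rw [hker, map_sub, map_mul, hsub1, hsub2, hθ, hR j, sub_self]
  · intro τ hτ
    rw [map_mul] at hτ
    have h1 := left_ne_zero_of_mul hτ
    have h2 := right_ne_zero_of_mul hτ
    refine ⟨h1, ?_⟩
    have h3 := congrArg (Polynomial.map (MvPolynomial.eval τ)) hUV
    rw [Polynomial.map_add, Polynomial.map_mul, Polynomial.map_mul, map_C, ← derivative_map] at h3
    refine ⟨C (MvPolynomial.eval τ δ)⁻¹ * U.map (MvPolynomial.eval τ),
      C (MvPolynomial.eval τ δ)⁻¹ * V.map (MvPolynomial.eval τ), ?_⟩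
    have h4 : (C (MvPolynomial.eval τ δ)⁻¹ * C (MvPolynomial.eval τ δ) : K[X]) = 1 := by
      rw [← C_mul, inv_mul_cancel₀ h2, C_1]
    linear_combination (C (MvPolynomial.eval τ δ)⁻¹) * h3 + h4
  · intro τ y hd0 hP x hx
    -- evaluation of `T[X]`, extended to the localization at `C d`
    set e : T[X] →+* K := Polynomial.eval₂RingHom (MvPolynomial.eval τ) y with he
    have heC : ∀ q : T, e (C q) = MvPolynomial.eval τ q := by intro q; simp [he]
    have hev : ∀ p : T[X], e p = ev2 τ y p := fun p => rfl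
    let S := Localization.Away (C d : T[X])
    have hu1 : IsUnit (e (C d)) := by rw [heC]; exact isUnit_iff_ne_zero.2 hd0
    let eS : S →+* K := IsLocalization.Away.lift (C d : T[X]) hu1
    have heS : ∀ p : T[X], eS (algebraMap T[X] S p) = e p := fun p =>
      IsLocalization.Away.lift_eq (C d : T[X]) hu1 p
    let ρ : T[X] →+* FractionRing A := (algebraMap A (FractionRing A)).comp (aeval a).toRingHom
    have hρ : ∀ p : T[X], ρ p = algebraMap A (FractionRing A) (aeval a p) := fun p => rfl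
    have hdA : algebraMap T A d ≠ 0 := by
      simpa using (FaithfulSMul.algebraMap_injective T A).ne hd
    have hu2 : IsUnit (ρ (C d)) := by
      rw [hρ, aeval_C]
      exact isUnit_iff_ne_zero.2 (by simpa using (IsFractionRing.injective A (FractionRing A)).ne hdA)
    let ψ : S →+* FractionRing A := IsLocalization.Away.lift (C d : T[X]) hu2
    have hψ : ∀ p : T[X], ψ (algebraMap T[X] S p) = ρ p := fun p =>
      IsLocalization.Away.lift_eq (C d : T[X]) hu2 p
    -- the kernel property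
    have hkey : ∀ s : S, ψ s = 0 → eS s = 0 := by
      intro s hs
      obtain ⟨F, ⟨_, n, rfl⟩, rfl⟩ := IsLocalization.exists_mk'_eq (Submonoid.powers (C d : T[X])) s
      have h1 : IsLocalization.mk' S F (⟨(C d : T[X]) ^ n, n, rfl⟩ : Submonoid.powers (C d : T[X])) *
          algebraMap T[X] S ((C d : T[X]) ^ n) = algebraMap T[X] S F :=
        IsLocalization.mk'_spec S F _
      have h2 := congrArg ψ h1
      rw [map_mul, hs, zero_mul, hψ, hρ] at h2
      have h3 : aeval a F = 0 := by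
        apply IsFractionRing.injective A (FractionRing A)
        rw [← h2, map_zero]
      obtain ⟨G, hG⟩ := minpoly.isIntegrallyClosed_dvd hint h3
      have h4 : e F = 0 := by rw [hG, map_mul, hev, hP, zero_mul]
      have h5 := congrArg eS h1
      rw [map_mul, heS, heS, h4] at h5
      rcases mul_eq_zero.1 h5 with h | h
      · exact h
      · rw [map_pow, heC] at h
        exact absurd h (pow_ne_zero n hd0)
    let φ : MvPolynomial σ K →+* S := MvPolynomial.eval₂Hom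
      ((algebraMap T[X] S).comp (C.comp MvPolynomial.C))
      (fun j => IsLocalization.mk' S (R j) (⟨C d, 1, pow_one _⟩ : Submonoid.powers (C d : T[X])))
    have hφX : ∀ j, φ (MvPolynomial.X j) * algebraMap T[X] S (C d) = algebraMap T[X] S (R j) := by
      intro j
      have : φ (MvPolynomial.X j) = IsLocalization.mk' S (R j)
          (⟨C d, 1, pow_one _⟩ : Submonoid.powers (C d : T[X])) := MvPolynomial.eval₂Hom_X' _ _ _
      rw [this]
      exact IsLocalization.mk'_spec S (R j) _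
    have hφC : ∀ c : K, φ (MvPolynomial.C c) = algebraMap T[X] S (C (MvPolynomial.C c)) := fun c =>
      MvPolynomial.eval₂Hom_C _ _ _
    have h1 : eS.comp φ = (MvPolynomial.eval x : MvPolynomial σ K →+* K) := by
      apply MvPolynomial.ringHom_ext
      · intro c
        rw [RingHom.comp_apply, hφC, heS, heC, MvPolynomial.eval_C, MvPolynomial.eval_C]
      · intro j
        rw [RingHom.comp_apply, MvPolynomial.eval_X]
        have h2 := congrArg eS (hφX j)
        rw [map_mul, heS, heS, heC, hev, ← hx j, mul_comm] at h2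
        exact mul_left_cancel₀ hd0 h2
    have h2 : ψ.comp φ = (algebraMap A (FractionRing A)).comp (π : MvPolynomial σ K →+* A) := by
      apply MvPolynomial.ringHom_ext
      · intro c
        rw [RingHom.comp_apply, hφC, hψ, hρ, aeval_C, RingHom.comp_apply]
        congr 1
        have := π.commutes c
        rw [MvPolynomial.algebraMap_eq] at this
        rw [RingHom.coe_coe, this, IsScalarTower.algebraMap_apply K T A]
        rfl
      · intro j
        rw [RingHom.comp_apply, RingHom.comp_apply]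
        have h3 := congrArg ψ (hφX j)
        rw [map_mul, hψ, hψ, hρ, hρ, aeval_C, ← hR j, map_mul, mul_comm] at h3
        exact mul_left_cancel₀ (by simpa using (IsFractionRing.injective A (FractionRing A)).ne hdA) h3
    have h1' : ∀ f, MvPolynomial.eval x f = eS (φ f) := fun f => (DFunLike.congr_fun h1 f).symm
    have h2' : ∀ f, ψ (φ f) = algebraMap A (FractionRing A) (π f) := fun f => DFunLike.congr_fun h2 f
    refine ⟨?_, ?_, ?_⟩
    · intro f hf
      rw [h1']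
      exact hkey _ (by rw [h2', (hker f).1 hf, map_zero])
    · intro i
      have h3 : eS (φ (t i) - algebraMap T[X] S (C (MvPolynomial.X i))) = 0 := by
        apply hkey
        rw [map_sub, h2', hψ, hρ, aeval_C, ht, sub_self]
      rw [map_sub, heS, heC, MvPolynomial.eval_X, ← h1', sub_eq_zero] at h3
      exact h3
    · have h3 : eS (φ θ - algebraMap T[X] S X) = 0 := by
        apply hkey
        rw [map_sub, h2', hψ, hρ, aeval_X, hθ, sub_self]
      rw [map_sub, heS, hev, ← h1', sub_eq_zero] at h3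
      rw [h3]
      simp [ev2]
  · intro f hf
    have hf' : π f ≠ 0 := by rwa [Ne, ← hker]
    obtain ⟨c, n, hn, hc⟩ := exists_mul_eq T A hf'
    obtain ⟨g', hg'⟩ := hπ c
    refine ⟨n, hn, g', ?_⟩
    rw [hker, map_sub, map_mul, hsub1, ← hc, hg']
    ring

theorem exists_asd [Finite σ] [CharZero K] (I : Ideal (MvPolynomial σ K)) [hI : I.IsPrime] :
    ∃ D : ASD σ K, D.I = I := by
  obtain ⟨r, g, ginj, gfin⟩ := exists_finite_inj_algHom_of_fg K (MvPolynomial σ K ⧸ I)
  let alg : Algebra (MvPolynomial (Fin r) K) (MvPolynomial σ K ⧸ I) := g.toRingHom.toAlgebra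
  have h1 : @FaithfulSMul (MvPolynomial (Fin r) K) (MvPolynomial σ K ⧸ I) alg.toSMul :=
    (@faithfulSMul_iff_algebraMap_injective _ _ _ _ alg).2 ginj
  have h2 : @Module.Finite (MvPolynomial (Fin r) K) (MvPolynomial σ K ⧸ I) _ _ alg.toModule := gfin
  have h3 : @IsScalarTower K (MvPolynomial (Fin r) K) (MvPolynomial σ K ⧸ I) _ alg.toSMul _ :=
    @IsScalarTower.of_algebraMap_eq' K (MvPolynomial (Fin r) K) (MvPolynomial σ K ⧸ I) _ _ _ _ alg _
      (by ext k; exact (g.commutes k).symm)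
  exact @exists_asd_aux σ K _ _ _ (MvPolynomial σ K ⧸ I) _ _ _ (Ideal.Quotient.mkₐ K I)
    (Ideal.Quotient.mkₐ_surjective K I) I hI (fun f => by
      rw [Ideal.Quotient.mkₐ_eq_mk, Ideal.Quotient.eq_zero_iff_mem]) r alg h3 h2 h1

end Crest.Agent.R264.AS
end

-- ▼ part R264/AS3
section

set_option autoImplicit false
set_option linter.unusedSectionVars false

/-! Row 264, module AS part 3: local charts of the regular part of `Z(I)` and (OV), K = ℝ or ℂ. -/

open Polynomial Topology Filter Metric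
open scoped ContDiff

namespace Crest.Agent.R264.AS

section Charts

variable {σ 𝕜 : Type} [Fintype σ] [RCLike 𝕜]

/-- the map `x ↦ t(x)` -/
noncomputable def ASD.tm (D : ASD σ 𝕜) (x : σ → 𝕜) : Fin D.r → 𝕜 := fun i => MvPolynomial.eval x (D.t i)

/-- the real/complex zero set of `I` -/
def ASD.Z (D : ASD σ 𝕜) : Set (σ → 𝕜) := {x | ∀ f ∈ D.I, MvPolynomial.eval x f = 0}

/-- the regular part `Z(I) ∖ {Δ(t) = 0}` -/
def ASD.S (D : ASD σ 𝕜) : Set (σ → 𝕜) := {x | x ∈ D.Z ∧ MvPolynomial.eval (D.tm x) D.Δ ≠ 0}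

theorem analytic_eval {ι : Type} [Fintype ι] (q : MvPolynomial ι 𝕜) :
    AnalyticOnNhd 𝕜 (fun x : ι → 𝕜 => MvPolynomial.eval x q) Set.univ :=
  AnalyticOnNhd.eval_mvPolynomial q

theorem continuous_eval {ι : Type} [Fintype ι] (q : MvPolynomial ι 𝕜) :
    Continuous (fun x : ι → 𝕜 => MvPolynomial.eval x q) :=
  MvPolynomial.continuous_eval q

theorem analytic_ev2 {r : ℕ} (p : Polynomial (MvPolynomial (Fin r) 𝕜)) :
    AnalyticOnNhd 𝕜 (fun z : (Fin r → 𝕜) × 𝕜 => ev2 z.1 z.2 p) Set.univ := by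
  intro z _
  have : (fun z : (Fin r → 𝕜) × 𝕜 => ev2 z.1 z.2 p) = fun z =>
      ∑ i ∈ Finset.range (p.natDegree + 1), MvPolynomial.eval z.1 (p.coeff i) * z.2 ^ i := by
    funext z
    unfold ev2
    rw [Polynomial.eval₂_eq_sum_range]
  rw [this]
  refine Finset.analyticAt_fun_sum _ fun i _ => ?_
  refine AnalyticAt.mul ?_ (analyticAt_snd.pow i)
  exact (analytic_eval (p.coeff i) z.1 (Set.mem_univ _)).comp analyticAt_fst

theorem ASD.continuous_tm (D : ASD σ 𝕜) : Continuous D.tm :=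
  continuous_pi fun i => continuous_eval (D.t i)

theorem ASD.root_Z (D : ASD σ 𝕜) {x : σ → 𝕜} (hx : x ∈ D.Z) :
    ev2 (D.tm x) (MvPolynomial.eval x D.θ) D.P = 0 := by
  have := hx _ D.root
  rwa [eval_sub2] at this

theorem eval_aeval {r : ℕ} (t : Fin r → MvPolynomial σ 𝕜) (x : σ → 𝕜) (g : MvPolynomial (Fin r) 𝕜) :
    MvPolynomial.eval x (MvPolynomial.aeval t g) = MvPolynomial.eval (fun i => MvPolynomial.eval x (t i)) g := by
  induction g using MvPolynomial.induction_on with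
  | C a => simp
  | add p q hp hq => simp only [map_add, hp, hq]
  | mul_X p i hp => simp only [map_mul, hp, MvPolynomial.aeval_X, MvPolynomial.eval_X]

theorem ASD.eval_aeval_t (D : ASD σ 𝕜) (x : σ → 𝕜) (g : MvPolynomial (Fin D.r) 𝕜) :
    MvPolynomial.eval x (MvPolynomial.aeval D.t g) = MvPolynomial.eval (D.tm x) g :=
  eval_aeval D.t x g

theorem ASD.coord_Z (D : ASD σ 𝕜) {x : σ → 𝕜} (hx : x ∈ D.Z) (j : σ) :
    MvPolynomial.eval (D.tm x) D.d * x j = ev2 (D.tm x) (MvPolynomial.eval x D.θ) (D.R j) := by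
  have := hx _ (D.coord j)
  rw [map_sub, map_mul, eval_sub2, MvPolynomial.eval_X, sub_eq_zero, D.eval_aeval_t] at this
  exact this

theorem deriv_ne {r : ℕ} (P : Polynomial (MvPolynomial (Fin r) 𝕜)) (τ : Fin r → 𝕜) (y : 𝕜)
    (hs : (P.map (MvPolynomial.eval τ)).Separable) (h0 : ev2 τ y P = 0) :
    ∃ c : 𝕜, c ≠ 0 ∧ HasDerivAt (fun w => ev2 τ w P) c y := by
  refine ⟨(P.map (MvPolynomial.eval τ)).derivative.eval y, ?_, ?_⟩
  · obtain ⟨a, b, hab⟩ := hs
    intro h
    have := congrArg (Polynomial.eval y) hab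
    rw [ev2_eq] at h0
    rw [eval_add, eval_mul, eval_mul, h0, h, mul_zero, mul_zero, add_zero, eval_one] at this
    exact zero_ne_one this
  · have : (fun w => ev2 τ w P) = fun w => (P.map (MvPolynomial.eval τ)).eval w := by
      funext w; rw [ev2_eq]
    rw [this]
    exact Polynomial.hasDerivAt _ _

theorem chart (D : ASD σ 𝕜) {x0 : σ → 𝕜} (hx0 : x0 ∈ D.S) :
    ∃ (δ ρ : ℝ) (E : (Fin D.r → 𝕜) → (σ → 𝕜)), 0 < δ ∧ 0 < ρ ∧
      AnalyticOnNhd 𝕜 E (ball (D.tm x0) δ) ∧ E (D.tm x0) = x0 ∧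
      (∀ τ ∈ ball (D.tm x0) δ, E τ ∈ D.S ∧ D.tm (E τ) = τ) ∧
      (∀ x ∈ D.Z, dist x x0 < ρ → D.tm x ∈ ball (D.tm x0) δ ∧ E (D.tm x) = x) := by
  obtain ⟨hZ, hΔ⟩ := hx0
  set τ0 := D.tm x0 with hτ0
  set y0 := MvPolynomial.eval x0 D.θ with hy0
  obtain ⟨hd0, hsep⟩ := D.sep τ0 hΔ
  have hroot : ev2 τ0 y0 D.P = 0 := D.root_Z hZ
  obtain ⟨c, hc, hder⟩ := deriv_ne D.P τ0 y0 hsep hroot
  set f : (Fin D.r → 𝕜) × 𝕜 → 𝕜 := fun z => ev2 z.1 z.2 D.P with hf
  have hfan : AnalyticAt 𝕜 f (τ0, y0) := analytic_ev2 D.P (τ0, y0) (Set.mem_univ _)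
  have cdf : ContDiffAt 𝕜 ω f (τ0, y0) := hfan.contDiffAt
  have hinv : (fderiv 𝕜 f (τ0, y0) ∘L .inr 𝕜 (Fin D.r → 𝕜) 𝕜).IsInvertible := by
    have h1 : HasFDerivAt (fun w : 𝕜 => f (τ0, w))
        (fderiv 𝕜 f (τ0, y0) ∘L .inr 𝕜 (Fin D.r → 𝕜) 𝕜) y0 := by
      have := (hfan.differentiableAt.hasFDerivAt).comp y0 (hasFDerivAt_prodMk_right τ0 y0)
      exact this
    have h2 := h1.unique hder.hasFDerivAt
    rw [h2]
    refine ⟨ContinuousLinearEquiv.unitsEquivAut 𝕜 (Units.mk0 c hc), ?_⟩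
    ext
    simp
  set ξ := cdf.implicitFunction (by simp) hinv with hξ
  have hξ0 : ξ τ0 = y0 := cdf.implicitFunction_apply_self (by simp) hinv
  have hξan : AnalyticAt 𝕜 ξ τ0 :=
    (cdf.contDiffAt_implicitFunction (by simp) hinv).analyticAt
  have e1 : ∀ᶠ τ in 𝓝 τ0, f (τ, ξ τ) = 0 := by
    have := cdf.eventually_apply_implicitFunction (by simp) hinv
    simpa [hf, hroot] using this
  have e2 : ∀ᶠ v in 𝓝 (τ0, y0), f v = f (τ0, y0) ↔ ξ v.1 = v.2 :=
    cdf.eventually_apply_eq_iff_implicitFunction (by simp) hinv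
  have e3 : ∀ᶠ τ in 𝓝 τ0, MvPolynomial.eval τ D.Δ ≠ 0 :=
    (continuous_eval D.Δ).continuousAt.eventually_ne hΔ
  have e4 : ∀ᶠ τ in 𝓝 τ0, AnalyticAt 𝕜 ξ τ := hξan.eventually_analyticAt
  obtain ⟨δ, hδ, hball⟩ := Metric.eventually_nhds_iff_ball.1 (e1.and (e3.and e4))
  set E : (Fin D.r → 𝕜) → (σ → 𝕜) := fun τ j => ev2 τ (ξ τ) (D.R j) / MvPolynomial.eval τ D.d with hE
  have hcont : Continuous fun x : σ → 𝕜 => (D.tm x, MvPolynomial.eval x D.θ) :=
    D.continuous_tm.prodMk (continuous_eval D.θ)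
  have e5 : ∀ᶠ x in 𝓝 x0, (f (D.tm x, MvPolynomial.eval x D.θ) = f (τ0, y0) ↔
      ξ (D.tm x) = MvPolynomial.eval x D.θ) := hcont.continuousAt.eventually e2
  have e6 : ∀ᶠ x in 𝓝 x0, D.tm x ∈ ball τ0 δ :=
    D.continuous_tm.continuousAt.eventually (ball_mem_nhds _ hδ)
  obtain ⟨ρ, hρ, hball2⟩ := Metric.eventually_nhds_iff_ball.1 (e5.and e6)
  have hret : ∀ x ∈ D.Z, dist x x0 < ρ → D.tm x ∈ ball τ0 δ ∧ E (D.tm x) = x := by
    intro x hx hxρ
    obtain ⟨h5, h6⟩ := hball2 x hxρ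
    refine ⟨h6, ?_⟩
    have h7 : ξ (D.tm x) = MvPolynomial.eval x D.θ := h5.1 (by
      rw [hf]; simp only; rw [D.root_Z hx, hroot])
    have hd : MvPolynomial.eval (D.tm x) D.d ≠ 0 := (D.sep _ (hball _ h6).2.1).1
    funext j
    rw [hE]
    simp only
    rw [h7, ← D.coord_Z hx j]
    field_simp
  refine ⟨δ, ρ, E, hδ, hρ, ?_, ?_, ?_, hret⟩
  · intro τ hτ
    obtain ⟨h1, h2, h3⟩ := hball τ hτ
    rw [hE]
    refine AnalyticAt.pi fun j => ?_
    refine AnalyticAt.div ?_ (analytic_eval D.d τ (Set.mem_univ _)) (D.sep τ h2).1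
    have hg : AnalyticAt 𝕜 (fun z : (Fin D.r → 𝕜) × 𝕜 => ev2 z.1 z.2 (D.R j)) (τ, ξ τ) :=
      analytic_ev2 (D.R j) (τ, ξ τ) (Set.mem_univ _)
    have hh : AnalyticAt 𝕜 (fun s : Fin D.r → 𝕜 => (s, ξ s)) τ := analyticAt_id.prod h3
    exact AnalyticAt.comp (f := fun s : Fin D.r → 𝕜 => (s, ξ s)) hg hh
  · exact (hret x0 hZ (by simpa using hρ)).2
  · intro τ hτ
    obtain ⟨h1, h2, h3⟩ := hball τ hτ
    have hd := (D.sep τ h2).1
    have hpt := D.pt τ (ξ τ) hd h1 (E τ) (fun j => by rw [hE]; simp only; field_simp)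
    have htm : D.tm (E τ) = τ := funext hpt.2.1
    exact ⟨⟨hpt.1, by rw [htm]; exact h2⟩, htm⟩

/-- a polynomial vanishing on a ball is zero -/
theorem eq_zero_of_ball {ι : Type} [Fintype ι] (q : MvPolynomial ι 𝕜) (τ0 : ι → 𝕜) {δ : ℝ} (hδ : 0 < δ)
    (h : ∀ τ ∈ ball τ0 δ, MvPolynomial.eval τ q = 0) : q = 0 := by
  have hinf : ∀ i, (ball (τ0 i) δ).Infinite := by
    intro i
    exact infinite_of_mem_nhds (τ0 i) (ball_mem_nhds _ hδ)
  refine MvPolynomial.funext_set (fun i => ball (τ0 i) δ) hinf fun x hx => ?_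
  rw [map_zero]
  apply h
  rw [mem_ball, dist_pi_lt_iff hδ]
  exact fun i => hx i (Set.mem_univ i)

theorem mem_I_of_vanish (D : ASD σ 𝕜) {f : MvPolynomial σ 𝕜} {τ0 : Fin D.r → 𝕜} {δ : ℝ} (hδ : 0 < δ)
    (E : (Fin D.r → 𝕜) → (σ → 𝕜)) (hE : ∀ τ ∈ ball τ0 δ, E τ ∈ D.Z ∧ D.tm (E τ) = τ)
    (h : ∀ τ ∈ ball τ0 δ, MvPolynomial.eval (E τ) f = 0) : f ∈ D.I := by
  by_contra hf
  obtain ⟨Nf, hN, g, hg⟩ := D.norm f hf
  apply hN
  refine eq_zero_of_ball Nf τ0 hδ fun τ hτ => ?_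
  obtain ⟨h1, h2⟩ := hE τ hτ
  have h3 := h1 _ hg
  rw [map_sub, map_mul, h τ hτ, mul_zero, sub_zero, D.eval_aeval_t, h2] at h3
  exact h3

/-- (OV) a polynomial vanishing on a nonempty relatively open subset of `S` is in `I`. -/
theorem ov (D : ASD σ 𝕜) {f : MvPolynomial σ 𝕜} {x0 : σ → 𝕜} (hx0 : x0 ∈ D.S) {O : Set (σ → 𝕜)}
    (hO : O ∈ 𝓝 x0) (h : ∀ x ∈ D.S, x ∈ O → MvPolynomial.eval x f = 0) : f ∈ D.I := by
  obtain ⟨δ, ρ, E, hδ, hρ, han, hE0, hES, hret⟩ := chart D hx0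
  have hc : ContinuousAt E (D.tm x0) := (han _ (mem_ball_self hδ)).continuousAt
  have h1 : ∀ᶠ τ in 𝓝 (D.tm x0), E τ ∈ O := hc.eventually (by rw [hE0]; exact hO)
  obtain ⟨δ', hδ', hb⟩ := Metric.eventually_nhds_iff_ball.1 h1
  refine mem_I_of_vanish D (lt_min hδ hδ') E (τ0 := D.tm x0) (fun τ hτ => ?_) (fun τ hτ => ?_)
  · have := hES τ (ball_subset_ball (min_le_left _ _) hτ)
    exact ⟨this.1.1, this.2⟩
  · exact h _ (hES τ (ball_subset_ball (min_le_left _ _) hτ)).1
      (hb τ (ball_subset_ball (min_le_right _ _) hτ))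

end Charts

end Crest.Agent.R264.AS
end

-- ▼ part R264/AS4
section

set_option autoImplicit false
set_option linter.unusedSectionVars false

/-! Row 264, module AS part 4: RS = stratification of `K^σ` adapted to a finite family of polynomials. -/

open Topology Filter Metric

namespace Crest.Agent.R264.AS

section Strata

variable {σ 𝕜 : Type} [Fintype σ] [RCLike 𝕜]

/-- the stratum of `D` adapted to the family `fam` -/
def ASD.St (D : ASD σ 𝕜) (fam : Finset (MvPolynomial σ 𝕜)) : Set (σ → 𝕜) :=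
  {x | x ∈ D.S ∧ ∀ R ∈ fam, R ∉ D.I → MvPolynomial.eval x R ≠ 0}


theorem rs_aux (fam : Finset (MvPolynomial σ 𝕜)) (J : Ideal (MvPolynomial σ 𝕜)) :
    ∃ L : List (ASD σ 𝕜), ∀ x : σ → 𝕜, (∀ f ∈ J, MvPolynomial.eval x f = 0) →
      ∃ D ∈ L, x ∈ D.St fam := by
  classical
  induction J using WellFoundedGT.induction with
  | ind J ih =>
    by_cases htop : J = ⊤
    · exact ⟨[], fun x hx => absurd (hx 1 (by rw [htop]; trivial)) (by simp)⟩
    by_cases hp : J.IsPrime
    · obtain ⟨D, hD⟩ := exists_asd J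
      set h : MvPolynomial σ 𝕜 := MvPolynomial.aeval D.t D.Δ *
        ∏ R ∈ fam.filter (fun R => R ∉ J), R with hh
      have hΔ : MvPolynomial.aeval D.t D.Δ ∉ J := by
        rw [← hD]
        exact fun hmem => D.Δ_ne (D.ind _ hmem)
      have hprod : (∏ R ∈ fam.filter (fun R => R ∉ J), R) ∉ J := by
        intro hmem
        obtain ⟨R, hR, hRJ⟩ := (hp.prod_mem_iff).1 hmem
        exact (Finset.mem_filter.1 hR).2 hRJ
      have hhJ : h ∉ J := fun hmem => (hp.mem_or_mem hmem).elim hΔ hprod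
      obtain ⟨L, hL⟩ := ih (J ⊔ Ideal.span {h}) (lt_of_le_of_ne le_sup_left fun he =>
        hhJ (by rw [he]; exact Ideal.mem_sup_right (Ideal.mem_span_singleton_self h)))
      refine ⟨D :: L, fun x hx => ?_⟩
      by_cases hxh : MvPolynomial.eval x h = 0
      · obtain ⟨D', hD', h'⟩ := hL x (fun f hf => by
          obtain ⟨a, ha, b, hb, rfl⟩ := Submodule.mem_sup.1 hf
          obtain ⟨c, rfl⟩ := Ideal.mem_span_singleton.1 hb
          rw [map_add, map_mul, hx a ha, hxh]; ring)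
        exact ⟨D', List.mem_cons_of_mem _ hD', h'⟩
      · refine ⟨D, List.mem_cons_self, ?_⟩
        rw [hh, map_mul] at hxh
        refine ⟨⟨fun f hf => hx f (by rwa [← hD]), ?_⟩, ?_⟩
        · rw [← D.eval_aeval_t]
          exact left_ne_zero_of_mul hxh
        · intro R hR hRI
          have h2 := right_ne_zero_of_mul hxh
          rw [map_prod] at h2
          exact Finset.prod_ne_zero_iff.1 h2 R (Finset.mem_filter.2 ⟨hR, by rwa [← hD]⟩)
    · rw [Ideal.isPrime_iff] at hp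
      push Not at hp
      obtain ⟨a, b, hab, ha, hb⟩ := hp htop
      obtain ⟨L1, h1⟩ := ih (J ⊔ Ideal.span {a}) (lt_of_le_of_ne le_sup_left fun he =>
        ha (by rw [he]; exact Ideal.mem_sup_right (Ideal.mem_span_singleton_self a)))
      obtain ⟨L2, h2⟩ := ih (J ⊔ Ideal.span {b}) (lt_of_le_of_ne le_sup_left fun he =>
        hb (by rw [he]; exact Ideal.mem_sup_right (Ideal.mem_span_singleton_self b)))
      refine ⟨L1 ++ L2, fun x hx => ?_⟩
      have h3 : MvPolynomial.eval x a * MvPolynomial.eval x b = 0 := by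
        rw [← map_mul]; exact hx _ hab
      rcases mul_eq_zero.1 h3 with h4 | h4
      · obtain ⟨D, hD, h⟩ := h1 x (fun f hf => by
          obtain ⟨a', ha', b', hb', rfl⟩ := Submodule.mem_sup.1 hf
          obtain ⟨c, rfl⟩ := Ideal.mem_span_singleton.1 hb'
          rw [map_add, map_mul, hx a' ha', h4]; ring)
        exact ⟨D, List.mem_append_left _ hD, h⟩
      · obtain ⟨D, hD, h⟩ := h2 x (fun f hf => by
          obtain ⟨a', ha', b', hb', rfl⟩ := Submodule.mem_sup.1 hf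
          obtain ⟨c, rfl⟩ := Ideal.mem_span_singleton.1 hb'
          rw [map_add, map_mul, hx a' ha', h4]; ring)
        exact ⟨D, List.mem_append_right _ hD, h⟩

/-- (RS) -/
theorem rs (fam : Finset (MvPolynomial σ 𝕜)) :
    ∃ (m : ℕ) (D : Fin m → ASD σ 𝕜), ∀ x : σ → 𝕜, ∃ a, x ∈ (D a).St fam := by
  obtain ⟨L, hL⟩ := rs_aux fam (⊥ : Ideal (MvPolynomial σ 𝕜))
  refine ⟨L.length, fun i => L.get i, fun x => ?_⟩
  obtain ⟨D, hD, hx⟩ := hL x (fun f hf => by
    rw [Ideal.mem_bot] at hf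
    rw [hf, map_zero])
  obtain ⟨i, hi⟩ := List.get_of_mem hD
  exact ⟨i, by show x ∈ (L.get i).St fam; rw [hi]; exact hx⟩

end Strata

end Crest.Agent.R264.AS
end

-- ▼ part R264/AS5
section

set_option autoImplicit false
set_option linter.unusedSectionVars false

/-! Row 264, module AS part 5: the real strata inside `ℂ^N` (through `realCoords`). -/

open Topology Filter Metric
open Crest.AlgGeometry.Semialg (realCoords)

namespace Crest.Agent.R264.AS

section General

variable {σ 𝕜 : Type} [Fintype σ] [RCLike 𝕜]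

theorem ASD.isClosed_Z (D : ASD σ 𝕜) : IsClosed D.Z := by
  have : D.Z = ⋂ f ∈ D.I, {x | MvPolynomial.eval x f = 0} := by
    ext x; simp [ASD.Z]
  rw [this]
  exact isClosed_biInter fun f _ => isClosed_eq (continuous_eval f) continuous_const

/-- the open set cutting the stratum out of `Z` -/
def ASD.Op (D : ASD σ 𝕜) (fam : Finset (MvPolynomial σ 𝕜)) : Set (σ → 𝕜) :=
  {x | MvPolynomial.eval (D.tm x) D.Δ ≠ 0 ∧ ∀ R ∈ fam, R ∉ D.I → MvPolynomial.eval x R ≠ 0}

theorem ASD.St_eq (D : ASD σ 𝕜) (fam : Finset (MvPolynomial σ 𝕜)) : D.St fam = D.Z ∩ D.Op fam := by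
  ext x
  simp only [ASD.St, ASD.S, ASD.Op, Set.mem_ofPred_eq, Set.mem_inter_iff]
  tauto

theorem ASD.isOpen_Op (D : ASD σ 𝕜) (fam : Finset (MvPolynomial σ 𝕜)) : IsOpen (D.Op fam) := by
  classical
  have : D.Op fam = {x | MvPolynomial.eval (D.tm x) D.Δ ≠ 0} ∩
      ⋂ R ∈ fam.filter (fun R => R ∉ D.I), {x | MvPolynomial.eval x R ≠ 0} := by
    ext x
    simp [ASD.Op]
  rw [this]
  refine IsOpen.inter ?_ (isOpen_biInter_finset fun R _ => ?_)
  · exact isOpen_ne_fun ((continuous_eval D.Δ).comp D.continuous_tm) continuous_const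
  · exact isOpen_ne_fun (continuous_eval R) continuous_const


theorem ASD.exists_gens (D : ASD σ 𝕜) : ∃ G : Finset (MvPolynomial σ 𝕜),
    Ideal.span (G : Set (MvPolynomial σ 𝕜)) = D.I ∧
      D.Z = {x | ∀ g ∈ G, MvPolynomial.eval x g = 0} := by
  obtain ⟨G, hG⟩ := (isNoetherianRing_iff_ideal_fg (MvPolynomial σ 𝕜)).1 inferInstance D.I
  refine ⟨G, hG, ?_⟩
  ext x
  constructor
  · intro hx g hg
    exact hx g (by rw [← hG]; exact Ideal.subset_span hg)
  · intro hx f hf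
    rw [← hG] at hf
    refine Submodule.span_induction (p := fun f _ => MvPolynomial.eval x f = 0) ?_ ?_ ?_ ?_ hf
    · exact fun g hg => hx g hg
    · exact map_zero _
    · intro a b _ _ ha hb; rw [map_add, ha, hb, add_zero]
    · intro c a _ ha; rw [smul_eq_mul, map_mul, ha, mul_zero]

end General

section CN

variable {N : ℕ}

/-- `realCoords` as a continuous real linear equivalence -/
noncomputable def rcL (N : ℕ) : (Fin N → ℂ) ≃L[ℝ] (Fin N ⊕ Fin N → ℝ) :=
  LinearEquiv.toContinuousLinearEquiv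
    { toFun := realCoords
      map_add' := by
        intro x y; funext i; cases i <;> simp [realCoords]
      map_smul' := by
        intro c x; funext i; cases i <;> simp [realCoords]
      invFun := fun x i => (x (Sum.inl i) : ℂ) + (x (Sum.inr i) : ℂ) * Complex.I
      left_inv := by
        intro z; funext i; simp [realCoords, Complex.re_add_im]
      right_inv := by
        intro x; funext i; cases i <;> simp [realCoords] }

@[simp] theorem rcL_apply (z : Fin N → ℂ) : rcL N z = realCoords z := rfl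

@[simp] theorem rcL_symm_apply (x : Fin N ⊕ Fin N → ℝ) (i : Fin N) :
    (rcL N).symm x i = (x (Sum.inl i) : ℂ) + (x (Sum.inr i) : ℂ) * Complex.I := rfl

theorem continuous_realCoords : Continuous (realCoords : (Fin N → ℂ) → _) := (rcL N).continuous

/-- real and imaginary parts of a complex polynomial as real polynomials -/
theorem exists_reIm (f : MvPolynomial (Fin N) ℂ) : ∃ u v : MvPolynomial (Fin N ⊕ Fin N) ℝ,
    ∀ z : Fin N → ℂ, MvPolynomial.eval (realCoords z) u = (MvPolynomial.eval z f).re ∧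
      MvPolynomial.eval (realCoords z) v = (MvPolynomial.eval z f).im := by
  induction f using MvPolynomial.induction_on with
  | C a => exact ⟨MvPolynomial.C a.re, MvPolynomial.C a.im, fun z => by simp⟩
  | add p q hp hq =>
    obtain ⟨u, v, h⟩ := hp
    obtain ⟨u', v', h'⟩ := hq
    exact ⟨u + u', v + v', fun z => by
      simp only [map_add, (h z).1, (h z).2, (h' z).1, (h' z).2, Complex.add_re, Complex.add_im,
        and_self]⟩
  | mul_X p i hp =>
    obtain ⟨u, v, h⟩ := hp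
    refine ⟨u * MvPolynomial.X (Sum.inl i) - v * MvPolynomial.X (Sum.inr i),
      u * MvPolynomial.X (Sum.inr i) + v * MvPolynomial.X (Sum.inl i), fun z => ?_⟩
    simp only [map_sub, map_add, map_mul, MvPolynomial.eval_X, (h z).1, (h z).2, Complex.mul_re,
      Complex.mul_im]
    simp [realCoords]

/-- complex (OV) -/
theorem ovC (D : ASD (Fin N ⊕ Fin N) ℝ) (f : MvPolynomial (Fin N) ℂ) {z0 : Fin N → ℂ}
    (hz0 : realCoords z0 ∈ D.S) {O : Set (Fin N → ℂ)} (hO : O ∈ 𝓝 z0)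
    (h : ∀ z ∈ O, realCoords z ∈ D.S → MvPolynomial.eval z f = 0) :
    ∀ z, realCoords z ∈ D.Z → MvPolynomial.eval z f = 0 := by
  obtain ⟨u, v, huv⟩ := exists_reIm f
  have hO' : (rcL N).symm ⁻¹' O ∈ 𝓝 (realCoords z0) := by
    apply (rcL N).symm.continuous.continuousAt.preimage_mem_nhds
    have : (rcL N).symm (realCoords z0) = z0 := (rcL N).symm_apply_apply z0
    rw [this]; exact hO
  have key : ∀ x ∈ D.S, x ∈ (rcL N).symm ⁻¹' O → MvPolynomial.eval ((rcL N).symm x) f = 0 := by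
    intro x hx hxO
    apply h _ hxO
    have : realCoords ((rcL N).symm x) = x := (rcL N).apply_symm_apply x
    rw [this]; exact hx
  have hu : u ∈ D.I := by
    refine ov D hz0 hO' fun x hx hxO => ?_
    have h1 : realCoords ((rcL N).symm x) = x := (rcL N).apply_symm_apply x
    have h2 := (huv ((rcL N).symm x)).1
    rw [h1, key x hx hxO] at h2
    simpa using h2
  have hv : v ∈ D.I := by
    refine ov D hz0 hO' fun x hx hxO => ?_
    have h1 : realCoords ((rcL N).symm x) = x := (rcL N).apply_symm_apply x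
    have h2 := (huv ((rcL N).symm x)).2
    rw [h1, key x hx hxO] at h2
    simpa using h2
  intro z hz
  apply Complex.ext
  · rw [← (huv z).1, hz u hu]; rfl
  · rw [← (huv z).2, hz v hv]; rfl

/-- local chart of a real stratum of `ℂ^N` -/
theorem chartC (D : ASD (Fin N ⊕ Fin N) ℝ) {z0 : Fin N → ℂ} (hz0 : realCoords z0 ∈ D.S) :
    ∃ (δ ρ : ℝ) (E : (Fin D.r → ℝ) → (Fin N → ℂ)), 0 < δ ∧ 0 < ρ ∧
      AnalyticOnNhd ℝ E (ball (D.tm (realCoords z0)) δ) ∧ E (D.tm (realCoords z0)) = z0 ∧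
      (∀ τ ∈ ball (D.tm (realCoords z0)) δ,
        realCoords (E τ) ∈ D.S ∧ D.tm (realCoords (E τ)) = τ) ∧
      (∀ z, realCoords z ∈ D.Z → dist z z0 < ρ →
        D.tm (realCoords z) ∈ ball (D.tm (realCoords z0)) δ ∧ E (D.tm (realCoords z)) = z) := by
  obtain ⟨δ, ρ, E, hδ, hρ, han, hE0, hES, hret⟩ := chart D hz0
  have h1 : ∀ᶠ z in 𝓝 z0, dist (realCoords z) (realCoords z0) < ρ :=
    continuous_realCoords.continuousAt.eventually (ball_mem_nhds _ hρ)
  obtain ⟨ρ', hρ', hb⟩ := Metric.eventually_nhds_iff_ball.1 h1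
  refine ⟨δ, ρ', fun τ => (rcL N).symm (E τ), hδ, hρ', ?_, ?_, ?_, ?_⟩
  · intro τ hτ
    exact ((rcL N).symm.toContinuousLinearMap.analyticAt (E τ)).comp (han τ hτ)
  · show (rcL N).symm (E _) = z0
    rw [hE0]; exact (rcL N).symm_apply_apply z0
  · intro τ hτ
    have : realCoords ((rcL N).symm (E τ)) = E τ := (rcL N).apply_symm_apply _
    rw [this]
    exact hES τ hτ
  · intro z hz hzρ
    obtain ⟨h2, h3⟩ := hret _ hz (hb z hzρ)
    refine ⟨h2, ?_⟩
    show (rcL N).symm (E _) = z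
    rw [h3]; exact (rcL N).symm_apply_apply z




/-- every polynomial function on the stratum is integral over `ℂ[t]` (all points of `Z` at once). -/
theorem algC (D : ASD (Fin N ⊕ Fin N) ℝ) (h : MvPolynomial (Fin N) ℂ) :
    ∃ Q : Polynomial (MvPolynomial (Fin D.r) ℂ), Q.Monic ∧ ∀ z : Fin N → ℂ, realCoords z ∈ D.Z →
      Q.eval₂ (MvPolynomial.eval (fun i => ((D.tm (realCoords z) i : ℝ) : ℂ)))
        (MvPolynomial.eval z h) = 0 := by
  classical
  let Zc := {z : Fin N → ℂ // realCoords z ∈ D.Z}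
  let ψ : MvPolynomial (Fin D.r) ℂ →+* (Zc → ℂ) :=
    RingHom.pi fun z => MvPolynomial.eval (fun i => ((D.tm (realCoords z.1) i : ℝ) : ℂ))
  have hψ : ∀ q (z : Zc), ψ q z = MvPolynomial.eval (fun i => ((D.tm (realCoords z.1) i : ℝ) : ℂ)) q :=
    fun q z => rfl
  -- real polynomials are integral
  have hreal : ∀ U : MvPolynomial (Fin N ⊕ Fin N) ℝ,
      ψ.IsIntegralElem (fun z : Zc => ((MvPolynomial.eval (realCoords z.1) U : ℝ) : ℂ)) := by
    intro U
    obtain ⟨q, hq, hmem⟩ := D.int U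
    refine ⟨q.map (MvPolynomial.map Complex.ofRealHom), hq.map _, ?_⟩
    funext z
    have h1 := z.2 _ hmem
    rw [eval_sub2] at h1
    have h2 : (q.map (MvPolynomial.map Complex.ofRealHom)).eval₂ ψ
        (fun z : Zc => ((MvPolynomial.eval (realCoords z.1) U : ℝ) : ℂ)) z =
        Complex.ofRealHom (ev2 (fun i => MvPolynomial.eval (realCoords z.1) (D.t i))
          (MvPolynomial.eval (realCoords z.1) U) q) := by
      unfold ev2
      rw [Polynomial.hom_eval₂]
      have h3 := Polynomial.hom_eval₂ (q.map (MvPolynomial.map Complex.ofRealHom)) ψ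
        (Pi.evalRingHom (fun _ : Zc => ℂ) z)
        (fun z : Zc => ((MvPolynomial.eval (realCoords z.1) U : ℝ) : ℂ))
      simp only [Pi.evalRingHom_apply] at h3
      rw [h3, Polynomial.eval₂_map]
      congr 1
      apply MvPolynomial.ringHom_ext
      · intro c
        simp only [RingHom.comp_apply, Pi.evalRingHom_apply, MvPolynomial.map_C, hψ,
          MvPolynomial.eval_C]
      · intro i
        simp only [RingHom.comp_apply, Pi.evalRingHom_apply, MvPolynomial.map_X, hψ,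
          MvPolynomial.eval_X, ASD.tm, Complex.ofRealHom_eq_coe]
    rw [h2, h1]
    simp
  have hconst : ∀ c : ℂ, ψ.IsIntegralElem (fun _ : Zc => c) := by
    intro c
    have : (fun _ : Zc => c) = ψ (MvPolynomial.C c) := by
      funext z; rw [hψ]; simp
    rw [this]
    exact ψ.isIntegralElem_map
  obtain ⟨u, v, huv⟩ := exists_reIm h
  have hh : ψ.IsIntegralElem (fun z : Zc => MvPolynomial.eval z.1 h) := by
    have : (fun z : Zc => MvPolynomial.eval z.1 h) =
        (fun z : Zc => ((MvPolynomial.eval (realCoords z.1) u : ℝ) : ℂ)) +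
          (fun _ : Zc => Complex.I) * (fun z : Zc => ((MvPolynomial.eval (realCoords z.1) v : ℝ) : ℂ)) := by
      funext z
      simp only [Pi.add_apply, Pi.mul_apply, (huv z.1).1, (huv z.1).2]
      rw [mul_comm, Complex.re_add_im]
    rw [this]
    exact (hreal u).add ψ ((hconst Complex.I).mul ψ (hreal v))
  obtain ⟨Q, hQ, hQ0⟩ := hh
  refine ⟨Q, hQ, fun z hz => ?_⟩
  have h1 := congrFun hQ0 ⟨z, hz⟩
  have h3 := Polynomial.hom_eval₂ Q ψ (Pi.evalRingHom (fun _ : Zc => ℂ) ⟨z, hz⟩)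
    (fun z : Zc => MvPolynomial.eval z.1 h)
  simp only [Pi.evalRingHom_apply] at h3
  rw [h3] at h1
  exact h1

end CN

end Crest.Agent.R264.AS
end

-- ▼ part R264/AS6

set_option autoImplicit false
set_option linter.unusedSectionVars false

/-! Row 264, module AS part 6: `AI.StrataStmt`. -/

open Topology Filter Metric
open Crest.AlgGeometry.Semialg (realCoords)

namespace Crest.Agent.R264.AS

variable {N : ℕ}

theorem sa_St {σ : Type} [Fintype σ] (D : ASD σ ℝ) (fam : Finset (MvPolynomial σ ℝ)) :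
    TS.SA (D.St fam) := by
  classical
  obtain ⟨G, hG, hZ⟩ := D.exists_gens
  have hz : ∀ {x y : σ → ℝ} {W : Finset (MvPolynomial σ ℝ)} {p : MvPolynomial σ ℝ},
      TS.SameSign W x y → p ∈ W → (MvPolynomial.eval x p = 0 ↔ MvPolynomial.eval y p = 0) := by
    intro x y W p h hp
    rw [← sign_eq_zero_iff, ← sign_eq_zero_iff (a := MvPolynomial.eval y p), h p hp]
  refine TS.SA.of_imp (G ∪ {MvPolynomial.aeval D.t D.Δ} ∪ fam) fun x y hxy hx => ?_
  rw [D.St_eq] at hx ⊢
  refine ⟨?_, ?_, ?_⟩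
  · rw [hZ] at hx ⊢
    intro g hg
    exact (hz hxy (by simp [hg])).1 (hx.1 g hg)
  · rw [← D.eval_aeval_t]
    have h1 := hx.2.1
    rw [← D.eval_aeval_t] at h1
    exact fun h => h1 ((hz hxy (by simp)).2 h)
  · intro R hR hRI h
    exact hx.2.2 R hR hRI ((hz hxy (by simp [hR])).2 h)

/-- the stratum as an `AI.RStrat` -/
noncomputable def toRStrat (D : ASD (Fin N ⊕ Fin N) ℝ) (fam : Finset (MvPolynomial (Fin N ⊕ Fin N) ℝ)) :
    AI.RStrat N where
  S := {x | realCoords x ∈ D.St fam}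
  r := D.r
  t := D.t
  lc := by
    have : {x : Fin N → ℂ | realCoords x ∈ D.St fam} =
        (realCoords ⁻¹' D.Z) ∩ (realCoords ⁻¹' D.Op fam) := by
      ext x; simp [D.St_eq]
    rw [this]
    exact (D.isClosed_Z.preimage continuous_realCoords).isLocallyClosed.inter
      ((D.isOpen_Op fam).preimage continuous_realCoords).isLocallyClosed
  sa := by
    refine SAV.of_coord (rcL N).toLinearEquiv ?_
    have : {x | (rcL N).toLinearEquiv.symm x ∈ {z : Fin N → ℂ | realCoords z ∈ D.St fam}} =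
        D.St fam := by
      ext x
      have h1 : realCoords ((rcL N).toLinearEquiv.symm x) = x := (rcL N).apply_symm_apply x
      simp only [Set.mem_ofPred_eq, h1]
    rw [this]
    exact sa_St D fam
  chart := by
    intro x0 hx0
    obtain ⟨δ, ρ, E, hδ, hρ, han, hE0, hES, hret⟩ := chartC D hx0.1
    have hOp := D.isOpen_Op fam
    have hx0Op : realCoords x0 ∈ D.Op fam := by
      have := hx0; rw [Set.mem_ofPred_eq, D.St_eq] at this; exact this.2
    set B : Set (Fin N → ℂ) := ball x0 ρ ∩ realCoords ⁻¹' D.Op fam with hB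
    have hBo : IsOpen B := isOpen_ball.inter (hOp.preimage continuous_realCoords)
    refine ⟨B, ball (D.tm (realCoords x0)) δ ∩ E ⁻¹' B, E, ⟨mem_ball_self hρ, hx0Op⟩, hBo, ?_, ?_, ?_, ?_⟩
    · exact han.continuousOn.isOpen_inter_preimage isOpen_ball hBo
    · exact han.mono Set.inter_subset_left
    · intro τ hτ
      obtain ⟨h1, h2⟩ := hES τ hτ.1
      refine ⟨hτ.2, ?_, h2⟩
      rw [Set.mem_ofPred_eq, D.St_eq]
      exact ⟨h1.1, hτ.2.2⟩
    · intro x hxB hxS
      obtain ⟨h1, h2⟩ := hret x hxS.1.1 hxB.1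
      exact ⟨⟨h1, by show E (D.tm (realCoords x)) ∈ B; rw [h2]; exact hxB⟩, h2⟩
  ov := by
    rintro f O hO ⟨x0, hx0O, hx0⟩ h x hx
    have hx0Op : realCoords x0 ∈ D.Op fam := by
      have := hx0; rw [Set.mem_ofPred_eq, D.St_eq] at this; exact this.2
    have hO' : O ∩ realCoords ⁻¹' (D.Op fam) ∈ 𝓝 x0 :=
      Filter.inter_mem (hO.mem_nhds hx0O)
        (((D.isOpen_Op fam).preimage continuous_realCoords).mem_nhds hx0Op)
    refine ovC D f hx0.1 hO' (fun z hz hzS => ?_) x hx.1.1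
    exact h z ⟨hz.1, by rw [Set.mem_ofPred_eq, D.St_eq]; exact ⟨hzS.1, hz.2⟩⟩
  int := by
    intro f
    obtain ⟨q, hq, h⟩ := algC D f
    exact ⟨q, hq, fun x hx => h x hx.1.1⟩

theorem strataStmt : AI.StrataStmt := by
  classical
  intro N K hK
  have hK' := SAV.coord (rcL N).toLinearEquiv hK
  obtain ⟨W, hW⟩ := hK'
  obtain ⟨m, D, hD⟩ := rs (σ := Fin N ⊕ Fin N) (𝕜 := ℝ) W
  refine ⟨m, fun a => toRStrat (D a) W, fun x => hD (realCoords x), fun a => ?_⟩
  refine ⟨{y | ∃ x ∈ K, realCoords x ∈ (D a).St W ∧ ∀ R ∈ W, R ∉ (D a).I →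
      0 < MvPolynomial.eval (realCoords y) R * MvPolynomial.eval (realCoords x) R}, ?_, ?_⟩
  · have : {y : Fin N → ℂ | ∃ x ∈ K, realCoords x ∈ (D a).St W ∧ ∀ R ∈ W, R ∉ (D a).I →
        0 < MvPolynomial.eval (realCoords y) R * MvPolynomial.eval (realCoords x) R} =
      ⋃ x ∈ {x | x ∈ K ∧ realCoords x ∈ (D a).St W}, ⋂ R ∈ W.filter (fun R => R ∉ (D a).I),
        {y | 0 < MvPolynomial.eval (realCoords y) R * MvPolynomial.eval (realCoords x) R} := by
      ext y
      simp only [Set.mem_ofPred_eq, Set.mem_iUnion, Set.mem_iInter, Finset.mem_filter, exists_prop]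
      constructor
      · rintro ⟨x, h1, h2, h3⟩
        exact ⟨x, ⟨h1, h2⟩, fun R hR => h3 R hR.1 hR.2⟩
      · rintro ⟨x, ⟨h1, h2⟩, h3⟩
        exact ⟨x, h1, h2, fun R hR hR' => h3 R ⟨hR, hR'⟩⟩
    rw [this]
    refine isOpen_biUnion fun x _ => isOpen_biInter_finset fun R _ => ?_
    exact isOpen_lt continuous_const
      (((continuous_eval R).comp continuous_realCoords).mul continuous_const)
  · ext y
    constructor
    · rintro ⟨hyK, hyS⟩
      refine ⟨⟨y, hyK, hyS, fun R hR hRI => ?_⟩, hyS⟩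
      exact mul_self_pos.2 (hyS.2 R hR hRI)
    · rintro ⟨⟨x, hxK, hxS, h⟩, hyS⟩
      refine ⟨?_, hyS⟩
      have hs : TS.SameSign W (realCoords x) (realCoords y) := by
        intro R hR
        by_cases hRI : R ∈ (D a).I
        · rw [hxS.1.1 R hRI, (show MvPolynomial.eval (realCoords y) R = 0 from
            (show realCoords y ∈ (D a).St W from hyS).1.1 R hRI)]
        · have h1 := h R hR hRI
          rcases pos_and_pos_or_neg_and_neg_of_mul_pos h1 with ⟨h2, h3⟩ | ⟨h2, h3⟩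
          · rw [sign_pos h2, sign_pos h3]
          · rw [sign_neg h2, sign_neg h3]
      have h2 := (hW _ _ hs)
      have e1 : ∀ z : Fin N → ℂ, realCoords z ∈ (rcL N).toLinearEquiv.symm ⁻¹' K ↔ z ∈ K := by
        intro z
        rw [Set.mem_preimage]
        have : (rcL N).toLinearEquiv.symm (realCoords z) = z := (rcL N).symm_apply_apply z
        rw [this]
      exact (e1 y).1 (h2.1 ((e1 x).2 hxK))

end Crest.Agent.R264.AS
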