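import Crest.Agent.R264.TopDefs

/-!
Row 264, Part D: elementary lemmas on automorphism pairs and flows (helper399).
-/

set_option autoImplicit false

open Set Filter Topology Metric Complex

noncomputable section

namespace Crest.Agent.R264

variable {E : Type*} [NormedAddCommGroup E] [NormedSpace ℂ E]

namespace AutPair

variable {D : Set E} {F G F' G' : E → E}

theorem symm (h : AutPair D F G) : AutPair D G F :=
  ⟨h.hG, h.hF, h.mapsG, h.mapsF, h.right, h.left⟩

theorem comp (h : AutPair D F G) (h' : AutPair D F' G') : AutPair D (F ∘ F') (G' ∘ G) where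
  hF := h.hF.comp h'.hF h'.mapsF
  hG := h'.hG.comp h.hG h.mapsG
  mapsF := h.mapsF.comp h'.mapsF
  mapsG := h'.mapsG.comp h.mapsG
  left := fun z hz => by
    simp only [Function.comp_apply]; rw [h.left _ (h'.mapsF hz), h'.left z hz]
  right := fun z hz => by
    simp only [Function.comp_apply]; rw [h'.right _ (h.mapsG hz), h.right z hz]

theorem refl (D : Set E) : AutPair D id id :=
  ⟨differentiableOn_id, differentiableOn_id, fun _ h => h, fun _ h => h, fun _ _ => rfl,
    fun _ _ => rfl⟩


theorem injOn (h : AutPair D F G) : InjOn F D := fun x hx y hy hxy => by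
  rw [← h.left x hx, ← h.left y hy, hxy]


theorem congr (h : AutPair D F G) (hF : EqOn F' F D) (hG : EqOn G' G D) : AutPair D F' G' where
  hF := h.hF.congr hF
  hG := h.hG.congr hG
  mapsF := fun z hz => by rw [hF hz]; exact h.mapsF hz
  mapsG := fun z hz => by rw [hG hz]; exact h.mapsG hz
  left := fun z hz => by rw [hF hz, hG (h.mapsF hz)]; exact h.left z hz
  right := fun z hz => by rw [hG hz, hF (h.mapsG hz)]; exact h.right z hz

theorem diffAt (h : AutPair D F G) (hD : IsOpen D) {z : E} (hz : z ∈ D) : DifferentiableAt ℂ F z :=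
  h.hF.differentiableAt (hD.mem_nhds hz)

/-- derivative of the inverse: `G'(F z) ∘ F'(z) = id` -/
theorem fderiv_comp (h : AutPair D F G) (hD : IsOpen D) {z : E} (hz : z ∈ D) :
    (fderiv ℂ G (F z)).comp (fderiv ℂ F z) = ContinuousLinearMap.id ℂ E := by
  have h1 : HasFDerivAt (G ∘ F) ((fderiv ℂ G (F z)).comp (fderiv ℂ F z)) z :=
    (h.symm.diffAt hD (h.mapsF hz)).hasFDerivAt.comp z (h.diffAt hD hz).hasFDerivAt
  have h2 : (G ∘ F) =ᶠ[𝓝 z] id := by
    filter_upwards [hD.mem_nhds hz] with w hw
    exact h.left w hw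
  exact h1.unique ((hasFDerivAt_id z).congr_of_eventuallyEq h2)

theorem fderiv_apply (h : AutPair D F G) (hD : IsOpen D) {z : E} (hz : z ∈ D) (v : E) :
    fderiv ℂ G (F z) (fderiv ℂ F z v) = v := by
  have := congrArg (fun L : E →L[ℂ] E => L v) (h.fderiv_comp hD hz)
  simpa using this


end AutPair

namespace IsFlow

variable {D : Set E} {X : E → E} {φ : ℝ → E → E}

theorem autPair (h : IsFlow D X φ) (t : ℝ) : AutPair D (φ t) (φ (-t)) where
  hF := h.hol t
  hG := h.hol (-t)
  mapsF := h.maps t
  mapsG := h.maps (-t)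
  left := fun z hz => by rw [← h.add (-t) t z hz]; simpa using h.zero z hz
  right := fun z hz => by rw [← h.add t (-t) z hz]; simpa using h.zero z hz


/-- the integral curve equation at all times -/
theorem hasDerivAt (h : IsFlow D X φ) {z : E} (hz : z ∈ D) (t : ℝ) :
    HasDerivAt (fun s => φ s z) (X (φ t z)) t := by
  have h1 := h.gen _ (h.maps t hz)
  have h3 : HasDerivAt (fun s => φ s (φ t z)) (X (φ t z)) (t - t) := by
    simpa using h1
  have h4 := h3.comp_sub_const t t
  refine h4.congr_of_eventuallyEq (Eventually.of_forall (fun s => ?_))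
  show φ s z = φ (s - t) (φ t z)
  rw [← h.add (s - t) t z hz]
  congr 1
  ring

theorem continuous (h : IsFlow D X φ) {z : E} (hz : z ∈ D) : Continuous (fun s => φ s z) :=
  continuous_iff_continuousAt.2 (fun t => (h.hasDerivAt hz t).continuousAt)

end IsFlow

end Crest.Agent.R264
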