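import Crest.Agent.R266.SCV
import Crest.Agent.R264.BergIface

-- ▼ part R264/BergLevi
section

/-!
Row 264, node D5, piece (L1) (helper415): Levi form of `log ‖F‖²` for a holomorphic map `F` into the
dual of a complex Hilbert space.
-/

set_option autoImplicit false

open Set Filter Topology Complex
open scoped ContDiff InnerProductSpace

noncomputable section

namespace Crest.Agent.R264.BergLevi

variable {E : Type*} [NormedAddCommGroup E] [NormedSpace ℂ E] [FiniteDimensional ℂ E]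
variable {H : Type*} [NormedAddCommGroup H] [InnerProductSpace ℂ H] [CompleteSpace H]

/-- the (conjugate linear, hence real linear) Riesz map of the dual, as a real linear map -/
def J : (H →L[ℂ] ℂ) →L[ℝ] H where
  toFun := fun l => (InnerProductSpace.toDual ℂ H).symm l
  map_add' := fun l m => by simp
  map_smul' := fun c l => by
    have h : (c : ℝ) • l = (c : ℂ) • l := by
      ext v; simp
    rw [h, map_smulₛₗ]
    simp
  cont := (InnerProductSpace.toDual ℂ H).symm.continuous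

@[simp] lemma norm_J (l : H →L[ℂ] ℂ) : ‖J l‖ = ‖l‖ := by
  change ‖(InnerProductSpace.toDual ℂ H).symm l‖ = _
  simp

lemma J_smul (c : ℂ) (l : H →L[ℂ] ℂ) : J (c • l) = (starRingEnd ℂ c) • J l := by
  change (InnerProductSpace.toDual ℂ H).symm (c • l) = _ • (InnerProductSpace.toDual ℂ H).symm l
  rw [map_smulₛₗ]

lemma J_injective : Function.Injective (J : (H →L[ℂ] ℂ) → H) := by
  intro a b h
  exact (InnerProductSpace.toDual ℂ H).symm.injective h

omit [FiniteDimensional ℂ E] in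
lemma fderiv_fderiv_apply {g : E → ℝ} {x : E} (h : DifferentiableAt ℝ (fderiv ℝ g) x) (v w : E) :
    fderiv ℝ (fderiv ℝ g) x v w = fderiv ℝ (fun y => fderiv ℝ g y w) x v := by
  have h1 : HasFDerivAt (fun y => fderiv ℝ g y w)
      ((ContinuousLinearMap.apply ℝ ℝ w).comp (fderiv ℝ (fderiv ℝ g) x)) x :=
    (ContinuousLinearMap.apply ℝ ℝ w).hasFDerivAt.comp x h.hasFDerivAt
  rw [h1.fderiv]
  simp


section Main

attribute [local instance] InnerProductSpace.complexToReal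

set_option linter.unusedSectionVars false

variable {D : Set E} {F : E → (H →L[ℂ] ℂ)}

lemma contDiffOn_F (hD : IsOpen D) (hF : DifferentiableOn ℂ F D) : ContDiffOn ℝ ∞ F D :=
  ((R266.SCV.contDiffOn_omega_of_differentiableOn hD hF).of_le (by simp)).restrict_scalars ℝ

lemma contDiffOn_J (hD : IsOpen D) (hF : DifferentiableOn ℂ F D) :
    ContDiffOn ℝ ∞ (fun y => J (F y)) D :=
  (J : (H →L[ℂ] ℂ) →L[ℝ] H).contDiff.comp_contDiffOn (contDiffOn_F hD hF)

lemma contDiffOn_logNorm (hD : IsOpen D) (hF : DifferentiableOn ℂ F D) (h0 : ∀ x ∈ D, F x ≠ 0) :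
    ContDiffOn ℝ ∞ (fun x => Real.log (‖F x‖ ^ 2)) D := by
  have h1 : ContDiffOn ℝ ∞ (fun x => ‖J (F x)‖ ^ 2) D := (contDiffOn_J hD hF).norm_sq ℝ
  have h2 : ContDiffOn ℝ ∞ (fun x => Real.log (‖J (F x)‖ ^ 2)) D := by
    refine h1.log (fun x hx => ?_)
    have : ‖F x‖ ≠ 0 := norm_ne_zero_iff.2 (h0 x hx)
    simpa using this
  simpa using h2

/-- derivative of `y ↦ J (F y)` -/
lemma hasFDerivAt_J {x : E} (hF : DifferentiableAt ℂ F x) :
    HasFDerivAt (fun y => J (F y)) (J.comp ((fderiv ℂ F x).restrictScalars ℝ)) x :=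
  J.hasFDerivAt.comp x (hF.hasFDerivAt.restrictScalars ℝ)

/-- derivative of `y ↦ J (F' y w)` -/
lemma hasFDerivAt_J' {x : E} (hF : DifferentiableAt ℂ (fderiv ℂ F) x) (w : E) :
    HasFDerivAt (fun y => J (fderiv ℂ F y w))
      (J.comp (((ContinuousLinearMap.apply ℂ (H →L[ℂ] ℂ) w).comp
        (fderiv ℂ (fderiv ℂ F) x)).restrictScalars ℝ)) x := by
  have h1 : HasFDerivAt (fun y => fderiv ℂ F y w)
      ((ContinuousLinearMap.apply ℂ (H →L[ℂ] ℂ) w).comp (fderiv ℂ (fderiv ℂ F) x)) x :=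
    HasFDerivAt.comp x (f := fderiv ℂ F) (g := ContinuousLinearMap.apply ℂ (H →L[ℂ] ℂ) w)
      (ContinuousLinearMap.apply ℂ (H →L[ℂ] ℂ) w).hasFDerivAt hF.hasFDerivAt
  exact J.hasFDerivAt.comp x (h1.restrictScalars ℝ)

lemma fderiv_normSq {x : E} (hF : DifferentiableAt ℂ F x) :
    HasFDerivAt (fun y => ‖F y‖ ^ 2)
      (2 • (innerSL ℝ (J (F x))).comp (J.comp ((fderiv ℂ F x).restrictScalars ℝ))) x := by
  have h1 := (hasFDerivAt_J hF).norm_sq
  simpa using h1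

theorem second_deriv (hD : IsOpen D) (hF : DifferentiableOn ℂ F D) (h0 : ∀ x ∈ D, F x ≠ 0)
    {x : E} (hx : x ∈ D) (w : E) :
    fderiv ℝ (fderiv ℝ (fun x => Real.log (‖F x‖ ^ 2))) x w w =
      (2 * ⟪J (F x), J (fderiv ℂ (fderiv ℂ F) x w w)⟫_ℝ + 2 * ‖fderiv ℂ F x w‖ ^ 2) / ‖F x‖ ^ 2
      - 4 * ⟪J (F x), J (fderiv ℂ F x w)⟫_ℝ ^ 2 / (‖F x‖ ^ 2) ^ 2 := by
  have hana := R266.SCV.analyticOnNhd_of_differentiableOn hD hF
  have hu := contDiffOn_logNorm hD hF h0
  have huat : ContDiffAt ℝ ∞ (fun x => Real.log (‖F x‖ ^ 2)) x := hu.contDiffAt (hD.mem_nhds hx)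
  have hdd : DifferentiableAt ℝ (fderiv ℝ (fun x => Real.log (‖F x‖ ^ 2))) x := by
    have h1 : ContDiffAt ℝ 1 (fderiv ℝ (fun x => Real.log (‖F x‖ ^ 2))) x :=
      huat.fderiv_right (m := 1) (by norm_cast)
    exact h1.differentiableAt (by norm_num)
  rw [fderiv_fderiv_apply hdd]
  have hN0 : ‖F x‖ ^ 2 ≠ 0 := by
    have : ‖F x‖ ≠ 0 := norm_ne_zero_iff.2 (h0 x hx)
    positivity
  have hev : (fun y => fderiv ℝ (fun x => Real.log (‖F x‖ ^ 2)) y w) =ᶠ[𝓝 x]
      fun y => (2 * ⟪J (F y), J (fderiv ℂ F y w)⟫_ℝ) / ‖F y‖ ^ 2 := by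
    filter_upwards [hD.mem_nhds hx] with y hy
    have hFy : DifferentiableAt ℂ F y := hF.differentiableAt (hD.mem_nhds hy)
    have hy0 : ‖F y‖ ^ 2 ≠ 0 := by
      have : ‖F y‖ ≠ 0 := norm_ne_zero_iff.2 (h0 y hy)
      positivity
    rw [((fderiv_normSq hFy).log hy0).fderiv]
    simp
    ring
  rw [hev.fderiv_eq]
  have hFx : DifferentiableAt ℂ F x := hF.differentiableAt (hD.mem_nhds hx)
  have hF'x : DifferentiableAt ℂ (fderiv ℂ F) x := ((hana x hx).fderiv).differentiableAt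
  have hnum := (hasFDerivAt_J hFx).inner ℝ (hasFDerivAt_J' hF'x w)
  have hinv : HasFDerivAt (fun y => (‖F y‖ ^ 2)⁻¹) (-((‖F x‖ ^ 2) ^ 2)⁻¹ •
      (2 • (innerSL ℝ (J (F x))).comp (J.comp ((fderiv ℂ F x).restrictScalars ℝ)))) x :=
    (hasDerivAt_inv hN0).comp_hasFDerivAt x (fderiv_normSq hFx)
  have hq : HasFDerivAt (fun y => 2 * ⟪J (F y), J (fderiv ℂ F y w)⟫_ℝ * (‖F y‖ ^ 2)⁻¹) _ x :=
    (hnum.const_mul 2).mul hinv
  simp only [div_eq_mul_inv]
  rw [hq.fderiv]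
  simp only [add_apply, smul_apply,
    ContinuousLinearMap.comp_apply, ContinuousLinearMap.prod_apply, fderivInnerCLM_apply,
    ContinuousLinearMap.coe_restrictScalars', ContinuousLinearMap.apply_apply, smul_eq_mul,
    innerSL_apply_apply, nsmul_eq_mul, Nat.cast_ofNat]
  rw [real_inner_self_eq_norm_sq, norm_J]
  field_simp
  ring


/-- the Levi form of `log ‖F‖²` -/
theorem lev_eq (hD : IsOpen D) (hF : DifferentiableOn ℂ F D) (h0 : ∀ x ∈ D, F x ≠ 0)
    {x : E} (hx : x ∈ D) (w : E) :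
    (1 / 4) * (fderiv ℝ (fderiv ℝ (fun x => Real.log (‖F x‖ ^ 2))) x w w +
      fderiv ℝ (fderiv ℝ (fun x => Real.log (‖F x‖ ^ 2))) x (I • w) (I • w)) =
    (‖F x‖ ^ 2 * ‖fderiv ℂ F x w‖ ^ 2 - ‖⟪J (F x), J (fderiv ℂ F x w)⟫_ℂ‖ ^ 2) / ‖F x‖ ^ 4 := by
  rw [second_deriv hD hF h0 hx, second_deriv hD hF h0 hx]
  have hN0 : ‖F x‖ ≠ 0 := norm_ne_zero_iff.2 (h0 x hx)
  have e1 : J (fderiv ℂ (fderiv ℂ F) x (I • w) (I • w)) =
      - J (fderiv ℂ (fderiv ℂ F) x w w) := by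
    have h : fderiv ℂ (fderiv ℂ F) x (I • w) (I • w) = -(fderiv ℂ (fderiv ℂ F) x w w) := by
      rw [map_smul, map_smul]
      change I • I • (fderiv ℂ (fderiv ℂ F) x w w) = _
      rw [smul_smul, I_mul_I]
      ext v
      simp
    rw [h, map_neg]
  have e2 : J (fderiv ℂ F x (I • w)) = (-I) • J (fderiv ℂ F x w) := by
    rw [map_smul, J_smul, conj_I]
  have e3 : ‖fderiv ℂ F x (I • w)‖ = ‖fderiv ℂ F x w‖ := by
    rw [map_smul, norm_smul, norm_I, one_mul]
  have e4 : ⟪J (F x), J (fderiv ℂ F x w)⟫_ℝ = (⟪J (F x), J (fderiv ℂ F x w)⟫_ℂ).re := rfl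
  have e5 : ⟪J (F x), (-I) • J (fderiv ℂ F x w)⟫_ℝ = (⟪J (F x), J (fderiv ℂ F x w)⟫_ℂ).im := by
    change (⟪J (F x), (-I) • J (fderiv ℂ F x w)⟫_ℂ).re = _
    rw [inner_smul_right]
    simp
  rw [e1, e2, e3, e5, e4, inner_neg_right, ← normSq_eq_norm_sq, normSq_apply]
  field_simp
  ring

theorem lev_pos (hD : IsOpen D) (hF : DifferentiableOn ℂ F D) (h0 : ∀ x ∈ D, F x ≠ 0)
    {x : E} (hx : x ∈ D) (w : E) (hw : ∀ c : ℂ, fderiv ℂ F x w ≠ c • F x) :
    0 < (1 / 4) * (fderiv ℝ (fderiv ℝ (fun x => Real.log (‖F x‖ ^ 2))) x w w +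
      fderiv ℝ (fderiv ℝ (fun x => Real.log (‖F x‖ ^ 2))) x (I • w) (I • w)) := by
  rw [lev_eq hD hF h0 hx]
  have hN0 : ‖F x‖ ≠ 0 := norm_ne_zero_iff.2 (h0 x hx)
  have hJ0 : J (F x) ≠ 0 := by
    intro h
    apply hN0
    rw [← norm_J, h, norm_zero]
  have hb0 : J (fderiv ℂ F x w) ≠ 0 := by
    intro h
    apply hw 0
    apply J_injective
    rw [h, J_smul, map_zero, zero_smul]
  refine div_pos ?_ (by positivity)
  have h1 : ‖⟪J (F x), J (fderiv ℂ F x w)⟫_ℂ‖ ≤ ‖J (F x)‖ * ‖J (fderiv ℂ F x w)‖ :=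
    norm_inner_le_norm _ _
  have h2 : ‖⟪J (F x), J (fderiv ℂ F x w)⟫_ℂ‖ ≠ ‖J (F x)‖ * ‖J (fderiv ℂ F x w)‖ := by
    intro h
    obtain ⟨r, hr0, hr⟩ := (norm_inner_eq_norm_iff hJ0 hb0).1 h
    apply hw (starRingEnd ℂ r)
    apply J_injective
    rw [J_smul, hr]
    simp
  have h3 := lt_of_le_of_ne h1 h2
  rw [norm_J, norm_J] at h3
  have h4 : ‖⟪J (F x), J (fderiv ℂ F x w)⟫_ℂ‖ ^ 2 < (‖F x‖ * ‖fderiv ℂ F x w‖) ^ 2 :=
    pow_lt_pow_left₀ h3 (norm_nonneg _) (by norm_num)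
  rw [mul_pow] at h4
  linarith

/-- the Levi form of `log ‖F‖²` (interface form) -/
theorem Lev_log_normSq_eq (hD : IsOpen D) (hF : DifferentiableOn ℂ F D) (h0 : ∀ x ∈ D, F x ≠ 0)
    {x : E} (hx : x ∈ D) (w : E) :
    Berg.Lev (fun x => Real.log (‖F x‖ ^ 2)) x w =
    (‖F x‖ ^ 2 * ‖fderiv ℂ F x w‖ ^ 2 - ‖⟪J (F x), J (fderiv ℂ F x w)⟫_ℂ‖ ^ 2) / ‖F x‖ ^ 4 :=
  lev_eq hD hF h0 hx w

/-- positivity of the Levi form of `log ‖F‖²` (interface form) -/
theorem Lev_log_normSq_pos (hD : IsOpen D) (hF : DifferentiableOn ℂ F D) (h0 : ∀ x ∈ D, F x ≠ 0)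
    {x : E} (hx : x ∈ D) (w : E) (hw : ∀ c : ℂ, fderiv ℂ F x w ≠ c • F x) :
    0 < Berg.Lev (fun x => Real.log (‖F x‖ ^ 2)) x w :=
  lev_pos hD hF h0 hx w hw

end Main

end Crest.Agent.R264.BergLevi
end
end

-- ▼ part R264/BergTrans
section

/-!
Row 264, node D5, pieces (T1)-(T3) and (L3) (helper415): transformation of the Levi form under
holomorphic maps, pluriharmonicity of `log ‖g‖`, change of variables under automorphisms.
-/

set_option autoImplicit false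

open Set Filter Topology Complex MeasureTheory
open scoped ContDiff InnerProductSpace

noncomputable section

namespace Crest.Agent.R264.BergTrans

open Berg

section LevCalc

variable {E : Type*} [NormedAddCommGroup E] [NormedSpace ℂ E]
variable {E₂ : Type*} [NormedAddCommGroup E₂] [NormedSpace ℂ E₂]

theorem Lev_congr {u v : E → ℝ} {x : E} (h : u =ᶠ[𝓝 x] v) (ξ : E) : Lev u x ξ = Lev v x ξ := by
  have h1 : fderiv ℝ u =ᶠ[𝓝 x] fderiv ℝ v := h.fderiv
  unfold Lev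
  rw [h1.fderiv_eq]

lemma differentiableAt_fderiv {u : E → ℝ} {x : E} (hu : ContDiffAt ℝ 2 u x) :
    DifferentiableAt ℝ (fderiv ℝ u) x := by
  have h1 : ContDiffAt ℝ 1 (fderiv ℝ u) x := hu.fderiv_right (m := 1) (by norm_num)
  exact h1.differentiableAt (by norm_num)

theorem Lev_add {u v : E → ℝ} {x : E} (hu : ContDiffAt ℝ 2 u x) (hv : ContDiffAt ℝ 2 v x) (ξ : E) :
    Lev (fun y => u y + v y) x ξ = Lev u x ξ + Lev v x ξ := by
  have h1 : fderiv ℝ (fun y => u y + v y) =ᶠ[𝓝 x] fun y => fderiv ℝ u y + fderiv ℝ v y := by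
    filter_upwards [hu.eventually (by simp), hv.eventually (by simp)] with y hy1 hy2
    exact fderiv_fun_add (hy1.differentiableAt (by norm_num)) (hy2.differentiableAt (by norm_num))
  unfold Lev
  rw [h1.fderiv_eq, fderiv_fun_add (differentiableAt_fderiv hu) (differentiableAt_fderiv hv)]
  simp only [add_apply]
  ring

theorem Lev_const_mul {u : E → ℝ} {x : E} (c : ℝ) (hu : ContDiffAt ℝ 2 u x) (ξ : E) :
    Lev (fun y => c * u y) x ξ = c * Lev u x ξ := by
  have h1 : fderiv ℝ (fun y => c * u y) =ᶠ[𝓝 x] fun y => c • fderiv ℝ u y := by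
    filter_upwards [hu.eventually (by simp)] with y hy1
    exact fderiv_const_mul (hy1.differentiableAt (by norm_num)) c
  unfold Lev
  rw [h1.fderiv_eq, fderiv_fun_const_smul (differentiableAt_fderiv hu)]
  simp only [smul_apply, smul_eq_mul]
  ring

/-- (T1) the Levi form of `u ∘ f`, `f` holomorphic -/
theorem Lev_comp [FiniteDimensional ℂ E] [CompleteSpace E₂] {u : E₂ → ℝ} {f : E → E₂} {x : E}
    (hu : ContDiffAt ℝ 2 u (f x)) (hf : ∀ᶠ y in 𝓝 x, DifferentiableAt ℂ f y) (ξ : E) :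
    Lev (fun y => u (f y)) x ξ = Lev u (f x) (fderiv ℂ f x ξ) := by
  have hfa : AnalyticAt ℂ f x := R266.SCV.analyticAt_of_eventually_differentiableAt hf
  have hfc : ContinuousAt f x := hfa.continuousAt
  have hfR : ContDiffAt ℝ 2 f x := (hfa.contDiffAt).restrict_scalars ℝ
  have huf : ContDiffAt ℝ 2 (fun y => u (f y)) x := hu.comp x hfR
  have hf' : DifferentiableAt ℂ (fderiv ℂ f) x := hfa.fderiv.differentiableAt
  have key : ∀ w : E, fderiv ℝ (fderiv ℝ (fun y => u (f y))) x w w =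
      fderiv ℝ (fderiv ℝ u) (f x) (fderiv ℂ f x w) (fderiv ℂ f x w) +
        fderiv ℝ u (f x) (fderiv ℂ (fderiv ℂ f) x w w) := by
    intro w
    rw [BergLevi.fderiv_fderiv_apply (differentiableAt_fderiv huf)]
    have hev : (fun y => fderiv ℝ (fun y => u (f y)) y w) =ᶠ[𝓝 x]
        fun y => fderiv ℝ u (f y) (fderiv ℂ f y w) := by
      filter_upwards [hfc.eventually (hu.eventually (by simp)), hf] with y hy1 hy2
      have h1 : HasFDerivAt (fun y => u (f y))
          ((fderiv ℝ u (f y)).comp ((fderiv ℂ f y).restrictScalars ℝ)) y :=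
        (hy1.differentiableAt (by norm_num)).hasFDerivAt.comp y
          (hy2.hasFDerivAt.restrictScalars ℝ)
      rw [h1.fderiv]
      rfl
    rw [hev.fderiv_eq]
    have h2 : HasFDerivAt (fun y => fderiv ℝ u (f y))
        ((fderiv ℝ (fderiv ℝ u) (f x)).comp ((fderiv ℂ f x).restrictScalars ℝ)) x :=
      HasFDerivAt.comp x (g := fderiv ℝ u) (differentiableAt_fderiv hu).hasFDerivAt
        (hfa.differentiableAt.hasFDerivAt.restrictScalars ℝ)
    have h3 : HasFDerivAt (fun y => fderiv ℂ f y w)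
        (((ContinuousLinearMap.apply ℂ E₂ w).comp (fderiv ℂ (fderiv ℂ f) x)).restrictScalars ℝ)
        x :=
      (HasFDerivAt.comp x (f := fderiv ℂ f) (g := ContinuousLinearMap.apply ℂ E₂ w)
        (ContinuousLinearMap.apply ℂ E₂ w).hasFDerivAt hf'.hasFDerivAt).restrictScalars ℝ
    rw [(h2.clm_apply h3).fderiv]
    simp [add_comm]
  unfold Lev
  rw [key, key]
  have e1 : fderiv ℂ (fderiv ℂ f) x (I • ξ) (I • ξ) = -(fderiv ℂ (fderiv ℂ f) x ξ ξ) := by
    rw [map_smul, map_smul]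
    change I • I • (fderiv ℂ (fderiv ℂ f) x ξ ξ) = _
    rw [smul_smul, I_mul_I, neg_smul, one_smul]
  rw [e1, map_neg, map_smul]
  ring

/-- (T2) `log ‖g‖` is pluriharmonic for holomorphic nonvanishing `g` -/
theorem Lev_log_norm [FiniteDimensional ℂ E] {g : E → ℂ} {D : Set E} (hD : IsOpen D)
    (hg : DifferentiableOn ℂ g D) (h0 : ∀ x ∈ D, g x ≠ 0) {x : E} (hx : x ∈ D) (ξ : E) :
    ContDiffAt ℝ ∞ (fun y => Real.log ‖g y‖) x ∧ Lev (fun y => Real.log ‖g y‖) x ξ = 0 := by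
  set F : E → (ℂ →L[ℂ] ℂ) := fun y => g y • ContinuousLinearMap.id ℂ ℂ with hFdef
  have hF : DifferentiableOn ℂ F D := hg.smul_const _
  have hF0 : ∀ x ∈ D, F x ≠ 0 := by
    intro y hy h
    apply h0 y hy
    have := congrArg (fun l : ℂ →L[ℂ] ℂ => l 1) h
    simpa [hFdef] using this
  have hFn : ∀ y, ‖F y‖ = ‖g y‖ := by
    intro y
    rw [hFdef]
    simp [norm_smul]
  have hlog : ∀ y, Real.log ‖g y‖ = (1 / 2) * Real.log (‖F y‖ ^ 2) := by
    intro y
    rw [hFn, Real.log_pow]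
    push_cast
    ring
  have hc : ContDiffAt ℝ ∞ (fun y => Real.log (‖F y‖ ^ 2)) x :=
    (BergLevi.contDiffOn_logNorm hD hF hF0).contDiffAt (hD.mem_nhds hx)
  have hfun : (fun y => Real.log ‖g y‖) = fun y => (1 / 2) * Real.log (‖F y‖ ^ 2) :=
    funext hlog
  refine ⟨?_, ?_⟩
  · rw [hfun]
    exact contDiffAt_const.mul hc
  · rw [hfun, Lev_const_mul _ (hc.of_le (by norm_cast)) ξ,
      BergLevi.Lev_log_normSq_eq hD hF hF0 hx]
    have h1 : ‖⟪BergLevi.J (F x), BergLevi.J (fderiv ℂ F x ξ)⟫_ℂ‖ =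
        ‖F x‖ * ‖fderiv ℂ F x ξ‖ := by
      rw [← BergLevi.norm_J (F x), ← BergLevi.norm_J (fderiv ℂ F x ξ)]
      simp [mul_comm]
    rw [h1]
    ring

end LevCalc

section Det

variable {n : ℕ}

lemma det_eq_matrix (A : (Fin n → ℂ) →L[ℂ] (Fin n → ℂ)) :
    A.det = (LinearMap.toMatrix' (A : (Fin n → ℂ) →ₗ[ℂ] (Fin n → ℂ))).det := by
  rw [ContinuousLinearMap.det, LinearMap.det_toMatrix']

/-- the complex Jacobian determinant is holomorphic -/
theorem differentiableOn_det {f : (Fin n → ℂ) → (Fin n → ℂ)} {D : Set (Fin n → ℂ)}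
    (hD : IsOpen D) (hf : DifferentiableOn ℂ f D) :
    DifferentiableOn ℂ (fun x => (fderiv ℂ f x).det) D := by
  have hf' : DifferentiableOn ℂ (fderiv ℂ f) D := by
    intro x hx
    exact ((R266.SCV.analyticOnNhd_of_differentiableOn hD hf) x
      hx).fderiv.differentiableAt.differentiableWithinAt
  have h1 : (fun x => (fderiv ℂ f x).det) = fun x =>
      ∑ σ : Equiv.Perm (Fin n), ((σ.sign : ℤ) : ℂ) *
        ∏ i, (fderiv ℂ f x (Pi.single i 1)) (σ i) := by
    ext x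
    rw [det_eq_matrix, Matrix.det_apply']
    rfl
  rw [h1]
  refine DifferentiableOn.fun_sum (fun σ _ => ?_)
  refine DifferentiableOn.const_mul ?_ _
  intro x hx
  have h2 : ∀ i, DifferentiableWithinAt ℂ (fun y => fderiv ℂ f y (Pi.single i 1) (σ i)) D x := by
    intro i
    have h3 : DifferentiableWithinAt ℂ (fun y => fderiv ℂ f y (Pi.single i 1)) D x :=
      (hf' x hx).clm_apply (differentiableWithinAt_const _)
    exact (differentiableWithinAt_pi.1 h3) (σ i)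
  exact (HasFDerivWithinAt.finsetProd (u := Finset.univ)
    (g := fun i y => fderiv ℂ f y (Pi.single i 1) (σ i))
    (fun i _ => (h2 i).hasFDerivWithinAt)).differentiableWithinAt

/-- the Jacobian determinants of an automorphism pair are inverse to each other -/
theorem det_mul_det {D : Set (Fin n → ℂ)} (hD : IsOpen D) {f h : (Fin n → ℂ) → (Fin n → ℂ)}
    (H : IsAutPair D f h) {x : Fin n → ℂ} (hx : x ∈ D) :
    (fderiv ℂ h (f x)).det * (fderiv ℂ f x).det = 1 := by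
  have h1 : HasFDerivAt (fun y => h (f y)) ((fderiv ℂ h (f x)).comp (fderiv ℂ f x)) x :=
    (H.dh.differentiableAt (hD.mem_nhds (H.mf hx))).hasFDerivAt.comp x
      (H.df.differentiableAt (hD.mem_nhds hx)).hasFDerivAt
  have h2 : HasFDerivAt (fun y => h (f y)) (ContinuousLinearMap.id ℂ (Fin n → ℂ)) x := by
    refine (hasFDerivAt_id x).congr_of_eventuallyEq ?_
    filter_upwards [hD.mem_nhds hx] with y hy using H.hf y hy
  have h3 := h1.unique h2
  have h4 : ((fderiv ℂ h (f x)).comp (fderiv ℂ f x)).det = 1 := by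
    rw [h3]
    simp [ContinuousLinearMap.det]
  rw [← h4]
  simp only [ContinuousLinearMap.det, ContinuousLinearMap.toLinearMap_comp, LinearMap.det_comp]

theorem det_ne_zero {D : Set (Fin n → ℂ)} (hD : IsOpen D) {f h : (Fin n → ℂ) → (Fin n → ℂ)}
    (H : IsAutPair D f h) {x : Fin n → ℂ} (hx : x ∈ D) : (fderiv ℂ f x).det ≠ 0 :=
  right_ne_zero_of_mul (a := (fderiv ℂ h (f x)).det) (by rw [det_mul_det hD H hx]; norm_num)

/-- (T3) -/
theorem Lev_trans {D : Set (Fin n → ℂ)} (hD : IsOpen D) {u : (Fin n → ℂ) → ℝ}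
    (hu : ContDiffOn ℝ ∞ u D) {f h : (Fin n → ℂ) → (Fin n → ℂ)} (H : IsAutPair D f h)
    (htr : ∀ x ∈ D, u (f x) = u x - 2 * Real.log ‖(fderiv ℂ f x).det‖)
    {x : Fin n → ℂ} (hx : x ∈ D) (ξ : Fin n → ℂ) :
    Lev u (f x) (fderiv ℂ f x ξ) = Lev u x ξ := by
  have hd := differentiableOn_det hD H.df
  have h0 : ∀ y ∈ D, (fderiv ℂ f y).det ≠ 0 := fun y hy => det_ne_zero hD H hy
  obtain ⟨hc, hL⟩ := Lev_log_norm hD hd h0 hx ξ
  have hle : (2 : WithTop ℕ∞) ≤ ∞ := by norm_cast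
  have hufx : ContDiffAt ℝ 2 u (f x) := (hu.contDiffAt (hD.mem_nhds (H.mf hx))).of_le hle
  have hux : ContDiffAt ℝ 2 u x := (hu.contDiffAt (hD.mem_nhds hx)).of_le hle
  rw [← Lev_comp hufx (by
    filter_upwards [hD.mem_nhds hx] with y hy
    exact H.df.differentiableAt (hD.mem_nhds hy))]
  have hev : (fun y => u (f y)) =ᶠ[𝓝 x] fun y => u y + (-2) * Real.log ‖(fderiv ℂ f y).det‖ := by
    filter_upwards [hD.mem_nhds hx] with y hy
    rw [htr y hy]
    ring
  rw [Lev_congr hev, Lev_add hux (contDiffAt_const.mul (hc.of_le hle)),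
    Lev_const_mul _ (hc.of_le hle), hL]
  ring

end Det

end Crest.Agent.R264.BergTrans
end
end

-- ▼ part R264/BergCov

/-!
Row 264, node D5, piece (L3) (helper415): change of variables under holomorphic automorphisms.
-/

set_option autoImplicit false

open Set Filter Topology Complex MeasureTheory
open scoped ContDiff ENNReal

noncomputable section

namespace Crest.Agent.R264.BergTrans

open Berg

variable {n : ℕ}

/-- the real Jacobian of a complex linear map is the square of the modulus of the complex one -/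
lemma det_restrictScalars_clm (A : (Fin n → ℂ) →L[ℂ] (Fin n → ℂ)) :
    (A.restrictScalars ℝ).det = ‖A.det‖ ^ 2 := by
  have h1 : (A.restrictScalars ℝ).det =
      LinearMap.det ((A : (Fin n → ℂ) →ₗ[ℂ] (Fin n → ℂ)).restrictScalars ℝ) := rfl
  rw [h1, LinearMap.det_restrictScalars, Algebra.norm_complex_apply, normSq_eq_norm_sq]

/-- change of variables: `∫_D ‖g ∘ f‖² ‖det f'‖² = ∫_D ‖g‖²` -/
theorem lintegral_aut {D : Set (Fin n → ℂ)} (hD : IsOpen D) {f h : (Fin n → ℂ) → (Fin n → ℂ)}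
    (H : IsAutPair D f h) (g : (Fin n → ℂ) → ℂ) :
    ∫⁻ x in D, ‖g (f x) * (fderiv ℂ f x).det‖ₑ ^ (2 : ℝ) = ∫⁻ x in D, ‖g x‖ₑ ^ (2 : ℝ) := by
  have himg : f '' D = D := by
    apply Subset.antisymm
    · rintro _ ⟨x, hx, rfl⟩
      exact H.mf hx
    · intro x hx
      exact ⟨h x, H.mh hx, H.fh x hx⟩
  have hinj : InjOn f D := by
    intro x hx y hy hxy
    rw [← H.hf x hx, ← H.hf y hy, hxy]
  have hder : ∀ x ∈ D, HasFDerivWithinAt f ((fderiv ℂ f x).restrictScalars ℝ) D x := by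
    intro x hx
    exact ((H.df.differentiableAt (hD.mem_nhds hx)).hasFDerivAt.restrictScalars
      ℝ).hasFDerivWithinAt
  have h1 := lintegral_image_eq_lintegral_abs_det_fderiv_mul volume hD.measurableSet hder hinj
    (fun x => ‖g x‖ₑ ^ (2 : ℝ))
  rw [himg] at h1
  rw [h1]
  refine setLIntegral_congr_fun hD.measurableSet (fun x _ => ?_)
  rw [det_restrictScalars_clm, abs_of_nonneg (by positivity), enorm_mul,
    ENNReal.mul_rpow_of_nonneg _ _ (by norm_num), mul_comm]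
  congr 1
  rw [← ofReal_norm, ENNReal.ofReal_rpow_of_nonneg (norm_nonneg _) (by norm_num)]
  norm_num

/-- the `L²` norm is preserved by `g ↦ (g ∘ f) det f'` -/
theorem eLpNorm_aut {D : Set (Fin n → ℂ)} (hD : IsOpen D) {f h : (Fin n → ℂ) → (Fin n → ℂ)}
    (H : IsAutPair D f h) (g : (Fin n → ℂ) → ℂ) :
    eLpNorm (fun x => g (f x) * (fderiv ℂ f x).det) 2 (volume.restrict D) =
      eLpNorm g 2 (volume.restrict D) := by
  rw [eLpNorm_eq_lintegral_rpow_enorm_toReal (by norm_num) (by norm_num),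
    eLpNorm_eq_lintegral_rpow_enorm_toReal (by norm_num) (by norm_num)]
  simp only [ENNReal.toReal_ofNat]
  rw [lintegral_aut hD H g]


end Crest.Agent.R264.BergTrans
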