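import Crest.Agent.R264.BshDat
import Crest.Agent.R264.BshNorm

/-! Row 264, Part B, module BIS-S (helper127): existence, sizes and the estimates (4), (5). -/

set_option autoImplicit false

open Topology Filter Set

namespace Crest.Agent.R264.BisS

open Crest.Agent.R264.Bsh Crest.Agent.R264.BshN

section basic

variable {M k : ℕ}

theorem absorb (hE : BisE) {q : ℝ} (hq0 : 0 ≤ q) (hq : q ≤ 1 / 100)
    {e : ZMod (2 * M + 1) → Fin k → ℝ} {g : ZMod (2 * M + 1) → ℝ} (hg : ∀ j, 0 ≤ g j)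
    (h : ∀ j, eu (e j) ≤ q * eu (cjv e j) + g j) : l2 e ≤ 100 / 99 * l2s g := by
  have h1 : l2 e ≤ l2s (fun j => q * eu (cjv e j) + g j) := l2_le_of h
  have h2 := l2s_add_le (fun j => q * eu (cjv e j)) g
  rw [l2s_smul, ← l2_eq, abs_of_nonneg hq0] at h2
  have h3 := hE.cjv_le e
  have h4 := l2_nonneg e
  have h5 : q * l2 (cjv e) ≤ 1 / 100 * l2 e := by
    calc q * l2 (cjv e) ≤ 1 / 100 * l2 (cjv e) := by
          gcongr
          exact l2_nonneg _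
      _ ≤ _ := by gcongr
  linarith

theorem l2s_add3 (f g h : ZMod (2 * M + 1) → ℝ) :
    l2s (fun j => f j + g j + h j) ≤ l2s f + l2s g + l2s h :=
  (l2s_add_le (fun j => f j + g j) h).trans (add_le_add_left (l2s_add_le f g) _)

theorem l2s_const_mul_nonneg {a : ℝ} (ha : 0 ≤ a) (f : ZMod (2 * M + 1) → ℝ) :
    l2s (fun j => a * f j) = a * l2s f := by
  rw [l2s_smul, abs_of_nonneg ha]


theorem norm_mv_le (V : ZMod (2 * M + 1) → Fin k → ℝ) :
    ‖mv V‖ ≤ (∑ j, ‖V j‖) / (2 * M + 1) := by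
  have h0 : 0 ≤ (∑ j, ‖V j‖) / (2 * M + 1 : ℝ) :=
    div_nonneg (Finset.sum_nonneg fun _ _ => norm_nonneg _) (Npos M).le
  rw [pi_norm_le_iff_of_nonneg h0]
  intro i
  rw [mv, Real.norm_eq_abs, abs_div, abs_of_pos (Npos M)]
  apply div_le_div_of_nonneg_right _ (Npos M).le
  refine (Finset.abs_sum_le_sum_abs _ _).trans (Finset.sum_le_sum fun j _ => ?_)
  exact norm_le_pi_norm (V j) i

theorem mean_mono {f g : ZMod (2 * M + 1) → ℝ} (h : ∀ j, f j ≤ g j) :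
    (∑ j, f j) / (2 * M + 1 : ℝ) ≤ (∑ j, g j) / (2 * M + 1) :=
  div_le_div_of_nonneg_right (Finset.sum_le_sum fun j _ => h j) (Npos M).le

theorem mean_add (f g : ZMod (2 * M + 1) → ℝ) :
    (∑ j, (f j + g j)) / (2 * M + 1 : ℝ) = (∑ j, f j) / (2 * M + 1) + (∑ j, g j) / (2 * M + 1) := by
  rw [Finset.sum_add_distrib, add_div]

theorem mean_mul (a : ℝ) (f : ZMod (2 * M + 1) → ℝ) :
    (∑ j, a * f j) / (2 * M + 1 : ℝ) = a * ((∑ j, f j) / (2 * M + 1)) := by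
  rw [← Finset.mul_sum, mul_div_assoc]

theorem mean_const (a : ℝ) : (∑ _j : ZMod (2 * M + 1), a) / (2 * M + 1 : ℝ) = a := by
  rw [Finset.sum_const, Finset.card_univ, nsmul_eq_mul, cardN]
  field_simp

theorem mv_sub (V W : ZMod (2 * M + 1) → Fin k → ℝ) : mv (V - W) = mv V - mv W := by
  ext i
  simp [mv, Finset.sum_sub_distrib, sub_div]

theorem mv_add (V W : ZMod (2 * M + 1) → Fin k → ℝ) : mv (V + W) = mv V + mv W := by
  ext i
  simp [mv, Finset.sum_add_distrib, add_div]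

theorem mv_smul (a : ZMod (2 * M + 1) → ℝ) (w : Fin k → ℝ) :
    mv (fun j => a j • w) = ((∑ j, a j) / (2 * M + 1)) • w := by
  ext i
  simp only [mv, Pi.smul_apply, smul_eq_mul, ← Finset.sum_mul]
  ring

end basic

section prof

variable {M l : ℕ} {k : ℕ} {om : ℝ → ℝ} {C₀ ε r s₁ ρ₀ c τ : ℝ}

theorem τ_pos (hS : ScOK (k := k) om C₀ ε r s₁ ρ₀ c τ M l) : 0 < τ := by
  rw [hS.τ_eq]
  have := hS.l_pos
  have := Npos M
  positivity

theorem l_le_M (hS : ScOK (k := k) om C₀ ε r s₁ ρ₀ c τ M l) : l ≤ M := by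
  have := hS.l_le
  omega

theorem four (hS : ScOK (k := k) om C₀ ε r s₁ ρ₀ c τ M l) :
    ((4 * l : ℕ) : ℝ) / (2 * M + 1) = 4 * τ := by
  rw [hS.τ_eq]
  push_cast
  ring

theorem sqrt4 (hS : ScOK (k := k) om C₀ ε r s₁ ρ₀ c τ M l) :
    Real.sqrt (4 * τ) = 2 * Real.sqrt τ := by
  rw [Real.sqrt_mul (by norm_num), show (4 : ℝ) = 2 ^ 2 by norm_num, Real.sqrt_sq (by norm_num)]

theorem sqrt8 (hS : ScOK (k := k) om C₀ ε r s₁ ρ₀ c τ M l) :
    Real.sqrt (2 * (4 * τ)) ≤ 3 * Real.sqrt τ := by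
  have h := τ_pos hS
  have h1 : Real.sqrt (2 * (4 * τ)) ≤ Real.sqrt (9 * τ) := Real.sqrt_le_sqrt (by linarith)
  rw [Real.sqrt_mul (by norm_num : (0 : ℝ) ≤ 9), show (9 : ℝ) = 3 ^ 2 by norm_num,
    Real.sqrt_sq (by norm_num)] at h1
  exact h1

theorem l2_chi (hP : BisP) (hS : ScOK (k := k) om C₀ ε r s₁ ρ₀ c τ M l) :
    l2s (tri M l) ≤ Real.sqrt τ := by
  have h := hP.l2_le M l hS.l_pos (l_le_M hS)
  rwa [← hS.τ_eq] at h

theorem l2_bet (hP : BisP) (hS : ScOK (k := k) om C₀ ε r s₁ ρ₀ c τ M l) :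
    l2s (tri M (4 * l)) ≤ 2 * Real.sqrt τ := by
  have h := hP.l2_le M (4 * l) (by have := hS.l_pos; omega) hS.l_le
  rwa [four hS, sqrt4 hS] at h

theorem d_chi (hP : BisP) (hS : ScOK (k := k) om C₀ ε r s₁ ρ₀ c τ M l) :
    (2 * M + 1) * l2s (fun j : ZMod (2 * M + 1) => tri M l (j + 1) - tri M l j) ≤
      2 / Real.sqrt τ := by
  have h := hP.diff_le M l hS.l_pos (l_le_M hS)
  rwa [← hS.τ_eq] at h

theorem d_bet (hP : BisP) (hS : ScOK (k := k) om C₀ ε r s₁ ρ₀ c τ M l) :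
    (2 * M + 1) * l2s (fun j : ZMod (2 * M + 1) => tri M (4 * l) (j + 1) - tri M (4 * l) j) ≤
      1 / Real.sqrt τ := by
  have h := hP.diff_le M (4 * l) (by have := hS.l_pos; omega) hS.l_le
  rw [four hS, sqrt4 hS] at h
  refine h.trans (le_of_eq ?_)
  have := Real.sqrt_pos.2 (τ_pos hS)
  field_simp

theorem mean_chi (hP : BisP) (hS : ScOK (k := k) om C₀ ε r s₁ ρ₀ c τ M l) :
    (∑ j, tri M l j) / (2 * M + 1) = τ := by
  rw [hP.mean M l hS.l_pos (l_le_M hS), hS.τ_eq]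

theorem mean_bet (hP : BisP) (hS : ScOK (k := k) om C₀ ε r s₁ ρ₀ c τ M l) :
    (∑ j, tri M (4 * l) j) / (2 * M + 1) = 4 * τ := by
  rw [hP.mean M (4 * l) (by have := hS.l_pos; omega) hS.l_le, four hS]

theorem supp_mean (hP : BisP) (hS : ScOK (k := k) om C₀ ε r s₁ ρ₀ c τ M l)
    (g : ZMod (2 * M + 1) → ℝ) (hg : ∀ j, 0 ≤ g j) :
    (∑ j, if 0 < tri M (4 * l) j then g j else 0) / (2 * M + 1) ≤ 3 * Real.sqrt τ * l2s g := by
  have h := hP.supp M (4 * l) g (by have := hS.l_pos; omega) hS.l_le hg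
  rw [four hS] at h
  exact h.trans (mul_le_mul_of_nonneg_right (sqrt8 hS) (l2s_nonneg _))

theorem supp_l2 (hP : BisP) (hS : ScOK (k := k) om C₀ ε r s₁ ρ₀ c τ M l) :
    l2s (fun j : ZMod (2 * M + 1) => if 0 < tri M (4 * l) j then (1 : ℝ) else 0) ≤
      3 * Real.sqrt τ := by
  have h := hP.supp_l2 M (4 * l) (by have := hS.l_pos; omega) hS.l_le
  rw [four hS] at h
  exact h.trans (sqrt8 hS)

end prof

section yok

variable {Z : Type} [NormedAddCommGroup Z] {M l : ℕ} {k : ℕ} {om : ℝ → ℝ}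
  {C₀ ε r s₁ ρ₀ c τ : ℝ} {Yt : Z → (Fin k → ℝ) → ℝ → (Fin k → ℝ)}

theorem Kε_le (hY : YOK Yt om C₀ ε r s₁) : ((k : ℝ) + 1) * ε ≤ 1 / 100 := by
  have := hY.ε_le
  linarith

theorem Kε_nonneg (hY : YOK Yt om C₀ ε r s₁) : 0 ≤ ((k : ℝ) + 1) * ε := by
  have := hY.ε_pos
  positivity

theorem lam_mem (hP : BisP) (hs₁ : 0 < s₁) (h0 : 0 ≤ ρ₀) (h1 : ρ₀ ≤ s₁) {lam : ℝ}
    (hl0 : 0 ≤ lam) (hl1 : lam ≤ 1) (j : ZMod (2 * M + 1)) :
    0 ≤ lam * s₁ * tri M (4 * l) j + ρ₀ ∧ lam * s₁ * tri M (4 * l) j + ρ₀ ≤ 2 * s₁ ∧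
      lam * s₁ * tri M (4 * l) j + ρ₀ ≤ s₁ * tri M (4 * l) j + ρ₀ := by
  have t0 := hP.tri_nonneg M (4 * l) j
  have t1 := hP.tri_le_one M (4 * l) j
  have e1 : 0 ≤ lam * s₁ * tri M (4 * l) j := by positivity
  have e2 : lam * s₁ * tri M (4 * l) j ≤ s₁ * tri M (4 * l) j := by
    apply mul_le_mul_of_nonneg_right _ t0
    nlinarith
  have e3 : s₁ * tri M (4 * l) j ≤ s₁ := by nlinarith
  exact ⟨by linarith, by linarith, by linarith⟩

theorem eu_y1 (hY : YOK Yt om C₀ ε r s₁) {z : Z} {u u' : Fin k → ℝ} {s : ℝ} (hz : ‖z‖ ≤ r)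
    (h0 : 0 ≤ s) (h1 : s ≤ 2 * s₁) :
    eu (Yt z u s - Yt z u' s) ≤ ((k : ℝ) + 1) * ε * eu (u - u') := by
  have a1 := hY.y1 z u u' s hz h0 h1
  have a2 := eu_le_norm (Yt z u s - Yt z u' s)
  have a3 := norm_le_eu (u - u')
  have hε := hY.ε_pos
  calc eu (Yt z u s - Yt z u' s) ≤ ((k : ℝ) + 1) * ‖Yt z u s - Yt z u' s‖ := a2
    _ ≤ ((k : ℝ) + 1) * (ε * ‖u - u'‖) := by gcongr
    _ ≤ ((k : ℝ) + 1) * (ε * eu (u - u')) := by gcongr
    _ = _ := by ring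

theorem exi (hE : BisE) (hP : BisP) (z : Z) (u₀ b : Fin k → ℝ) (lam mu : ℝ)
    (hY : YOK Yt om C₀ ε r s₁) (hz : ‖z‖ ≤ r) (h0 : 0 ≤ ρ₀) (h1 : ρ₀ ≤ s₁)
    (hl0 : 0 ≤ lam) (hl1 : lam ≤ 1) :
    ∃ V, IsBis Yt s₁ ρ₀ M l z u₀ b lam mu V := by
  apply hE.exists_sol (fun j u => Yt z u (lam * s₁ * tri M (4 * l) j + ρ₀) +
    (mu * tri M l j) • b) (((k : ℝ) + 1) * ε) u₀ (Kε_nonneg hY) (by linarith [Kε_le hY])
  intro j u u'
  rw [add_sub_add_right_eq_sub]
  obtain ⟨m1, m2, -⟩ := lam_mem (M := M) (l := l) hP hY.s₁_pos h0 h1 hl0 hl1 j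
  exact eu_y1 hY hz m1 m2

theorem size (hE : BisE) (hP : BisP) {z : Z} {u₀ b : Fin k → ℝ} {lam mu : ℝ}
    {V : ZMod (2 * M + 1) → Fin k → ℝ}
    (hY : YOK Yt om C₀ ε r s₁) (hS : ScOK (k := k) om C₀ ε r s₁ ρ₀ c τ M l)
    (hl0 : 0 ≤ lam) (hl1 : lam ≤ 1) (hm0 : 0 ≤ mu) (hm1 : mu ≤ 1) (hb : ‖b‖ ≤ s₁)
    (hz : ‖z‖ ≤ c * Real.sqrt τ) (hu : ‖u₀‖ ≤ c * τ)
    (hV : IsBis Yt s₁ ρ₀ M l z u₀ b lam mu V) :
    l2 V ≤ 20 * ((k : ℝ) + 1) * (C₀ + 1) * s₁ * Real.sqrt τ ∧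
    l2 (fun j => u₀ - cjv V j) ≤ 21 * ((k : ℝ) + 1) * (C₀ + 1) * s₁ * Real.sqrt τ ∧
    (2 * M + 1) * l2 (fun j : ZMod (2 * M + 1) => V (j + 1) - V j) ≤
      20 * ((k : ℝ) + 1) * (C₀ + 1) * s₁ / Real.sqrt τ := by
  have hs₁ := hY.s₁_pos
  have hC := hY.C₀_nonneg
  have hε := hY.ε_pos
  have hτ := τ_pos hS
  have hh : 0 < Real.sqrt τ := Real.sqrt_pos.2 hτ
  set h := Real.sqrt τ with hh_def
  have hh2 : h ^ 2 = τ := Real.sq_sqrt hτ.le
  have hc := hS.c_nonneg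
  have hρ := hS.ρ₀_nonneg
  set K : ℝ := (k : ℝ) + 1 with hK
  have hK1 : 1 ≤ K := by rw [hK]; have : (0 : ℝ) ≤ k := Nat.cast_nonneg k; linarith
  have hq := Kε_le hY
  have hq0 := Kε_nonneg hY
  rw [← hK] at hq hq0
  have hzr : ‖z‖ ≤ r := hz.trans hS.c_sqrt
  have hu' : eu u₀ ≤ K * (c * τ) := (eu_le_norm u₀).trans (by gcongr)
  -- size of V
  set g : ZMod (2 * M + 1) → ℝ := fun j => (K * ε * (K * (c * τ)) + K * (2 * C₀ * (c ^ 2 * τ) + C₀ * ρ₀)) +
    K * C₀ * s₁ * tri M (4 * l) j + K * s₁ * tri M l j with hg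
  have hg0 : ∀ j, 0 ≤ g j := by
    intro j
    have t0 := hP.tri_nonneg M (4 * l) j
    have t1 := hP.tri_nonneg M l j
    simp only [hg]
    positivity
  have h1 : ∀ j, eu (V j) ≤ K * ε * eu (cjv V j) + g j := by
    intro j
    obtain ⟨m1, m2, m3⟩ := lam_mem (M := M) (l := l) hP hs₁ hρ hS.ρ₀_le hl0 hl1 j
    have t0 := hP.tri_nonneg M l j
    have t1 := hP.tri_nonneg M (4 * l) j
    rw [hV j]
    refine (eu_add_le _ _).trans ?_
    have a1 := hY.y4 z (u₀ - cjv V j) _ hzr m1 m2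
    have a2 := eu_le_norm (Yt z (u₀ - cjv V j) (lam * s₁ * tri M (4 * l) j + ρ₀))
    rw [← hK] at a2
    have a3 : ‖u₀ - cjv V j‖ ≤ K * (c * τ) + eu (cjv V j) :=
      (norm_le_eu _).trans ((eu_sub_le _ _).trans (by linarith))
    have a4 : ‖z‖ ^ 2 ≤ c ^ 2 * τ := by
      have := pow_le_pow_left₀ (norm_nonneg z) hz 2
      rwa [mul_pow, hh2] at this
    have a5 : C₀ * (lam * s₁ * tri M (4 * l) j + ρ₀) ≤ C₀ * (s₁ * tri M (4 * l) j + ρ₀) := by
      gcongr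
    have a6 : eu ((mu * tri M l j) • b) ≤ K * s₁ * tri M l j := by
      rw [eu_smul, abs_of_nonneg (by positivity)]
      have b1 := eu_le_norm b
      rw [← hK] at b1
      calc mu * tri M l j * eu b ≤ 1 * tri M l j * (K * s₁) := by
            gcongr
            · exact eu_nonneg _
            · exact b1.trans (by gcongr)
        _ = _ := by ring
    have a7 : ‖Yt z (u₀ - cjv V j) (lam * s₁ * tri M (4 * l) j + ρ₀)‖ ≤
        2 * C₀ * (c ^ 2 * τ) + ε * (K * (c * τ) + eu (cjv V j)) +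
          C₀ * (s₁ * tri M (4 * l) j + ρ₀) := by
      refine a1.trans ?_
      gcongr
    have a8 := mul_le_mul_of_nonneg_left a7 (by linarith : 0 ≤ K)
    simp only [hg]
    nlinarith
  have h2 := absorb hE hq0 hq hg0 h1
  have h3 : l2s g ≤ (K * ε * (K * (c * τ)) + K * (2 * C₀ * (c ^ 2 * τ) + C₀ * ρ₀)) +
      K * C₀ * s₁ * (2 * h) + K * s₁ * h := by
    refine (l2s_add3 _ _ _).trans ?_
    rw [l2s_const, l2s_const_mul_nonneg (by positivity), l2s_const_mul_nonneg (by positivity),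
      abs_of_nonneg (by positivity)]
    gcongr
    · exact l2_bet hP hS
    · exact l2_chi hP hS
  have b1 := hS.c_sq
  have b2 := hS.c_tau
  have b3 := hS.ρ₀_s
  rw [← hh_def] at b1 b2 b3
  have hsh : 0 ≤ s₁ * h := by positivity
  have h4 : (K * ε * (K * (c * τ)) + K * (2 * C₀ * (c ^ 2 * τ) + C₀ * ρ₀)) ≤
      K * (1 / 100 * (s₁ * h) + 3 * C₀ * (s₁ * h)) := by
    have e1 : K * ε * (K * (c * τ)) ≤ 1 / 100 * (K * (s₁ * h)) := by
      apply mul_le_mul hq _ (by positivity) (by norm_num)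
      gcongr
    have e2 : 2 * C₀ * (c ^ 2 * τ) + C₀ * ρ₀ ≤ 3 * C₀ * (s₁ * h) := by
      have := mul_le_mul_of_nonneg_left b1 hC
      have := mul_le_mul_of_nonneg_left b3 hC
      linarith
    have e3 := mul_le_mul_of_nonneg_left e2 (by linarith : 0 ≤ K)
    linarith
  have hX : 0 ≤ K * C₀ * (s₁ * h) := by positivity
  have hX' : 0 ≤ K * (s₁ * h) := by positivity
  have h5 : l2 V ≤ 6 * (K * (C₀ + 1) * s₁ * h) := by
    have : l2s g ≤ 5 * (K * C₀ * (s₁ * h)) + 101 / 100 * (K * (s₁ * h)) := by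
      refine h3.trans ?_
      linarith
    nlinarith
  have hKD : 0 ≤ K * (C₀ + 1) * s₁ * h := by positivity
  refine ⟨by linarith, ?_, ?_⟩
  · have e1 : l2 (fun j => u₀ - cjv V j) ≤ eu u₀ + l2 (cjv V) := by
      have := l2_sub_le (fun _ : ZMod (2 * M + 1) => u₀) (cjv V)
      rwa [l2_const] at this
    have e2 := hE.cjv_le V
    have e3 : K * (c * τ) ≤ K * (C₀ + 1) * s₁ * h := by
      have := mul_le_mul_of_nonneg_left b2 (by linarith : 0 ≤ K)
      nlinarith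
    linarith
  · -- shift
    set δ : ZMod (2 * M + 1) → ℝ := fun j =>
      K * C₀ * s₁ * |tri M (4 * l) (j + 1) - tri M (4 * l) j| +
        K * s₁ * |tri M l (j + 1) - tri M l j| with hδ
    have k1 := hE.shift (fun j u => Yt z u (lam * s₁ * tri M (4 * l) j + ρ₀) +
      (mu * tri M l j) • b) (K * ε) u₀ V δ hq0 (by linarith) (by
        intro j u u'
        rw [add_sub_add_right_eq_sub]
        obtain ⟨m1, m2, -⟩ := lam_mem (M := M) (l := l) hP hs₁ hρ hS.ρ₀_le hl0 hl1 j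
        exact eu_y1 hY hzr m1 m2) hV (by
        intro j
        obtain ⟨m1, m2, m3⟩ := lam_mem (M := M) (l := l) hP hs₁ hρ hS.ρ₀_le hl0 hl1 j
        obtain ⟨n1, n2, n3⟩ := lam_mem (M := M) (l := l) hP hs₁ hρ hS.ρ₀_le hl0 hl1 (j + 1)
        have e0 : ∀ x y : Fin k → ℝ, x + (mu * tri M l (j + 1)) • b - (y + (mu * tri M l j) • b) =
            (x - y) + (mu * (tri M l (j + 1) - tri M l j)) • b := by
          intro x y
          rw [mul_sub, sub_smul]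
          abel
        rw [e0]
        refine (eu_add_le _ _).trans ?_
        have e1 := hY.y2 z (u₀ - cjv V j) _ _ hzr n1 n2 m1 m2
        have e2 : |lam * s₁ * tri M (4 * l) (j + 1) + ρ₀ - (lam * s₁ * tri M (4 * l) j + ρ₀)| ≤
            s₁ * |tri M (4 * l) (j + 1) - tri M (4 * l) j| := by
          have : lam * s₁ * tri M (4 * l) (j + 1) + ρ₀ - (lam * s₁ * tri M (4 * l) j + ρ₀) =
              (lam * s₁) * (tri M (4 * l) (j + 1) - tri M (4 * l) j) := by ring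
          rw [this, abs_mul, abs_of_nonneg (mul_nonneg hl0 hs₁.le)]
          gcongr
          nlinarith
        have e3 : eu ((mu * (tri M l (j + 1) - tri M l j)) • b) ≤
            K * s₁ * |tri M l (j + 1) - tri M l j| := by
          rw [eu_smul, abs_mul, abs_of_nonneg hm0]
          have b1 := eu_le_norm b
          rw [← hK] at b1
          calc mu * |tri M l (j + 1) - tri M l j| * eu b ≤
              1 * |tri M l (j + 1) - tri M l j| * (K * s₁) := by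
                gcongr
                · exact eu_nonneg _
                · exact b1.trans (by gcongr)
            _ = _ := by ring
        have e4 := eu_le_norm (Yt z (u₀ - cjv V j) (lam * s₁ * tri M (4 * l) (j + 1) + ρ₀) -
          Yt z (u₀ - cjv V j) (lam * s₁ * tri M (4 * l) j + ρ₀))
        rw [← hK] at e4
        have e5 := mul_le_mul_of_nonneg_left (e1.trans (mul_le_mul_of_nonneg_left e2 hC))
          (by linarith : 0 ≤ K)
        simp only [hδ]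
        linarith)
    have k2 : l2s δ ≤ K * C₀ * s₁ * l2s (fun j : ZMod (2 * M + 1) =>
          tri M (4 * l) (j + 1) - tri M (4 * l) j) +
        K * s₁ * l2s (fun j : ZMod (2 * M + 1) => tri M l (j + 1) - tri M l j) := by
      refine (l2s_add_le _ _).trans ?_
      rw [l2s_const_mul_nonneg (by positivity), l2s_const_mul_nonneg (by positivity),
        l2s_abs, l2s_abs]
    have k3 : (2 * M + 1) * l2s δ ≤ K * C₀ * s₁ * (1 / h) + K * s₁ * (2 / h) := by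
      have a1 := mul_le_mul_of_nonneg_left k2 (Npos M).le
      have a2 := mul_le_mul_of_nonneg_left (d_bet hP hS) (by positivity : 0 ≤ K * C₀ * s₁)
      have a3 := mul_le_mul_of_nonneg_left (d_chi hP hS) (by positivity : 0 ≤ K * s₁)
      rw [← hh_def] at a2 a3
      linarith
    have k4 : (2 * M + 1) * l2 (fun j : ZMod (2 * M + 1) => V (j + 1) - V j) ≤
        100 / 99 * ((2 * M + 1) * l2s δ) := by
      have a1 : l2s δ / (1 - K * ε) ≤ 100 / 99 * l2s δ := by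
        rw [div_le_iff₀ (by linarith)]
        have := l2s_nonneg δ
        nlinarith
      have a2 := mul_le_mul_of_nonneg_left (k1.trans a1) (Npos M).le
      linarith
    have k5 : K * C₀ * s₁ * (1 / h) + K * s₁ * (2 / h) ≤ 2 * (K * (C₀ + 1) * s₁ / h) := by
      have e : K * C₀ * s₁ * (1 / h) + K * s₁ * (2 / h) = K * C₀ * s₁ / h + 2 * (K * s₁ / h) := by
        ring
      have e' : 2 * (K * (C₀ + 1) * s₁ / h) = 2 * (K * C₀ * s₁ / h) + 2 * (K * s₁ / h) := by ring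
      rw [e, e']
      have : 0 ≤ K * C₀ * s₁ / h := by positivity
      linarith
    have k6 : 0 ≤ K * (C₀ + 1) * s₁ / h := by positivity
    have k7 : 20 * K * (C₀ + 1) * s₁ / h = 20 * (K * (C₀ + 1) * s₁ / h) := by ring
    rw [k7]
    linarith

end yok

end Crest.Agent.R264.BisS
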