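import Crest.Agent.R264.BshDat
import Crest.Agent.R264.BshNorm
import Crest.Agent.R264.BshM1
import Mathlib
import Crest.Agent.R264.BshIface

-- ▼ part R264/BshM2
section

/-!
Row 264, Part B (helper747): the polynomial discs.
-/

set_option autoImplicit false

open Topology Filter Set

namespace Crest.Agent.R264.BshM

open Crest.Agent.R264.Bsh Crest.Agent.R264.BshN

variable {M k : ℕ}

/-- the disc `ζ ↦ u₀ + i P_V(ζ)` -/
noncomputable def disc (u₀ : Fin k → ℝ) (V : ZMod (2 * M + 1) → Fin k → ℝ) (ζ : ℂ) : Fin k → ℂ :=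
  fun i => (u₀ i : ℂ) + Complex.I * pd (fun j => V j i) ζ

lemma disc_nd (hT : BisT) (u₀ : Fin k → ℝ) (V : ZMod (2 * M + 1) → Fin k → ℝ)
    (j : ZMod (2 * M + 1)) :
    disc u₀ V (nd M j) = fun i => (((u₀ - cjv V j) i : ℝ) : ℂ) + Complex.I * ((V j i : ℝ) : ℂ) := by
  ext i
  have h1 : pd (fun j => V j i) (nd M j) = ((V j i : ℝ) : ℂ) + ((cjv V j i : ℝ) : ℂ) * Complex.I := by
    apply Complex.ext
    · simp [hT.re_pd]
    · simp [cjv, cj]
  have h2 : Complex.I * Complex.I = -1 := Complex.I_mul_I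
  simp only [disc, h1, Pi.sub_apply, Complex.ofReal_sub]
  linear_combination (cjv V j i : ℂ) * h2

lemma disc_zero (hT : BisT) (u₀ : Fin k → ℝ) (V : ZMod (2 * M + 1) → Fin k → ℝ) :
    disc u₀ V 0 = fun i => (u₀ i : ℂ) + Complex.I * ((mv V i : ℝ) : ℂ) := by
  ext i
  simp only [disc, hT.pd_zero, mv]

lemma disc_const (hT : BisT) (u₀ v : Fin k → ℝ) (ζ : ℂ) :
    disc u₀ (fun _ : ZMod (2 * M + 1) => v) ζ = fun i => (u₀ i : ℂ) + Complex.I * ((v i : ℝ) : ℂ) := by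
  ext i
  simp only [disc, hT.pd_const]

lemma disc_differentiable (u₀ : Fin k → ℝ) (V : ZMod (2 * M + 1) → Fin k → ℝ) :
    Differentiable ℂ (disc u₀ V) := by
  unfold disc pd
  fun_prop

lemma disc_continuous {X : Type*} [TopologicalSpace X] (u₀ : Fin k → ℝ)
    (V : X → ZMod (2 * M + 1) → Fin k → ℝ) (hV : ∀ j i, Continuous (fun x => V x j i)) :
    Continuous (fun p : X × ℂ => disc u₀ (V p.1) p.2) := by
  have hV' : ∀ j i, Continuous (fun p : X × ℂ => V p.1 j i) := fun j i =>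
    (hV j i).comp continuous_fst
  unfold disc pd cf
  fun_prop

lemma disc_norm_le (hT : BisT) {CA : ℝ}
    (hA : ∀ {M : ℕ} (f : ZMod (2 * M + 1) → ℝ) (ζ : ℂ) (τ : ℝ), ‖ζ‖ ≤ 1 →
      0 < τ → τ ≤ 1 → ‖pd f ζ - pd f 0‖ ≤
      CA * (l2s f / Real.sqrt τ +
        (2 * M + 1) * l2s (fun j : ZMod (2 * M + 1) => f (j + 1) - f j) * Real.sqrt τ))
    (hCA : 0 < CA) (u₀ : Fin k → ℝ) (V : ZMod (2 * M + 1) → Fin k → ℝ) (ζ : ℂ) (hζ : ‖ζ‖ ≤ 1)
    {τ : ℝ} (hτ : 0 < τ) (hτ1 : τ ≤ 1) :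
    ‖disc u₀ V ζ‖ ≤ ‖u₀‖ + l2 V + CA * (l2 V / Real.sqrt τ +
      (2 * M + 1) * l2 (fun j : ZMod (2 * M + 1) => V (j + 1) - V j) * Real.sqrt τ) := by
  have hs : 0 < Real.sqrt τ := Real.sqrt_pos.2 hτ
  have hN := Npos M
  have hnn : 0 ≤ ‖u₀‖ + l2 V + CA * (l2 V / Real.sqrt τ +
      (2 * M + 1) * l2 (fun j : ZMod (2 * M + 1) => V (j + 1) - V j) * Real.sqrt τ) := by
    have := l2_nonneg V
    have := l2_nonneg (fun j : ZMod (2 * M + 1) => V (j + 1) - V j)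
    positivity
  rw [pi_norm_le_iff_of_nonneg hnn]
  intro i
  have h1 := hA (fun j => V j i) ζ τ hζ hτ hτ1
  have h2 : ‖pd (fun j => V j i) (0 : ℂ)‖ ≤ l2 V := by
    rw [hT.pd_zero, Complex.norm_real, Real.norm_eq_abs]
    exact (abs_mean_le _).trans (l2s_coord_le V i)
  have h3 := l2s_coord_le V i
  have h4 := l2s_coord_le (fun j : ZMod (2 * M + 1) => V (j + 1) - V j) i
  have h5 : ‖pd (fun j => V j i) ζ‖ ≤ l2 V + CA * (l2 V / Real.sqrt τ +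
      (2 * M + 1) * l2 (fun j : ZMod (2 * M + 1) => V (j + 1) - V j) * Real.sqrt τ) := by
    calc ‖pd (fun j => V j i) ζ‖
        = ‖pd (fun j => V j i) 0 + (pd (fun j => V j i) ζ - pd (fun j => V j i) 0)‖ := by
          congr 1; ring
      _ ≤ ‖pd (fun j => V j i) (0 : ℂ)‖ + ‖pd (fun j => V j i) ζ - pd (fun j => V j i) 0‖ :=
          norm_add_le _ _
      _ ≤ l2 V + CA * (l2 V / Real.sqrt τ +
          (2 * M + 1) * l2 (fun j : ZMod (2 * M + 1) => V (j + 1) - V j) * Real.sqrt τ) := by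
          refine add_le_add h2 (h1.trans ?_)
          apply mul_le_mul_of_nonneg_left _ hCA.le
          apply add_le_add
          · exact div_le_div_of_nonneg_right h3 hs.le
          · apply mul_le_mul_of_nonneg_right _ hs.le
            exact mul_le_mul_of_nonneg_left h4 hN.le
  have h6 : ‖(u₀ i : ℂ)‖ ≤ ‖u₀‖ := by
    rw [Complex.norm_real]; exact norm_le_pi_norm u₀ i
  calc ‖disc u₀ V ζ i‖ ≤ ‖(u₀ i : ℂ)‖ + ‖Complex.I * pd (fun j => V j i) ζ‖ := norm_add_le _ _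
    _ ≤ ‖u₀‖ + (l2 V + CA * (l2 V / Real.sqrt τ +
      (2 * M + 1) * l2 (fun j : ZMod (2 * M + 1) => V (j + 1) - V j) * Real.sqrt τ)) := by
        rw [norm_mul, Complex.norm_I, one_mul]
        exact add_le_add h6 h5
    _ = _ := by ring

lemma disc_holder {CH : ℝ}
    (hH : ∀ {M : ℕ} (f : ZMod (2 * M + 1) → ℝ) (ζ ζ' : ℂ), ‖ζ‖ ≤ 1 → ‖ζ'‖ ≤ 1 →
      ‖pd f ζ - pd f ζ'‖ ≤ CH * ((2 * M + 1) *
        l2s (fun j : ZMod (2 * M + 1) => f (j + 1) - f j)) * Real.sqrt ‖ζ - ζ'‖)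
    (hCH : 0 < CH) (u₀ : Fin k → ℝ) (V : ZMod (2 * M + 1) → Fin k → ℝ) (ζ ζ' : ℂ) (hζ : ‖ζ‖ ≤ 1)
    (hζ' : ‖ζ'‖ ≤ 1) :
    ‖disc u₀ V ζ - disc u₀ V ζ'‖ ≤ CH * ((2 * M + 1) *
      l2 (fun j : ZMod (2 * M + 1) => V (j + 1) - V j)) * Real.sqrt ‖ζ - ζ'‖ := by
  have hN := Npos M
  have hl := l2_nonneg (fun j : ZMod (2 * M + 1) => V (j + 1) - V j)
  rw [pi_norm_le_iff_of_nonneg (by positivity)]
  intro i
  have h1 := hH (fun j => V j i) ζ ζ' hζ hζ'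
  have h4 := l2s_coord_le (fun j : ZMod (2 * M + 1) => V (j + 1) - V j) i
  have e : (disc u₀ V ζ - disc u₀ V ζ') i =
      Complex.I * (pd (fun j => V j i) ζ - pd (fun j => V j i) ζ') := by
    simp only [disc, Pi.sub_apply]; ring
  rw [e, norm_mul, Complex.norm_I, one_mul]
  refine h1.trans ?_
  apply mul_le_mul_of_nonneg_right _ (Real.sqrt_nonneg _)
  apply mul_le_mul_of_nonneg_left _ hCH.le
  exact mul_le_mul_of_nonneg_left h4 hN.le

end Crest.Agent.R264.BshM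
end

-- ▼ part R264/BshM3
section

/-!
Row 264, Part B (helper747): the family of discs and the Kontinuitaetssatz sweep (step (3)).
-/

set_option autoImplicit false

open Topology Filter Set

namespace Crest.Agent.R264.BshM

open Crest.Agent.R264.Bsh Crest.Agent.R264.BshN

/-- first stage parameter -/
noncomputable def lamF (x : ℝ) : ℝ := min 1 (max 0 (2 * x))
/-- second stage parameter -/
noncomputable def muF (x : ℝ) : ℝ := min 1 (max 0 (2 * x - 1))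

lemma lamF_nonneg (x : ℝ) : 0 ≤ lamF x := le_min zero_le_one (le_max_left _ _)
lemma lamF_le (x : ℝ) : lamF x ≤ 1 := min_le_left _ _
lemma muF_nonneg (x : ℝ) : 0 ≤ muF x := le_min zero_le_one (le_max_left _ _)
lemma muF_le (x : ℝ) : muF x ≤ 1 := min_le_left _ _
lemma lamF_zero : lamF 0 = 0 := by simp [lamF]
lemma muF_zero : muF 0 = 0 := by simp [muF]
lemma lamF_one : lamF 1 = 1 := by norm_num [lamF]
lemma muF_one : muF 1 = 1 := by norm_num [muF]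

lemma lamF_eq_one {x : ℝ} (h : 0 < muF x) : lamF x = 1 := by
  have h1 : 0 < 2 * x - 1 := by
    by_contra hc
    push Not at hc
    have : muF x = 0 := by rw [muF, max_eq_left hc]; simp
    linarith
  rw [lamF]
  apply min_eq_left
  exact le_max_of_le_right (by linarith)

lemma lamF_lip (x y : ℝ) : |lamF x - lamF y| ≤ 2 * |x - y| := by
  have h1 : |min 1 (max 0 (2 * x)) - min 1 (max 0 (2 * y))| ≤ |max 0 (2 * x) - max 0 (2 * y)| := by
    have := abs_min_sub_min_le_max 1 (max 0 (2 * x)) 1 (max 0 (2 * y))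
    simpa using this
  have h2 : |max 0 (2 * x) - max 0 (2 * y)| ≤ |2 * x - 2 * y| := by
    have := abs_max_sub_max_le_max 0 (2 * x) 0 (2 * y)
    simpa using this
  refine (h1.trans h2).trans (le_of_eq ?_)
  rw [← mul_sub, abs_mul]; norm_num

lemma muF_lip (x y : ℝ) : |muF x - muF y| ≤ 2 * |x - y| := by
  have h1 : |min 1 (max 0 (2 * x - 1)) - min 1 (max 0 (2 * y - 1))| ≤
      |max 0 (2 * x - 1) - max 0 (2 * y - 1)| := by
    have := abs_min_sub_min_le_max 1 (max 0 (2 * x - 1)) 1 (max 0 (2 * y - 1))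
    simpa using this
  have h2 : |max 0 (2 * x - 1) - max 0 (2 * y - 1)| ≤ |(2 * x - 1) - (2 * y - 1)| := by
    have := abs_max_sub_max_le_max 0 (2 * x - 1) 0 (2 * y - 1)
    simpa using this
  refine (h1.trans h2).trans (le_of_eq ?_)
  rw [show (2 * x - 1) - (2 * y - 1) = 2 * (x - y) by ring, abs_mul]; norm_num

variable {M k : ℕ}

lemma eu_le_l2 (V : ZMod (2 * M + 1) → Fin k → ℝ) (j : ZMod (2 * M + 1)) :
    eu (V j) ≤ Real.sqrt (2 * M + 1) * l2 V := by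
  rw [l2, ← Real.sqrt_mul (Npos M).le, mul_div_cancel₀ _ (Npos M).ne']
  apply Real.le_sqrt_of_sq_le
  rw [eu_sq]
  exact Finset.single_le_sum (f := fun j => ∑ i, V j i ^ 2)
    (fun j _ => Finset.sum_nonneg fun _ _ => sq_nonneg _) (Finset.mem_univ j)

section

variable {Z : Type} [NormedAddCommGroup Z]
  {Yt : Z → (Fin k → ℝ) → ℝ → (Fin k → ℝ)} {om : ℝ → ℝ} {C₀ ε r s₁ : ℝ}

/-- right-hand side of the Bishop equation -/
noncomputable def Phi (Yt : Z → (Fin k → ℝ) → ℝ → (Fin k → ℝ)) (s₁ ρ₀ : ℝ) (M L : ℕ) (z : Z)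
    (b : Fin k → ℝ) (lam mu : ℝ) (j : ZMod (2 * M + 1)) (u : Fin k → ℝ) : Fin k → ℝ :=
  Yt z u (lam * s₁ * tri M (4 * L) j + ρ₀) + (mu * tri M L j) • b

lemma srange (hP : BisP) (hs : 0 < s₁) {ρ₀ lam : ℝ} (h0 : 0 ≤ ρ₀) (h1 : ρ₀ ≤ s₁) (hl : 0 ≤ lam)
    (hl1 : lam ≤ 1) (L : ℕ) (j : ZMod (2 * M + 1)) :
    ρ₀ ≤ lam * s₁ * tri M (4 * L) j + ρ₀ ∧ lam * s₁ * tri M (4 * L) j + ρ₀ ≤ 2 * s₁ := by
  have a1 := hP.tri_nonneg M (4 * L) j
  have a2 := hP.tri_le_one M (4 * L) j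
  have a3 : 0 ≤ lam * s₁ * tri M (4 * L) j := by positivity
  have a4 : lam * s₁ * tri M (4 * L) j ≤ 1 * s₁ * 1 := by
    apply mul_le_mul _ a2 a1 (by positivity)
    exact mul_le_mul_of_nonneg_right hl1 hs.le
  constructor <;> linarith

lemma Phi_lip (hY : YOK Yt om C₀ ε r s₁) (hP : BisP) {ρ₀ lam mu : ℝ} (h0 : 0 ≤ ρ₀)
    (h1 : ρ₀ ≤ s₁) (hl : 0 ≤ lam) (hl1 : lam ≤ 1) (L : ℕ) {z : Z} (hz : ‖z‖ ≤ r)
    (b : Fin k → ℝ) (j : ZMod (2 * M + 1)) (u u' : Fin k → ℝ) :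
    eu (Phi Yt s₁ ρ₀ M L z b lam mu j u - Phi Yt s₁ ρ₀ M L z b lam mu j u') ≤
      (((k : ℝ) + 1) * ε) * eu (u - u') := by
  have hs := srange (M := M) hP hY.s₁_pos h0 h1 hl hl1 L j
  have e : Phi Yt s₁ ρ₀ M L z b lam mu j u - Phi Yt s₁ ρ₀ M L z b lam mu j u' =
      Yt z u (lam * s₁ * tri M (4 * L) j + ρ₀) - Yt z u' (lam * s₁ * tri M (4 * L) j + ρ₀) := by
    simp only [Phi]; abel
  rw [e]
  have h2 := hY.y1 z u u' _ hz (h0.trans hs.1) hs.2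
  have hk : (0 : ℝ) ≤ (k : ℝ) + 1 := by positivity
  calc eu (Yt z u (lam * s₁ * tri M (4 * L) j + ρ₀) - Yt z u' (lam * s₁ * tri M (4 * L) j + ρ₀))
      ≤ ((k : ℝ) + 1) * ‖Yt z u (lam * s₁ * tri M (4 * L) j + ρ₀) -
          Yt z u' (lam * s₁ * tri M (4 * L) j + ρ₀)‖ := eu_le_norm _
    _ ≤ ((k : ℝ) + 1) * (ε * ‖u - u'‖) := mul_le_mul_of_nonneg_left h2 hk
    _ ≤ ((k : ℝ) + 1) * (ε * eu (u - u')) := by
        apply mul_le_mul_of_nonneg_left _ hk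
        exact mul_le_mul_of_nonneg_left (norm_le_eu _) hY.ε_pos.le
    _ = _ := by ring

lemma q_bounds (hY : YOK Yt om C₀ ε r s₁) :
    0 ≤ ((k : ℝ) + 1) * ε ∧ ((k : ℝ) + 1) * ε ≤ 1 / 100 := by
  have := hY.ε_pos
  have := hY.ε_le
  constructor
  · positivity
  · nlinarith

/-- uniqueness -/
lemma bis_unique (hE : BisE) (hY : YOK Yt om C₀ ε r s₁) (hP : BisP) {ρ₀ lam mu : ℝ} (h0 : 0 ≤ ρ₀)
    (h1 : ρ₀ ≤ s₁) (hl : 0 ≤ lam) (hl1 : lam ≤ 1) {L : ℕ} {z : Z} (hz : ‖z‖ ≤ r)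
    {u₀ b : Fin k → ℝ} {V V' : ZMod (2 * M + 1) → Fin k → ℝ}
    (hV : IsBis Yt s₁ ρ₀ M L z u₀ b lam mu V) (hV' : IsBis Yt s₁ ρ₀ M L z u₀ b lam mu V') :
    V = V' := by
  have hq := q_bounds hY
  have h := hE.diff (Phi Yt s₁ ρ₀ M L z b lam mu) (Phi Yt s₁ ρ₀ M L z b lam mu)
    (((k : ℝ) + 1) * ε) u₀ u₀ V V' (fun _ => 0) hq.1 (by linarith)
    (Phi_lip hY hP h0 h1 hl hl1 L hz b) hV hV' (fun j => by simp)
  rw [sub_self, eu_zero, mul_zero, l2s_const, abs_zero, add_zero, zero_div] at h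
  funext j
  have h2 := eu_le_l2 (V - V') j
  have h3 : Real.sqrt (2 * M + 1) * l2 (V - V') ≤ 0 := by
    apply mul_nonpos_of_nonneg_of_nonpos (Real.sqrt_nonneg _) h
  have h4 : ‖(V - V') j‖ ≤ 0 := (norm_le_eu _).trans (h2.trans h3)
  have h5 : (V - V') j = 0 := norm_le_zero_iff.1 h4
  simpa [sub_eq_zero] using h5

/-- Lipschitz dependence on the family parameter -/
lemma bis_cont (hE : BisE) (hY : YOK Yt om C₀ ε r s₁) (hP : BisP) {ρ₀ : ℝ} (h0 : 0 ≤ ρ₀)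
    (h1 : ρ₀ ≤ s₁) {L : ℕ} {z : Z} (hz : ‖z‖ ≤ r) {u₀ b : Fin k → ℝ}
    {V : ℝ → ZMod (2 * M + 1) → Fin k → ℝ}
    (hV : ∀ x, IsBis Yt s₁ ρ₀ M L z u₀ b (lamF x) (muF x) (V x)) (j : ZMod (2 * M + 1))
    (i : Fin k) : Continuous (fun x => V x j i) := by
  have hq := q_bounds hY
  have hs := hY.s₁_pos
  have hC := hY.C₀_nonneg
  have hk : (0 : ℝ) ≤ (k : ℝ) + 1 := by positivity
  set A : ℝ := ((k : ℝ) + 1) * (2 * C₀ * s₁ + 2 * ‖b‖) with hA
  have hA0 : 0 ≤ A := by positivity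
  have key : ∀ x y, |V x j i - V y j i| ≤ (Real.sqrt (2 * M + 1) * (2 * A)) * |x - y| := by
    intro x y
    have h := hE.diff (Phi Yt s₁ ρ₀ M L z b (lamF x) (muF x))
      (Phi Yt s₁ ρ₀ M L z b (lamF y) (muF y))
      (((k : ℝ) + 1) * ε) u₀ u₀ (V x) (V y) (fun _ => A * |x - y|) hq.1 (by linarith)
      (Phi_lip hY hP h0 h1 (lamF_nonneg x) (lamF_le x) L hz b) (hV x) (hV y) (fun j => ?_)
    · rw [sub_self, eu_zero, mul_zero, l2s_const, zero_add, abs_of_nonneg (by positivity)] at h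
      have h2 := eu_le_l2 (V x - V y) j
      have h3 : |V x j i - V y j i| ≤ eu ((V x - V y) j) :=
        (norm_le_pi_norm ((V x - V y) j) i).trans (norm_le_eu _)
      refine (h3.trans h2).trans ?_
      rw [mul_assoc]
      apply mul_le_mul_of_nonneg_left _ (Real.sqrt_nonneg _)
      refine h.trans ?_
      rw [div_le_iff₀ (by linarith)]
      have h4 : 0 ≤ A * |x - y| := by positivity
      nlinarith
    · have a1 := srange (M := M) hP hs h0 h1 (lamF_nonneg x) (lamF_le x) L j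
      have a2 := srange (M := M) hP hs h0 h1 (lamF_nonneg y) (lamF_le y) L j
      have t1 := hP.tri_nonneg M (4 * L) j
      have t2 := hP.tri_le_one M (4 * L) j
      have t3 := hP.tri_nonneg M L j
      have t4 := hP.tri_le_one M L j
      set u := u₀ - cjv (V y) j
      have e : Phi Yt s₁ ρ₀ M L z b (lamF x) (muF x) j u - Phi Yt s₁ ρ₀ M L z b (lamF y) (muF y) j u =
          (Yt z u (lamF x * s₁ * tri M (4 * L) j + ρ₀) -
            Yt z u (lamF y * s₁ * tri M (4 * L) j + ρ₀)) + ((muF x - muF y) * tri M L j) • b := by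
        simp only [Phi]
        rw [sub_mul, sub_smul]
        abel
      rw [e]
      refine (eu_le_norm _).trans ?_
      rw [hA, mul_assoc ((k : ℝ) + 1)]
      apply mul_le_mul_of_nonneg_left _ hk
      refine (norm_add_le _ _).trans ?_
      have b1 := hY.y2 z u _ _ hz (h0.trans a1.1) a1.2 (h0.trans a2.1) a2.2
      have b2 : |lamF x * s₁ * tri M (4 * L) j + ρ₀ - (lamF y * s₁ * tri M (4 * L) j + ρ₀)| ≤
          2 * |x - y| * s₁ := by
        rw [show lamF x * s₁ * tri M (4 * L) j + ρ₀ - (lamF y * s₁ * tri M (4 * L) j + ρ₀) =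
          (lamF x - lamF y) * (s₁ * tri M (4 * L) j) by ring, abs_mul,
          abs_of_nonneg (by positivity : 0 ≤ s₁ * tri M (4 * L) j)]
        apply mul_le_mul (lamF_lip x y) _ (by positivity) (by positivity)
        nlinarith
      have b3 : ‖((muF x - muF y) * tri M L j) • b‖ ≤ 2 * |x - y| * ‖b‖ := by
        rw [norm_smul, Real.norm_eq_abs, abs_mul, abs_of_nonneg t3]
        apply mul_le_mul_of_nonneg_right _ (norm_nonneg _)
        calc |muF x - muF y| * tri M L j ≤ 2 * |x - y| * 1 :=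
              mul_le_mul (muF_lip x y) t4 t3 (by positivity)
          _ = 2 * |x - y| := by ring
      have b4 : C₀ * |lamF x * s₁ * tri M (4 * L) j + ρ₀ - (lamF y * s₁ * tri M (4 * L) j + ρ₀)| ≤
          C₀ * (2 * |x - y| * s₁) := mul_le_mul_of_nonneg_left b2 hC
      calc _ ≤ C₀ * (2 * |x - y| * s₁) + 2 * |x - y| * ‖b‖ := add_le_add (b1.trans b4) b3
        _ = _ := by ring
  have hK0 : 0 ≤ Real.sqrt (2 * M + 1) * (2 * A) := by positivity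
  refine (LipschitzWith.of_dist_le_mul (K := ⟨_, hK0⟩) fun x y => ?_).continuous
  rw [Real.dist_eq, Real.dist_eq]
  exact key x y

end

end Crest.Agent.R264.BshM
end

-- ▼ part R264/BshM4
section

/-!
Row 264, Part B (helper747): the sweep (step (3)).
-/

set_option autoImplicit false

open Topology Filter Set

namespace Crest.Agent.R264.BshM

open Crest.Agent.R264.Bsh Crest.Agent.R264.BshN

variable {k : ℕ} {Z : Type} [NormedAddCommGroup Z] [NormedSpace ℂ Z]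

/-- the point `u + i y` -/
noncomputable def cpt (u y : Fin k → ℝ) : Fin k → ℂ :=
  fun i => (u i : ℂ) + Complex.I * ((y i : ℝ) : ℂ)

/-- STEP (3). -/
lemma sweep (hT : BisT) (hE : BisE) (hP : BisP) (hN : BisN) (hS : BisS)
    {CA CH : ℝ} (hCA : 0 < CA) (hCH : 0 < CH)
    (hA : ∀ {M : ℕ} (f : ZMod (2 * M + 1) → ℝ) (ζ : ℂ) (τ : ℝ), ‖ζ‖ ≤ 1 →
      0 < τ → τ ≤ 1 → ‖pd f ζ - pd f 0‖ ≤
      CA * (l2s f / Real.sqrt τ +
        (2 * M + 1) * l2s (fun j : ZMod (2 * M + 1) => f (j + 1) - f j) * Real.sqrt τ))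
    (hH : ∀ {M : ℕ} (f : ZMod (2 * M + 1) → ℝ) (ζ ζ' : ℂ), ‖ζ‖ ≤ 1 → ‖ζ'‖ ≤ 1 →
      ‖pd f ζ - pd f ζ'‖ ≤ CH * ((2 * M + 1) *
        l2s (fun j : ZMod (2 * M + 1) => f (j + 1) - f j)) * Real.sqrt ‖ζ - ζ'‖)
    {Y : Z → (Fin k → ℝ) → ℝ → (Fin k → ℝ)} {om : ℝ → ℝ}
    {C₀ ε r s₁ ρ₀ c τ ρ₁ rb δ C₁ : ℝ} {M L : ℕ}
    (hY : YOK (fun z u s => Y z (clamp r u) s) om C₀ ε r s₁)
    (hSc : ScOK (k := k) om C₀ ε r s₁ ρ₀ c τ M L) (hρ₀ : 0 < ρ₀) (hτ1 : τ ≤ 1)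
    (hC₁ : C₁ = 20 * ((k : ℝ) + 1) * (C₀ + 1))
    (hsup : (1 + C₁ + CA * (C₁ + C₁)) * s₁ ≤ r)
    (hsup' : (1 + C₁ + CA * (C₁ + C₁)) * s₁ < ρ₁) (hrρ₁ : r < ρ₁)
    (hdel : CH * (C₁ * s₁ / Real.sqrt τ) * Real.sqrt (4 / (2 * M + 1)) ≤ δ)
    {UU Q : Set (Z × (Fin k → ℂ))} (hKS : KSHyp UU ρ₁) (hQ : IsCompact Q) (hQU : Q ⊆ UU)
    (hU : ∀ z u s, ‖z‖ ≤ r → ‖u‖ ≤ r → 0 < s → s ≤ 2 * s₁ → (z, cpt u (Y z u s)) ∈ UU)
    (hQ1 : ∀ z u s b' w', ‖z‖ ≤ r → ‖u‖ ≤ r → ρ₀ ≤ s → s ≤ 2 * s₁ → ‖b'‖ ≤ rb →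
      (b' = 0 ∨ s₁ / 2 ≤ s) → ‖w' - cpt u (Y z u s + b')‖ ≤ δ → (z, w') ∈ Q)
    (hrb : 0 ≤ rb) (hrb' : rb ≤ s₁)
    {z : Z} {u₀ b : Fin k → ℝ} (hz : ‖z‖ ≤ c * Real.sqrt τ) (hu₀ : ‖u₀‖ ≤ c * τ)
    (hb : ‖b‖ ≤ rb) {V : ZMod (2 * M + 1) → Fin k → ℝ}
    (hV : IsBis (fun z u s => Y z (clamp r u) s) s₁ ρ₀ M L z u₀ b 1 1 V) :
    (z, cpt u₀ (mv V)) ∈ UU := by
  have hτ : 0 < τ := by
    rw [hSc.τ_eq]
    have := hSc.l_pos
    have := Npos M
    positivity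
  have hst : 0 < Real.sqrt τ := Real.sqrt_pos.2 hτ
  have hst1 : Real.sqrt τ ≤ 1 := Real.sqrt_le_one.2 hτ1
  have hk : (0 : ℝ) < (k : ℝ) + 1 := by positivity
  have hC := hY.C₀_nonneg
  have hs := hY.s₁_pos
  have hC₁0 : 0 < C₁ := by rw [hC₁]; positivity
  have hzr : ‖z‖ ≤ r := hz.trans hSc.c_sqrt
  have hq := q_bounds hY
  have h0 := hρ₀.le
  have h1 := hSc.ρ₀_le
  -- the family
  have hex : ∀ x : ℝ, ∃ V, IsBis (fun z u s => Y z (clamp r u) s) s₁ ρ₀ M L z u₀ b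
      (lamF x) (muF x) V := fun x =>
    hS.exi _ om C₀ ε r s₁ ρ₀ M L z u₀ b _ _ hY hzr h0 h1 (lamF_nonneg x) (lamF_le x)
  choose W hW using hex
  have hW1 : W 1 = V := by
    have h := hW 1
    rw [lamF_one, muF_one] at h
    exact bis_unique hE hY hP h0 h1 zero_le_one le_rfl hzr h hV
  have hW0 : W 0 = fun _ => Y z (clamp r u₀) ρ₀ := by
    have h := hW 0
    rw [lamF_zero, muF_zero] at h
    refine bis_unique hE hY hP h0 h1 le_rfl zero_le_one hzr h ?_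
    intro j
    have hc : cjv (fun _ : ZMod (2 * M + 1) => Y z (clamp r u₀) ρ₀) j = 0 := by
      ext i
      simp [cjv, cj, hT.pd_const]
    simp [hc]
  -- sizes
  have hsz : ∀ x, l2 (W x) ≤ C₁ * s₁ * Real.sqrt τ ∧
      (2 * M + 1) * l2 (fun j : ZMod (2 * M + 1) => W x (j + 1) - W x j) ≤
        C₁ * s₁ / Real.sqrt τ := by
    intro x
    have h := hS.size _ om C₀ ε r s₁ ρ₀ c τ M L z u₀ b _ _ (W x) hY hSc (lamF_nonneg x) (lamF_le x)
      (muF_nonneg x) (muF_le x) (hb.trans hrb') hz hu₀ (hW x)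
    rw [hC₁]
    exact ⟨h.1, h.2.2⟩
  have hu₀s : ‖u₀‖ ≤ s₁ := by
    refine hu₀.trans (hSc.c_tau.trans ?_)
    nlinarith
  have hsupx : ∀ x (ζ : ℂ), ‖ζ‖ ≤ 1 → ‖disc u₀ (W x) ζ‖ ≤ (1 + C₁ + CA * (C₁ + C₁)) * s₁ := by
    intro x ζ hζ
    obtain ⟨a1, a2⟩ := hsz x
    refine (disc_norm_le hT hA hCA u₀ (W x) ζ hζ hτ hτ1).trans ?_
    have b1 : l2 (W x) ≤ C₁ * s₁ := by
      refine a1.trans ?_
      have : 0 ≤ C₁ * s₁ := by positivity
      nlinarith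
    have b2 : l2 (W x) / Real.sqrt τ ≤ C₁ * s₁ := by
      rw [div_le_iff₀ hst]; exact a1
    have b3 : (2 * M + 1) * l2 (fun j : ZMod (2 * M + 1) => W x (j + 1) - W x j) * Real.sqrt τ ≤
        C₁ * s₁ := by
      rw [le_div_iff₀ hst] at a2; exact a2
    have b4 : CA * (l2 (W x) / Real.sqrt τ +
        (2 * M + 1) * l2 (fun j : ZMod (2 * M + 1) => W x (j + 1) - W x j) * Real.sqrt τ) ≤
        CA * (C₁ * s₁ + C₁ * s₁) := mul_le_mul_of_nonneg_left (add_le_add b2 b3) hCA.le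
    calc _ ≤ s₁ + C₁ * s₁ + CA * (C₁ * s₁ + C₁ * s₁) := add_le_add (add_le_add hu₀s b1) b4
      _ = _ := by ring
  -- the nodes
  have hnd1 : ∀ j : ZMod (2 * M + 1), ‖nd M j‖ = 1 := by
    intro j
    simp [nd, ZMod.stdAddChar_apply]
  have hnode : ∀ x (j : ZMod (2 * M + 1)), ∃ u s b', ‖u‖ ≤ r ∧ ρ₀ ≤ s ∧ s ≤ 2 * s₁ ∧ ‖b'‖ ≤ rb ∧
      (b' = 0 ∨ s₁ / 2 ≤ s) ∧ disc u₀ (W x) (nd M j) = cpt u (Y z u s + b') := by
    intro x j
    have e := disc_nd hT u₀ (W x) j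
    set u := u₀ - cjv (W x) j with hu
    have hur : ‖u‖ ≤ r := by
      have h2 := (hsupx x (nd M j) (hnd1 j).le).trans hsup
      rw [e] at h2
      rw [pi_norm_le_iff_of_nonneg hY.r_pos.le]
      intro i
      have h3 := (norm_le_pi_norm (fun i => (((u i : ℝ) : ℂ) + Complex.I * ((W x j i : ℝ) : ℂ))) i).trans h2
      refine le_trans ?_ h3
      have h4 := Complex.abs_re_le_norm (((u i : ℝ) : ℂ) + Complex.I * ((W x j i : ℝ) : ℂ))
      simpa using h4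
    have hsr := srange (M := M) hP hs h0 h1 (lamF_nonneg x) (lamF_le x) L j
    have hWj := hW x j
    rw [← hu] at hWj
    simp only [clamp_eq hur] at hWj
    refine ⟨u, lamF x * s₁ * tri M (4 * L) j + ρ₀, (muF x * tri M L j) • b, hur, hsr.1, hsr.2,
      ?_, ?_, ?_⟩
    · rw [norm_smul, Real.norm_eq_abs, abs_of_nonneg (mul_nonneg (muF_nonneg x)
        (hP.tri_nonneg M L j))]
      have a1 : muF x * tri M L j ≤ 1 * 1 :=
        mul_le_mul (muF_le x) (hP.tri_le_one M L j) (hP.tri_nonneg M L j) zero_le_one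
      calc muF x * tri M L j * ‖b‖ ≤ 1 * ‖b‖ := by
            apply mul_le_mul_of_nonneg_right _ (norm_nonneg _)
            linarith
        _ ≤ rb := by rw [one_mul]; exact hb
    · by_cases h3 : muF x * tri M L j = 0
      · left; rw [h3, zero_smul]
      · right
        have h4 : 0 < muF x := lt_of_le_of_ne (muF_nonneg x) (fun h => h3 (by rw [← h, zero_mul]))
        have h5 : 0 < tri M L j := lt_of_le_of_ne (hP.tri_nonneg M L j)
          (fun h => h3 (by rw [← h, mul_zero]))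
        have h6 := hP.bet_ge M L j hSc.l_pos h5
        rw [lamF_eq_one h4, one_mul]
        nlinarith
    · rw [e, hWj]
      rfl
  -- application of KS
  have hfin := hKS z (fun x ζ => disc u₀ (W x) ζ) (hzr.trans_lt hrρ₁)
    (disc_continuous u₀ W (fun j i => bis_cont hE hY hP h0 h1 hzr hW j i))
    (fun x => disc_differentiable u₀ (W x))
    (fun x _ ζ hζ => (hsupx x ζ (by simpa using hζ)).trans_lt hsup') Q hQ hQU ?_ ?_ 0 (by simp)
  · rw [hW1] at hfin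
    rw [disc_zero hT] at hfin
    exact hfin
  · intro x _ ζ hζ
    have hζ1 : ‖ζ‖ = 1 := by simpa using hζ
    obtain ⟨j, hj⟩ := hN.node M ζ hζ1
    obtain ⟨u, s, b', hu, hs0, hs1, hb', hor, he⟩ := hnode x j
    refine hQ1 z u s b' _ hzr hu hs0 hs1 hb' hor ?_
    rw [← he]
    refine (disc_holder hH hCH u₀ (W x) ζ (nd M j) hζ1.le (hnd1 j).le).trans (le_trans ?_ hdel)
    have a1 : CH * ((2 * M + 1) * l2 (fun j : ZMod (2 * M + 1) => W x (j + 1) - W x j)) ≤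
        CH * (C₁ * s₁ / Real.sqrt τ) := mul_le_mul_of_nonneg_left (hsz x).2 hCH.le
    apply mul_le_mul a1 (Real.sqrt_le_sqrt hj) (Real.sqrt_nonneg _)
    positivity
  · intro ζ _
    rw [hW0, disc_const hT]
    have hu₀r : ‖u₀‖ ≤ r := by
      refine hu₀s.trans (le_trans ?_ hsup)
      have : 0 ≤ C₁ + CA * (C₁ + C₁) := by positivity
      nlinarith
    rw [clamp_eq hu₀r]
    exact hU z u₀ ρ₀ hzr hu₀r hρ₀ (by linarith)

end Crest.Agent.R264.BshM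
end

-- ▼ part R264/BshMain
section

/-!
Row 264, Part B (helper747): THEOREM B from the modules `BisT, BisE, BisP, BisN, BisS`.
-/

set_option autoImplicit false

open Topology Filter Set

namespace Crest.Agent.R264.BshM

open Crest.Agent.R264.Bsh Crest.Agent.R264.BshN

lemma cpt_add_sub {k : ℕ} (u y b : Fin k → ℝ) : ‖cpt u (y + b) - cpt u y‖ ≤ ‖b‖ := by
  rw [pi_norm_le_iff_of_nonneg (norm_nonneg _)]
  intro i
  have e : (cpt u (y + b) - cpt u y) i = Complex.I * ((b i : ℝ) : ℂ) := by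
    simp only [cpt, Pi.sub_apply, Pi.add_apply, Complex.ofReal_add]; ring
  rw [e, norm_mul, Complex.norm_I, one_mul, Complex.norm_real]
  exact norm_le_pi_norm b i

lemma cpt_continuous {k : ℕ} : Continuous (fun p : (Fin k → ℝ) × (Fin k → ℝ) => cpt p.1 p.2) := by
  unfold cpt
  fun_prop

/-- continuity of `Y` on the domain -/
lemma Y_contOn {Z : Type} [NormedAddCommGroup Z] {k : ℕ}
    {H : Z → (Fin k → ℝ) → (Fin k → ℝ)} {vv : Z → (Fin k → ℝ) → ℝ → (Fin k → ℝ)}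
    {om : ℝ → ℝ} {ρ s₀ C₀ : ℝ} (hρ : 0 < ρ) (hC₀ : 0 ≤ C₀) 
    (hH : ∀ z z' u u', ‖z‖ < ρ → ‖z'‖ < ρ → ‖u‖ < ρ → ‖u'‖ < ρ →
      ‖H z u - H z' u'‖ ≤ C₀ * (‖z‖ + ‖z'‖ + ‖u‖ + ‖u'‖) * (‖z - z'‖ + ‖u - u'‖))
    (hv1 : ∀ z z' u u' s, ‖z‖ < ρ → ‖z'‖ < ρ → ‖u‖ < ρ → ‖u'‖ < ρ → 0 ≤ s → s ≤ s₀ →
      ‖vv z u s - vv z' u' s‖ ≤ om s * (‖z - z'‖ + ‖u - u'‖))
    (homm : ∀ s s', 0 ≤ s → s ≤ s' → s' ≤ s₀ → om s ≤ om s')
    (hv2 : ∀ z u s s', ‖z‖ < ρ → ‖u‖ < ρ → 0 ≤ s → s ≤ s₀ → 0 ≤ s' → s' ≤ s₀ →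
      ‖vv z u s - vv z u s'‖ ≤ C₀ * |s - s'|) :
    ContinuousOn (fun p : Z × (Fin k → ℝ) × ℝ => H p.1 p.2.1 + vv p.1 p.2.1 p.2.2)
      {p | ‖p.1‖ < ρ ∧ ‖p.2.1‖ < ρ ∧ 0 ≤ p.2.2 ∧ p.2.2 ≤ s₀} := by
  set om' : ℝ := max (om s₀) 0
  have hom' : 0 ≤ om' := le_max_right _ _
  have hK0 : 0 ≤ C₀ * (4 * ρ) * 2 + om' * 2 + C₀ := by positivity
  refine (LipschitzOnWith.of_dist_le_mul (K := ⟨_, hK0⟩) ?_).continuousOn
  rintro ⟨z, u, s⟩ ⟨hz, hu, h0, h1⟩ ⟨z', u', s'⟩ ⟨hz', hu', h0', h1'⟩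
  simp only at hz hu h0 h1 hz' hu' h0' h1'
  have d1 : ‖z - z'‖ ≤ dist ((z, u, s) : Z × (Fin k → ℝ) × ℝ) (z', u', s') := by
    rw [← dist_eq_norm]; exact le_max_left _ _
  have d2 : ‖u - u'‖ ≤ dist ((z, u, s) : Z × (Fin k → ℝ) × ℝ) (z', u', s') := by
    rw [← dist_eq_norm]; exact (le_max_left _ _).trans (le_max_right _ _)
  have d3 : |s - s'| ≤ dist ((z, u, s) : Z × (Fin k → ℝ) × ℝ) (z', u', s') := by
    rw [← Real.dist_eq]; exact (le_max_right _ _).trans (le_max_right _ _)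
  set d := dist ((z, u, s) : Z × (Fin k → ℝ) × ℝ) (z', u', s') with hd
  have hd0 : 0 ≤ d := dist_nonneg
  have e1 := hH z z' u u' hz hz' hu hu'
  have e2 := hv1 z z' u u' s hz hz' hu hu' h0 h1
  have e3 := hv2 z' u' s s' hz' hu' h0 h1 h0' h1'
  have o1 : om s ≤ om' := (homm s s₀ h0 h1 le_rfl).trans (le_max_left _ _)
  rw [dist_eq_norm]
  show ‖(H z u + vv z u s) - (H z' u' + vv z' u' s')‖ ≤ (C₀ * (4 * ρ) * 2 + om' * 2 + C₀) * d
  have e4 : (H z u + vv z u s) - (H z' u' + vv z' u' s') =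
      (H z u - H z' u') + (vv z u s - vv z' u' s) + (vv z' u' s - vv z' u' s') := by abel
  rw [e4]
  have f1 : C₀ * (‖z‖ + ‖z'‖ + ‖u‖ + ‖u'‖) * (‖z - z'‖ + ‖u - u'‖) ≤ C₀ * (4 * ρ) * (2 * d) := by
    apply mul_le_mul _ (by linarith) (by positivity) (by positivity)
    exact mul_le_mul_of_nonneg_left (by linarith) hC₀
  have f2 : om s * (‖z - z'‖ + ‖u - u'‖) ≤ om' * (2 * d) := by
    calc om s * (‖z - z'‖ + ‖u - u'‖) ≤ om' * (‖z - z'‖ + ‖u - u'‖) :=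
          mul_le_mul_of_nonneg_right o1 (by positivity)
      _ ≤ om' * (2 * d) := mul_le_mul_of_nonneg_left (by linarith) hom'
  have f3 : C₀ * |s - s'| ≤ C₀ * d := mul_le_mul_of_nonneg_left d3 hC₀
  calc _ ≤ ‖H z u - H z' u'‖ + ‖vv z u s - vv z' u' s‖ + ‖vv z' u' s - vv z' u' s'‖ :=
        norm_add₃_le
    _ ≤ C₀ * (4 * ρ) * (2 * d) + om' * (2 * d) + C₀ * d := by
        refine add_le_add (add_le_add (e1.trans f1) (e2.trans f2)) (e3.trans f3)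
    _ = _ := by ring

/-- THEOREM B. -/
theorem thmB (hT : BisT) (hE : BisE) (hP : BisP) (hN : BisN) (hS : BisS) : ThmB := by
  intro Z _ _ _ k UU H vv om ρ s₀ C₀ ρ₁ hUo hρ hs₀ hρ₁ hC₀ hH0 hH hv0 hv1 homm homt hv2 hUU hKS
  obtain ⟨CH, hCH, hHol⟩ := hT.holder
  obtain ⟨CA, hCA, hAg⟩ := hT.agmon
  obtain ⟨K, hK⟩ : ∃ K : ℝ, K = (k : ℝ) + 1 := ⟨_, rfl⟩
  have hK1 : 1 ≤ K := by
    have : (0 : ℝ) ≤ k := Nat.cast_nonneg k
    linarith
  have hK0 : 0 < K := by linarith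
  obtain ⟨ε, hε⟩ : ∃ ε : ℝ, ε = 1 / (100 * K) := ⟨_, rfl⟩
  have hε0 : 0 < ε := by rw [hε]; positivity
  have hε1 : 100 * K * ε ≤ 1 := by
    rw [hε]; apply le_of_eq; field_simp
  -- r
  obtain ⟨r, hr0, hr1, hr2, hr3⟩ : ∃ r : ℝ, 0 < r ∧ r < ρ ∧ r < ρ₁ ∧ 8 * C₀ * r ≤ ε := by
    refine ⟨min (min (ρ / 2) (ρ₁ / 2)) (ε / (8 * (C₀ + 1))), ?_, ?_, ?_, ?_⟩
    · positivity
    · exact ((min_le_left _ _).trans (min_le_left _ _)).trans_lt (by linarith)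
    · exact ((min_le_left _ _).trans (min_le_right _ _)).trans_lt (by linarith)
    · have h := min_le_right (min (ρ / 2) (ρ₁ / 2)) (ε / (8 * (C₀ + 1)))
      set x := min (min (ρ / 2) (ρ₁ / 2)) (ε / (8 * (C₀ + 1)))
      have hx : 0 ≤ x := by positivity
      rw [le_div_iff₀ (by positivity)] at h
      linarith
  obtain ⟨C₁, hC₁⟩ : ∃ C₁ : ℝ, C₁ = 20 * K * (C₀ + 1) := ⟨_, rfl⟩
  have hC₁0 : 0 < C₁ := by rw [hC₁]; positivity
  obtain ⟨C₃, hC₃⟩ : ∃ C₃ : ℝ, C₃ = 1 + C₁ + CA * (C₁ + C₁) := ⟨_, rfl⟩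
  have hC₃0 : 0 < C₃ := by rw [hC₃]; positivity
  have homsm : ∀ η : ℝ, 0 < η → ∃ δ : ℝ, 0 < δ ∧ ∀ s, 0 < s → s < δ → om s ≤ η := by
    intro η hη
    have h1 : ∀ᶠ s in 𝓝[>] (0 : ℝ), om s < η := homt.eventually (gt_mem_nhds hη)
    rw [eventually_nhdsWithin_iff, Metric.eventually_nhds_iff] at h1
    obtain ⟨δ, hδ, h2⟩ := h1
    refine ⟨δ, hδ, fun s hs hs' => (h2 ?_ hs).le⟩
    rw [Real.dist_eq, sub_zero, abs_of_pos hs]
    exact hs'
  -- s₁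
  obtain ⟨s₁, hs₁, hs₁0, hs₁C, hs₁r, hs₁ρ, hs₁om⟩ : ∃ s₁ : ℝ, 0 < s₁ ∧ 2 * s₁ ≤ s₀ ∧
      1000 * K ^ 2 * (C₀ + 1) ^ 2 * s₁ ≤ 1 ∧ C₃ * s₁ ≤ r ∧ C₃ * s₁ < ρ₁ ∧
      ∀ s, 0 ≤ s → s ≤ 2 * s₁ → om s ≤ ε / 2 := by
    obtain ⟨δ, hδ, h2⟩ := homsm (ε / 2) (by positivity)
    obtain ⟨x, hx⟩ : ∃ x : ℝ, x = min (min (s₀ / 2) (δ / 4))
      (min (1 / (1000 * K ^ 2 * (C₀ + 1) ^ 2)) (r / C₃)) := ⟨_, rfl⟩
    have hx0 : 0 < x := by rw [hx]; positivity
    have x1 : x ≤ s₀ / 2 := by rw [hx]; exact (min_le_left _ _).trans (min_le_left _ _)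
    have x2 : x ≤ δ / 4 := by rw [hx]; exact (min_le_left _ _).trans (min_le_right _ _)
    have x3 : x ≤ 1 / (1000 * K ^ 2 * (C₀ + 1) ^ 2) := by
      rw [hx]; exact (min_le_right _ _).trans (min_le_left _ _)
    have x4 : x ≤ r / C₃ := by rw [hx]; exact (min_le_right _ _).trans (min_le_right _ _)
    rw [le_div_iff₀ (by positivity)] at x3 x4
    refine ⟨x, hx0, by linarith, by linarith, by linarith, by linarith, ?_⟩
    intro s h0 h1
    exact (homm s (2 * x) h0 h1 (by linarith)).trans (h2 (2 * x) (by linarith) (by linarith))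
  -- Y and YOK
  set Y : Z → (Fin k → ℝ) → ℝ → (Fin k → ℝ) := fun z u s => H z u + vv z u s with hYdef
  have hYOK : YOK (fun z u s => Y z (clamp r u) s) (fun s => max (om s) 0) C₀ ε r s₁ :=
    yok_of H vv om ρ s₀ C₀ ε r s₁ hρ hC₀ hH0 hH hv0 hv1 hv2 hε0 (by rw [← hK]; exact hε1) hr0 hr1
      hr3 hs₁ hs₁0 hs₁om
  have hU : ∀ z u s, ‖z‖ ≤ r → ‖u‖ ≤ r → 0 < s → s ≤ 2 * s₁ → (z, cpt u (Y z u s)) ∈ UU := by
    intro z u s hz hu h0 h1
    exact hUU z u s (hz.trans_lt hr1) (hu.trans_lt hr1) h0 (h1.trans hs₁0)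
  -- the map G and its images
  set G : Z × (Fin k → ℝ) × ℝ → Z × (Fin k → ℂ) := fun p => (p.1, cpt p.2.1 (Y p.1 p.2.1 p.2.2))
    with hG
  have hGc : ContinuousOn G {p | ‖p.1‖ < ρ ∧ ‖p.2.1‖ < ρ ∧ 0 ≤ p.2.2 ∧ p.2.2 ≤ s₀} := by
    have h1 := Y_contOn hρ hC₀ hH hv1 homm hv2
    apply ContinuousOn.prodMk continuousOn_fst
    have h2 : ContinuousOn (fun p : Z × (Fin k → ℝ) × ℝ => (p.2.1, Y p.1 p.2.1 p.2.2))
        {p | ‖p.1‖ < ρ ∧ ‖p.2.1‖ < ρ ∧ 0 ≤ p.2.2 ∧ p.2.2 ≤ s₀} :=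
      ContinuousOn.prodMk (continuous_fst.comp continuous_snd).continuousOn h1
    exact cpt_continuous.comp_continuousOn h2
  have hcomp : ∀ a : ℝ, 0 < a → IsCompact (G '' (Metric.closedBall (0 : Z) r ×ˢ
      (Metric.closedBall (0 : Fin k → ℝ) r ×ˢ Icc a (2 * s₁)))) ∧
      G '' (Metric.closedBall (0 : Z) r ×ˢ
      (Metric.closedBall (0 : Fin k → ℝ) r ×ˢ Icc a (2 * s₁))) ⊆ UU := by
    intro a ha
    constructor
    · apply IsCompact.image_of_continuousOn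
      · exact (isCompact_closedBall _ _).prod ((isCompact_closedBall _ _).prod isCompact_Icc)
      · apply hGc.mono
        rintro ⟨z, u, s⟩ ⟨hz, hu, hs⟩
        simp only [Metric.mem_closedBall, dist_zero_right] at hz hu
        exact ⟨hz.trans_lt hr1, hu.trans_lt hr1, ha.le.trans hs.1, hs.2.trans hs₁0⟩
    · rintro _ ⟨⟨z, u, s⟩, ⟨hz, hu, hs⟩, rfl⟩
      simp only [Metric.mem_closedBall, dist_zero_right] at hz hu
      exact hU z u s hz hu (ha.trans_le hs.1) hs.2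
  -- rb
  obtain ⟨δ₂, hδ₂, hδ₂'⟩ := (hcomp (s₁ / 2) (by positivity)).1.exists_cthickening_subset_open hUo
    (hcomp (s₁ / 2) (by positivity)).2
  obtain ⟨rb, hrb0, hrb1, hrb2⟩ : ∃ rb : ℝ, 0 < rb ∧ rb ≤ s₁ ∧ rb ≤ δ₂ :=
    ⟨min s₁ δ₂, by positivity, min_le_left _ _, min_le_right _ _⟩
  -- cS
  obtain ⟨cS, hc0, hcr, hcs, hc1, hcC, hcb⟩ : ∃ cS : ℝ, 0 < cS ∧ cS ≤ r ∧ cS ≤ s₁ ∧ cS ≤ 1 ∧
      100 * K * (C₀ + 1) * cS ≤ 1 ∧ 10 * K * cS ≤ rb := by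
    obtain ⟨x, hx⟩ : ∃ x : ℝ, x = min (min r s₁)
      (min 1 (min (1 / (100 * K * (C₀ + 1))) (rb / (10 * K)))) := ⟨_, rfl⟩
    have hx0 : 0 < x := by rw [hx]; positivity
    have x1 : x ≤ r := by rw [hx]; exact (min_le_left _ _).trans (min_le_left _ _)
    have x2 : x ≤ s₁ := by rw [hx]; exact (min_le_left _ _).trans (min_le_right _ _)
    have x3 : x ≤ 1 := by rw [hx]; exact (min_le_right _ _).trans (min_le_left _ _)
    have x4 : x ≤ 1 / (100 * K * (C₀ + 1)) := by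
      rw [hx]; exact (min_le_right _ _).trans ((min_le_right _ _).trans (min_le_left _ _))
    have x5 : x ≤ rb / (10 * K) := by
      rw [hx]; exact (min_le_right _ _).trans ((min_le_right _ _).trans (min_le_right _ _))
    rw [le_div_iff₀ (by positivity)] at x4 x5
    exact ⟨x, hx0, x1, x2, x3, by linarith, by linarith⟩
  refine ⟨cS / 2, 1000 * K ^ 2 * (C₀ + 1) ^ 3, 1 / 16, by positivity, by norm_num, ?_⟩
  intro t ht0 ht1
  have hst : 0 < Real.sqrt (t / 2) := Real.sqrt_pos.2 (by positivity)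
  -- ρ₀
  obtain ⟨ρ₀, hρ₀, hρ₀s, hρ₀t, hρ₀st, hρ₀om⟩ : ∃ ρ₀ : ℝ, 0 < ρ₀ ∧ ρ₀ ≤ s₁ ∧ ρ₀ ≤ t / 2 ∧
      ρ₀ ≤ s₁ * Real.sqrt (t / 2) ∧ 100 * K * max (om ρ₀) 0 ≤ Real.sqrt (t / 2) := by
    obtain ⟨δ, hδ, h2⟩ := homsm (Real.sqrt (t / 2) / (100 * K)) (by positivity)
    obtain ⟨x, hx⟩ : ∃ x : ℝ, x = min (min s₁ (t / 2))
      (min (s₁ * Real.sqrt (t / 2)) (δ / 2)) := ⟨_, rfl⟩
    have hx0 : 0 < x := by rw [hx]; positivity
    have x1 : x ≤ s₁ := by rw [hx]; exact (min_le_left _ _).trans (min_le_left _ _)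
    have x2 : x ≤ t / 2 := by rw [hx]; exact (min_le_left _ _).trans (min_le_right _ _)
    have x3 : x ≤ s₁ * Real.sqrt (t / 2) := by
      rw [hx]; exact (min_le_right _ _).trans (min_le_left _ _)
    have x4 : x ≤ δ / 2 := by rw [hx]; exact (min_le_right _ _).trans (min_le_right _ _)
    have x5 : max (om x) 0 ≤ Real.sqrt (t / 2) / (100 * K) :=
      max_le (h2 x hx0 (by linarith)) (by positivity)
    rw [le_div_iff₀ (by positivity)] at x5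
    exact ⟨x, hx0, x1, x2, x3, by linarith⟩
  -- the compact set
  set Q1 : Set (Z × (Fin k → ℂ)) := (G '' (Metric.closedBall (0 : Z) r ×ˢ
      (Metric.closedBall (0 : Fin k → ℝ) r ×ˢ Icc ρ₀ (2 * s₁)))) ∪
      Metric.cthickening rb (G '' (Metric.closedBall (0 : Z) r ×ˢ
      (Metric.closedBall (0 : Fin k → ℝ) r ×ˢ Icc (s₁ / 2) (2 * s₁)))) with hQ1def
  have hQ1c : IsCompact Q1 :=
    (hcomp ρ₀ hρ₀).1.union (hcomp (s₁ / 2) (by positivity)).1.cthickening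
  have hQ1U : Q1 ⊆ UU := union_subset (hcomp ρ₀ hρ₀).2
    ((Metric.cthickening_mono hrb2 _).trans hδ₂')
  obtain ⟨δ, hδ, hδ'⟩ := hQ1c.exists_cthickening_subset_open hUo hQ1U
  -- N
  obtain ⟨M, hM1, hM2⟩ : ∃ M : ℕ, 2 ≤ t * (2 * M + 1) ∧
      CH * (C₁ * s₁ / Real.sqrt (t / 2)) * Real.sqrt (4 / (2 * M + 1)) ≤ δ := by
    obtain ⟨a, ha⟩ := exists_nat_ge (2 / t)
    set B : ℝ := CH * (C₁ * s₁ / Real.sqrt (t / 2)) with hB
    have hB0 : 0 < B := by positivity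
    obtain ⟨b, hb⟩ := exists_nat_ge (4 * (B / δ) ^ 2)
    have hb' : (4 * (B / δ) ^ 2) ≤ (2 * ((a + b : ℕ) : ℝ) + 1) := by
      push_cast
      have : (0 : ℝ) ≤ a := Nat.cast_nonneg a
      have : (0 : ℝ) ≤ b := Nat.cast_nonneg b
      linarith
    refine ⟨a + b, ?_, ?_⟩
    · rw [div_le_iff₀ ht0] at ha
      push_cast
      have hbt : (0 : ℝ) ≤ b * t := mul_nonneg (Nat.cast_nonneg b) ht0.le
      linarith
    · have hNp : (0 : ℝ) < 2 * ((a + b : ℕ) : ℝ) + 1 := Npos _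
      have h3 : Real.sqrt (4 / (2 * ((a + b : ℕ) : ℝ) + 1)) ≤ δ / B := by
        apply Real.sqrt_le_iff.2
        refine ⟨by positivity, ?_⟩
        rw [div_le_iff₀ hNp]
        calc (4 : ℝ) = (δ / B) ^ 2 * (4 * (B / δ) ^ 2) := by
              field_simp
          _ ≤ (δ / B) ^ 2 * (2 * ((a + b : ℕ) : ℝ) + 1) :=
              mul_le_mul_of_nonneg_left hb' (by positivity)
      calc B * Real.sqrt (4 / (2 * ((a + b : ℕ) : ℝ) + 1)) ≤ B * (δ / B) :=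
            mul_le_mul_of_nonneg_left h3 hB0.le
        _ = δ := by field_simp
  have hNp : (0 : ℝ) < 2 * (M : ℝ) + 1 := Npos M
  obtain ⟨L, hLdef⟩ : ∃ L : ℕ, L = ⌊t * (2 * (M : ℝ) + 1)⌋₊ := ⟨_, rfl⟩
  have hL1 : (L : ℝ) ≤ t * (2 * M + 1) := by
    rw [hLdef]; exact Nat.floor_le (by positivity)
  have hL2 : t * (2 * M + 1) < L + 1 := by
    rw [hLdef]; exact Nat.lt_floor_add_one _
  have hL3 : t * (2 * M + 1) / 2 ≤ L := by linarith
  have hLpos : 0 < L := by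
    have : (0 : ℝ) < L := by linarith
    exact_mod_cast this
  have hM0 : 1 ≤ M := by
    by_contra hc
    have : M = 0 := by omega
    rw [this] at hM1
    norm_num at hM1
    linarith
  have hL4 : 4 * L ≤ M := by
    have hM0' : (1 : ℝ) ≤ M := by exact_mod_cast hM0
    have : (4 : ℝ) * L ≤ M := by
      have h5 : t * (2 * (M : ℝ) + 1) ≤ 1 / 16 * (2 * M + 1) :=
        mul_le_mul_of_nonneg_right ht1.le hNp.le
      linarith
    exact_mod_cast this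
  obtain ⟨τ, hτdef⟩ : ∃ τ : ℝ, τ = (L : ℝ) / (2 * M + 1) := ⟨_, rfl⟩
  have hτt : τ ≤ t := by rw [hτdef, div_le_iff₀ hNp]; exact hL1
  have htτ : t / 2 ≤ τ := by rw [hτdef, le_div_iff₀ hNp]; linarith
  have hτ0 : 0 < τ := by linarith
  have hτ1 : τ ≤ 1 := by linarith
  have hsτ : 0 < Real.sqrt τ := Real.sqrt_pos.2 hτ0
  have hsτ1 : Real.sqrt τ ≤ 1 := Real.sqrt_le_one.2 hτ1
  have hsτ2 : Real.sqrt (t / 2) ≤ Real.sqrt τ := Real.sqrt_le_sqrt htτ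
  have hττ : τ ≤ Real.sqrt τ := by
    calc τ = Real.sqrt τ * Real.sqrt τ := (Real.mul_self_sqrt hτ0.le).symm
      _ ≤ Real.sqrt τ * 1 := mul_le_mul_of_nonneg_left hsτ1 hsτ.le
      _ = Real.sqrt τ := mul_one _
  have hSc : ScOK (k := k) (fun s => max (om s) 0) C₀ ε r s₁ ρ₀ cS τ M L := by
    refine ⟨hLpos, hL4, hτdef, hc0.le, hρ₀.le, hρ₀s, ?_, ?_, ?_, ?_, ?_, ?_, ?_, ?_⟩
    · exact (mul_le_of_le_one_right hc0.le hsτ1).trans hcr
    · calc cS ^ 2 * τ ≤ s₁ * τ := by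
            apply mul_le_mul_of_nonneg_right _ hτ0.le
            rw [pow_two]
            exact (mul_le_of_le_one_right hc0.le hc1).trans hcs
        _ ≤ s₁ * Real.sqrt τ := mul_le_mul_of_nonneg_left hττ hs₁.le
    · calc cS * τ ≤ s₁ * τ := mul_le_mul_of_nonneg_right hcs hτ0.le
        _ ≤ s₁ * Real.sqrt τ := mul_le_mul_of_nonneg_left hττ hs₁.le
    · exact hρ₀st.trans (mul_le_mul_of_nonneg_left hsτ2 hs₁.le)
    · linarith
    · rw [← hK]; exact hρ₀om.trans hsτ2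
    · rw [← hK]; exact hcC
    · rw [← hK]; exact hs₁C
  -- central solution
  obtain ⟨V0, hV0⟩ := hS.exi (fun z u s => Y z (clamp r u) s) (fun s => max (om s) 0) C₀ ε r s₁ ρ₀
    M L (0 : Z) 0 0 1 1 hYOK (by simpa using hr0.le) hρ₀.le hρ₀s zero_le_one le_rfl
  refine ⟨t⁻¹ • mv V0, ?_, ?_⟩
  · rw [norm_smul, Real.norm_of_nonneg (by positivity)]
    have h := hS.cen _ _ C₀ ε r s₁ ρ₀ cS τ M L V0 hYOK hSc hV0
    rw [← hK] at h
    calc t⁻¹ * ‖mv V0‖ ≤ t⁻¹ * (1000 * K ^ 2 * (C₀ + 1) ^ 3 * τ) :=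
          mul_le_mul_of_nonneg_left h (by positivity)
      _ ≤ t⁻¹ * (1000 * K ^ 2 * (C₀ + 1) ^ 3 * t) := by
          apply mul_le_mul_of_nonneg_left _ (by positivity)
          exact mul_le_mul_of_nonneg_left hτt (by positivity)
      _ = _ := by field_simp
  · intro z w hz hw
    set u₀ : Fin k → ℝ := fun i => (w i).re with hu₀def
    set v : Fin k → ℝ := fun i => (w i).im with hvdef
    have hct : 0 < cS / 2 * t := by positivity
    have hu₀ : ‖u₀‖ ≤ cS / 2 * t := by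
      rw [pi_norm_le_iff_of_nonneg hct.le]
      intro i
      refine le_trans ?_ ((norm_le_pi_norm _ i).trans hw.le)
      refine le_trans (le_of_eq ?_) (Complex.abs_re_le_norm _)
      simp [hu₀def]
    have hv : ‖v - mv V0‖ ≤ cS / 2 * t := by
      rw [pi_norm_le_iff_of_nonneg hct.le]
      intro i
      refine le_trans ?_ ((norm_le_pi_norm _ i).trans hw.le)
      refine le_trans (le_of_eq ?_) (Complex.abs_im_le_norm _)
      have : t * (t⁻¹ * mv V0 i) = mv V0 i := by field_simp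
      simp [hvdef, this]
    have hzc : ‖z‖ ≤ cS * Real.sqrt τ := by
      refine hz.le.trans ?_
      have h1 : Real.sqrt t ≤ 2 * Real.sqrt τ := by
        apply Real.sqrt_le_iff.2
        refine ⟨by positivity, ?_⟩
        rw [mul_pow, Real.sq_sqrt hτ0.le]
        linarith
      calc cS / 2 * Real.sqrt t ≤ cS / 2 * (2 * Real.sqrt τ) :=
            mul_le_mul_of_nonneg_left h1 (by positivity)
        _ = cS * Real.sqrt τ := by ring
    have hu₀c : ‖u₀‖ ≤ cS * τ := by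
      refine hu₀.trans ?_
      calc cS / 2 * t = cS * (t / 2) := by ring
        _ ≤ cS * τ := mul_le_mul_of_nonneg_left htτ hc0.le
    have hzr : ‖z‖ ≤ r := hzc.trans hSc.c_sqrt
    have hex : ∀ b : Fin k → ℝ, ∃ V, IsBis (fun z u s => Y z (clamp r u) s) s₁ ρ₀ M L z u₀ b
        1 1 V := fun b =>
      hS.exi _ (fun s => max (om s) 0) C₀ ε r s₁ ρ₀ M L z u₀ b 1 1 hYOK hzr hρ₀.le hρ₀s
        zero_le_one le_rfl
    choose Vf hVf using hex
    obtain ⟨b, hb, hgb⟩ := hN.surj (fun b => τ⁻¹ • mv (Vf b)) rb hrb0.le (by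
      intro b b' hb hb'
      have h := hS.lip _ _ C₀ ε r s₁ ρ₀ cS τ M L z u₀ b b' (Vf b) (Vf b') hYOK hSc
        (hb.trans hrb1) (hb'.trans hrb1) hzc hu₀c (hVf b) (hVf b')
      have e : τ⁻¹ • mv (Vf b) - τ⁻¹ • mv (Vf b') - (b - b') =
          τ⁻¹ • (mv (Vf b) - mv (Vf b') - τ • (b - b')) := by
        rw [smul_sub, smul_sub, smul_smul, inv_mul_cancel₀ hτ0.ne', one_smul]
      show ‖τ⁻¹ • mv (Vf b) - τ⁻¹ • mv (Vf b') - (b - b')‖ ≤ _
      rw [e, norm_smul, Real.norm_of_nonneg (by positivity)]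
      calc τ⁻¹ * ‖mv (Vf b) - mv (Vf b') - τ • (b - b')‖ ≤ τ⁻¹ * (1 / 2 * τ * ‖b - b'‖) :=
            mul_le_mul_of_nonneg_left h (by positivity)
        _ = 1 / 2 * ‖b - b'‖ := by field_simp)
      (τ⁻¹ • v) (by
      have h := hS.dep _ _ C₀ ε r s₁ ρ₀ cS τ M L z u₀ (Vf 0) V0 hYOK hSc hzc hu₀c (hVf 0) hV0
      rw [← hK] at h
      have h2 : ‖v - mv (Vf 0)‖ ≤ cS * τ + 4 * K * cS * τ := by
        have e : v - mv (Vf 0) = (v - mv V0) - (mv (Vf 0) - mv V0) := by abel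
        rw [e]
        refine (norm_sub_le _ _).trans (add_le_add (hv.trans ?_) h)
        calc cS / 2 * t = cS * (t / 2) := by ring
          _ ≤ cS * τ := mul_le_mul_of_nonneg_left htτ hc0.le
      show ‖τ⁻¹ • v - τ⁻¹ • mv (Vf 0)‖ ≤ _
      rw [← smul_sub, norm_smul, Real.norm_of_nonneg (by positivity)]
      calc τ⁻¹ * ‖v - mv (Vf 0)‖ ≤ τ⁻¹ * (cS * τ + 4 * K * cS * τ) :=
            mul_le_mul_of_nonneg_left h2 (by positivity)
        _ = cS + 4 * K * cS := by field_simp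
        _ ≤ 1 / 2 * rb := by
            have h6 : 1 * cS ≤ K * cS := mul_le_mul_of_nonneg_right hK1 hc0.le
            linarith)
    have hmv : mv (Vf b) = v := by
      have h3 : τ • (τ⁻¹ • mv (Vf b)) = τ • (τ⁻¹ • v) := by
        have : (fun b => τ⁻¹ • mv (Vf b)) b = τ⁻¹ • v := hgb
        exact congrArg (fun x => τ • x) this
      rwa [smul_smul, smul_smul, mul_inv_cancel₀ hτ0.ne', one_smul, one_smul] at h3
    have hsw := sweep hT hE hP hN hS hCA hCH hAg hHol (Y := Y) (om := fun s => max (om s) 0)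
      (C₀ := C₀) (ε := ε) (r := r) (s₁ := s₁) (ρ₀ := ρ₀) (c := cS) (τ := τ) (ρ₁ := ρ₁) (rb := rb)
      (δ := δ) (C₁ := C₁) (M := M) (L := L) hYOK hSc hρ₀ hτ1 (by rw [hC₁, hK])
      (by rw [← hC₃]; exact hs₁r) (by rw [← hC₃]; exact hs₁ρ) hr2
      (by
        refine le_trans ?_ hM2
        apply mul_le_mul_of_nonneg_right _ (Real.sqrt_nonneg _)
        apply mul_le_mul_of_nonneg_left _ hCH.le
        exact div_le_div_of_nonneg_left (by positivity) hst hsτ2)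
      (UU := UU) (Q := Metric.cthickening δ Q1) hKS hQ1c.cthickening hδ' hU
      (by
        intro z u s b' w' hz hu h0 h1 hb' hor hw'
        have hmem : (z, cpt u (Y z u s + b')) ∈ Q1 := by
          rcases hor with h2 | h2
          · left
            rw [h2, add_zero]
            exact ⟨(z, u, s), ⟨by simpa using hz, by simpa using hu, h0, h1⟩, rfl⟩
          · right
            apply Metric.mem_cthickening_of_dist_le (z, cpt u (Y z u s + b')) (G (z, u, s)) rb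
            · exact ⟨(z, u, s), ⟨by simpa using hz, by simpa using hu, h2, h1⟩, rfl⟩
            · rw [Prod.dist_eq]
              apply max_le
              · simp [hG, hrb0.le]
              · rw [dist_eq_norm]
                exact (cpt_add_sub _ _ _).trans hb'
        apply Metric.mem_cthickening_of_dist_le (z, w') _ δ _ hmem
        rw [Prod.dist_eq]
        apply max_le
        · simp [hδ.le]
        · rw [dist_eq_norm]; exact hw')
      hrb0.le hrb1 hzc hu₀c hb (hVf b)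
    rw [hmv] at hsw
    have hwe : cpt u₀ v = w := by
      ext i
      simp only [cpt, hu₀def, hvdef]
      rw [mul_comm]
      exact Complex.re_add_im (w i)
    rwa [hwe] at hsw

end Crest.Agent.R264.BshM
end

-- ▼ part R264/BisT0
section

/-! Row 264, Part B: conjugation operator on the finite cycle `ZMod (2*M+1)` and polynomial discs. -/

set_option autoImplicit false

namespace Crest.Agent.R264.BisT

open Finset Complex

noncomputable section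

variable {M : ℕ}

/-- the node `ω^j`, `ω = exp(2πi/N)`, `N = 2*M+1`. -/
def nd (j : ZMod (2 * M + 1)) : ℂ := ZMod.stdAddChar j

lemma nd_zero : nd (0 : ZMod (2 * M + 1)) = 1 := by
  simp [nd]

lemma nd_add (i j : ZMod (2 * M + 1)) : nd (i + j) = nd i * nd j := by
  simp [nd, AddChar.map_add_eq_mul]

lemma nd_neg_mul (i : ZMod (2 * M + 1)) : nd (-i) * nd i = 1 := by
  rw [← nd_add]; simp [nd_zero]

lemma nd_norm (j : ZMod (2 * M + 1)) : ‖nd j‖ = 1 := by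
  rw [nd, ZMod.stdAddChar_apply]
  exact Circle.norm_coe _

lemma nd_ne (j : ZMod (2 * M + 1)) : nd j ≠ 0 := by
  intro h
  have := nd_norm j
  rw [h] at this
  simp at this

lemma nd_conj (j : ZMod (2 * M + 1)) : (starRingEnd ℂ) (nd j) = nd (-j) := by
  have h1 : (starRingEnd ℂ) (nd j) * nd j = 1 := by
    rw [mul_comm, Complex.mul_conj, Complex.normSq_eq_norm_sq, nd_norm]
    simp
  have h2 := nd_neg_mul j
  exact mul_right_cancel₀ (nd_ne j) (h1.trans h2.symm)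

lemma nd_nat_mul (n : ℕ) (j : ZMod (2 * M + 1)) : nd ((n : ZMod (2 * M + 1)) * j) = nd j ^ n := by
  induction n with
  | zero => simp [nd_zero]
  | succ n ih =>
    rw [Nat.cast_succ, add_mul, nd_add, ih, one_mul, pow_succ]

lemma sum_nd_mul (t : ZMod (2 * M + 1)) :
    ∑ j : ZMod (2 * M + 1), nd (t * j) = if t = 0 then ((2 * M + 1 : ℕ) : ℂ) else 0 := by
  split_ifs with h
  · simp [h, nd_zero, ZMod.card]
  · exact AddChar.sum_eq_zero_of_ne_one (ZMod.isPrimitive_stdAddChar (2 * M + 1) h)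

lemma sum_zmod {β : Type*} [AddCommMonoid β] (G : ZMod (2 * M + 1) → β) :
    ∑ n : ZMod (2 * M + 1), G n = ∑ n ∈ range (2 * M + 1), G (n : ZMod (2 * M + 1)) := by
  refine Finset.sum_bij' (fun a _ => a.val) (fun n _ => (n : ZMod (2 * M + 1))) ?_ ?_ ?_ ?_ ?_
  · intro a _
    exact mem_range.2 (ZMod.val_lt a)
  · intro n _; exact mem_univ _
  · intro a _; exact ZMod.natCast_zmod_val a
  · intro n hn; exact ZMod.val_cast_of_lt (mem_range.1 hn)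
  · intro a _; rw [ZMod.natCast_zmod_val]

lemma sum_split {β : Type*} [AddCommMonoid β] (G : ZMod (2 * M + 1) → β) :
    ∑ n : ZMod (2 * M + 1), G n =
      G 0 + ∑ n ∈ range M, (G ((n + 1 : ℕ) : ZMod (2 * M + 1)) +
        G (-((n + 1 : ℕ) : ZMod (2 * M + 1)))) := by
  rw [sum_zmod, Finset.sum_range_succ', add_comm]
  simp only [Nat.cast_zero]
  congr 1
  have hs : ∀ K : ℕ → β, ∑ k ∈ range (2 * M), K k = ∑ k ∈ range M, K k + ∑ k ∈ range M, K (M + k) := by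
    intro K
    rw [two_mul, Finset.sum_range_add]
  rw [hs, Finset.sum_add_distrib]
  congr 1
  rw [← Finset.sum_range_reflect]
  refine Finset.sum_congr rfl fun n hn => ?_
  have hn' := mem_range.1 hn
  congr 1
  rw [eq_neg_iff_add_eq_zero, ← Nat.cast_add]
  have : (M + (M - 1 - n) + 1) + (n + 1) = M + M + 1 := by omega
  rw [this, ← two_mul]
  exact ZMod.natCast_self (2 * M + 1)

/-- Fourier coefficient on the cycle. -/
def cf (f : ZMod (2 * M + 1) → ℝ) (n : ZMod (2 * M + 1)) : ℂ :=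
  ((2 * M + 1 : ℕ) : ℂ)⁻¹ * ∑ j : ZMod (2 * M + 1), (f j : ℂ) * nd (-(n * j))

lemma N_ne : ((2 * M + 1 : ℕ) : ℂ) ≠ 0 := by
  exact_mod_cast Nat.succ_ne_zero (2 * M)

lemma N_pos : (0 : ℝ) < ((2 * M + 1 : ℕ) : ℝ) := by
  exact_mod_cast Nat.succ_pos (2 * M)

lemma cf_conj (f : ZMod (2 * M + 1) → ℝ) (n : ZMod (2 * M + 1)) :
    (starRingEnd ℂ) (cf f n) = cf f (-n) := by
  simp only [cf, map_mul, map_sum, map_inv₀, Complex.conj_natCast, Complex.conj_ofReal, nd_conj,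
    neg_neg, neg_mul]

lemma cf_inv (f : ZMod (2 * M + 1) → ℝ) (j : ZMod (2 * M + 1)) :
    ∑ n : ZMod (2 * M + 1), cf f n * nd (n * j) = (f j : ℂ) := by
  simp only [cf, Finset.mul_sum, Finset.sum_mul]
  rw [Finset.sum_comm]
  have : ∀ i : ZMod (2 * M + 1), ∑ n : ZMod (2 * M + 1),
      ((2 * M + 1 : ℕ) : ℂ)⁻¹ * ((f i : ℂ) * nd (-(n * i))) * nd (n * j) =
      if i = j then (f j : ℂ) else 0 := by
    intro i
    have h1 : ∀ n : ZMod (2 * M + 1),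
        ((2 * M + 1 : ℕ) : ℂ)⁻¹ * ((f i : ℂ) * nd (-(n * i))) * nd (n * j) =
        ((2 * M + 1 : ℕ) : ℂ)⁻¹ * (f i : ℂ) * nd ((j - i) * n) := by
      intro n
      have : (j - i) * n = -(n * i) + n * j := by ring
      rw [this, nd_add]; ring
    simp only [h1]
    rw [← Finset.mul_sum, sum_nd_mul]
    split_ifs with h2 h3 h3
    · subst h3
      rw [mul_assoc, mul_comm (f i : ℂ), ← mul_assoc, inv_mul_cancel₀ N_ne, one_mul]
    · exact absurd (sub_eq_zero.1 h2).symm h3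
    · exact absurd (by rw [h3]; exact sub_self j) h2
    · ring
  simp only [this]
  simp

/-- `g(ζ) = a_0 + 2 ∑_{n=1}^M a_n ζ^n`: the polynomial with real part `f` at the nodes. -/
def g (f : ZMod (2 * M + 1) → ℝ) (ζ : ℂ) : ℂ :=
  cf f 0 + 2 * ∑ n ∈ range M, cf f ((n + 1 : ℕ) : ZMod (2 * M + 1)) * ζ ^ (n + 1)

/-- the mean of a function on the cycle -/
def mean (f : ZMod (2 * M + 1) → ℝ) : ℝ := ((2 * M + 1 : ℕ) : ℝ)⁻¹ * ∑ j, f j

/-- mean square -/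
def ms (f : ZMod (2 * M + 1) → ℝ) : ℝ := ((2 * M + 1 : ℕ) : ℝ)⁻¹ * ∑ j, f j ^ 2

/-- conjugation operator on the cycle. -/
def T (f : ZMod (2 * M + 1) → ℝ) (j : ZMod (2 * M + 1)) : ℝ := (g f (nd j)).im

lemma cf_zero (f : ZMod (2 * M + 1) → ℝ) : cf f 0 = (mean f : ℂ) := by
  simp only [cf, mean, zero_mul, neg_zero, nd_zero, mul_one]
  push_cast
  rfl

lemma g_zero (f : ZMod (2 * M + 1) → ℝ) : g f 0 = (mean f : ℂ) := by
  simp [g, cf_zero]

lemma g_re (f : ZMod (2 * M + 1) → ℝ) (j : ZMod (2 * M + 1)) : (g f (nd j)).re = f j := by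
  have h := cf_inv f j
  rw [sum_split] at h
  have h2 : ∀ n : ℕ, cf f (n : ZMod (2 * M + 1)) * nd ((n : ZMod (2 * M + 1)) * j) +
      cf f (-(n : ZMod (2 * M + 1))) * nd (-(n : ZMod (2 * M + 1)) * j) =
      ((2 * (cf f (n : ZMod (2 * M + 1)) * nd j ^ n).re : ℝ) : ℂ) := by
    intro n
    rw [← cf_conj, neg_mul, ← nd_conj, ← map_mul, Complex.add_conj, nd_nat_mul]
  simp only [h2, zero_mul, nd_zero, mul_one] at h
  have h3 := congrArg Complex.re h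
  simp only [Complex.add_re, Complex.re_sum, Complex.ofReal_re] at h3
  rw [← h3]
  simp only [g, Complex.add_re]
  congr 1
  rw [Finset.mul_sum, Complex.re_sum]
  refine Finset.sum_congr rfl fun n _ => ?_
  simp [Complex.mul_re]


/-! ### linearity and shift -/

lemma cf_add (f f' : ZMod (2 * M + 1) → ℝ) (n : ZMod (2 * M + 1)) :
    cf (f + f') n = cf f n + cf f' n := by
  simp only [cf, Pi.add_apply, Complex.ofReal_add, add_mul, Finset.sum_add_distrib, mul_add]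

lemma cf_smul (c : ℝ) (f : ZMod (2 * M + 1) → ℝ) (n : ZMod (2 * M + 1)) :
    cf (c • f) n = c * cf f n := by
  simp only [cf, Pi.smul_apply, smul_eq_mul, Complex.ofReal_mul, Finset.mul_sum]
  refine Finset.sum_congr rfl fun j _ => by ring

lemma g_add (f f' : ZMod (2 * M + 1) → ℝ) (ζ : ℂ) : g (f + f') ζ = g f ζ + g f' ζ := by
  simp only [g, cf_add, add_mul, Finset.sum_add_distrib]
  ring

lemma g_smul (c : ℝ) (f : ZMod (2 * M + 1) → ℝ) (ζ : ℂ) : g (c • f) ζ = c * g f ζ := by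
  simp only [g, cf_smul, Finset.mul_sum, mul_add]
  congr 1
  refine Finset.sum_congr rfl fun j _ => by ring

lemma T_add (f f' : ZMod (2 * M + 1) → ℝ) : T (f + f') = T f + T f' := by
  funext j; simp [T, g_add]

lemma T_smul (c : ℝ) (f : ZMod (2 * M + 1) → ℝ) : T (c • f) = c • T f := by
  funext j; simp [T, g_smul, Complex.mul_im]

/-- `T` as a linear map -/
def TL : (ZMod (2 * M + 1) → ℝ) →ₗ[ℝ] (ZMod (2 * M + 1) → ℝ) where
  toFun := T
  map_add' := T_add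
  map_smul' := T_smul

@[simp] lemma TL_apply (f : ZMod (2 * M + 1) → ℝ) : TL f = T f := rfl


/-- the shift -/
def sh (f : ZMod (2 * M + 1) → ℝ) : ZMod (2 * M + 1) → ℝ := fun j => f (j + 1)

lemma cf_sh (f : ZMod (2 * M + 1) → ℝ) (n : ZMod (2 * M + 1)) :
    cf (sh f) n = nd n * cf f n := by
  have key : ∑ j : ZMod (2 * M + 1), (f (j + 1) : ℂ) * nd (-(n * j)) =
      nd n * ∑ j : ZMod (2 * M + 1), (f j : ℂ) * nd (-(n * j)) := by
    rw [Finset.mul_sum]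
    refine Fintype.sum_equiv (Equiv.addRight (1 : ZMod (2 * M + 1))) _ _ fun j => ?_
    have : -(n * j) = n + -(n * (j + 1)) := by ring
    simp only [Equiv.coe_addRight]
    rw [this, nd_add]
    ring
  simp only [cf, sh, key]
  ring

lemma g_sh (f : ZMod (2 * M + 1) → ℝ) (ζ : ℂ) :
    g (sh f) ζ = g f (nd (1 : ZMod (2 * M + 1)) * ζ) := by
  simp only [g, cf_sh, nd_zero, one_mul, mul_pow]
  congr 1
  congr 1
  refine Finset.sum_congr rfl fun n _ => ?_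
  have : nd ((n + 1 : ℕ) : ZMod (2 * M + 1)) = nd (1 : ZMod (2 * M + 1)) ^ (n + 1) := by
    rw [← nd_nat_mul, mul_one]
  rw [this]; ring

lemma T_sh (f : ZMod (2 * M + 1) → ℝ) : T (sh f) = sh (T f) := by
  funext j
  simp only [T, sh, g_sh]
  rw [← nd_add, add_comm]

/-! ### orthogonality -/

lemma sum_nd_pow (m : ℕ) (hm : m ≤ 2 * M) :
    ∑ j : ZMod (2 * M + 1), nd j ^ m = if m = 0 then ((2 * M + 1 : ℕ) : ℂ) else 0 := by
  have h := sum_nd_mul (m : ZMod (2 * M + 1))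
  simp only [nd_nat_mul] at h
  rw [h]
  have : ((m : ZMod (2 * M + 1)) = 0) ↔ m = 0 := by
    rw [ZMod.natCast_eq_zero_iff]
    constructor
    · intro h; exact Nat.eq_zero_of_dvd_of_lt h (by omega)
    · rintro rfl; exact dvd_zero _
  simp only [this]

lemma sum_nd_pow_conj (m n : ℕ) (hm : m ≤ M) (hn : n ≤ M) :
    ∑ j : ZMod (2 * M + 1), nd j ^ m * (starRingEnd ℂ) (nd j ^ n) =
      if m = n then ((2 * M + 1 : ℕ) : ℂ) else 0 := by
  have h := sum_nd_mul ((m : ZMod (2 * M + 1)) - (n : ZMod (2 * M + 1)))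
  have h1 : ∀ j : ZMod (2 * M + 1), nd (((m : ZMod (2 * M + 1)) - (n : ZMod (2 * M + 1))) * j) =
      nd j ^ m * (starRingEnd ℂ) (nd j ^ n) := by
    intro j
    rw [map_pow, nd_conj, ← nd_nat_mul, ← nd_nat_mul, ← nd_add]
    congr 1
    ring
  simp only [h1] at h
  rw [h]
  have : ((m : ZMod (2 * M + 1)) - (n : ZMod (2 * M + 1)) = 0) ↔ m = n := by
    rw [sub_eq_zero]
    constructor
    · intro h
      have := congrArg ZMod.val h
      rwa [ZMod.val_cast_of_lt (by omega), ZMod.val_cast_of_lt (by omega)] at this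
    · rintro rfl; rfl
  simp only [this]

/-- coefficients of `g` -/
def gc (f : ZMod (2 * M + 1) → ℝ) (n : ℕ) : ℂ :=
  if n = 0 then cf f 0 else 2 * cf f (n : ZMod (2 * M + 1))

lemma g_eq (f : ZMod (2 * M + 1) → ℝ) (ζ : ℂ) :
    g f ζ = ∑ n ∈ range (M + 1), gc f n * ζ ^ n := by
  rw [Finset.sum_range_succ', g, add_comm]
  simp only [gc, Nat.succ_ne_zero, if_false, if_true, pow_zero, mul_one, Finset.mul_sum,
    add_comm]
  congr 1
  refine Finset.sum_congr rfl fun n _ => ?_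
  ring

lemma sum_g_sq (f : ZMod (2 * M + 1) → ℝ) :
    ∑ j : ZMod (2 * M + 1), g f (nd j) ^ 2 = ((2 * M + 1 : ℕ) : ℂ) * cf f 0 ^ 2 := by
  have h1 : ∀ j : ZMod (2 * M + 1), g f (nd j) ^ 2 =
      ∑ n ∈ range (M + 1), ∑ m ∈ range (M + 1), gc f n * gc f m * nd j ^ (n + m) := by
    intro j
    rw [g_eq, sq, Finset.sum_mul_sum]
    refine Finset.sum_congr rfl fun n _ => Finset.sum_congr rfl fun m _ => ?_
    rw [pow_add]; ring
  simp only [h1]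
  rw [Finset.sum_comm]
  have h2 : ∀ n ∈ range (M + 1), ∑ j : ZMod (2 * M + 1), ∑ m ∈ range (M + 1),
      gc f n * gc f m * nd j ^ (n + m) =
      if n = 0 then ((2 * M + 1 : ℕ) : ℂ) * cf f 0 ^ 2 else 0 := by
    intro n hn
    rw [Finset.sum_comm]
    have h3 : ∀ m ∈ range (M + 1), ∑ j : ZMod (2 * M + 1), gc f n * gc f m * nd j ^ (n + m) =
        if m = 0 then (if n = 0 then ((2 * M + 1 : ℕ) : ℂ) * cf f 0 ^ 2 else 0) else 0 := by
      intro m hm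
      have := mem_range.1 hn
      have := mem_range.1 hm
      rw [← Finset.mul_sum, sum_nd_pow _ (by omega)]
      by_cases hm0 : m = 0
      · by_cases hn0 : n = 0
        · simp [hm0, hn0, gc]; ring
        · simp [hm0, hn0]
      · simp [hm0]
    rw [Finset.sum_congr rfl h3]
    simp
  rw [Finset.sum_congr rfl h2]
  simp

lemma sum_g_normSq (f : ZMod (2 * M + 1) → ℝ) :
    ∑ j : ZMod (2 * M + 1), ‖g f (nd j)‖ ^ 2 =
      ((2 * M + 1 : ℕ) : ℝ) * ∑ n ∈ range (M + 1), ‖gc f n‖ ^ 2 := by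
  have h1 : ∀ j : ZMod (2 * M + 1), ((‖g f (nd j)‖ ^ 2 : ℝ) : ℂ) =
      ∑ n ∈ range (M + 1), ∑ m ∈ range (M + 1), gc f n * (starRingEnd ℂ) (gc f m) *
        (nd j ^ n * (starRingEnd ℂ) (nd j ^ m)) := by
    intro j
    have : ((‖g f (nd j)‖ ^ 2 : ℝ) : ℂ) = g f (nd j) * (starRingEnd ℂ) (g f (nd j)) := by
      rw [Complex.mul_conj, Complex.normSq_eq_norm_sq]
    rw [this, g_eq, map_sum, Finset.sum_mul_sum]
    refine Finset.sum_congr rfl fun n _ => Finset.sum_congr rfl fun m _ => ?_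
    rw [map_mul]; ring
  have h2 : ∀ n ∈ range (M + 1), ∑ j : ZMod (2 * M + 1), ∑ m ∈ range (M + 1),
      gc f n * (starRingEnd ℂ) (gc f m) * (nd j ^ n * (starRingEnd ℂ) (nd j ^ m)) =
      ((2 * M + 1 : ℕ) : ℂ) * ((‖gc f n‖ ^ 2 : ℝ) : ℂ) := by
    intro n hn
    rw [Finset.sum_comm]
    have h3 : ∀ m ∈ range (M + 1), ∑ j : ZMod (2 * M + 1),
        gc f n * (starRingEnd ℂ) (gc f m) * (nd j ^ n * (starRingEnd ℂ) (nd j ^ m)) =
        if n = m then ((2 * M + 1 : ℕ) : ℂ) * ((‖gc f n‖ ^ 2 : ℝ) : ℂ) else 0 := by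
      intro m hm
      have := mem_range.1 hn
      have := mem_range.1 hm
      rw [← Finset.mul_sum, sum_nd_pow_conj _ _ (by omega) (by omega)]
      split_ifs with h
      · subst h
        rw [Complex.mul_conj, Complex.normSq_eq_norm_sq]; ring
      · ring
    rw [Finset.sum_congr rfl h3]
    simp only [Finset.sum_ite_eq, hn, if_true]
  have h4 : ((∑ j : ZMod (2 * M + 1), ‖g f (nd j)‖ ^ 2 : ℝ) : ℂ) =
      ((((2 * M + 1 : ℕ) : ℝ) * ∑ n ∈ range (M + 1), ‖gc f n‖ ^ 2 : ℝ) : ℂ) := by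
    rw [Complex.ofReal_sum, Finset.sum_congr rfl (fun j _ => h1 j), Finset.sum_comm,
      Finset.sum_congr rfl h2, ← Finset.mul_sum, Complex.ofReal_mul, Complex.ofReal_sum,
      Complex.ofReal_natCast]
  exact_mod_cast h4

lemma ms_T (f : ZMod (2 * M + 1) → ℝ) : ms (T f) = ms f - mean f ^ 2 := by
  have h := congrArg Complex.re (sum_g_sq f)
  have h1 : ∀ j : ZMod (2 * M + 1), (g f (nd j) ^ 2).re = f j ^ 2 - T f j ^ 2 := by
    intro j
    rw [sq, Complex.mul_re, g_re, T]; ring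
  rw [Complex.re_sum, Finset.sum_congr rfl (fun j _ => h1 j), Finset.sum_sub_distrib, cf_zero] at h
  have h2 : (((2 * M + 1 : ℕ) : ℂ) * (mean f : ℂ) ^ 2).re = ((2 * M + 1 : ℕ) : ℝ) * mean f ^ 2 := by
    rw [← Complex.ofReal_natCast, ← Complex.ofReal_pow, ← Complex.ofReal_mul, Complex.ofReal_re]
  rw [h2] at h
  have hN : (((2 * M + 1 : ℕ) : ℝ))⁻¹ * ((2 * M + 1 : ℕ) : ℝ) = 1 := inv_mul_cancel₀ N_pos.ne'
  have h3 := congrArg (fun x => (((2 * M + 1 : ℕ) : ℝ))⁻¹ * x) h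
  simp only [mul_sub, ← mul_assoc, hN, one_mul] at h3
  simp only [ms]
  linarith

lemma ms_nonneg (f : ZMod (2 * M + 1) → ℝ) : 0 ≤ ms f :=
  mul_nonneg (inv_nonneg.2 N_pos.le) (Finset.sum_nonneg fun _ _ => sq_nonneg _)

lemma ms_T_le (f : ZMod (2 * M + 1) → ℝ) : ms (T f) ≤ ms f := by
  rw [ms_T]; linarith [sq_nonneg (mean f)]


/-- Parseval. -/
lemma parseval (f : ZMod (2 * M + 1) → ℝ) :
    mean f ^ 2 + 2 * ∑ n ∈ range M, ‖cf f ((n + 1 : ℕ) : ZMod (2 * M + 1))‖ ^ 2 = ms f := by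
  have h := sum_g_normSq f
  have h1 : ∀ j : ZMod (2 * M + 1), ‖g f (nd j)‖ ^ 2 = f j ^ 2 + T f j ^ 2 := by
    intro j
    rw [← Complex.normSq_eq_norm_sq, Complex.normSq_apply, g_re, T]; ring
  rw [Finset.sum_congr rfl (fun j _ => h1 j), Finset.sum_add_distrib, Finset.sum_range_succ'] at h
  have hN : (((2 * M + 1 : ℕ) : ℝ))⁻¹ * ((2 * M + 1 : ℕ) : ℝ) = 1 := inv_mul_cancel₀ N_pos.ne'
  have h3 := congrArg (fun x => (((2 * M + 1 : ℕ) : ℝ))⁻¹ * x) h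
  simp only [mul_add, ← mul_assoc, hN, one_mul] at h3
  have h4 : ms f + ms (T f) = ∑ n ∈ range M, ‖gc f (n + 1)‖ ^ 2 + ‖gc f 0‖ ^ 2 := h3
  have h5 : ∀ n : ℕ, ‖gc f (n + 1)‖ ^ 2 = 4 * ‖cf f ((n + 1 : ℕ) : ZMod (2 * M + 1))‖ ^ 2 := by
    intro n
    simp only [gc, Nat.succ_ne_zero, if_false, norm_mul]
    norm_num
    ring
  have h6 : ‖gc f 0‖ ^ 2 = mean f ^ 2 := by
    simp [gc, cf_zero]
  rw [Finset.sum_congr rfl (fun n _ => h5 n), ← Finset.mul_sum, h6, ms_T] at h4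
  linarith

/-! ### difference bound -/

lemma nd_nat (n : ℕ) : nd ((n : ℕ) : ZMod (2 * M + 1)) =
    Complex.exp (Complex.I * ((2 * Real.pi * n / ((2 * M + 1 : ℕ) : ℝ) : ℝ) : ℂ)) := by
  rw [nd, ZMod.stdAddChar_apply, ZMod.toCircle_natCast]
  congr 1
  push_cast
  ring

lemma le_nd_sub_one (n : ℕ) (hn : n ≤ M) :
    4 * n / ((2 * M + 1 : ℕ) : ℝ) ≤ ‖nd ((n : ℕ) : ZMod (2 * M + 1)) - 1‖ := by
  rw [nd_nat, Complex.norm_exp_I_mul_ofReal_sub_one]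
  have hN : (0 : ℝ) < ((2 * M + 1 : ℕ) : ℝ) := N_pos
  have hn' : (n : ℝ) ≤ M := by exact_mod_cast hn
  have hx : 2 * Real.pi * n / ((2 * M + 1 : ℕ) : ℝ) / 2 = Real.pi * n / ((2 * M + 1 : ℕ) : ℝ) := by
    ring
  rw [hx]
  have h0 : 0 ≤ Real.pi * n / ((2 * M + 1 : ℕ) : ℝ) := by positivity
  have h1 : Real.pi * n / ((2 * M + 1 : ℕ) : ℝ) ≤ Real.pi / 2 := by
    rw [div_le_iff₀ hN]
    push_cast
    nlinarith [Real.pi_pos]
  have h2 := Real.mul_le_sin h0 h1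
  rw [Real.norm_eq_abs]
  refine le_trans ?_ (le_abs_self _)
  have h3 : 2 / Real.pi * (Real.pi * n / ((2 * M + 1 : ℕ) : ℝ)) = 2 * n / ((2 * M + 1 : ℕ) : ℝ) := by
    field_simp
  rw [h3] at h2
  have h4 : 4 * (n : ℝ) / ((2 * M + 1 : ℕ) : ℝ) = 2 * (2 * n / ((2 * M + 1 : ℕ) : ℝ)) := by ring
  rw [h4]
  linarith

/-- forward difference -/
def df (f : ZMod (2 * M + 1) → ℝ) : ZMod (2 * M + 1) → ℝ := fun j => f (j + 1) - f j

lemma cf_df (f : ZMod (2 * M + 1) → ℝ) (n : ZMod (2 * M + 1)) :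
    cf (df f) n = (nd n - 1) * cf f n := by
  have h : sh f = df f + f := by funext j; simp [sh, df]
  have h2 := cf_sh f n
  rw [h, cf_add] at h2
  linear_combination h2


/-- Sobolev-type bound. -/
lemma sob (f : ZMod (2 * M + 1) → ℝ) :
    ∑ n ∈ range M, ((n : ℝ) + 1) ^ 2 * ‖cf f ((n + 1 : ℕ) : ZMod (2 * M + 1))‖ ^ 2 ≤
      ((2 * M + 1 : ℕ) : ℝ) ^ 2 * ms (df f) / 32 := by
  have hN : (0 : ℝ) < ((2 * M + 1 : ℕ) : ℝ) := N_pos
  have h := parseval (df f)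
  have h1 : ∀ n ∈ range M, 16 / ((2 * M + 1 : ℕ) : ℝ) ^ 2 *
      (((n : ℝ) + 1) ^ 2 * ‖cf f ((n + 1 : ℕ) : ZMod (2 * M + 1))‖ ^ 2) ≤
      ‖cf (df f) ((n + 1 : ℕ) : ZMod (2 * M + 1))‖ ^ 2 := by
    intro n hn
    rw [cf_df, norm_mul, mul_pow]
    have h2 := le_nd_sub_one (M := M) (n + 1) (by have := mem_range.1 hn; omega)
    have h3 : (4 * ((n + 1 : ℕ) : ℝ) / ((2 * M + 1 : ℕ) : ℝ)) ^ 2 ≤
        ‖nd (((n + 1 : ℕ) : ℕ) : ZMod (2 * M + 1)) - 1‖ ^ 2 :=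
      pow_le_pow_left₀ (by positivity) h2 2
    have h4 : 16 / ((2 * M + 1 : ℕ) : ℝ) ^ 2 *
      (((n : ℝ) + 1) ^ 2 * ‖cf f ((n + 1 : ℕ) : ZMod (2 * M + 1))‖ ^ 2) =
      (4 * ((n + 1 : ℕ) : ℝ) / ((2 * M + 1 : ℕ) : ℝ)) ^ 2 *
        ‖cf f ((n + 1 : ℕ) : ZMod (2 * M + 1))‖ ^ 2 := by
      rw [show ((n + 1 : ℕ) : ℝ) = (n : ℝ) + 1 by push_cast; ring]
      ring
    rw [h4]
    exact mul_le_mul_of_nonneg_right h3 (sq_nonneg _)
  have h5 := Finset.sum_le_sum h1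
  rw [← Finset.mul_sum] at h5
  have h6 := sq_nonneg (mean (df f))
  have h7 : 16 / ((2 * M + 1 : ℕ) : ℝ) ^ 2 *
      ∑ n ∈ range M, ((n : ℝ) + 1) ^ 2 * ‖cf f ((n + 1 : ℕ) : ZMod (2 * M + 1))‖ ^ 2 ≤
      ms (df f) / 2 := by linarith
  have h8 : 0 < ((2 * M + 1 : ℕ) : ℝ) ^ 2 := by positivity
  rw [div_mul_eq_mul_div, div_le_iff₀ h8] at h7
  linarith

/-! ### Hölder and Agmon bounds for the polynomial disc -/

lemma sum_min_le (K : ℕ) (δ : ℝ) (hδ : 0 < δ) (hδ2 : δ ≤ 2) :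
    ∑ n ∈ range K, (min 2 (((n : ℝ) + 1) * δ)) ^ 2 / ((n : ℝ) + 1) ^ 2 ≤ 8 * δ := by
  set s : ℝ := 2 / δ with hs
  have hs1 : 1 ≤ s := by rw [hs, le_div_iff₀ hδ]; linarith
  have hsd : δ = 2 / s := by rw [hs]; field_simp
  have key : ∀ n ∈ range K, (min 2 (((n : ℝ) + 1) * δ)) ^ 2 / ((n : ℝ) + 1) ^ 2 ≤
      16 / ((n : ℝ) + s) - 16 / (((n + 1 : ℕ) : ℝ) + s) := by
    intro n _
    have hn : (0 : ℝ) ≤ n := Nat.cast_nonneg n
    have hpos : (0 : ℝ) < (n : ℝ) + s := by linarith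
    have hpos2 : (0 : ℝ) < (n : ℝ) + 1 + s := by linarith
    have hn1 : (0 : ℝ) < (n : ℝ) + 1 := by linarith
    have e : 16 / ((n : ℝ) + s) - 16 / (((n + 1 : ℕ) : ℝ) + s) =
        16 / (((n : ℝ) + s) * ((n : ℝ) + 1 + s)) := by
      push_cast
      field_simp
      ring
    rw [e]
    rcases le_total ((n : ℝ) + 1) s with h | h
    · have h2 : min 2 (((n : ℝ) + 1) * δ) ≤ ((n : ℝ) + 1) * δ := min_le_right _ _
      have h0 : 0 ≤ min 2 (((n : ℝ) + 1) * δ) := le_min (by norm_num) (by positivity)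
      have h3 : (min 2 (((n : ℝ) + 1) * δ)) ^ 2 / ((n : ℝ) + 1) ^ 2 ≤ δ ^ 2 := by
        rw [div_le_iff₀ (by positivity)]
        calc (min 2 (((n : ℝ) + 1) * δ)) ^ 2 ≤ (((n : ℝ) + 1) * δ) ^ 2 := pow_le_pow_left₀ h0 h2 2
          _ = δ ^ 2 * ((n : ℝ) + 1) ^ 2 := by ring
      refine h3.trans ?_
      rw [hsd, div_pow, div_le_div_iff₀ (by positivity) (by positivity)]
      nlinarith
    · have h2 : min 2 (((n : ℝ) + 1) * δ) ≤ 2 := min_le_left _ _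
      have h0 : 0 ≤ min 2 (((n : ℝ) + 1) * δ) := le_min (by norm_num) (by positivity)
      have h3 : (min 2 (((n : ℝ) + 1) * δ)) ^ 2 / ((n : ℝ) + 1) ^ 2 ≤ 4 / ((n : ℝ) + 1) ^ 2 := by
        apply div_le_div_of_nonneg_right _ (by positivity)
        calc (min 2 (((n : ℝ) + 1) * δ)) ^ 2 ≤ 2 ^ 2 := pow_le_pow_left₀ h0 h2 2
          _ = 4 := by norm_num
      refine h3.trans ?_
      rw [div_le_div_iff₀ (by positivity) (by positivity)]
      nlinarith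
  refine (Finset.sum_le_sum key).trans ?_
  rw [Finset.sum_range_sub' (fun n : ℕ => 16 / ((n : ℝ) + s)) K]
  have : 0 ≤ 16 / ((K : ℝ) + s) := by positivity
  have e2 : 16 / (((0 : ℕ) : ℝ) + s) = 8 * δ := by
    rw [hsd]; push_cast; field_simp; ring
  rw [e2]
  linarith

lemma pow_sub_pow_le (n : ℕ) (ζ ζ' : ℂ) (h : ‖ζ‖ ≤ 1) (h' : ‖ζ'‖ ≤ 1) :
    ‖ζ ^ (n + 1) - ζ' ^ (n + 1)‖ ≤ min 2 (((n : ℝ) + 1) * ‖ζ - ζ'‖) := by
  refine le_min ?_ ?_
  · calc ‖ζ ^ (n + 1) - ζ' ^ (n + 1)‖ ≤ ‖ζ ^ (n + 1)‖ + ‖ζ' ^ (n + 1)‖ := norm_sub_le _ _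
      _ ≤ 1 + 1 := by
        rw [norm_pow, norm_pow]
        exact add_le_add (pow_le_one₀ (norm_nonneg _) h) (pow_le_one₀ (norm_nonneg _) h')
      _ = 2 := by norm_num
  · induction n with
    | zero => simp
    | succ n ih =>
      have e : ζ ^ (n + 1 + 1) - ζ' ^ (n + 1 + 1) =
          ζ * (ζ ^ (n + 1) - ζ' ^ (n + 1)) + (ζ - ζ') * ζ' ^ (n + 1) := by ring
      rw [e]
      calc ‖ζ * (ζ ^ (n + 1) - ζ' ^ (n + 1)) + (ζ - ζ') * ζ' ^ (n + 1)‖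
          ≤ ‖ζ‖ * ‖ζ ^ (n + 1) - ζ' ^ (n + 1)‖ + ‖ζ - ζ'‖ * ‖ζ'‖ ^ (n + 1) := by
            refine (norm_add_le _ _).trans ?_
            rw [norm_mul, norm_mul, norm_pow]
        _ ≤ 1 * (((n : ℝ) + 1) * ‖ζ - ζ'‖) + ‖ζ - ζ'‖ * 1 := by
            refine add_le_add ?_ ?_
            · exact mul_le_mul h ih (norm_nonneg _) zero_le_one
            · exact mul_le_mul_of_nonneg_left (pow_le_one₀ (norm_nonneg _) h') (norm_nonneg _)
        _ = (((n + 1 : ℕ) : ℝ) + 1) * ‖ζ - ζ'‖ := by push_cast; ring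

/-- weighted Cauchy–Schwarz -/
lemma cs (K : ℕ) (a : ℕ → ℂ) (x w : ℕ → ℝ) (hw : ∀ n, 0 < w n) :
    (∑ n ∈ range K, ‖a n‖ * x n) ^ 2 ≤
      (∑ n ∈ range K, w n * ‖a n‖ ^ 2) * (∑ n ∈ range K, x n ^ 2 / w n) := by
  refine Finset.sum_sq_le_sum_mul_sum_of_sq_le_mul _ ?_ ?_ ?_
  · intro i _
    exact mul_nonneg (hw i).le (sq_nonneg _)
  · intro i _
    exact div_nonneg (sq_nonneg _) (hw i).le
  · intro i _
    have := (hw i).ne'
    rw [mul_pow]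
    apply le_of_eq
    field_simp

/-- Hölder bound (exponent 1/2) for the polynomial disc. -/
lemma holder (f : ZMod (2 * M + 1) → ℝ) (ζ ζ' : ℂ) (h : ‖ζ‖ ≤ 1) (h' : ‖ζ'‖ ≤ 1) :
    ‖g f ζ - g f ζ'‖ ^ 2 ≤ ((2 * M + 1 : ℕ) : ℝ) ^ 2 * ms (df f) * ‖ζ - ζ'‖ := by
  rcases eq_or_ne ζ ζ' with rfl | hne
  · simp
  have hδ : 0 < ‖ζ - ζ'‖ := norm_pos_iff.2 (sub_ne_zero.2 hne)
  have hδ2 : ‖ζ - ζ'‖ ≤ 2 := by
    calc ‖ζ - ζ'‖ ≤ ‖ζ‖ + ‖ζ'‖ := norm_sub_le _ _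
      _ ≤ 2 := by linarith
  have e : g f ζ - g f ζ' = 2 * ∑ n ∈ range M, cf f ((n + 1 : ℕ) : ZMod (2 * M + 1)) *
      (ζ ^ (n + 1) - ζ' ^ (n + 1)) := by
    simp only [g, mul_sub, Finset.sum_sub_distrib]
    ring
  have h1 : ‖g f ζ - g f ζ'‖ ≤ 2 * ∑ n ∈ range M, ‖cf f ((n + 1 : ℕ) : ZMod (2 * M + 1))‖ *
      min 2 (((n : ℝ) + 1) * ‖ζ - ζ'‖) := by
    rw [e, norm_mul]
    simp only [Complex.norm_ofNat]
    refine mul_le_mul_of_nonneg_left ?_ (by norm_num)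
    refine (norm_sum_le _ _).trans (Finset.sum_le_sum fun n _ => ?_)
    rw [norm_mul]
    exact mul_le_mul_of_nonneg_left (pow_sub_pow_le n ζ ζ' h h') (norm_nonneg _)
  have h2 := cs M (fun n => cf f ((n + 1 : ℕ) : ZMod (2 * M + 1)))
    (fun n => min 2 (((n : ℝ) + 1) * ‖ζ - ζ'‖)) (fun n => ((n : ℝ) + 1) ^ 2)
    (fun n => by positivity)
  have h3 := sum_min_le M ‖ζ - ζ'‖ hδ hδ2
  have h4 := sob f
  have h5 : (0 : ℝ) ≤ ∑ n ∈ range M, ((n : ℝ) + 1) ^ 2 *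
      ‖cf f ((n + 1 : ℕ) : ZMod (2 * M + 1))‖ ^ 2 := by positivity
  calc ‖g f ζ - g f ζ'‖ ^ 2 ≤ (2 * ∑ n ∈ range M, ‖cf f ((n + 1 : ℕ) : ZMod (2 * M + 1))‖ *
      min 2 (((n : ℝ) + 1) * ‖ζ - ζ'‖)) ^ 2 := pow_le_pow_left₀ (norm_nonneg _) h1 2
    _ = 4 * (∑ n ∈ range M, ‖cf f ((n + 1 : ℕ) : ZMod (2 * M + 1))‖ *
      min 2 (((n : ℝ) + 1) * ‖ζ - ζ'‖)) ^ 2 := by ring
    _ ≤ 4 * ((((2 * M + 1 : ℕ) : ℝ) ^ 2 * ms (df f) / 32) * (8 * ‖ζ - ζ'‖)) := by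
      refine mul_le_mul_of_nonneg_left ?_ (by norm_num)
      refine h2.trans ?_
      exact mul_le_mul h4 h3 (by positivity) (le_trans h5 h4)
    _ = ((2 * M + 1 : ℕ) : ℝ) ^ 2 * ms (df f) * ‖ζ - ζ'‖ := by ring

lemma sum_agmon (K : ℕ) (s : ℝ) (hs : 0 < s) :
    ∑ n ∈ range K, (1 : ℝ) ^ 2 / (s + ((n : ℝ) + 1) ^ 2 / s) ≤ 2 := by
  have key : ∀ n ∈ range K, (1 : ℝ) ^ 2 / (s + ((n : ℝ) + 1) ^ 2 / s) ≤
      2 * s / ((n : ℝ) + s) - 2 * s / (((n + 1 : ℕ) : ℝ) + s) := by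
    intro n _
    have hn : (0 : ℝ) ≤ n := Nat.cast_nonneg n
    have hpos : (0 : ℝ) < (n : ℝ) + s := by linarith
    have hpos2 : (0 : ℝ) < (n : ℝ) + 1 + s := by linarith
    have e : 2 * s / ((n : ℝ) + s) - 2 * s / (((n + 1 : ℕ) : ℝ) + s) =
        2 * s / (((n : ℝ) + s) * ((n : ℝ) + 1 + s)) := by
      push_cast
      field_simp
      ring
    have e2 : (1 : ℝ) ^ 2 / (s + ((n : ℝ) + 1) ^ 2 / s) = s / (s ^ 2 + ((n : ℝ) + 1) ^ 2) := by
      field_simp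
    rw [e, e2, div_le_div_iff₀ (by positivity) (by positivity)]
    have h3 : ((n : ℝ) + s) * ((n : ℝ) + 1 + s) ≤ 2 * (s ^ 2 + ((n : ℝ) + 1) ^ 2) := by
      nlinarith [sq_nonneg (s - ((n : ℝ) + 1))]
    nlinarith
  refine (Finset.sum_le_sum key).trans ?_
  rw [Finset.sum_range_sub' (fun n : ℕ => 2 * s / ((n : ℝ) + s)) K]
  have : 0 ≤ 2 * s / ((K : ℝ) + s) := by positivity
  have e2 : 2 * s / (((0 : ℕ) : ℝ) + s) = 2 := by
    push_cast; field_simp; ring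
  rw [e2]
  linarith

/-- Agmon bound: `‖g f ζ - g f 0‖² ≤ 4 ms f / τ + τ N² ms (df f) / 4`. -/
lemma agmon (f : ZMod (2 * M + 1) → ℝ) (ζ : ℂ) (h : ‖ζ‖ ≤ 1) (τ : ℝ) (hτ : 0 < τ) :
    ‖g f ζ - g f 0‖ ^ 2 ≤
      4 * ms f / τ + τ * (((2 * M + 1 : ℕ) : ℝ) ^ 2 * ms (df f)) / 4 := by
  set s : ℝ := 1 / τ with hs
  have hs0 : 0 < s := by positivity
  have hst : τ = 1 / s := by rw [hs]; field_simp
  have e : g f ζ - g f 0 = 2 * ∑ n ∈ range M, cf f ((n + 1 : ℕ) : ZMod (2 * M + 1)) *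
      ζ ^ (n + 1) := by
    rw [g_zero, g, cf_zero]; ring
  have h1 : ‖g f ζ - g f 0‖ ≤ 2 * ∑ n ∈ range M, ‖cf f ((n + 1 : ℕ) : ZMod (2 * M + 1))‖ * 1 := by
    rw [e, norm_mul]
    simp only [Complex.norm_ofNat]
    refine mul_le_mul_of_nonneg_left ?_ (by norm_num)
    refine (norm_sum_le _ _).trans (Finset.sum_le_sum fun n _ => ?_)
    rw [norm_mul, norm_pow]
    exact mul_le_mul_of_nonneg_left (pow_le_one₀ (norm_nonneg _) h) (norm_nonneg _)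
  have h2 := cs M (fun n => cf f ((n + 1 : ℕ) : ZMod (2 * M + 1)))
    (fun n => 1) (fun n => s + ((n : ℝ) + 1) ^ 2 / s)
    (fun n => by positivity)
  have h3 := sum_agmon M s hs0
  have h4 := sob f
  have h5 := parseval f
  have h6 := sq_nonneg (mean f)
  have h7 : ∑ n ∈ range M, (s + ((n : ℝ) + 1) ^ 2 / s) *
      ‖cf f ((n + 1 : ℕ) : ZMod (2 * M + 1))‖ ^ 2 ≤
      s * (ms f / 2) + (((2 * M + 1 : ℕ) : ℝ) ^ 2 * ms (df f) / 32) / s := by
    have : ∑ n ∈ range M, (s + ((n : ℝ) + 1) ^ 2 / s) *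
        ‖cf f ((n + 1 : ℕ) : ZMod (2 * M + 1))‖ ^ 2 =
        s * ∑ n ∈ range M, ‖cf f ((n + 1 : ℕ) : ZMod (2 * M + 1))‖ ^ 2 +
        (∑ n ∈ range M, ((n : ℝ) + 1) ^ 2 *
          ‖cf f ((n + 1 : ℕ) : ZMod (2 * M + 1))‖ ^ 2) / s := by
      rw [Finset.mul_sum, Finset.sum_div, ← Finset.sum_add_distrib]
      refine Finset.sum_congr rfl fun n _ => by ring
    rw [this]
    refine add_le_add ?_ ?_
    · exact mul_le_mul_of_nonneg_left (by linarith) hs0.le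
    · exact div_le_div_of_nonneg_right h4 hs0.le
  have h8 : 0 ≤ s * (ms f / 2) + (((2 * M + 1 : ℕ) : ℝ) ^ 2 * ms (df f) / 32) / s := by
    have := ms_nonneg f
    have := ms_nonneg (df f)
    positivity
  calc ‖g f ζ - g f 0‖ ^ 2 ≤ (2 * ∑ n ∈ range M,
      ‖cf f ((n + 1 : ℕ) : ZMod (2 * M + 1))‖ * 1) ^ 2 := pow_le_pow_left₀ (norm_nonneg _) h1 2
    _ = 4 * (∑ n ∈ range M, ‖cf f ((n + 1 : ℕ) : ZMod (2 * M + 1))‖ * 1) ^ 2 := by ring
    _ ≤ 4 * ((s * (ms f / 2) + (((2 * M + 1 : ℕ) : ℝ) ^ 2 * ms (df f) / 32) / s) * 2) := by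
      refine mul_le_mul_of_nonneg_left ?_ (by norm_num)
      refine h2.trans ?_
      exact mul_le_mul h7 h3 (Finset.sum_nonneg fun n _ => div_nonneg (sq_nonneg _)
        (add_nonneg hs0.le (div_nonneg (sq_nonneg _) hs0.le))) h8
    _ = 4 * ms f / τ + τ * (((2 * M + 1 : ℕ) : ℝ) ^ 2 * ms (df f)) / 4 := by
      generalize ((2 * M + 1 : ℕ) : ℝ) ^ 2 * ms (df f) = B
      rw [hst]; field_simp; ring

end

end Crest.Agent.R264.BisT
end

-- ▼ part R264/BisT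

/-! Row 264, Part B, module BIS-T (helper464): `theorem bisT : BisT`. -/

set_option autoImplicit false

namespace Crest.Agent.R264.Bsh

open Finset Complex

variable {M : ℕ}

lemma nd_eq (j : ZMod (2 * M + 1)) : nd M j = Crest.Agent.R264.BisT.nd j := rfl

lemma cf_eq (f : ZMod (2 * M + 1) → ℝ) (n : ℕ) :
    cf f n = Crest.Agent.R264.BisT.cf f (n : ZMod (2 * M + 1)) := by
  have h : ∀ j : ZMod (2 * M + 1), (starRingEnd ℂ) (nd M j) ^ n =
      Crest.Agent.R264.BisT.nd (-((n : ZMod (2 * M + 1)) * j)) := by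
    intro j
    rw [nd_eq, ← Crest.Agent.R264.BisT.nd_conj, Crest.Agent.R264.BisT.nd_nat_mul, map_pow]
  simp only [cf, Crest.Agent.R264.BisT.cf, h]
  rw [div_eq_inv_mul]
  push_cast
  rfl

lemma pd_eq (f : ZMod (2 * M + 1) → ℝ) (ζ : ℂ) : pd f ζ = Crest.Agent.R264.BisT.g f ζ := by
  rw [pd, Crest.Agent.R264.BisT.g, Finset.range_eq_Ico, Finset.sum_Ico_add'
    (fun n => Crest.Agent.R264.BisT.cf f ((n : ℕ) : ZMod (2 * M + 1)) * ζ ^ n) 0 M 1]
  have : Finset.Icc 1 M = Finset.Ico (0 + 1) (M + 1) := by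
    ext x; simp [Finset.mem_Icc, Finset.mem_Ico]
  rw [this]
  simp only [cf_eq, Nat.cast_zero]

lemma cj_eq (f : ZMod (2 * M + 1) → ℝ) : cj f = Crest.Agent.R264.BisT.T f := by
  funext j
  rw [cj, pd_eq]
  rfl

lemma ms_eq (f : ZMod (2 * M + 1) → ℝ) :
    Crest.Agent.R264.BisT.ms f = (∑ j, f j ^ 2) / (2 * M + 1) := by
  rw [Crest.Agent.R264.BisT.ms, div_eq_inv_mul]
  push_cast
  rfl

lemma l2s_eq_sqrt (f : ZMod (2 * M + 1) → ℝ) :
    l2s f = Real.sqrt (Crest.Agent.R264.BisT.ms f) := by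
  rw [l2s, ms_eq]

lemma N_eq : (((2 * M + 1 : ℕ) : ℝ)) = 2 * M + 1 := by push_cast; rfl

theorem bisT : BisT where
  pd_add f g ζ := by simp only [pd_eq]; exact Crest.Agent.R264.BisT.g_add f g ζ
  pd_smul c f ζ := by simp only [pd_eq]; exact Crest.Agent.R264.BisT.g_smul c f ζ
  pd_const := by
    intro M c ζ
    have h0 : Crest.Agent.R264.BisT.mean (fun _ : ZMod (2 * M + 1) => c) = c := by
      simp only [Crest.Agent.R264.BisT.mean, Finset.sum_const, Finset.card_univ, ZMod.card,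
        nsmul_eq_mul]
      rw [← mul_assoc, inv_mul_cancel₀ Crest.Agent.R264.BisT.N_pos.ne', one_mul]
    have h1 : Crest.Agent.R264.BisT.ms (Crest.Agent.R264.BisT.df
        (fun _ : ZMod (2 * M + 1) => c)) = 0 := by
      simp [Crest.Agent.R264.BisT.ms, Crest.Agent.R264.BisT.df]
    have h2 := Crest.Agent.R264.BisT.sob (fun _ : ZMod (2 * M + 1) => c)
    rw [h1] at h2
    have h3 : ∀ n ∈ range M, Crest.Agent.R264.BisT.cf (fun _ : ZMod (2 * M + 1) => c)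
        ((n + 1 : ℕ) : ZMod (2 * M + 1)) = 0 := by
      have h4 : ∑ n ∈ range M, ((n : ℝ) + 1) ^ 2 *
          ‖Crest.Agent.R264.BisT.cf (fun _ : ZMod (2 * M + 1) => c)
            ((n + 1 : ℕ) : ZMod (2 * M + 1))‖ ^ 2 = 0 :=
        le_antisymm (by simpa using h2) (Finset.sum_nonneg fun _ _ => by positivity)
      intro n hn
      have h5 := (Finset.sum_eq_zero_iff_of_nonneg (fun n _ => by positivity)).1 h4 n hn
      have h6 : ((n : ℝ) + 1) ^ 2 ≠ 0 := by positivity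
      have h7 := (mul_eq_zero.1 h5).resolve_left h6
      exact norm_eq_zero.1 (pow_eq_zero_iff (two_ne_zero) |>.1 h7)
    rw [pd_eq, Crest.Agent.R264.BisT.g, Crest.Agent.R264.BisT.cf_zero, h0,
      Finset.sum_eq_zero (fun n hn => by rw [h3 n hn, zero_mul])]
    simp
  pd_zero f := by
    rw [pd_eq, Crest.Agent.R264.BisT.g_zero, Crest.Agent.R264.BisT.mean, div_eq_inv_mul, N_eq]
  re_pd f j := by rw [pd_eq, nd_eq]; exact Crest.Agent.R264.BisT.g_re f j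
  cj_l2 := by
    intro M f
    have h := Crest.Agent.R264.BisT.ms_T_le f
    rw [ms_eq, ms_eq, ← cj_eq] at h
    have hN : (0 : ℝ) < 2 * M + 1 := by positivity
    exact (div_le_div_iff_of_pos_right hN).1 h
  cj_shift := by
    intro M f a j
    have key : ∀ (n : ℕ) (j : ZMod (2 * M + 1)),
        cj (fun j' : ZMod (2 * M + 1) => f (j' + (n : ZMod (2 * M + 1)))) j =
          cj f (j + (n : ZMod (2 * M + 1))) := by
      intro n
      induction n with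
      | zero => intro j; simp
      | succ n ih =>
        intro j
        have h1 : (fun j' : ZMod (2 * M + 1) => f (j' + ((n + 1 : ℕ) : ZMod (2 * M + 1)))) =
            Crest.Agent.R264.BisT.sh
              (fun j' : ZMod (2 * M + 1) => f (j' + (n : ZMod (2 * M + 1)))) := by
          funext j'
          simp only [Crest.Agent.R264.BisT.sh]
          congr 1
          push_cast
          ring
        rw [h1, cj_eq, Crest.Agent.R264.BisT.T_sh]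
        simp only [Crest.Agent.R264.BisT.sh]
        rw [← cj_eq, ih]
        congr 1
        push_cast
        ring
    have := key a.val j
    rwa [ZMod.natCast_zmod_val] at this
  holder := by
    refine ⟨1, one_pos, ?_⟩
    intro M f ζ ζ' h h'
    have hh := Crest.Agent.R264.BisT.holder f ζ ζ' h h'
    rw [pd_eq, pd_eq, one_mul, l2s_eq_sqrt]
    have hN : (0 : ℝ) ≤ 2 * (M : ℝ) + 1 := by positivity
    refine (Real.le_sqrt_of_sq_le hh).trans (le_of_eq ?_)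
    rw [Real.sqrt_mul, Real.sqrt_mul, Real.sqrt_sq, N_eq]
    · rfl
    · rw [N_eq]; exact hN
    · positivity
    · exact mul_nonneg (by positivity) (Crest.Agent.R264.BisT.ms_nonneg _)
  agmon := by
    refine ⟨2, two_pos, ?_⟩
    intro M f ζ τ h hτ _
    have hh := Crest.Agent.R264.BisT.agmon f ζ h τ hτ
    rw [pd_eq, pd_eq, l2s_eq_sqrt, l2s_eq_sqrt]
    have hN : (0 : ℝ) ≤ 2 * (M : ℝ) + 1 := by positivity
    have hdf : (fun j : ZMod (2 * M + 1) => f (j + 1) - f j) = Crest.Agent.R264.BisT.df f := rfl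
    rw [hdf]
    have m1 := Crest.Agent.R264.BisT.ms_nonneg f
    have m2 := Crest.Agent.R264.BisT.ms_nonneg (Crest.Agent.R264.BisT.df f)
    set a := Real.sqrt (Crest.Agent.R264.BisT.ms f) with ha
    set b := Real.sqrt (Crest.Agent.R264.BisT.ms (Crest.Agent.R264.BisT.df f)) with hb
    set t := Real.sqrt τ with ht
    have ht0 : 0 < t := Real.sqrt_pos.2 hτ
    have e1 : Crest.Agent.R264.BisT.ms f = a ^ 2 := (Real.sq_sqrt m1).symm
    have e2 : Crest.Agent.R264.BisT.ms (Crest.Agent.R264.BisT.df f) = b ^ 2 :=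
      (Real.sq_sqrt m2).symm
    have e3 : τ = t ^ 2 := (Real.sq_sqrt hτ.le).symm
    rw [e1, e2, e3, N_eq] at hh
    have a0 : 0 ≤ a := Real.sqrt_nonneg _
    have b0 : 0 ≤ b := Real.sqrt_nonneg _
    refine abs_le_of_sq_le_sq' ?_ ?_ |>.2
    · refine hh.trans ?_
      have x0 : 0 ≤ a / t := by positivity
      have y0 : 0 ≤ (2 * (M : ℝ) + 1) * b * t := by positivity
      have : 4 * a ^ 2 / t ^ 2 + t ^ 2 * ((2 * (M : ℝ) + 1) ^ 2 * b ^ 2) / 4 =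
          4 * (a / t) ^ 2 + ((2 * (M : ℝ) + 1) * b * t) ^ 2 / 4 := by
        field_simp
      rw [this]
      nlinarith [mul_nonneg x0 y0]
    · positivity

end Crest.Agent.R264.Bsh
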