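import Mathlib
import Crest.Agent.R264.BshIface
import Crest.Agent.R264.BshDat
import Crest.Agent.R264.BshNorm
import Crest.Agent.R264.BisT_Mg
import Crest.Agent.R264.BisS2
import Crest.Agent.R264.BisS
import Crest.Agent.R266.SCV

-- ▼ part R264/BshE1
section

/-! Row 264, Part B: the Bishop equation on a finite set of nodes (module BIS-E), abstract part. -/

set_option autoImplicit false

namespace Crest.Agent.R264.Bsh

open Finset

variable {ι : Type*} [Fintype ι] {W : Type*} [NormedAddCommGroup W]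

/-- normalised `L2` norm of a function on the nodes -/
noncomputable def n2 (f : ι → W) : ℝ := Real.sqrt ((∑ j, ‖f j‖ ^ 2) / (Fintype.card ι : ℝ))


theorem n2_nonneg (f : ι → W) : 0 ≤ n2 f := Real.sqrt_nonneg _

theorem n2_sq (f : ι → W) : n2 f ^ 2 = (∑ j, ‖f j‖ ^ 2) / (Fintype.card ι : ℝ) :=
  Real.sq_sqrt (by positivity)

theorem n2_norm (f : ι → W) : n2 (fun j => ‖f j‖) = n2 f := by
  simp [n2]

theorem n2_mono {W' : Type*} [NormedAddCommGroup W'] (f : ι → W) (g : ι → W')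
    (h : ∀ j, ‖f j‖ ≤ ‖g j‖) : n2 f ≤ n2 g := by
  unfold n2
  apply Real.sqrt_le_sqrt
  gcongr with j _
  exact h j

theorem n2_zero : n2 (fun _ : ι => (0 : W)) = 0 := by simp [n2]



theorem n2_eq_lp (f : ι → W) :
    n2 f = ‖(WithLp.toLp 2 f : PiLp 2 (fun _ : ι => W))‖ / Real.sqrt (Fintype.card ι : ℝ) := by
  rw [PiLp.norm_eq_of_L2, n2, Real.sqrt_div (by positivity)]

theorem n2_add_le (f g : ι → W) : n2 (fun j => f j + g j) ≤ n2 f + n2 g := by
  rw [n2_eq_lp, n2_eq_lp, n2_eq_lp, ← add_div]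
  apply div_le_div_of_nonneg_right _ (Real.sqrt_nonneg _)
  exact norm_add_le (WithLp.toLp 2 f : PiLp 2 (fun _ : ι => W)) (WithLp.toLp 2 g)


theorem n2_mul_const (c : ℝ) (hc : 0 ≤ c) (f : ι → ℝ) : n2 (fun j => c * f j) = c * n2 f := by
  have h1 : n2 (fun j => c * f j) ^ 2 = (c * n2 f) ^ 2 := by
    rw [mul_pow, n2_sq, n2_sq, ← mul_div_assoc, Finset.mul_sum]
    congr 1
    apply Finset.sum_congr rfl
    intro j _
    rw [norm_mul, mul_pow, Real.norm_eq_abs c, sq_abs]
  exact (pow_left_inj₀ (n2_nonneg _) (mul_nonneg hc (n2_nonneg _)) two_ne_zero).1 h1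


theorem n2_const [Nonempty ι] (w : W) : n2 (fun _ : ι => w) = ‖w‖ := by
  have h : (Fintype.card ι : ℝ) ≠ 0 := by
    exact_mod_cast Fintype.card_ne_zero
  unfold n2
  rw [Finset.sum_const, Finset.card_univ, nsmul_eq_mul, mul_div_cancel_left₀ _ h]
  exact Real.sqrt_sq (norm_nonneg _)

/-- pointwise linear bound gives an `n2` bound -/
theorem n2_le_of_le {W' : Type*} [NormedAddCommGroup W'] {f : ι → W} {e : ι → W'} {g : ι → ℝ}
    {K : ℝ} (hK : 0 ≤ K) (hg : ∀ j, 0 ≤ g j) (h : ∀ j, ‖f j‖ ≤ K * ‖e j‖ + g j) :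
    n2 f ≤ K * n2 e + n2 g := by
  have h1 : n2 f ≤ n2 (fun j => K * ‖e j‖ + g j) := by
    apply n2_mono
    intro j
    rw [Real.norm_of_nonneg (add_nonneg (mul_nonneg hK (norm_nonneg _)) (hg j))]
    exact h j
  have h2 := n2_add_le (fun j => K * ‖e j‖) g
  rw [n2_mul_const K hK, n2_norm] at h2
  exact h1.trans h2











end Crest.Agent.R264.Bsh
end

-- ▼ part R264/BshE2
section

/-! Row 264, Part B: the Bishop equation on a finite set of nodes (module BIS-E), fixed point. -/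

set_option autoImplicit false

namespace Crest.Agent.R264.Bsh

open Finset Topology Filter

variable {ι : Type*} [Fintype ι] {W : Type*} [NormedAddCommGroup W]

/-- `T` does not increase the `n2` norm of differences (true for linear `T` with `n2 (T f) ≤ n2 f`). -/
def Contr (T : (ι → W) → (ι → W)) : Prop :=
  ∀ f g : ι → W, n2 (fun j => T f j - T g j) ≤ n2 (fun j => f j - g j)


/-- `V` solves the equation `V j = Φ j ((T V) j)` -/
def IsSol (T : (ι → W) → (ι → W)) (Φ : ι → W → W) (V : ι → W) : Prop :=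
  ∀ j, V j = Φ j (T V j)

/-- stability of solutions -/
theorem IsSol.stab {T : (ι → W) → (ι → W)} (hT : Contr T) {Φ Φ' : ι → W → W} {K : ℝ}
    (hK : 0 ≤ K) (hK1 : K < 1) (hΦ : ∀ j x y, ‖Φ j x - Φ j y‖ ≤ K * ‖x - y‖)
    {V V' : ι → W} (hV : IsSol T Φ V) (hV' : IsSol T Φ' V') :
    n2 (fun j => V j - V' j) ≤
      (1 - K)⁻¹ * n2 (fun j => Φ j (T V' j) - Φ' j (T V' j)) := by
  have h1 : ∀ j, ‖V j - V' j‖ ≤ K * ‖T V j - T V' j‖ + ‖Φ j (T V' j) - Φ' j (T V' j)‖ := by
    intro j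
    rw [hV j, hV' j]
    calc ‖Φ j (T V j) - Φ' j (T V' j)‖
        = ‖(Φ j (T V j) - Φ j (T V' j)) + (Φ j (T V' j) - Φ' j (T V' j))‖ := by
          congr 1; abel
      _ ≤ ‖Φ j (T V j) - Φ j (T V' j)‖ + ‖Φ j (T V' j) - Φ' j (T V' j)‖ := norm_add_le _ _
      _ ≤ _ := by gcongr; exact hΦ j _ _
  have h2 := n2_le_of_le (e := fun j => T V j - T V' j) hK (fun j => norm_nonneg _) h1
  rw [n2_norm] at h2
  have h3 := hT V V'
  have h4 : (1 - K) * n2 (fun j => V j - V' j) ≤
      n2 (fun j => Φ j (T V' j) - Φ' j (T V' j)) := by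
    nlinarith [mul_le_mul_of_nonneg_left h3 hK]
  rw [inv_mul_eq_div, le_div_iff₀ (by linarith)]
  linarith



/-- existence of the solution -/
theorem exists_sol [Nonempty ι] [CompleteSpace W] {T : (ι → W) → (ι → W)} (hT : Contr T)
    {Φ : ι → W → W} {K : ℝ}
    (hK : 0 ≤ K) (hK1 : K < 1) (hΦ : ∀ j x y, ‖Φ j x - Φ j y‖ ≤ K * ‖x - y‖) :
    ∃ V, IsSol T Φ V := by
  have hN : (0 : ℝ) < Real.sqrt (Fintype.card ι : ℝ) := by
    apply Real.sqrt_pos.2
    exact_mod_cast Fintype.card_pos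
  let X := PiLp 2 (fun _ : ι => W)
  let F : X → X := fun x => WithLp.toLp 2 (fun j => Φ j (T (WithLp.ofLp x) j))
  let K' : NNReal := ⟨K, hK⟩
  have hF : ContractingWith K' F := by
    refine ⟨?_, ?_⟩
    · exact_mod_cast hK1
    · apply LipschitzWith.of_dist_le_mul
      intro x y
      rw [dist_eq_norm, dist_eq_norm]
      have h1 : n2 (fun j => Φ j (T (WithLp.ofLp x) j) - Φ j (T (WithLp.ofLp y) j)) ≤
          K * n2 (fun j => (WithLp.ofLp x) j - (WithLp.ofLp y) j) := by
        have h2 := n2_le_of_le (f := fun j => Φ j (T (WithLp.ofLp x) j) - Φ j (T (WithLp.ofLp y) j))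
          (e := fun j => T (WithLp.ofLp x) j - T (WithLp.ofLp y) j) (g := fun _ => 0) hK
          (fun _ => le_rfl) (fun j => by simpa using hΦ j _ _)
        rw [n2_zero, add_zero] at h2
        exact h2.trans (mul_le_mul_of_nonneg_left (hT _ _) hK)
      rw [n2_eq_lp, n2_eq_lp, ← mul_div_assoc, div_le_div_iff_of_pos_right hN] at h1
      exact h1
  refine ⟨WithLp.ofLp (hF.fixedPoint F), ?_⟩
  intro j
  have h := hF.fixedPoint_isFixedPt
  have h2 : WithLp.ofLp (F (hF.fixedPoint F)) = WithLp.ofLp (hF.fixedPoint F) := by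
    rw [h.eq]
  exact (congrFun h2 j).symm

/-- the solution (of a contraction) -/
noncomputable def sol [Nonempty ι] [CompleteSpace W] (T : (ι → W) → (ι → W)) (Φ : ι → W → W) :
    ι → W :=
  open Classical in
  if h : ∃ V, IsSol T Φ V then h.choose else 0





/-- shift difference: `σ` a permutation of the nodes commuting with `T` -/
theorem IsSol.shift {T : (ι → W) → (ι → W)} (hT : Contr T) {Φ : ι → W → W} {K : ℝ}
    (hK : 0 ≤ K) (hK1 : K < 1) (hΦ : ∀ j x y, ‖Φ j x - Φ j y‖ ≤ K * ‖x - y‖) (σ : ι → ι)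
    (hσ : ∀ f j, T (fun i => f (σ i)) j = T f (σ j))
    {V : ι → W} (hV : IsSol T Φ V) {g : ι → ℝ} (hg : ∀ j, 0 ≤ g j)
    (hg' : ∀ j, ‖Φ (σ j) (T V j) - Φ j (T V j)‖ ≤ g j) :
    n2 (fun j => V (σ j) - V j) ≤ (1 - K)⁻¹ * n2 g := by
  have hS : IsSol T (fun j => Φ (σ j)) (fun j => V (σ j)) := by
    intro j
    rw [hσ V j]
    exact hV (σ j)
  have h := hS.stab hT hK hK1 (fun j => hΦ (σ j)) hV
  refine h.trans ?_
  apply mul_le_mul_of_nonneg_left _ (inv_nonneg.2 (by linarith))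
  apply n2_mono
  intro j
  rw [Real.norm_of_nonneg (hg j)]
  exact hg' j

/-- absorbing: `|e_j| ≤ K |(T e')_j| + g_j`, `n2 (T e') ≤ n2 e` gives `n2 e ≤ (1-K)⁻¹ n2 g` -/
theorem n2_absorb {e e' : ι → W} {g : ι → ℝ} {K : ℝ} (hK : 0 ≤ K) (hK1 : K < 1)
    (hg : ∀ j, 0 ≤ g j) (h : ∀ j, ‖e j‖ ≤ K * ‖e' j‖ + g j) (he : n2 e' ≤ n2 e) :
    n2 e ≤ (1 - K)⁻¹ * n2 g := by
  have h2 := n2_le_of_le hK hg h
  rw [inv_mul_eq_div, le_div_iff₀ (by linarith)]
  nlinarith [mul_le_mul_of_nonneg_left he hK]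

end Crest.Agent.R264.Bsh
namespace Crest.Agent.R264.Bsh.Contr
end Crest.Agent.R264.Bsh.Contr
end

-- ▼ part R264/BisE
section

/-! Row 264, Part B, module BIS-E (helper127): the Bishop equation on the finite cycle. -/

set_option autoImplicit false

namespace Crest.Agent.R264.Bsh

open Finset Topology Filter

variable {M k : ℕ}

theorem card_zm (M : ℕ) : (Fintype.card (ZMod (2 * M + 1)) : ℝ) = 2 * M + 1 := by
  rw [ZMod.card]
  push_cast
  ring

/-- pass to `EuclideanSpace` -/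
noncomputable def toE (v : Fin k → ℝ) : EuclideanSpace ℝ (Fin k) := WithLp.toLp 2 v

noncomputable def ofE (v : EuclideanSpace ℝ (Fin k)) : Fin k → ℝ := WithLp.ofLp v

@[simp] theorem ofE_toE (v : Fin k → ℝ) : ofE (toE v) = v := rfl
@[simp] theorem toE_ofE (v : EuclideanSpace ℝ (Fin k)) : toE (ofE v) = v := rfl

theorem toE_sub (v w : Fin k → ℝ) : toE (v - w) = toE v - toE w := rfl

theorem eu_eq (v : Fin k → ℝ) : eu v = ‖toE v‖ := by
  rw [eu, toE, EuclideanSpace.norm_eq]
  simp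

theorem eu_nonneg (v : Fin k → ℝ) : 0 ≤ eu v := Real.sqrt_nonneg _


theorem l2_eq (V : ZMod (2 * M + 1) → Fin k → ℝ) : l2 V = n2 (fun j => toE (V j)) := by
  rw [l2, n2, card_zm]
  congr 2
  apply Finset.sum_congr rfl
  intro j _
  rw [← eu_eq, eu, Real.sq_sqrt (Finset.sum_nonneg fun i _ => sq_nonneg _)]

theorem l2s_eq (f : ZMod (2 * M + 1) → ℝ) : l2s f = n2 f := by
  rw [l2s, n2, card_zm]
  simp

theorem cj_sub (hT : BisT) (f g : ZMod (2 * M + 1) → ℝ) (j : ZMod (2 * M + 1)) :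
    cj (fun j' => f j' - g j') j = cj f j - cj g j := by
  have h1 : (fun j' => f j' - g j') = f + (-1 : ℝ) • g := by
    ext j'
    simp [sub_eq_add_neg]
  rw [h1]
  unfold cj
  rw [hT.pd_add, hT.pd_smul]
  simp [sub_eq_add_neg]

theorem cjv_sub' (hT : BisT) (V W : ZMod (2 * M + 1) → Fin k → ℝ) :
    cjv (V - W) = cjv V - cjv W := by
  ext j i
  exact cj_sub hT (fun j' => V j' i) (fun j' => W j' i) j

theorem cjv_le' (hT : BisT) (V : ZMod (2 * M + 1) → Fin k → ℝ) : l2 (cjv V) ≤ l2 V := by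
  unfold l2
  apply Real.sqrt_le_sqrt
  apply div_le_div_of_nonneg_right _ (by positivity)
  have h1 : ∀ F : ZMod (2 * M + 1) → Fin k → ℝ,
      ∑ j, ∑ i, F j i ^ 2 = ∑ i, ∑ j, F j i ^ 2 := fun F => Finset.sum_comm
  rw [h1, h1]
  apply Finset.sum_le_sum
  intro i _
  exact hT.cj_l2 (fun j => V j i)

/-- the conjugation on `EuclideanSpace`-valued functions -/
noncomputable def TE (f : ZMod (2 * M + 1) → EuclideanSpace ℝ (Fin k)) :
    ZMod (2 * M + 1) → EuclideanSpace ℝ (Fin k) :=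
  fun j => toE (cjv (fun j' => ofE (f j')) j)

theorem TE_contr (hT : BisT) : Contr (TE (M := M) (k := k)) := by
  intro f g
  have h := cjv_le' hT ((fun j' => ofE (f j')) - (fun j' => ofE (g j')))
  rw [l2_eq, l2_eq] at h
  refine le_trans (le_of_eq ?_) (h.trans (le_of_eq ?_))
  · congr 1
    ext1 j
    rw [cjv_sub' hT]
    rfl
  · rfl

theorem sol_iff {Φ : ZMod (2 * M + 1) → (Fin k → ℝ) → (Fin k → ℝ)} {u0 : Fin k → ℝ}
    {V : ZMod (2 * M + 1) → Fin k → ℝ} (hV : ∀ j, V j = Φ j (u0 - cjv V j)) :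
    IsSol TE (fun j x => toE (Φ j (u0 - ofE x))) (fun j => toE (V j)) := by
  intro j
  have h := hV j
  change toE (V j) = toE (Φ j (u0 - cjv V j))
  rw [← h]

theorem lipE {Φ : ZMod (2 * M + 1) → (Fin k → ℝ) → (Fin k → ℝ)} {u0 : Fin k → ℝ} {q : ℝ}
    (hΦ : ∀ j u u', eu (Φ j u - Φ j u') ≤ q * eu (u - u')) (j : ZMod (2 * M + 1))
    (x y : EuclideanSpace ℝ (Fin k)) :
    ‖toE (Φ j (u0 - ofE x)) - toE (Φ j (u0 - ofE y))‖ ≤ q * ‖x - y‖ := by
  rw [← toE_sub, ← eu_eq]
  refine (hΦ j _ _).trans (le_of_eq ?_)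
  rw [eu_eq, ← norm_sub_rev y x]
  congr 2
  rw [sub_sub_sub_cancel_left]
  rfl

theorem bisE (hT : BisT) : BisE where
  exists_sol := by
    intro M k Φ q u0 hq hq1 hΦ
    obtain ⟨V, hV⟩ := exists_sol (T := TE) (TE_contr hT)
      (Φ := fun j x => toE (Φ j (u0 - ofE x))) hq hq1 (lipE hΦ)
    refine ⟨fun j => ofE (V j), fun j => ?_⟩
    have h := hV j
    change V j = toE (Φ j (u0 - cjv (fun j' => ofE (V j')) j)) at h
    change ofE (V j) = _
    conv_lhs => rw [h]
    rfl
  diff := by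
    intro M k Φ Φ' q u0 u0' V V' δ hq hq1 hΦ hV hV' hδ
    have hδ0 : ∀ j, 0 ≤ δ j := fun j => (eu_nonneg _).trans (hδ j)
    have hg0 : ∀ j, 0 ≤ q * eu (u0 - u0') + δ j := fun j =>
      add_nonneg (mul_nonneg hq (eu_nonneg _)) (hδ0 j)
    have h1 : ∀ j, ‖toE ((V - V') j)‖ ≤ q * ‖toE (cjv (V - V') j)‖ +
        (q * eu (u0 - u0') + δ j) := by
      intro j
      have e1 : toE ((V - V') j) =
          (toE (Φ j (u0 - cjv V j)) - toE (Φ j (u0' - cjv V' j))) +
          (toE (Φ j (u0' - cjv V' j)) - toE (Φ' j (u0' - cjv V' j))) := by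
        rw [Pi.sub_apply, toE_sub, ← hV j, ← hV' j]
        abel
      rw [e1]
      refine (norm_add_le _ _).trans ?_
      have e2 : ‖toE (Φ j (u0 - cjv V j)) - toE (Φ j (u0' - cjv V' j))‖ ≤
          q * (eu (u0 - u0') + ‖toE (cjv (V - V') j)‖) := by
        rw [← toE_sub, ← eu_eq]
        refine (hΦ j _ _).trans ?_
        apply mul_le_mul_of_nonneg_left _ hq
        rw [eu_eq, eu_eq, cjv_sub' hT]
        have e3 : toE (u0 - cjv V j - (u0' - cjv V' j)) =
            toE (u0 - u0') - toE ((cjv V - cjv V') j) := by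
          rw [← toE_sub]
          congr 1
          simp only [Pi.sub_apply]
          abel
        rw [e3]
        exact norm_sub_le _ _
      have e4 : ‖toE (Φ j (u0' - cjv V' j)) - toE (Φ' j (u0' - cjv V' j))‖ ≤ δ j := by
        rw [← toE_sub, ← eu_eq]
        exact hδ j
      nlinarith [e2, e4]
    have h2 := n2_absorb hq hq1 hg0 h1 (by
      rw [← l2_eq, ← l2_eq]
      exact cjv_le' hT _)
    rw [← l2_eq] at h2
    have h3 : n2 (fun j : ZMod (2 * M + 1) => q * eu (u0 - u0') + δ j) ≤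
        q * eu (u0 - u0') + l2s δ := by
      refine (n2_add_le (fun _ => q * eu (u0 - u0')) δ).trans ?_
      rw [n2_const, Real.norm_of_nonneg (mul_nonneg hq (eu_nonneg _)), l2s_eq]
    rw [div_eq_inv_mul]
    exact h2.trans (mul_le_mul_of_nonneg_left h3 (inv_nonneg.2 (by linarith)))
  cjv_le := fun V => cjv_le' hT V
  cjv_sub := fun V W => cjv_sub' hT V W
  shift := by
    intro M k Φ q u0 V δ hq hq1 hΦ hV hδ
    have hδ0 : ∀ j, 0 ≤ δ j := fun j => (eu_nonneg _).trans (hδ j)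
    have h := (sol_iff hV).shift (TE_contr hT) hq hq1 (lipE hΦ) (fun j => j + 1)
      (by
        intro f j
        unfold TE
        congr 1
        ext i
        exact hT.cj_shift (fun j' => ofE (f j') i) 1 j) hδ0
      (by
        intro j
        rw [← toE_sub, ← eu_eq]
        exact hδ j)
    rw [l2_eq, l2s_eq, div_eq_inv_mul]
    exact h

end Crest.Agent.R264.Bsh
end

-- ▼ part R264/BisP
section

/-!
Row 264 (S0402), PART B: module BIS-P (profiles on the finite cycle), helper213.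
-/

set_option autoImplicit false

open Topology Filter Set

namespace Crest.Agent.R264.BisPf

open Crest.Agent.R264.Bsh Crest.Agent.R264.BshN


theorem tri_nonneg {M : ℕ} (l : ℕ) (j : ZMod (2 * M + 1)) : 0 ≤ tri M l j := le_max_left _ _

theorem tri_le_one {M : ℕ} (l : ℕ) (j : ZMod (2 * M + 1)) : tri M l j ≤ 1 := by
  unfold tri
  refine max_le zero_le_one ?_
  have : (0:ℝ) ≤ (jabs j : ℝ) / l := by positivity
  linarith

theorem tri_eq_zero {M : ℕ} {l : ℕ} (hl : 1 ≤ l) {j : ZMod (2 * M + 1)} (h : l ≤ jabs j) :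
    tri M l j = 0 := by
  unfold tri
  refine max_eq_left ?_
  have hl' : (0:ℝ) < l := by exact_mod_cast hl
  have : (1:ℝ) ≤ (jabs j : ℝ) / l := by
    rw [le_div_iff₀ hl']
    have : (l:ℝ) ≤ (jabs j : ℝ) := by exact_mod_cast h
    linarith
  linarith

theorem jabs_lt_of_tri_pos {M : ℕ} {l : ℕ} (hl : 1 ≤ l) {j : ZMod (2 * M + 1)} (h : 0 < tri M l j) :
    jabs j < l := by
  by_contra hc
  push Not at hc
  rw [tri_eq_zero hl hc] at h
  exact lt_irrefl _ h

/-- `chi > 0 ⟹ beta ≥ 3/4` -/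
theorem tri_four {M : ℕ} {l : ℕ} (hl : 1 ≤ l) {j : ZMod (2 * M + 1)} (h : 0 < tri M l j) :
    3 / 4 ≤ tri M (4 * l) j := by
  have hlt := jabs_lt_of_tri_pos hl h
  have hl' : (0:ℝ) < l := by exact_mod_cast hl
  have h1 : (jabs j : ℝ) ≤ l := by exact_mod_cast hlt.le
  unfold tri
  refine le_max_of_le_right ?_
  have : (jabs j : ℝ) / ((4 * l : ℕ) : ℝ) ≤ 1 / 4 := by
    rw [div_le_iff₀ (by push_cast; positivity)]
    push_cast
    linarith
  linarith

theorem jabs_succ_le {M : ℕ} (j : ZMod (2 * M + 1)) : jabs (j + 1) ≤ jabs j + 1 := by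
  unfold jabs
  refine (ZMod.natAbs_valMinAbs_add_le j 1).trans ?_
  refine (Int.natAbs_add_le _ _).trans ?_
  have h1 : ((1 : ZMod (2 * M + 1)).valMinAbs).natAbs ≤ 1 := by
    rcases Nat.eq_zero_or_pos M with hM | hM
    · subst hM
      have h1 : (1 : ZMod (2 * 0 + 1)) = 0 := by decide
      rw [h1, ZMod.valMinAbs_zero]
      simp
    · have h := ZMod.valMinAbs_natCast_of_le_half (n := 2 * M + 1) (a := 1) (by omega)
      rw [Nat.cast_one] at h
      rw [h]
      simp
  omega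

theorem jabs_neg {M : ℕ} (j : ZMod (2 * M + 1)) : jabs (-j) = jabs j := by
  unfold jabs
  exact ZMod.natAbs_valMinAbs_neg j

theorem jabs_le_succ {M : ℕ} (j : ZMod (2 * M + 1)) : jabs j ≤ jabs (j + 1) + 1 := by
  have h := jabs_succ_le (-(j + 1))
  rw [jabs_neg] at h
  have : -(j + 1) + 1 = -j := by ring
  rw [this, jabs_neg] at h
  exact h

/-- the tents vary by at most `1/l` per step -/
theorem tri_diff {M : ℕ} {l : ℕ} (hl : 1 ≤ l) (j : ZMod (2 * M + 1)) :
    |tri M l (j + 1) - tri M l j| ≤ 1 / l := by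
  have hl' : (0:ℝ) < l := by exact_mod_cast hl
  unfold tri
  have h1 : (jabs (j + 1) : ℝ) ≤ jabs j + 1 := by exact_mod_cast jabs_succ_le j
  have h2 : (jabs j : ℝ) ≤ jabs (j + 1) + 1 := by exact_mod_cast jabs_le_succ j
  rw [max_comm (0:ℝ), max_comm (0:ℝ)]
  refine le_trans (abs_max_sub_max_le_abs _ _ _) ?_
  have : (1 - (jabs (j + 1) : ℝ) / l) - (1 - (jabs j : ℝ) / l) = ((jabs j : ℝ) - jabs (j + 1)) / l := by
    ring
  rw [this, abs_div, abs_of_pos hl']
  refine div_le_div_of_nonneg_right ?_ hl'.le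
  rw [abs_le]
  constructor <;> linarith

/-- sums over the cycle as sums over `Icc (-M) M` -/
theorem sum_cycle {M : ℕ} (f : ℤ → ℝ) :
    ∑ j : ZMod (2 * M + 1), f j.valMinAbs = ∑ i ∈ Finset.Icc (-(M:ℤ)) M, f i := by
  classical
  refine Finset.sum_bij' (fun j _ => j.valMinAbs) (fun i _ => (i : ZMod (2 * M + 1)))
    ?_ ?_ ?_ ?_ ?_
  · intro j _
    have h := ZMod.valMinAbs_mem_Ioc j
    rw [Finset.mem_Icc]
    obtain ⟨h1, h2⟩ := h
    push_cast at h1 h2
    constructor <;> omega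
  · intro i _
    exact Finset.mem_univ _
  · intro j _
    exact ZMod.coe_valMinAbs j
  · intro i hi
    rw [Finset.mem_Icc] at hi
    rw [ZMod.valMinAbs_spec]
    refine ⟨rfl, ?_, ?_⟩ <;> push_cast <;> omega
  · intro j _
    rfl

theorem sum_Icc_symm (M : ℕ) (g : ℕ → ℝ) :
    ∑ i ∈ Finset.Icc (-(M:ℤ)) M, g i.natAbs = g 0 + 2 * ∑ i ∈ Finset.range M, g (i + 1) := by
  induction M with
  | zero => simp
  | succ n ih =>
    have h1 : Finset.Icc (-((n + 1 : ℕ) : ℤ)) ((n + 1 : ℕ) : ℤ) =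
        insert (-((n + 1 : ℕ) : ℤ)) (insert ((n + 1 : ℕ) : ℤ) (Finset.Icc (-(n:ℤ)) n)) := by
      ext x
      simp only [Finset.mem_Icc, Finset.mem_insert]
      push_cast
      omega
    rw [h1, Finset.sum_insert, Finset.sum_insert, ih, Finset.sum_range_succ]
    · have e1 : (-((n + 1 : ℕ) : ℤ)).natAbs = n + 1 := by omega
      have e2 : (((n + 1 : ℕ) : ℤ)).natAbs = n + 1 := by omega
      rw [e1, e2]
      ring
    · simp only [Finset.mem_Icc]
      push_cast
      omega
    · simp only [Finset.mem_Icc, Finset.mem_insert]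
      push_cast
      omega

theorem sum_jabs {M : ℕ} (g : ℕ → ℝ) :
    ∑ j : ZMod (2 * M + 1), g (jabs j) = g 0 + 2 * ∑ i ∈ Finset.range M, g (i + 1) := by
  have := sum_cycle (M := M) (fun i => g i.natAbs)
  rw [sum_Icc_symm] at this
  exact this

theorem sum_tent (l : ℕ) (hl : 1 ≤ l) (M : ℕ) (hM : l ≤ M) :
    ∑ i ∈ Finset.range M, max 0 (1 - ((i + 1 : ℕ) : ℝ) / l) = ((l:ℝ) - 1) / 2 := by
  have hl' : (0:ℝ) < l := by exact_mod_cast hl
  have key : ∀ n : ℕ, n ≤ l → ∑ i ∈ Finset.range n, max 0 (1 - ((i + 1 : ℕ) : ℝ) / l) =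
      n - (n:ℝ) * (n + 1) / (2 * l) := by
    intro n
    induction n with
    | zero => simp
    | succ n ih =>
      intro hn
      rw [Finset.sum_range_succ, ih (by omega), max_eq_right]
      · push_cast
        field_simp
        ring
      · rw [sub_nonneg, div_le_one hl']
        exact_mod_cast hn
  rw [← Finset.sum_range_add_sum_Ico _ hM, key l le_rfl]
  have hz : ∑ i ∈ Finset.Ico l M, max 0 (1 - ((i + 1 : ℕ) : ℝ) / l) = 0 := by
    refine Finset.sum_eq_zero ?_
    intro i hi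
    rw [Finset.mem_Ico] at hi
    refine max_eq_left ?_
    rw [sub_nonpos, one_le_div hl']
    exact_mod_cast (by omega : l ≤ i + 1)
  rw [hz]
  field_simp
  ring

/-- `∑ tri M l = l` exactly -/
theorem tri_sum {M l : ℕ} (hl : 1 ≤ l) (hM : l ≤ M) :
    ∑ j : ZMod (2 * M + 1), tri M l j = l := by
  have h := sum_jabs (M := M) (fun i => max 0 (1 - (i : ℝ) / l))
  have h2 := sum_tent l hl M hM
  have h3 : ∑ j : ZMod (2 * M + 1), tri M l j =
      ∑ j : ZMod (2 * M + 1), (fun i : ℕ => max 0 (1 - (i : ℝ) / l)) (jabs j) := rfl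
  rw [h3, h]
  simp only [Nat.cast_zero, zero_div, sub_zero]
  rw [h2, max_eq_right zero_le_one]
  ring

theorem tri_sq_sum {M l : ℕ} (hl : 1 ≤ l) (hM : l ≤ M) :
    ∑ j : ZMod (2 * M + 1), tri M l j ^ 2 ≤ l := by
  rw [← tri_sum hl hM]
  refine Finset.sum_le_sum fun j _ => ?_
  have h0 := tri_nonneg l j
  have h1 := tri_le_one l j
  nlinarith

/-- the number of nodes with `|j| < l` -/
theorem card_jabs_lt {M l : ℕ} :
    ((Finset.univ.filter fun j : ZMod (2 * M + 1) => jabs j < l).card : ℝ) ≤ 2 * l := by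
  classical
  have h := sum_jabs (M := M) (fun i => if i < l then (1:ℝ) else 0)
  have h1 : ((Finset.univ.filter fun j : ZMod (2 * M + 1) => jabs j < l).card : ℝ) =
      ∑ j : ZMod (2 * M + 1), (if jabs j < l then (1:ℝ) else 0) := by
    rw [Finset.card_filter]
    push_cast
    rfl
  rw [h1]
  have h2 : ∑ j : ZMod (2 * M + 1), (if jabs j < l then (1:ℝ) else 0) =
      ∑ j : ZMod (2 * M + 1), (fun i : ℕ => if i < l then (1:ℝ) else 0) (jabs j) := rfl
  rw [h2, h]
  have key : ∀ n : ℕ, ∑ i ∈ Finset.range n, (if i + 1 < l then (1:ℝ) else 0) ≤ (l:ℝ) - 1 ∨ l = 0 := by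
    intro n
    rcases Nat.eq_zero_or_pos l with h0 | h0
    · right; exact h0
    · left
      have hs : ∑ i ∈ Finset.range n, (if i + 1 < l then (1:ℝ) else 0) ≤
          ∑ i ∈ Finset.range (l - 1), (1:ℝ) := by
        rw [← Finset.sum_filter]
        refine Finset.sum_le_sum_of_subset_of_nonneg ?_ (fun _ _ _ => zero_le_one)
        intro i hi
        rw [Finset.mem_filter] at hi
        rw [Finset.mem_range]
        omega
      refine hs.trans ?_
      simp only [Finset.sum_const, Finset.card_range, nsmul_eq_mul, mul_one]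
      rw [Nat.cast_sub h0]
      simp
  rcases key M with hk | hk
  · have : (if 0 < l then (1:ℝ) else 0) ≤ 1 := by split_ifs <;> norm_num
    simp only at *
    linarith
  · subst hk
    simp

/-- sum of squares of the increments -/
theorem tri_diff_sq_sum {M l : ℕ} (hl : 1 ≤ l) :
    ∑ j : ZMod (2 * M + 1), (tri M l (j + 1) - tri M l j) ^ 2 ≤ 4 / l := by
  classical
  have hl' : (0:ℝ) < l := by exact_mod_cast hl
  set A := Finset.univ.filter fun j : ZMod (2 * M + 1) => jabs j < l with hA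
  set B := Finset.univ.filter fun j : ZMod (2 * M + 1) => jabs (j + 1) < l with hB
  have hcB : (B.card : ℝ) ≤ 2 * l := by
    have : B.card = A.card := by
      refine Finset.card_bij' (fun j _ => j + 1) (fun j _ => j - 1) ?_ ?_ ?_ ?_
      · intro j hj
        simp only [hB, hA, Finset.mem_filter, Finset.mem_univ, true_and] at hj ⊢
        exact hj
      · intro j hj
        simp only [hB, hA, Finset.mem_filter, Finset.mem_univ, true_and] at hj ⊢
        simpa using hj
      · intro j _; ring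
      · intro j _; ring
    rw [this]
    exact card_jabs_lt
  have hcA : (A.card : ℝ) ≤ 2 * l := card_jabs_lt
  have h1 : ∑ j : ZMod (2 * M + 1), (tri M l (j + 1) - tri M l j) ^ 2 =
      ∑ j ∈ A ∪ B, (tri M l (j + 1) - tri M l j) ^ 2 := by
    symm
    refine Finset.sum_subset (Finset.subset_univ _) ?_
    intro j _ hj
    simp only [hA, hB, Finset.mem_union, Finset.mem_filter, Finset.mem_univ, true_and,
      not_or, not_lt] at hj
    rw [tri_eq_zero hl hj.1, tri_eq_zero hl hj.2]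
    simp
  rw [h1]
  calc ∑ j ∈ A ∪ B, (tri M l (j + 1) - tri M l j) ^ 2
      ≤ ∑ j ∈ A ∪ B, (1 / (l:ℝ)) ^ 2 := by
        refine Finset.sum_le_sum fun j _ => ?_
        rw [← sq_abs]
        exact pow_le_pow_left₀ (abs_nonneg _) (tri_diff hl j) 2
    _ = ((A ∪ B).card : ℝ) * (1 / (l:ℝ)) ^ 2 := by
        rw [Finset.sum_const, nsmul_eq_mul]
    _ ≤ (4 * l) * (1 / (l:ℝ)) ^ 2 := by
        refine mul_le_mul_of_nonneg_right ?_ (by positivity)
        have : ((A ∪ B).card : ℝ) ≤ A.card + B.card := by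
          exact_mod_cast Finset.card_union_le A B
        linarith
    _ = 4 / l := by
        field_simp


theorem supp_sq {M l : ℕ} (hl : 1 ≤ l) :
    ∑ j : ZMod (2 * M + 1), (if 0 < tri M l j then (1:ℝ) else 0) ^ 2 ≤ 2 * l := by
  have h3 : ∑ j : ZMod (2 * M + 1), (if 0 < tri M l j then (1:ℝ) else 0) ^ 2 ≤
      ((Finset.univ.filter fun j : ZMod (2 * M + 1) => jabs j < l).card : ℝ) := by
    rw [Finset.card_filter]
    push_cast
    refine Finset.sum_le_sum fun j _ => ?_
    by_cases h : 0 < tri M l j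
    · have := jabs_lt_of_tri_pos hl h
      simp [h, this]
    · simp only [h, if_false]
      split_ifs <;> norm_num
  exact h3.trans card_jabs_lt

theorem supp_l2' {M l : ℕ} (hl : 1 ≤ l) :
    l2s (fun j : ZMod (2 * M + 1) => if 0 < tri M l j then (1 : ℝ) else 0) ≤
      Real.sqrt (2 * ((l : ℝ) / (2 * M + 1))) := by
  unfold l2s
  apply Real.sqrt_le_sqrt
  calc _ ≤ (2 * (l:ℝ)) / (2 * M + 1) :=
        div_le_div_of_nonneg_right (supp_sq hl) (Npos M).le
    _ = _ := by ring

theorem D_tri {M l : ℕ} (hl : 1 ≤ l) :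
    (2 * M + 1) * l2s (fun j : ZMod (2 * M + 1) => tri M l (j + 1) - tri M l j) ≤
      2 / Real.sqrt ((l:ℝ) / (2 * M + 1)) := by
  have hN := Npos M
  have hl' : (0:ℝ) < l := by exact_mod_cast hl
  have hτ : (0:ℝ) < (l:ℝ) / (2 * M + 1) := by positivity
  have h1 : l2s (fun j : ZMod (2 * M + 1) => tri M l (j + 1) - tri M l j) ≤
      Real.sqrt (4 / l / (2 * M + 1)) := by
    unfold l2s
    apply Real.sqrt_le_sqrt
    exact div_le_div_of_nonneg_right (tri_diff_sq_sum hl) hN.le
  rw [le_div_iff₀ (Real.sqrt_pos.2 hτ)]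
  calc (2 * (M:ℝ) + 1) * l2s (fun j : ZMod (2 * M + 1) => tri M l (j + 1) - tri M l j) *
        Real.sqrt ((l:ℝ) / (2 * M + 1))
      ≤ (2 * (M:ℝ) + 1) * Real.sqrt (4 / l / (2 * M + 1)) * Real.sqrt ((l:ℝ) / (2 * M + 1)) := by
        gcongr
    _ = (2 * (M:ℝ) + 1) * Real.sqrt ((4 / l / (2 * M + 1)) * ((l:ℝ) / (2 * M + 1))) := by
        rw [mul_assoc, ← Real.sqrt_mul (by positivity)]
    _ = (2 * (M:ℝ) + 1) * Real.sqrt ((2 / (2 * M + 1)) ^ 2) := by
        congr 2
        field_simp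
        ring
    _ = 2 := by
        rw [Real.sqrt_sq (by positivity)]
        field_simp

/-- MODULE BIS-P -/
theorem bisP : BisP where
  tri_nonneg := fun M l j => tri_nonneg l j
  tri_le_one := fun M l j => tri_le_one l j
  bet_ge := fun M l j hl h => tri_four hl h
  mean := fun M l hl hM => by rw [tri_sum hl hM]
  l2_le := fun M l hl hM => by
    unfold l2s
    apply Real.sqrt_le_sqrt
    exact div_le_div_of_nonneg_right (tri_sq_sum hl hM) (Npos M).le
  diff_le := fun M l hl _ => D_tri hl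
  supp := fun M l g hl _ hg => by
    have h1 := mean_mul_le (fun j : ZMod (2 * M + 1) => if 0 < tri M l j then (1:ℝ) else 0) g
    have h2 : (∑ j : ZMod (2 * M + 1), if 0 < tri M l j then g j else 0) =
        ∑ j : ZMod (2 * M + 1), (if 0 < tri M l j then (1:ℝ) else 0) * g j := by
      refine Finset.sum_congr rfl fun j _ => ?_
      split_ifs <;> simp
    rw [h2]
    exact h1.trans (mul_le_mul_of_nonneg_right (supp_l2' hl) (l2s_nonneg g))
  supp_l2 := fun M l hl _ => supp_l2' hl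

end Crest.Agent.R264.BisPf
end

-- ▼ part R264/BisN
section

/-!
Row 264 (S0402), PART B: node density and the surjectivity step (6) (helper213).
-/

set_option autoImplicit false

open Topology Filter Set

namespace Crest.Agent.R264.BisNf

open Crest.Agent.R264.Bsh Crest.Agent.R264.BshN

theorem nd_int (M : ℕ) (i : ℤ) :
    nd M ((i : ℤ) : ZMod (2 * M + 1)) =
      Complex.exp ((2 * Real.pi * i / (2 * M + 1) : ℝ) * Complex.I) := by
  unfold nd
  rw [ZMod.stdAddChar_coe]
  congr 1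
  push_cast
  ring


/-- every point of the unit circle is within `π/(2M+1)` of a node -/
theorem node_dense (M : ℕ) (ζ : ℂ) (hζ : ‖ζ‖ = 1) :
    ∃ j : ZMod (2 * M + 1), ‖ζ - nd M j‖ ≤ Real.pi / (2 * M + 1) := by
  have hN := Npos M
  set θ : ℝ := Complex.arg ζ with hθ
  have hζ' : ζ = Complex.exp ((θ : ℂ) * Complex.I) := by
    have := Complex.norm_mul_exp_arg_mul_I ζ
    rw [hζ] at this
    simpa using this.symm
  set i : ℤ := round (θ * (2 * M + 1) / (2 * Real.pi)) with hi
  refine ⟨((i : ℤ) : ZMod (2 * M + 1)), ?_⟩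
  rw [nd_int, hζ']
  have hpi := Real.pi_pos
  have h1 : |θ * (2 * M + 1) / (2 * Real.pi) - i| ≤ 1 / 2 := abs_sub_round _
  have h2 : |θ - 2 * Real.pi * i / (2 * M + 1)| ≤ Real.pi / (2 * M + 1) := by
    have e : θ - 2 * Real.pi * i / (2 * M + 1) =
        (2 * Real.pi / (2 * M + 1)) * (θ * (2 * M + 1) / (2 * Real.pi) - i) := by
      field_simp
    rw [e, abs_mul, abs_of_pos (by positivity)]
    calc 2 * Real.pi / (2 * M + 1) * |θ * (2 * M + 1) / (2 * Real.pi) - i|
        ≤ 2 * Real.pi / (2 * M + 1) * (1 / 2) := by gcongr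
      _ = Real.pi / (2 * M + 1) := by ring
  refine le_trans ?_ h2
  have e3 : Complex.exp ((θ : ℂ) * Complex.I) -
      Complex.exp (((2 * Real.pi * i / (2 * M + 1) : ℝ) : ℂ) * Complex.I) =
      Complex.exp (((2 * Real.pi * i / (2 * M + 1) : ℝ) : ℂ) * Complex.I) *
        (Complex.exp (Complex.I * ((θ - 2 * Real.pi * i / (2 * M + 1) : ℝ) : ℂ)) - 1) := by
    rw [mul_sub, mul_one, ← Complex.exp_add]
    congr 2
    push_cast
    ring
  rw [e3, norm_mul, Complex.norm_exp_ofReal_mul_I, one_mul]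
  exact Real.norm_exp_I_mul_ofReal_sub_one_le





/-- the surjectivity step in the sup norm -/
theorem surj_sup {k : ℕ} (g : (Fin k → ℝ) → (Fin k → ℝ)) (R : ℝ) (hR : 0 ≤ R)
    (hg : ∀ b b', ‖b‖ ≤ R → ‖b'‖ ≤ R → ‖g b - g b' - (b - b')‖ ≤ 1 / 2 * ‖b - b'‖)
    (y : Fin k → ℝ) (hy : ‖y - g 0‖ ≤ 1 / 2 * R) : ∃ b, ‖b‖ ≤ R ∧ g b = y := by
  let h : (Fin k → ℝ) → (Fin k → ℝ) := fun b => b - (g b - y)
  let s : Set (Fin k → ℝ) := Metric.closedBall 0 R
  have hs : IsComplete s := Metric.isClosed_closedBall.isComplete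
  have key : ∀ b ∈ s, ∀ b' ∈ s, ‖h b - h b'‖ ≤ 1 / 2 * ‖b - b'‖ := by
    intro b hb b' hb'
    have hb1 : ‖b‖ ≤ R := by simpa [s] using hb
    have hb2 : ‖b'‖ ≤ R := by simpa [s] using hb'
    have h1 := hg b b' hb1 hb2
    have e1 : h b - h b' = -(g b - g b' - (b - b')) := by
      simp only [h]; abel
    rw [e1, norm_neg]
    exact h1
  have h0 : (0 : Fin k → ℝ) ∈ s := by simp [s, hR]
  have hg0 : ‖h 0‖ ≤ 1 / 2 * R := by
    have e : h 0 = y - g 0 := by simp only [h]; abel
    rw [e]; exact hy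
  have hmaps : MapsTo h s s := by
    intro b hb
    have h1 := key b hb 0 h0
    rw [sub_zero] at h1
    have hb' : ‖b‖ ≤ R := by simpa [s] using hb
    have : ‖h b‖ ≤ ‖h b - h 0‖ + ‖h 0‖ := by
      calc ‖h b‖ = ‖(h b - h 0) + h 0‖ := by rw [sub_add_cancel]
        _ ≤ _ := norm_add_le _ _
    have : ‖h b‖ ≤ R := by linarith
    simpa [s] using this
  have hcontr : ContractingWith (1/2 : NNReal) (hmaps.restrict h s s) := by
    refine ⟨by norm_num, ?_⟩
    refine LipschitzWith.of_dist_le_mul ?_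
    rintro ⟨b, hb⟩ ⟨b', hb'⟩
    have := key b hb b' hb'
    rw [Subtype.dist_eq, Subtype.dist_eq, dist_eq_norm, dist_eq_norm]
    simpa using this
  obtain ⟨b, hb, hfix, -⟩ := hcontr.exists_fixedPoint' hs hmaps h0 (edist_ne_top _ _)
  refine ⟨b, by simpa [s] using hb, ?_⟩
  have h1 : b - (g b - y) = b := hfix
  have h2 : g b - y = 0 := by
    have := congrArg (fun x => b - x) h1
    simpa using this
  exact sub_eq_zero.1 h2

/-- MODULE BIS-N -/
theorem bisN : BisN where
  node := fun M ζ hζ => by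
    obtain ⟨j, hj⟩ := node_dense M ζ hζ
    refine ⟨j, hj.trans ?_⟩
    exact div_le_div_of_nonneg_right Real.pi_le_four (Npos M).le
  surj := fun g R hR hg y hy => surj_sup g R hR hg y hy

end Crest.Agent.R264.BisNf
end

-- ▼ part R264/BshThm
section

/-! Row 264, Part B (helper747, helper127, helper213, helper464): THEOREM B. -/

set_option autoImplicit false

namespace Crest.Agent.R264.BshM

/-- THEOREM B (unconditional). -/
theorem thmB_final : Bsh.ThmB :=
  thmB Bsh.bisT (Bsh.bisE Bsh.bisT) BisPf.bisP BisNf.bisN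
    (BisS.bisS Bsh.bisT (Bsh.bisE Bsh.bisT) BisPf.bisP)

end Crest.Agent.R264.BshM
end

-- ▼ part R264/CI0

/-!
Row 264 (S0402), Part C, module C3 (helper648): several complex variables toolbox for sequences.

* `comp_tlu`      : composition of a locally uniform limit with a map continuous at the limit values
* `tlu_fderiv`    : derivatives of locally uniformly convergent holomorphic maps converge
* `hurwitz_ball`, `hurwitz` : Hurwitz' theorem (zero free functions) in several variables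
* `eventually_approx`, `eventually_injOn`, `eventually_ball_subset_image` : inverse function theorem
  for sequences
-/

set_option autoImplicit false

open Topology Filter Set Metric
open scoped NNReal

namespace Crest.Agent.R264.CI

open Crest.Agent.R266.SCV

section Conv

variable {ι : Type*} {p : Filter ι}

/-- composition with a map continuous at the limit values -/
theorem comp_tlu {α β γ : Type*} [TopologicalSpace α] [PseudoMetricSpace β] [PseudoMetricSpace γ]
    {F : ι → α → β} {g : α → β} {h : β → γ} {s : Set α}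
    (hF : TendstoLocallyUniformlyOn F g p s) (hg : ContinuousOn g s)
    (hh : ∀ x ∈ s, ContinuousAt h (g x)) :
    TendstoLocallyUniformlyOn (fun n x => h (F n x)) (fun x => h (g x)) p s := by
  rw [Metric.tendstoLocallyUniformlyOn_iff] at hF ⊢
  intro ε hε x hx
  obtain ⟨δ, hδ, h1⟩ := Metric.continuousAt_iff.1 (hh x hx) (ε / 2) (by positivity)
  obtain ⟨t, ht, h2⟩ := hF (δ / 2) (by positivity) x hx
  have h3 : ∀ᶠ y in 𝓝[s] x, dist (g y) (g x) < δ / 2 :=
    Metric.tendsto_nhds.1 (hg x hx) (δ / 2) (by positivity)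
  refine ⟨t ∩ {y | dist (g y) (g x) < δ / 2}, inter_mem ht h3, ?_⟩
  filter_upwards [h2] with n hn y hy
  have a1 := hn y hy.1
  have a2 : dist (g y) (g x) < δ / 2 := hy.2
  have a3 : dist (F n y) (g x) < δ := by
    have := dist_triangle_left (F n y) (g x) (g y)
    linarith
  have a4 := h1 a3
  have a5 := h1 (show dist (g y) (g x) < δ by linarith)
  have a6 := dist_triangle_right (h (g y)) (h (F n y)) (h (g x))
  linarith

variable {E : Type*} [NormedAddCommGroup E] [NormedSpace ℂ E]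
variable {F : Type*} [NormedAddCommGroup F] [NormedSpace ℂ F]

/-- derivatives of locally uniformly convergent holomorphic maps converge locally uniformly -/
theorem tlu_fderiv [FiniteDimensional ℂ E] {f : ι → E → F} {g : E → F} {U : Set E}
    (hU : IsOpen U) (h : TendstoLocallyUniformlyOn f g p U)
    (hf : ∀ᶠ n in p, DifferentiableOn ℂ (f n) U) (hg : DifferentiableOn ℂ g U) :
    TendstoLocallyUniformlyOn (fun n => fderiv ℂ (f n)) (fderiv ℂ g) p U := by
  have : ProperSpace E := FiniteDimensional.proper ℂ E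
  rw [Metric.tendstoLocallyUniformlyOn_iff]
  intro ε hε x hx
  obtain ⟨R, hR, hRU⟩ := Metric.nhds_basis_closedBall.mem_iff.1 (hU.mem_nhds hx)
  have hK := (tendstoLocallyUniformlyOn_iff_forall_isCompact hU).1 h (closedBall x R) hRU
    (isCompact_closedBall x R)
  rw [Metric.tendstoUniformlyOn_iff] at hK
  refine ⟨ball x (R / 2), mem_nhdsWithin_of_mem_nhds (ball_mem_nhds x (by positivity)), ?_⟩
  filter_upwards [hK (ε * R / 4) (by positivity), hf] with n hn hfn y hy
  have hsub : ball y (R / 2) ⊆ closedBall x R := by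
    intro z hz
    rw [mem_ball] at hz hy
    rw [mem_closedBall]
    have := dist_triangle z y x
    linarith
  have hyU : y ∈ U := hRU (hsub (mem_ball_self (by positivity)))
  have h1 : DifferentiableOn ℂ (fun z => g z - f n z) (ball y (R / 2)) :=
    (hg.mono (hsub.trans hRU)).sub (hfn.mono (hsub.trans hRU))
  have h2 := norm_fderiv_le_of_ball (by positivity : 0 < R / 2) h1 (M := ε * R / 4) (by
    intro z hz
    have := hn z (hsub hz)
    rw [dist_eq_norm] at this
    exact this.le)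
  have h3 : fderiv ℂ (fun z => g z - f n z) y = fderiv ℂ g y - fderiv ℂ (f n) y :=
    fderiv_fun_sub (hg.differentiableAt (hU.mem_nhds hyU)) (hfn.differentiableAt (hU.mem_nhds hyU))
  rw [h3] at h2
  rw [dist_eq_norm]
  have h4 : ε * R / 4 / (R / 2) = ε / 2 := by field_simp; norm_num
  rw [h4] at h2
  linarith

end Conv

section Hurwitz

variable {ι : Type*} {p : Filter ι} [p.NeBot]

/-- Hurwitz in one variable -/
theorem hurwitz_disc {F : ι → ℂ → ℂ} {g : ℂ → ℂ} {b : ℂ} {r : ℝ} (hr : 0 < r)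
    (h : TendstoUniformlyOn F g p (closedBall b r))
    (hF : ∀ᶠ n in p, DifferentiableOn ℂ (F n) (closedBall b r))
    (nz : ∀ᶠ n in p, ∀ z ∈ closedBall b r, F n z ≠ 0)
    (hgc : ContinuousOn g (sphere b r)) (hg : ∀ z ∈ sphere b r, g z ≠ 0) : g b ≠ 0 := by
  obtain ⟨m, hm, hmz⟩ : ∃ m > 0, ∀ z ∈ sphere b r, m ≤ ‖g z‖ := by
    have hnes : (sphere b r).Nonempty := (NormedSpace.sphere_nonempty).2 hr.le
    obtain ⟨z0, hz0, hmin⟩ := (isCompact_sphere b r).exists_isMinOn hnes hgc.norm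
    exact ⟨‖g z0‖, norm_pos_iff.2 (hg z0 hz0), fun z hz => hmin hz⟩
  have hev := Metric.tendstoUniformlyOn_iff.1 h (m / 4) (by positivity)
  obtain ⟨n, hn, hFn, hnz⟩ := (hev.and (hF.and nz)).exists
  have hsph : ∀ z ∈ sphere b r, ‖(F n z)⁻¹‖ ≤ (m / 2)⁻¹ := by
    intro z hz
    rw [norm_inv]
    apply inv_anti₀ (by positivity)
    have h1 := hmz z hz
    have h2 := hn z (sphere_subset_closedBall hz)
    rw [dist_eq_norm] at h2
    have h3 := norm_sub_norm_le (g z) (F n z)
    linarith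
  have hdiffinv : DiffContOnCl ℂ (fun z => (F n z)⁻¹) (ball b r) := by
    apply DifferentiableOn.diffContOnCl
    rw [closure_ball b hr.ne']
    intro z hz
    exact (hFn z hz).inv (hnz z hz)
  have hmax := Complex.norm_le_of_forall_mem_frontier_norm_le isBounded_ball hdiffinv
    (C := (m / 2)⁻¹) (by
      intro z hz
      rw [frontier_ball b hr.ne'] at hz
      exact hsph z hz) (subset_closure (mem_ball_self hr))
  rw [norm_inv] at hmax
  have hpos : 0 < ‖F n b‖ := norm_pos_iff.2 (hnz b (mem_closedBall_self hr.le))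
  have h6 : m / 2 ≤ ‖F n b‖ := by
    rwa [inv_le_inv₀ hpos (by positivity)] at hmax
  have h9 := hn b (mem_closedBall_self hr.le)
  intro h0
  rw [h0, dist_eq_norm, zero_sub, norm_neg] at h9
  linarith

variable {E : Type*} [NormedAddCommGroup E] [NormedSpace ℂ E]

/-- Hurwitz on a ball in several variables -/
theorem hurwitz_ball {f : ι → E → ℂ} {g : E → ℂ} {x : E} {R : ℝ}
    (h : TendstoLocallyUniformlyOn f g p (ball x R))
    (hf : ∀ᶠ n in p, DifferentiableOn ℂ (f n) (ball x R))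
    (nz : ∀ᶠ n in p, ∀ y ∈ ball x R, f n y ≠ 0) (hg : DifferentiableOn ℂ g (ball x R))
    (hx : g x = 0) : ∀ y ∈ ball x R, g y = 0 := by
  intro y hy
  by_contra hgy
  set L : ℂ → E := fun z => x + z • (y - x) with hL
  have hLc : Continuous L := by rw [hL]; fun_prop
  have hLd : Differentiable ℂ L := by rw [hL]; fun_prop
  set W : Set ℂ := L ⁻¹' (ball x R) with hW
  have hWo : IsOpen W := isOpen_ball.preimage hLc
  have hWc : IsPreconnected W := by
    have : Convex ℝ W := by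
      intro z hz w hw a b ha hb hab
      have h1 : L (a • z + b • w) = a • L z + b • L w := by
        simp only [hL, smul_add, add_smul, smul_assoc]
        have : x = a • x + b • x := by rw [← add_smul, hab, one_smul]
        nth_rw 1 [this]
        abel
      show L (a • z + b • w) ∈ ball x R
      rw [h1]
      exact convex_ball x R hz hw ha hb hab
    exact this.isPreconnected
  have h0W : (0 : ℂ) ∈ W := by
    show L 0 ∈ ball x R
    have : (0 : ℝ) < R := lt_of_le_of_lt dist_nonneg hy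
    simp [hL, this]
  have h1W : (1 : ℂ) ∈ W := by
    show L 1 ∈ ball x R
    simpa [hL] using hy
  have hGd : DifferentiableOn ℂ (fun z => g (L z)) W :=
    hg.comp hLd.differentiableOn (fun z hz => hz)
  have hGa : AnalyticOnNhd ℂ (fun z => g (L z)) W := hGd.analyticOnNhd hWo
  have hG0 : g (L 0) = 0 := by simpa [hL] using hx
  have hG1 : g (L 1) ≠ 0 := by simpa [hL] using hgy
  rcases (hGa 0 h0W).eventually_eq_zero_or_eventually_ne_zero with hz | hnz
  · exact hG1 (hGa.eqOn_zero_of_preconnected_of_eventuallyEq_zero hWc h0W hz h1W)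
  obtain ⟨r, hr, hrW, hrz⟩ : ∃ r > 0, closedBall (0 : ℂ) r ⊆ W ∧
      ∀ z ∈ closedBall (0 : ℂ) r, z ≠ 0 → g (L z) ≠ 0 := by
    rw [eventually_nhdsWithin_iff] at hnz
    obtain ⟨r, hr, h1⟩ := Metric.nhds_basis_closedBall.mem_iff.1
      (inter_mem (hWo.mem_nhds h0W) hnz)
    exact ⟨r, hr, fun z hz => (h1 hz).1, fun z hz hz0 => (h1 hz).2 hz0⟩
  have hcomp : TendstoLocallyUniformlyOn (fun n => f n ∘ L) (g ∘ L) p W :=
    h.comp L (fun z hz => hz) hLc.continuousOn
  have hK := (tendstoLocallyUniformlyOn_iff_forall_isCompact hWo).1 hcomp (closedBall 0 r) hrW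
    (isCompact_closedBall 0 r)
  refine hurwitz_disc hr hK ?_ ?_ ?_ ?_ hG0
  · filter_upwards [hf] with n hn
    exact (hn.comp hLd.differentiableOn (fun z hz => hz)).mono hrW
  · filter_upwards [nz] with n hn z hz
    exact hn (L z) (hrW hz)
  · exact (hGd.continuousOn.mono hrW).mono sphere_subset_closedBall
  · intro z hz
    apply hrz z (sphere_subset_closedBall hz)
    intro h0
    rw [h0, mem_sphere, dist_self] at hz
    exact hr.ne hz

/-- Hurwitz in several variables: the limit of zero free holomorphic functions on a preconnected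
open set vanishes identically or nowhere. -/
theorem hurwitz {f : ι → E → ℂ} {g : E → ℂ} {U : Set E} (hU : IsOpen U) (hc : IsPreconnected U)
    (h : TendstoLocallyUniformlyOn f g p U)
    (hf : ∀ x ∈ U, ∃ V ∈ 𝓝 x, ∀ᶠ n in p, DifferentiableOn ℂ (f n) V ∧ ∀ y ∈ V, f n y ≠ 0)
    (hg : DifferentiableOn ℂ g U) : (∀ x ∈ U, g x = 0) ∨ (∀ x ∈ U, g x ≠ 0) := by
  have key : ∀ x ∈ U, g x = 0 → ∀ᶠ y in 𝓝 x, g y = 0 := by
    intro x hx hgx
    obtain ⟨V, hV, hVf⟩ := hf x hx
    obtain ⟨R, hR, hRU⟩ := Metric.mem_nhds_iff.1 (inter_mem (hU.mem_nhds hx) hV)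
    have h1 := hurwitz_ball (p := p) (f := f) (g := g) (x := x) (R := R)
      (h.mono (fun y hy => (hRU hy).1))
      (hVf.mono (fun n hn => hn.1.mono (fun y hy => (hRU hy).2)))
      (hVf.mono (fun n hn y hy => hn.2 y (hRU hy).2)) (hg.mono (fun y hy => (hRU hy).1)) hgx
    filter_upwards [ball_mem_nhds x hR] with y hy
    exact h1 y hy
  by_contra hcon
  push Not at hcon
  obtain ⟨⟨a, ha, hga⟩, b, hb, hgb⟩ := hcon
  have hu : IsOpen {x | x ∈ U ∧ ∀ᶠ y in 𝓝 x, g y = 0} :=
    hU.inter isOpen_setOfPred_eventually_nhds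
  have hv : IsOpen (U ∩ g ⁻¹' {0}ᶜ) :=
    hg.continuousOn.isOpen_inter_preimage hU isOpen_compl_singleton
  obtain ⟨z, hz⟩ := hc _ _ hu hv (by
    intro x hx
    by_cases hgx : g x = 0
    · exact Or.inl ⟨hx, key x hx hgx⟩
    · exact Or.inr ⟨hx, hgx⟩) ⟨b, hb, hb, key b hb hgb⟩ ⟨a, ha, ha, hga⟩
  exact hz.2.2.2 hz.2.1.2.self_of_nhds

end Hurwitz

section Inverse

variable {ι : Type*} {p : Filter ι}
variable {E : Type*} [NormedAddCommGroup E] [NormedSpace ℂ E] [FiniteDimensional ℂ E]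
variable {F : Type*} [NormedAddCommGroup F] [NormedSpace ℂ F] [CompleteSpace F]

/-- the maps `f n` are uniformly close to the derivative of the limit near `x` -/
theorem eventually_approx {f : ι → E → F} {g : E → F} {U : Set E} (hU : IsOpen U) {x : E}
    (hx : x ∈ U) (h : TendstoLocallyUniformlyOn f g p U)
    (hf : ∀ᶠ n in p, DifferentiableOn ℂ (f n) U) (hg : DifferentiableOn ℂ g U)
    {c : ℝ≥0} (hc : 0 < c) :
    ∃ r > 0, ball x r ⊆ U ∧
      ∀ᶠ n in p, ApproximatesLinearOn (f n) (fderiv ℂ g x) (ball x r) c := by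
  have h1 := tlu_fderiv hU h hf hg
  rw [Metric.tendstoLocallyUniformlyOn_iff] at h1
  have hc' : (0 : ℝ) < c := hc
  obtain ⟨t, ht, h2⟩ := h1 (c / 2) (by positivity) x hx
  rw [hU.nhdsWithin_eq hx] at ht
  have hga : AnalyticAt ℂ g x :=
    analyticOnNhd_of_differentiableOn hU hg x hx
  have h3 : ∀ᶠ y in 𝓝 x, dist (fderiv ℂ g y) (fderiv ℂ g x) < c / 2 :=
    Metric.tendsto_nhds.1 hga.fderiv.continuousAt (c / 2) (by positivity)
  obtain ⟨r, hr, hrt⟩ := Metric.mem_nhds_iff.1 (inter_mem (inter_mem ht h3) (hU.mem_nhds hx))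
  refine ⟨r, hr, fun y hy => (hrt hy).2, ?_⟩
  filter_upwards [h2, hf] with n hn hfn
  intro y hy z hz
  refine (convex_ball x r).norm_image_sub_le_of_norm_fderiv_le' (𝕜 := ℂ) ?_ ?_ hz hy
  · intro w hw
    exact hfn.differentiableAt (hU.mem_nhds (hrt hw).2)
  · intro w hw
    have a1 := hn w (hrt hw).1.1
    have a2 : dist (fderiv ℂ g w) (fderiv ℂ g x) < c / 2 := (hrt hw).1.2
    have a3 := dist_triangle_left (fderiv ℂ (f n) w) (fderiv ℂ g x) (fderiv ℂ g w)
    rw [← dist_eq_norm]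
    linarith


/-- the images of a neighbourhood of `x` contain a fixed ball -/
theorem eventually_ball_subset_image {f : ι → E → F} {g : E → F} {U : Set E} (hU : IsOpen U)
    {x : E} (hx : x ∈ U) (h : TendstoLocallyUniformlyOn f g p U)
    (hf : ∀ᶠ n in p, DifferentiableOn ℂ (f n) U) (hg : DifferentiableOn ℂ g U)
    (A : E ≃L[ℂ] F) (hA : (A : E →L[ℂ] F) = fderiv ℂ g x) {V : Set E} (hV : V ∈ 𝓝 x) :
    ∃ ρ > 0, ∀ᶠ n in p, ball (g x) ρ ⊆ f n '' V := by
  have hN' : (0 : ℝ) ≤ ‖(A.symm : F →L[ℂ] E)‖ := norm_nonneg _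
  set N : ℝ≥0 := ‖(A.symm : F →L[ℂ] E)‖₊ + 1 with hN
  have hN0 : 0 < N := by positivity
  obtain ⟨r, hr, hrU, hev⟩ := eventually_approx hU hx h hf hg (c := N⁻¹ / 2) (by positivity)
  obtain ⟨s, hs, hsV⟩ := Metric.mem_nhds_iff.1 hV
  set t : ℝ := min r s / 2 with ht
  have ht0 : 0 < t := by positivity
  have htr : closedBall x t ⊆ ball x r := by
    apply closedBall_subset_ball
    have : min r s ≤ r := min_le_left _ _
    have : 0 < min r s := by positivity
    linarith
  have hts : closedBall x t ⊆ V := by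
    refine (closedBall_subset_ball ?_).trans hsV
    have : min r s ≤ s := min_le_right _ _
    have : 0 < min r s := by positivity
    linarith
  have hlim : Tendsto (fun n => f n x) p (𝓝 (g x)) :=
    h.tendsto_at hx
  have hNr : (0 : ℝ) < (N : ℝ)⁻¹ := by positivity
  refine ⟨(N : ℝ)⁻¹ / 2 * t / 2, by positivity, ?_⟩
  filter_upwards [hev, Metric.tendsto_nhds.1 hlim ((N : ℝ)⁻¹ / 2 * t / 2) (by positivity)]
    with n hn hn'
  rw [← hA] at hn
  -- a nonlinear right inverse with norm `N`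
  let R : ContinuousLinearMap.NonlinearRightInverse (A : E →L[ℂ] F) :=
    { toFun := A.symm
      nnnorm := N
      bound' := by
        intro y
        have h1 := (A.symm : F →L[ℂ] E).le_opNorm y
        have h2 : ‖(A.symm : F →L[ℂ] E)‖ ≤ (N : ℝ) := by
          rw [hN]; push_cast; simp
        exact h1.trans (by gcongr)
      right_inv' := A.apply_symm_apply }
  have h5 := hn.surjOn_closedBall_of_nonlinearRightInverse R ht0.le htr
  have h6 : (((R.nnnorm : ℝ)⁻¹ - ((N⁻¹ / 2 : ℝ≥0) : ℝ)) * t) = (N : ℝ)⁻¹ / 2 * t := by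
    have : R.nnnorm = N := rfl
    rw [this]; push_cast; ring
  rw [h6] at h5
  intro y hy
  have hy' : y ∈ closedBall (f n x) ((N : ℝ)⁻¹ / 2 * t) := by
    rw [mem_closedBall]
    rw [mem_ball] at hy
    have := dist_triangle_right y (f n x) (g x)
    linarith
  obtain ⟨z, hz, hzy⟩ := h5 hy'
  exact ⟨z, hts hz, hzy⟩

end Inverse

end Crest.Agent.R264.CI
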