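import Crest.Agent.R264.TopDefs

/-!
Row 264 (S0402), interface of PART C (helper484).

* `PeakData U n`     : the output of Parts A + B at the peak point `p0` (Theorem A of note 11386).
* `ThmA`             : `Setup + IsSubmfd n U, 0 < n ⟹ PeakData U n`.
* `ScaleSeq Γ P`     : the output of C0 + C1 + C2.
* `LimDom P Φ`       : the output of C3 + C4.
* Frozen Props `ThmA`, `PropC2`, `PropC34`.
-/

set_option autoImplicit false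

open Topology Filter Set

namespace Crest.Agent.R264

open Crest.AlgGeometry.Semialg

/-- The model space `ℂ^m × ℂ^k` (sup norm). -/
abbrev EE (m k : ℕ) : Type := (Fin m → ℂ) × (Fin k → ℂ)

/-- The anisotropic dilation `(z,w) ↦ (εz, ε²w)`; `T_ε = Dil ε⁻¹`. -/
noncomputable def Dil {m k : ℕ} (ε : ℝ) (x : EE m k) : EE m k :=
  ((ε : ℂ) • x.1, ((ε : ℂ) ^ 2) • x.2)

/-- A real vector as a complex vector. -/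
def cvec {k : ℕ} (v : Fin k → ℝ) : Fin k → ℂ := fun i => (v i : ℂ)

/-- The type of the form `DD_b(η)`: real linear in `b`, `ℂ`-linear in `η`, values in `ℂ^k`. -/
abbrev DDForm (m k : ℕ) : Type := (Fin m → ℂ) →ₗ[ℝ] ((Fin m → ℂ) →ₗ[ℂ] (Fin k → ℂ))

/-- `L_{b,t}(ζ,ω) = (ζ - b, ω - t - i q(b) - 2i DD_b(ζ - b))`, `q(b) = Re DD_b(b)`. -/
noncomputable def Lmap {m k : ℕ} (DD : DDForm m k) (b : Fin m → ℂ) (t : Fin k → ℝ) (x : EE m k) :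
    EE m k :=
  (x.1 - b, fun i => x.2 i - (t i : ℂ) - Complex.I * (((DD b b i).re : ℝ) : ℂ)
    - 2 * Complex.I * DD b (x.1 - b) i)

/-- `τ(ζ,ω) = -i⟨ν,ω⟩ + Q(ζ,ζ)`. -/
noncomputable def tauF {m k : ℕ} (ν : Fin k → ℝ) (Q : (Fin m → ℂ) →L[ℂ] (Fin m → ℂ) →L[ℂ] ℂ)
    (y : EE m k) : ℂ :=
  -Complex.I * ∑ j, (ν j : ℂ) * y.2 j + Q y.1 y.1

/-- Holomorphic maps on a subset of `ℂ^N`, arbitrary normed target. -/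
def IsHol {N : ℕ} {F : Type*} [NormedAddCommGroup F] [NormedSpace ℂ F] (U : Set (Fin N → ℂ))
    (f : U → F) : Prop :=
  ∀ x : U, ∃ O : Set (Fin N → ℂ), IsOpen O ∧ (x : Fin N → ℂ) ∈ O ∧
    ∃ g : (Fin N → ℂ) → F, DifferentiableOn ℂ g O ∧ ∀ y : U, (y : Fin N → ℂ) ∈ O → f y = g y

/-- THE OUTPUT OF PARTS A + B at the peak point `p0 ∈ closure U`. -/
structure PeakData {N : ℕ} (U : Set (Fin N → ℂ)) (n : ℕ) where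
  m : ℕ
  k : ℕ
  hmk : m + k = n
  hk : 0 < k
  /-- the peak point -/
  p0 : Fin N → ℂ
  hp0 : p0 ∈ closure U
  /-- ambient neighbourhood of `p0` -/
  O : Set (Fin N → ℂ)
  hO : IsOpen O
  hpO : p0 ∈ O
  /-- the chart `κ` (ambient holomorphic map) and its inverse `χ` on `UU = κ(U ∩ O)` -/
  κ : (Fin N → ℂ) → EE m k
  hκ : DifferentiableOn ℂ κ O
  κ_p0 : κ p0 = 0
  UU : Set (EE m k)
  hUU : IsOpen UU
  χ : EE m k → (Fin N → ℂ)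
  hχ : DifferentiableOn ℂ χ UU
  hχ0 : Tendsto χ (𝓝[UU] 0) (𝓝 p0)
  κ_mem : ∀ x ∈ U, x ∈ O → κ x ∈ UU
  χ_mem : ∀ y ∈ UU, χ y ∈ U ∧ χ y ∈ O
  χ_κ : ∀ x ∈ U, x ∈ O → χ (κ x) = x
  κ_χ : ∀ y ∈ UU, κ (χ y) = y
  /-- the peak functions -/
  h : Fin k → (Fin N → ℂ) → ℂ
  hh : ∀ i, Differentiable ℂ (h i)
  M : Fin k → ℝ
  h_p0 : ∀ i, h i p0 = (M i : ℂ)
  h_lt : ∀ i, ∀ x ∈ closure U, x ≠ p0 → (h i x).re < M i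
  ν : Fin k → Fin k → ℝ
  hν : LinearIndependent ℝ ν
  Q : Fin k → (Fin m → ℂ) →L[ℂ] (Fin m → ℂ) →L[ℂ] ℂ
  Cp : ℝ
  expand : ∀ i, ∀ y ∈ UU, ‖(M i : ℂ) - h i (χ y) - tauF (ν i) (Q i) y‖
    ≤ Cp * (‖y.1‖ ^ 3 + ‖y.1‖ * ‖y.2‖ + ‖y.2‖ ^ 2)
  ctrl : ∀ i, ∀ y ∈ UU, ‖y.1‖ ^ 2 + ‖y.2‖ ^ 2 ≤ Cp * (M i - (h i (χ y)).re)
  /-- the boxes of Theorem B -/
  c : ℝ
  hc : 0 < c
  ts : ℝ
  hts : 0 < ts
  e : ℝ → Fin k → ℝ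
  e_le : ∀ t, 0 < t → t < ts → ‖e t‖ ≤ Cp
  box : ∀ t, 0 < t → t < ts → ∀ y : EE m k, ‖y.1‖ < c * Real.sqrt t →
    ‖y.2 - (Complex.I * (t : ℂ)) • cvec (e t)‖ < c * t → y ∈ UU
  /-- the limit domain -/
  OM : Set (EE m k)
  OM_open : IsOpen OM
  kernel₁ : ∀ x ∈ OM, ∃ r > 0, ∀ᶠ ε in 𝓝[>] (0 : ℝ), ∀ y ∈ Metric.ball x r, Dil ε y ∈ UU
  kernel₂ : ∀ x, ∀ r > 0, (∃ᶠ ε in 𝓝[>] (0 : ℝ), ∀ y ∈ Metric.ball x r, Dil ε y ∈ UU) → x ∈ OM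
  DD : DDForm m k
  inv : ∀ b t, MapsTo (Lmap DD b t) OM OM


/-- OUTPUT OF C0 + C1 + C2. -/
structure ScaleSeq {N : ℕ} {U : Set (Fin N → ℂ)} {n : ℕ} (Γ : Subgroup (Equiv.Perm U))
    (P : PeakData U n) where
  φ : ℕ → Equiv.Perm U
  hφ : ∀ j, φ j ∈ Γ
  x : ℕ → U
  xs : U
  hx : Tendsto x atTop (𝓝 xs)
  ε : ℕ → ℝ
  ε_pos : ∀ j, 0 < ε j
  ε_lt : ∀ j, ε j ^ 2 < P.ts
  ε_lim : Tendsto ε atTop (𝓝 0)
  φx_mem : ∀ j, ((φ j (x j) : U) : Fin N → ℂ) ∈ P.O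
  /-- `φ_j(x_j) = κ⁻¹(0, i t_j e_{t_j})`, `t_j = ε_j²` -/
  κφx : ∀ j, P.κ (φ j (x j) : U) = (0, (Complex.I * ((ε j ^ 2 : ℝ) : ℂ)) • cvec (P.e (ε j ^ 2)))
  /-- on compact sets `φ_j` eventually takes values in the chart neighbourhood `O` -/
  ev_mem : ∀ K : Set U, IsCompact K → ∀ᶠ j in atTop, ∀ y ∈ K, ((φ j y : U) : Fin N → ℂ) ∈ P.O
  /-- the limit map -/
  Φ : U → EE P.m P.k
  hΦ : IsHol U Φ
  lim : TendstoLocallyUniformly (fun (j : ℕ) (y : U) => Dil (ε j)⁻¹ (P.κ (φ j y : U))) Φ atTop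

/-- C0 + C1 + C2. -/
def PropC2 : Prop :=
  ∀ (N : ℕ) (U : Set (Fin N → ℂ)) (Γ : Subgroup (Equiv.Perm U)), Setup N U Γ →
    ∀ n : ℕ, 0 < n → IsSubmfd n U → ∀ P : PeakData U n, Nonempty (ScaleSeq Γ P)

/-- OUTPUT OF C3 + C4: the image `Φ(U)` is open, `Φ` is biholomorphic onto it, and it is clopen
in `OM`. -/
structure LimDom {N : ℕ} {U : Set (Fin N → ℂ)} {n : ℕ} (P : PeakData U n)
    (Φ : U → EE P.m P.k) where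
  Θ0 : EE P.m P.k → (Fin N → ℂ)
  left : ∀ y : U, Θ0 (Φ y) = y
  hΘ0 : DifferentiableOn ℂ Θ0 (range Φ)
  isOpen : IsOpen (range Φ)
  sub : range Φ ⊆ P.OM
  closed : ∀ q ∈ P.OM, q ∈ closure (range Φ) → q ∈ range Φ

/-- C3 + C4. -/
def PropC34 : Prop :=
  ∀ (N : ℕ) (U : Set (Fin N → ℂ)) (Γ : Subgroup (Equiv.Perm U)), Setup N U Γ →
    ∀ n : ℕ, 0 < n → IsSubmfd n U → ∀ (P : PeakData U n) (S : ScaleSeq Γ P),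
      Nonempty (LimDom P S.Φ)

end Crest.Agent.R264
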