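import Mathlib
import Crest.Agent.R264.TopDefs
import Crest.Agent.R264.CI0_Mg
import Crest.Agent.R264.CPDefs

-- ▼ part R264/CIDefs
section

/-!
Row 264 (S0402), Part C, module C3 (helper648): definitions.

* `HolU U f`   : `f : U → F` is holomorphic (for `F = Fin M → ℂ` this is `IsHolomorphicMap`).
* `BihSeq`     : a sequence of biholomorphisms `F j : S j → R j` with inverse `G j`, where the
                 open sets `S j ⊆ U` exhaust `U`.
-/

set_option autoImplicit false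

open Topology Filter Set Metric

namespace Crest.Agent.R264.CI

/-- `f` is holomorphic on the subset `U` of `ℂ^N`. -/
def HolU {N : ℕ} {F : Type*} [NormedAddCommGroup F] [NormedSpace ℂ F] (U : Set (Fin N → ℂ))
    (f : U → F) : Prop :=
  ∀ x : U, ∃ O : Set (Fin N → ℂ), IsOpen O ∧ (x : Fin N → ℂ) ∈ O ∧
    ∃ g : (Fin N → ℂ) → F, DifferentiableOn ℂ g O ∧ ∀ y : U, (y : Fin N → ℂ) ∈ O → f y = g y

/-- `f` is holomorphic on the (relatively open) piece `S` of `U`. -/
def HolS {N : ℕ} {F : Type*} [NormedAddCommGroup F] [NormedSpace ℂ F] {U : Set (Fin N → ℂ)}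
    (S : Set U) (f : U → F) : Prop :=
  ∀ x ∈ S, ∃ O : Set (Fin N → ℂ), IsOpen O ∧ (x : Fin N → ℂ) ∈ O ∧
    ∃ g : (Fin N → ℂ) → F, DifferentiableOn ℂ g O ∧
      ∀ y ∈ S, (y : Fin N → ℂ) ∈ O → f y = g y

/-- `F j : S j → R j` is biholomorphic with inverse `G j`, and the open sets `S j` exhaust `U`. -/
structure BihSeq {N : ℕ} {E : Type*} [NormedAddCommGroup E] [NormedSpace ℂ E]
    (U : Set (Fin N → ℂ)) (F : ℕ → U → E) (G : ℕ → E → U) (S : ℕ → Set U) (R : ℕ → Set E) :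
    Prop where
  S_open : ∀ j, IsOpen (S j)
  R_open : ∀ j, IsOpen (R j)
  holF : ∀ j, HolS (S j) (F j)
  holG : ∀ j, DifferentiableOn ℂ (fun z => (G j z : Fin N → ℂ)) (R j)
  mapsF : ∀ j, MapsTo (F j) (S j) (R j)
  mapsG : ∀ j, MapsTo (G j) (R j) (S j)
  left : ∀ j, ∀ x ∈ S j, G j (F j x) = x
  right : ∀ j, ∀ z ∈ R j, F j (G j z) = z
  exh : ∀ K : Set U, IsCompact K → ∀ᶠ j in atTop, K ⊆ S j

/-- MODULE C3 (the conclusion). -/
structure C3Out {N : ℕ} {E : Type*} [NormedAddCommGroup E] [NormedSpace ℂ E]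
    (U : Set (Fin N → ℂ)) (F : ℕ → U → E) (S : ℕ → Set U) (Φ : U → E) : Prop where
  hol : HolU U Φ
  inj : Function.Injective Φ
  isOpen : IsOpen (range Φ)
  /-- the inverse is holomorphic -/
  inv : ∃ Θ : E → (Fin N → ℂ), DifferentiableOn ℂ Θ (range Φ) ∧
    ∀ x : U, Θ (Φ x) = (x : Fin N → ℂ)
  /-- kernel property: images of neighbourhoods of `x` under `F j` contain a fixed ball -/
  ker : ∀ x : U, ∀ V ∈ 𝓝 x, ∃ ρ > 0, ∀ᶠ j in atTop, ball (Φ x) ρ ⊆ F j '' (V ∩ S j)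

/-- MODULE C3 (the statement). -/
def C3Stmt : Prop :=
  ∀ (N n : ℕ) (E : Type) [NormedAddCommGroup E] [NormedSpace ℂ E] [FiniteDimensional ℂ E]
    (U : Set (Fin N → ℂ)) (F : ℕ → U → E) (G : ℕ → E → U) (S : ℕ → Set U) (R : ℕ → Set E)
    (Φ : U → E) (x : ℕ → U) (x' : U) (r : ℝ),
    Module.finrank ℂ E = n → IsSubmfd n U → IsConnected U → Bornology.IsBounded U →
    BihSeq U F G S R → TendstoLocallyUniformly F Φ atTop →
    Tendsto x atTop (𝓝 x') → 0 < r → (∀ᶠ j in atTop, ball (F j (x j)) r ⊆ R j) →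
    C3Out U F S Φ

end Crest.Agent.R264.CI
end

-- ▼ part R264/CI1
section

/-!
Row 264 (S0402), Part C, module C3 (helper648): maps on a complex submanifold read in a chart.
-/

set_option autoImplicit false

open Topology Filter Set Metric

namespace Crest.Agent.R264.CI

open Crest.Agent.R266.SCV

section Chart

variable {N n : ℕ} {U : Set (Fin N → ℂ)} {x₀ : Fin N → ℂ}

/-- the chart as a map into the subtype -/
noncomputable def cps (c : LocChart n U x₀) (w : Fin n → ℂ) (hw : w ∈ c.W) : U :=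
  ⟨c.ψ w, (c.ψ_mem w hw).1⟩

variable (c : LocChart n U x₀)


lemma cps_pi {y : U} (hy : (y : Fin N → ℂ) ∈ c.O) :
    cps c (c.π y) (c.π_mem y y.2 hy) = y := Subtype.ext (c.ψ_π y y.2 hy)


lemma psi_continuousAt {w : Fin n → ℂ} (hw : w ∈ c.W) : ContinuousAt c.ψ w :=
  (c.hψ.differentiableAt (c.hW.mem_nhds hw)).continuousAt

lemma pi_continuousAt {y : Fin N → ℂ} (hy : y ∈ c.O) : ContinuousAt c.π y :=
  (c.hπ.differentiableAt (c.hO.mem_nhds hy)).continuousAt

/-- pull back of a neighbourhood in `U` -/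
lemma eventually_cps {w : Fin n → ℂ} (hw : w ∈ c.W) {V : Set U} (hV : V ∈ 𝓝 (cps c w hw)) :
    ∀ᶠ w' in 𝓝 w, ∃ hw' : w' ∈ c.W, cps c w' hw' ∈ V := by
  rw [mem_nhds_subtype] at hV
  obtain ⟨O', hO', hOV⟩ := hV
  have h1 : ∀ᶠ w' in 𝓝 w, c.ψ w' ∈ O' := (psi_continuousAt c hw) hO'
  filter_upwards [h1, c.hW.mem_nhds hw] with w' h2 h3
  exact ⟨h3, hOV h2⟩

/-- image of a neighbourhood in `W` -/
lemma eventually_pi {y : U} (hy : (y : Fin N → ℂ) ∈ c.O) {V : Set (Fin n → ℂ)}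
    (hV : V ∈ 𝓝 (c.π y)) :
    ∀ᶠ y' : U in 𝓝 y, (y' : Fin N → ℂ) ∈ c.O ∧ c.π y' ∈ V := by
  have h1 : ContinuousAt (fun y' : U => c.π (y' : Fin N → ℂ)) y :=
    (pi_continuousAt c hy).comp continuousAt_subtype_val
  have h2 : ∀ᶠ y' : U in 𝓝 y, (y' : Fin N → ℂ) ∈ c.O :=
    continuousAt_subtype_val (c.hO.mem_nhds hy)
  exact h2.and (h1 hV)

lemma continuous_cps : Continuous (fun w : c.W => cps c (w : Fin n → ℂ) w.2) := by
  refine Continuous.subtype_mk ?_ _
  exact c.hψ.continuousOn.domRestrict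

/-- images of compact subsets of `W` are compact -/
lemma isCompact_cps {K : Set (Fin n → ℂ)} (hK : IsCompact K) (hKW : K ⊆ c.W) :
    IsCompact {y : U | ∃ w, ∃ hw : w ∈ c.W, w ∈ K ∧ cps c w hw = y} := by
  have h1 : IsCompact ((↑) ⁻¹' K : Set c.W) := by
    rw [Subtype.isCompact_iff]
    convert hK using 1
    rw [Subtype.image_preimage_coe]
    exact inter_eq_right.2 hKW
  convert h1.image (continuous_cps c) using 1
  ext y
  constructor
  · rintro ⟨w, hw, hwK, rfl⟩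
    exact ⟨⟨w, hw⟩, hwK, rfl⟩
  · rintro ⟨⟨w, hw⟩, hwK, rfl⟩
    exact ⟨w, hw, hwK, rfl⟩

section Loc

variable {F : Type*} [NormedAddCommGroup F] [NormedSpace ℂ F]

open Classical in
/-- the map `f` read in the chart `c` -/
noncomputable def loc (f : U → F) (w : Fin n → ℂ) : F :=
  if hw : w ∈ c.W then f (cps c w hw) else 0

omit [NormedSpace ℂ F] in
lemma loc_apply (f : U → F) {w : Fin n → ℂ} (hw : w ∈ c.W) : loc c f w = f (cps c w hw) := by
  simp [loc, hw]

omit [NormedSpace ℂ F] in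
lemma loc_pi (f : U → F) {y : U} (hy : (y : Fin N → ℂ) ∈ c.O) : loc c f (c.π y) = f y := by
  rw [loc_apply c f (c.π_mem y y.2 hy), cps_pi c hy]

lemma differentiableAt_loc {S : Set U} (hS : IsOpen S) {f : U → F} (hf : HolS S f)
    {w : Fin n → ℂ} (hw : w ∈ c.W) (hwS : cps c w hw ∈ S) : DifferentiableAt ℂ (loc c f) w := by
  obtain ⟨O, hO, hxO, g, hg, hfg⟩ := hf _ hwS
  have h1 : ∀ᶠ w' in 𝓝 w, loc c f w' = g (c.ψ w') := by
    have h2 : ∀ᶠ w' in 𝓝 w, c.ψ w' ∈ O := (psi_continuousAt c hw) (hO.mem_nhds hxO)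
    filter_upwards [h2, eventually_cps c hw (hS.mem_nhds hwS)] with w' h3 ⟨h4, h5⟩
    rw [loc_apply c f h4]
    exact hfg _ h5 h3
  have h6 : DifferentiableAt ℂ (fun w' => g (c.ψ w')) w :=
    (hg.differentiableAt (hO.mem_nhds hxO)).comp w (c.hψ.differentiableAt (c.hW.mem_nhds hw))
  exact h6.congr_of_eventuallyEq h1

lemma HolU.holS {f : U → F} (hf : HolU U f) : HolS (univ : Set U) f := by
  intro x _
  obtain ⟨O, hO, hx, g, hg, h⟩ := hf x
  exact ⟨O, hO, hx, g, hg, fun y _ hy => h y hy⟩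

lemma differentiableOn_loc {f : U → F} (hf : HolU U f) : DifferentiableOn ℂ (loc c f) c.W :=
  fun _ hw => (differentiableAt_loc c isOpen_univ hf.holS hw (mem_univ _)).differentiableWithinAt

/-- holomorphic in all charts implies holomorphic -/
lemma holU_of_loc {f : U → F}
    (h : ∀ x : U, ∃ c : LocChart n U x, DifferentiableOn ℂ (loc c f) c.W) : HolU U f := by
  intro x
  obtain ⟨c, hc⟩ := h x
  refine ⟨c.O ∩ c.π ⁻¹' c.W, c.hπ.continuousOn.isOpen_inter_preimage c.hO c.hW,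
    ⟨c.mem, c.π_mem x x.2 c.mem⟩, fun y => loc c f (c.π y), ?_, ?_⟩
  · exact hc.comp (c.hπ.mono inter_subset_left) (fun y hy => hy.2)
  · intro y hy
    exact (loc_pi c f hy.1).symm

omit [NormedSpace ℂ F] in
/-- locally uniform convergence in a chart -/
lemma tlu_loc {ι : Type*} {p : Filter ι} {f : ι → U → F} {g : U → F}
    (h : TendstoLocallyUniformly f g p) :
    TendstoLocallyUniformlyOn (fun j => loc c (f j)) (loc c g) p c.W := by
  rw [Metric.tendstoLocallyUniformlyOn_iff]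
  rw [Metric.tendstoLocallyUniformly_iff] at h
  intro ε hε w hw
  obtain ⟨t, ht, h1⟩ := h ε hε (cps c w hw)
  refine ⟨{w' | ∃ hw' : w' ∈ c.W, cps c w' hw' ∈ t},
    mem_nhdsWithin_of_mem_nhds (eventually_cps c hw ht), ?_⟩
  filter_upwards [h1] with j hj
  rintro w' ⟨hw', hw't⟩
  rw [loc_apply c g hw', loc_apply c (f j) hw']
  exact hj _ hw't

end Loc

end Chart

end Crest.Agent.R264.CI
end

-- ▼ part R264/CI2
section

/-!
Row 264 (S0402), Part C, module C3 (helper648): derivatives in charts, determinants.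
-/

set_option autoImplicit false

open Topology Filter Set Metric

namespace Crest.Agent.R264.CI

open Crest.Agent.R266.SCV

section Det

variable {n : ℕ}

lemma det_eq_sum (L : (Fin n → ℂ) →L[ℂ] (Fin n → ℂ)) :
    L.det = ∑ σ : Equiv.Perm (Fin n), (Equiv.Perm.sign σ : ℤ) • ∏ i, L (Pi.single i 1) (σ i) := by
  rw [ContinuousLinearMap.det, ← LinearMap.det_toMatrix', Matrix.det_apply]
  refine Finset.sum_congr rfl (fun σ _ => ?_)
  rw [Units.smul_def]
  congr 1

lemma differentiable_det :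
    Differentiable ℂ (fun L : (Fin n → ℂ) →L[ℂ] (Fin n → ℂ) => L.det) := by
  have h : (fun L : (Fin n → ℂ) →L[ℂ] (Fin n → ℂ) => L.det)
      = fun L => ∑ σ : Equiv.Perm (Fin n), (Equiv.Perm.sign σ : ℤ) •
        ∏ i, L (Pi.single i 1) (σ i) := by
    funext L; exact det_eq_sum L
  rw [h]
  refine Differentiable.fun_sum (fun σ _ => ?_)
  refine Differentiable.fun_const_smul ?_ _
  intro L
  have h2 : ∀ i ∈ (Finset.univ : Finset (Fin n)),
      HasFDerivAt (fun L : (Fin n → ℂ) →L[ℂ] (Fin n → ℂ) => L (Pi.single i 1) (σ i))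
        (fderiv ℂ (fun L : (Fin n → ℂ) →L[ℂ] (Fin n → ℂ) => L (Pi.single i 1) (σ i)) L) L := by
    intro i _
    have : DifferentiableAt ℂ
      (fun L : (Fin n → ℂ) →L[ℂ] (Fin n → ℂ) => L (Pi.single i 1) (σ i)) L := by fun_prop
    exact this.hasFDerivAt
  exact (HasFDerivAt.finsetProd h2).differentiableAt

lemma det_ne_zero_of_injective {L : (Fin n → ℂ) →L[ℂ] (Fin n → ℂ)}
    (h : Function.Injective L) : L.det ≠ 0 := by
  intro h0
  have h1 := LinearMap.bot_lt_ker_of_det_eq_zero (f := (L : (Fin n → ℂ) →ₗ[ℂ] (Fin n → ℂ))) h0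
  rw [LinearMap.ker_eq_bot.2 h] at h1
  exact lt_irrefl _ h1

lemma surjective_of_det_ne_zero {L : (Fin n → ℂ) →L[ℂ] (Fin n → ℂ)}
    (h : L.det ≠ 0) : Function.Surjective L := by
  have h1 : IsUnit (LinearMap.det (L : (Fin n → ℂ) →ₗ[ℂ] (Fin n → ℂ))) := isUnit_iff_ne_zero.2 h
  have h2 := (LinearMap.isUnit_iff_isUnit_det (L : (Fin n → ℂ) →ₗ[ℂ] (Fin n → ℂ))).2 h1
  exact (Module.End.isUnit_iff _).1 h2 |>.2

end Det

section Trans

variable {N n : ℕ} {U : Set (Fin N → ℂ)} {x₀ x₁ : Fin N → ℂ}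
variable {F : Type*} [NormedAddCommGroup F] [NormedSpace ℂ F]

lemma fderiv_loc_change (c : LocChart n U x₀) (c' : LocChart n U x₁) {y : U}
    (hy : (y : Fin N → ℂ) ∈ c.O) (hy' : (y : Fin N → ℂ) ∈ c'.O) (f : U → F)
    (hd : DifferentiableAt ℂ (loc c' f) (c'.π y)) :
    fderiv ℂ (loc c f) (c.π y) =
      (fderiv ℂ (loc c' f) (c'.π y)).comp (fderiv ℂ (fun w => c'.π (c.ψ w)) (c.π y)) := by
  have hw : c.π y ∈ c.W := c.π_mem y y.2 hy
  have hψy : c.ψ (c.π y) = y := c.ψ_π y y.2 hy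
  have h1 : ∀ᶠ w in 𝓝 (c.π y), loc c f w = loc c' f (c'.π (c.ψ w)) := by
    have h2 : ∀ᶠ w in 𝓝 (c.π y), c.ψ w ∈ c'.O :=
      (psi_continuousAt c hw) (c'.hO.mem_nhds (by rw [hψy]; exact hy'))
    filter_upwards [h2, c.hW.mem_nhds hw] with w h3 h4
    rw [loc_apply c f h4]
    exact (loc_pi c' f (y := cps c w h4) h3).symm
  have h5 : DifferentiableAt ℂ (fun w => c'.π (c.ψ w)) (c.π y) := by
    refine DifferentiableAt.comp (c.π y) ?_ (c.hψ.differentiableAt (c.hW.mem_nhds hw))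
    rw [hψy]
    exact c'.hπ.differentiableAt (c'.hO.mem_nhds hy')
  have h1' : loc c f =ᶠ[𝓝 (c.π y)] fun w => loc c' f (c'.π (c.ψ w)) := h1
  rw [h1'.fderiv_eq]
  have hd' : DifferentiableAt ℂ (loc c' f) ((fun w => c'.π (c.ψ w)) (c.π y)) := by
    simp only [hψy]; exact hd
  have h6 := fderiv_comp (c.π y) hd' h5
  simp only [hψy] at h6
  exact h6

/-- nondegeneracy at `y` in one chart implies nondegeneracy in all charts -/
lemma surjective_change (c : LocChart n U x₀) (c' : LocChart n U x₁) {y : U}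
    (hy : (y : Fin N → ℂ) ∈ c.O) (hy' : (y : Fin N → ℂ) ∈ c'.O) (f : U → F)
    (hd : DifferentiableAt ℂ (loc c' f) (c'.π y))
    (hs : Function.Surjective (fderiv ℂ (loc c f) (c.π y))) :
    Function.Surjective (fderiv ℂ (loc c' f) (c'.π y)) := by
  rw [fderiv_loc_change c c' hy hy' f hd] at hs
  intro v
  obtain ⟨u, hu⟩ := hs v
  exact ⟨_, hu⟩

/-- nondegeneracy of `f` at `y` -/
def Nd (n : ℕ) {U : Set (Fin N → ℂ)} (f : U → F) (y : U) : Prop :=
  ∀ (x : Fin N → ℂ) (c : LocChart n U x), (y : Fin N → ℂ) ∈ c.O →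
    Function.Surjective (fderiv ℂ (loc c f) (c.π y))

lemma nd_of {f : U → F} (hf : HolU U f) (c : LocChart n U x₀) {y : U}
    (hy : (y : Fin N → ℂ) ∈ c.O) (hs : Function.Surjective (fderiv ℂ (loc c f) (c.π y))) :
    Nd n f y := by
  intro x c' hy'
  refine surjective_change c c' hy hy' f ?_ hs
  exact (differentiableOn_loc c' hf).differentiableAt (c'.hW.mem_nhds (c'.π_mem y y.2 hy'))

end Trans

end Crest.Agent.R264.CI
end

-- ▼ part R264/CI
section

/-!
Row 264 (S0402), Part C, module C3 (helper648): the nondegenerate injective limit.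
-/

set_option autoImplicit false
set_option linter.unusedSectionVars false

open Topology Filter Set Metric

namespace Crest.Agent.R264.CI

open Crest.Agent.R266.SCV

section Main

variable {N n : ℕ} {E : Type*} [NormedAddCommGroup E] [NormedSpace ℂ E] [FiniteDimensional ℂ E]
variable {U : Set (Fin N → ℂ)} {F : ℕ → U → E} {G : ℕ → E → U} {S : ℕ → Set U} {R : ℕ → Set E}
variable {Φ : U → E} {x₀ : Fin N → ℂ}

/-- on small closed balls of a chart the maps `F j` are eventually holomorphic -/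
lemma ev_diff (B : BihSeq U F G S R) (c : LocChart n U x₀) {w : Fin n → ℂ} (hw : w ∈ c.W) :
    ∃ r > 0, closedBall w r ⊆ c.W ∧ ∀ᶠ j in atTop, ∀ w' ∈ closedBall w r,
      (∃ hw' : w' ∈ c.W, cps c w' hw' ∈ S j) ∧ DifferentiableAt ℂ (loc c (F j)) w' := by
  obtain ⟨r, hr, hrW⟩ := Metric.nhds_basis_closedBall.mem_iff.1 (c.hW.mem_nhds hw)
  refine ⟨r, hr, hrW, ?_⟩
  have hK := isCompact_cps c (isCompact_closedBall w r) hrW
  filter_upwards [B.exh _ hK] with j hj w' hw'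
  have h1 : cps c w' (hrW hw') ∈ S j := hj ⟨w', hrW hw', hw', rfl⟩
  exact ⟨⟨hrW hw', h1⟩, differentiableAt_loc c (B.S_open j) (B.holF j) (hrW hw') h1⟩

lemma diff_lim (B : BihSeq U F G S R) (hlim : TendstoLocallyUniformly F Φ atTop)
    (c : LocChart n U x₀) : DifferentiableOn ℂ (loc c Φ) c.W := by
  intro w hw
  obtain ⟨r, hr, hrW, hev⟩ := ev_diff B c hw
  have h1 := analyticOnNhd_of_tendstoLocallyUniformlyOn (isOpen_ball (x := w) (ε := r))
    ((tlu_loc c hlim).mono (ball_subset_closedBall.trans hrW))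
    (hev.mono (fun j hj w' hw' =>
      (hj w' (ball_subset_closedBall hw')).2.differentiableWithinAt))
  exact (h1 w (mem_ball_self hr)).differentiableAt.differentiableWithinAt

lemma holU_lim (hU : IsSubmfd n U) (B : BihSeq U F G S R)
    (hlim : TendstoLocallyUniformly F Φ atTop) : HolU U Φ :=
  holU_of_loc (n := n) (fun x => ⟨(hU x x.2).some, diff_lim B hlim _⟩)

/-- the maps `F j` are immersions -/
lemma inj_fderiv (B : BihSeq U F G S R) (c : LocChart n U x₀) {j : ℕ} {w : Fin n → ℂ}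
    (hw : w ∈ c.W) (hwS : cps c w hw ∈ S j) :
    Function.Injective (fderiv ℂ (loc c (F j)) w) := by
  have h1 : DifferentiableAt ℂ (loc c (F j)) w :=
    differentiableAt_loc c (B.S_open j) (B.holF j) hw hwS
  have h0 : loc c (F j) w = F j (cps c w hw) := loc_apply c _ hw
  have hR : loc c (F j) w ∈ R j := by rw [h0]; exact B.mapsF j hwS
  have h2 : DifferentiableAt ℂ (fun z => (G j z : Fin N → ℂ)) (loc c (F j) w) :=
    (B.holG j).differentiableAt ((B.R_open j).mem_nhds hR)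
  have h3 : (G j (loc c (F j) w) : Fin N → ℂ) = c.ψ w := by
    rw [h0, B.left j _ hwS]; rfl
  have h4 : DifferentiableAt ℂ c.π (G j (loc c (F j) w) : Fin N → ℂ) := by
    rw [h3]
    exact c.hπ.differentiableAt (c.hO.mem_nhds (c.ψ_mem w hw).2)
  have h5 : (fun w' => c.π (G j (loc c (F j) w') : Fin N → ℂ)) =ᶠ[𝓝 w] fun w' => w' := by
    filter_upwards [eventually_cps c hw ((B.S_open j).mem_nhds hwS)] with w' ⟨h6, h7⟩
    rw [loc_apply c _ h6, B.left j _ h7]
    exact c.π_ψ w' h6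
  have h8 := (h4.hasFDerivAt.comp (loc c (F j) w) h2.hasFDerivAt).comp w h1.hasFDerivAt
  have h9 : HasFDerivAt (fun w' : Fin n → ℂ => w') (ContinuousLinearMap.id ℂ (Fin n → ℂ)) w :=
    hasFDerivAt_id w
  have h10 := (h9.congr_of_eventuallyEq h5).unique h8
  intro u v huv
  have e1 := congrArg (fun L : (Fin n → ℂ) →L[ℂ] (Fin n → ℂ) => L u) h10
  have e2 := congrArg (fun L : (Fin n → ℂ) →L[ℂ] (Fin n → ℂ) => L v) h10
  simp only [ContinuousLinearMap.id_apply, ContinuousLinearMap.comp_apply] at e1 e2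
  rw [e1, e2, huv]

/-- near every point the limit is nondegenerate everywhere or nowhere (Hurwitz) -/
lemma dichotomy (hn : Module.finrank ℂ E = n) (B : BihSeq U F G S R)
    (hlim : TendstoLocallyUniformly F Φ atTop) (hΦ : HolU U Φ) (hU : IsSubmfd n U) (x : U) :
    ∃ V ∈ 𝓝 x, (∀ y ∈ V, Nd n Φ y) ∨ (∀ y ∈ V, ¬ Nd n Φ y) := by
  obtain ⟨c⟩ := hU x x.2
  have hx : c.π x ∈ c.W := c.π_mem x x.2 c.mem
  obtain ⟨r, hr, hrW, hev⟩ := ev_diff B c hx
  have hEn : Module.finrank ℂ E = Module.finrank ℂ (Fin n → ℂ) := by simp [hn]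
  let A : E ≃L[ℂ] (Fin n → ℂ) := ContinuousLinearEquiv.ofFinrankEq hEn
  let h : ((Fin n → ℂ) →L[ℂ] E) → ℂ := fun L => ((A : E →L[ℂ] (Fin n → ℂ)).comp L).det
  have hh : Differentiable ℂ h := by
    have h1 : Differentiable ℂ (fun L : (Fin n → ℂ) →L[ℂ] E =>
        (A : E →L[ℂ] (Fin n → ℂ)).comp L) :=
      (ContinuousLinearMap.compL ℂ (Fin n → ℂ) E (Fin n → ℂ)
        (A : E →L[ℂ] (Fin n → ℂ))).differentiable
    exact differentiable_det.comp h1
  have hball : ball (c.π x) r ⊆ c.W := ball_subset_closedBall.trans hrW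
  have hdΦ : DifferentiableOn ℂ (loc c Φ) (ball (c.π x) r) :=
    (differentiableOn_loc c hΦ).mono hball
  have haΦ := analyticOnNhd_of_differentiableOn isOpen_ball hdΦ
  have h2 := tlu_fderiv isOpen_ball ((tlu_loc c hlim).mono hball)
    (hev.mono (fun j hj w' hw' =>
      (hj w' (ball_subset_closedBall hw')).2.differentiableWithinAt)) hdΦ
  have h3 := comp_tlu (h := h) h2 haΦ.fderiv.continuousOn
    (fun w _ => hh.continuous.continuousAt)
  have h4 := hurwitz (p := atTop) isOpen_ball (convex_ball (c.π x) r).isPreconnected h3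
    (by
      intro w hw
      refine ⟨ball (c.π x) r, isOpen_ball.mem_nhds hw, ?_⟩
      filter_upwards [hev] with j hj
      have hdj : DifferentiableOn ℂ (loc c (F j)) (ball (c.π x) r) := fun w' hw' =>
        (hj w' (ball_subset_closedBall hw')).2.differentiableWithinAt
      have haj := analyticOnNhd_of_differentiableOn isOpen_ball hdj
      constructor
      · intro w' hw'
        exact (hh.differentiableAt.comp w' (haj.fderiv w' hw').differentiableAt
          ).differentiableWithinAt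
      · intro w' hw'
        obtain ⟨⟨h5, h6⟩, _⟩ := hj w' (ball_subset_closedBall hw')
        apply det_ne_zero_of_injective
        have := inj_fderiv B c h5 h6
        exact A.injective.comp this)
    (fun w hw => (hh.differentiableAt.comp w (haΦ.fderiv w hw).differentiableAt
      ).differentiableWithinAt)
  have hV := eventually_pi c (y := x) c.mem (isOpen_ball.mem_nhds (mem_ball_self hr))
  refine ⟨_, hV, ?_⟩
  rcases h4 with h4 | h4
  · right
    rintro y ⟨hyO, hyb⟩ hnd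
    have h5 := hnd x c hyO
    have h6 := h4 _ hyb
    have h7 : Function.Injective (fderiv ℂ (loc c Φ) (c.π y)) := by
      have := (LinearMap.injective_iff_surjective_of_finrank_eq_finrank
        (f := (fderiv ℂ (loc c Φ) (c.π y) : (Fin n → ℂ) →ₗ[ℂ] E)) hEn.symm).2 h5
      exact this
    exact det_ne_zero_of_injective (A.injective.comp h7) h6
  · left
    rintro y ⟨hyO, hyb⟩
    refine nd_of hΦ c hyO ?_
    have h5 := surjective_of_det_ne_zero (h4 _ hyb)
    intro v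
    obtain ⟨u, hu⟩ := h5 (A v)
    exact ⟨u, A.injective hu⟩

/-- **Step A**: the limit is nondegenerate at `x'` -/
lemma nd_start (hn : Module.finrank ℂ E = n) (hbd : Bornology.IsBounded U)
    (B : BihSeq U F G S R) (hlim : TendstoLocallyUniformly F Φ atTop) (hΦ : HolU U Φ)
    (hU : IsSubmfd n U) {x : ℕ → U} {x' : U} (hx : Tendsto x atTop (𝓝 x')) {r : ℝ} (hr : 0 < r)
    (hball : ∀ᶠ j in atTop, ball (F j (x j)) r ⊆ R j) : Nd n Φ x' := by
  obtain ⟨c⟩ := hU x' x'.2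
  have hx'W : c.π x' ∈ c.W := c.π_mem x' x'.2 c.mem
  obtain ⟨r1, hr1, hr1W, hev⟩ := ev_diff B c hx'W
  refine nd_of hΦ c c.mem ?_
  -- bound for `U`
  obtain ⟨M, hM⟩ := hbd.exists_norm_le
  have hM0 : 0 ≤ M := (norm_nonneg _).trans (hM x' x'.2)
  -- small ball in the ambient space
  have hπc : ContinuousAt c.π (x' : Fin N → ℂ) := pi_continuousAt c c.mem
  have h1 : ∀ᶠ y in 𝓝 (x' : Fin N → ℂ), y ∈ c.O ∧ ‖c.π y‖ ≤ ‖c.π x'‖ + 1 := by
    have h0 : ∀ᶠ y in 𝓝 (x' : Fin N → ℂ), y ∈ c.O := c.hO.mem_nhds c.mem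
    refine h0.and ?_
    have := hπc.norm.eventually (ge_mem_nhds (lt_add_one ‖c.π x'‖))
    filter_upwards [this] with y hy
    exact hy
  obtain ⟨s, hs, hsO⟩ := Metric.eventually_nhds_iff_ball.1 h1
  set M' : ℝ := ‖c.π x'‖ + 1 with hM'
  set C1 : ℝ := M / (r / 2) with hC1
  have hC1' : 0 ≤ C1 := by positivity
  set ρ : ℝ := min (r / 2) (s / 2 / (C1 + 1)) with hρ
  have hρ0 : 0 < ρ := by positivity
  have hρr : ρ ≤ r / 2 := min_le_left _ _
  have hρs : C1 * ρ ≤ s / 2 := by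
    have : ρ ≤ s / 2 / (C1 + 1) := min_le_right _ _
    rw [le_div_iff₀ (by positivity)] at this
    nlinarith
  -- `x j` is eventually close to `x'`
  have hxs : ∀ᶠ j in atTop, dist (x j : Fin N → ℂ) x' < s / 2 := by
    have : Tendsto (fun j => (x j : Fin N → ℂ)) atTop (𝓝 x') :=
      (continuous_subtype_val.tendsto x').comp hx
    exact Metric.tendsto_nhds.1 this _ (by positivity)
  have hw : Tendsto (fun j => c.π (x j : Fin N → ℂ)) atTop (𝓝 (c.π x')) := by
    have : Tendsto (fun j => (x j : Fin N → ℂ)) atTop (𝓝 x') :=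
      (continuous_subtype_val.tendsto x').comp hx
    exact hπc.tendsto.comp this
  have hwb : ∀ᶠ j in atTop, c.π (x j : Fin N → ℂ) ∈ closedBall (c.π (x' : Fin N → ℂ)) r1 :=
    hw (closedBall_mem_nhds _ hr1)
  have key : ∀ᶠ j in atTop, ∀ v : E, ∃ u : Fin n → ℂ, ‖u‖ ≤ M' / ρ * ‖v‖ ∧
      fderiv ℂ (loc c (F j)) (c.π (x j)) u = v := by
    filter_upwards [hxs, hwb, hev, hball] with j h2 h3 h4 h5
    have hxO : (x j : Fin N → ℂ) ∈ c.O := (hsO _ (by rw [mem_ball]; linarith)).1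
    obtain ⟨⟨h6, h7⟩, h8⟩ := h4 _ h3
    rw [cps_pi c hxO] at h7
    have hGe : G j (F j (x j)) = x j := B.left j _ h7
    -- Lipschitz estimate
    have hdiff : DifferentiableOn ℂ (fun z => (G j z : Fin N → ℂ)) (ball (F j (x j)) r) :=
      (B.holG j).mono h5
    have hlip : ∀ z ∈ ball (F j (x j)) (r / 2),
        ‖(G j z : Fin N → ℂ) - (G j (F j (x j)) : Fin N → ℂ)‖ ≤ C1 * ‖z - F j (x j)‖ := by
      intro z hz
      refine (convex_ball (F j (x j)) (r / 2)).norm_image_sub_le_of_norm_fderiv_le (𝕜 := ℂ)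
        (f := fun z => (G j z : Fin N → ℂ)) ?_ ?_ (mem_ball_self (by positivity)) hz
      · intro y hy
        exact hdiff.differentiableAt (isOpen_ball.mem_nhds (ball_subset_ball (by linarith) hy))
      · intro y hy
        have hyr : ball y (r / 2) ⊆ ball (F j (x j)) r := by
          intro y' hy'
          rw [mem_ball] at hy hy' ⊢
          calc dist y' (F j (x j)) ≤ dist y' y + dist y (F j (x j)) := dist_triangle _ _ _
            _ < r := by linarith
        exact norm_fderiv_le_of_ball (by positivity) (hdiff.mono hyr)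
          (fun y' _ => hM _ (G j y').2)
    have hin : ∀ z ∈ ball (F j (x j)) ρ, (G j z : Fin N → ℂ) ∈ ball (x' : Fin N → ℂ) s := by
      intro z hz
      have h9 := hlip z (ball_subset_ball hρr hz)
      rw [hGe] at h9
      rw [mem_ball, dist_eq_norm] at hz
      have h10 : C1 * ‖z - F j (x j)‖ ≤ s / 2 :=
        (mul_le_mul_of_nonneg_left hz.le hC1').trans hρs
      rw [mem_ball]
      calc dist (G j z : Fin N → ℂ) x' ≤ dist (G j z : Fin N → ℂ) (x j) + dist (x j : Fin N → ℂ) x' :=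
            dist_triangle _ _ _
        _ < s := by rw [dist_eq_norm]; linarith
    set P : E → (Fin n → ℂ) := fun z => c.π (G j z : Fin N → ℂ) with hP
    have hPd : DifferentiableOn ℂ P (ball (F j (x j)) ρ) := by
      refine c.hπ.comp (hdiff.mono (ball_subset_ball (by linarith))) ?_
      intro z hz
      exact (hsO _ (hin z hz)).1
    have hPn : ‖fderiv ℂ P (F j (x j))‖ ≤ M' / ρ :=
      norm_fderiv_le_of_ball hρ0 hPd (fun y hy => (hsO _ (hin y hy)).2)
    have hPat : DifferentiableAt ℂ P (F j (x j)) :=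
      hPd.differentiableAt (isOpen_ball.mem_nhds (mem_ball_self hρ0))
    have hPe : P (F j (x j)) = c.π (x j) := by rw [hP]; simp only [hGe]
    have hid : (fun z => loc c (F j) (P z)) =ᶠ[𝓝 (F j (x j))] fun z => z := by
      filter_upwards [isOpen_ball.mem_nhds (mem_ball_self hρ0)] with z hz
      simp only [hP]
      rw [loc_pi c (F j) (hsO _ (hin z hz)).1]
      exact B.right j z (h5 (ball_subset_ball (by linarith) hz))
    have h8' : DifferentiableAt ℂ (loc c (F j)) (P (F j (x j))) := by rw [hPe]; exact h8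
    have h11 := h8'.hasFDerivAt.comp (F j (x j)) hPat.hasFDerivAt
    have h12 := ((hasFDerivAt_id (𝕜 := ℂ) (F j (x j))).congr_of_eventuallyEq hid).unique h11
    intro v
    refine ⟨fderiv ℂ P (F j (x j)) v, ?_, ?_⟩
    · exact ((fderiv ℂ P (F j (x j))).le_opNorm v).trans
        (mul_le_mul_of_nonneg_right hPn (norm_nonneg _))
    · have h13 := congrArg (fun L : E →L[ℂ] E => L v) h12
      simp only [ContinuousLinearMap.comp_apply, ContinuousLinearMap.id_apply, hPe] at h13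
      exact h13.symm
  -- convergence of the derivatives
  have hb1 : ball (c.π (x' : Fin N → ℂ)) r1 ⊆ c.W := ball_subset_closedBall.trans hr1W
  have hdΦ : DifferentiableOn ℂ (loc c Φ) (ball (c.π (x' : Fin N → ℂ)) r1) :=
    (differentiableOn_loc c hΦ).mono hb1
  have haΦ := analyticOnNhd_of_differentiableOn isOpen_ball hdΦ
  have h2 := tlu_fderiv isOpen_ball ((tlu_loc c hlim).mono hb1)
    (hev.mono (fun j hj w' hw' =>
      (hj w' (ball_subset_closedBall hw')).2.differentiableWithinAt)) hdΦ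
  have hmem : c.π (x' : Fin N → ℂ) ∈ ball (c.π (x' : Fin N → ℂ)) r1 := mem_ball_self hr1
  have h3 : Tendsto (fun j => fderiv ℂ (loc c (F j)) (c.π (x j))) atTop
      (𝓝 (fderiv ℂ (loc c Φ) (c.π x'))) := by
    refine h2.tendsto_comp (haΦ.fderiv.continuousOn _ hmem) hmem ?_
    rw [isOpen_ball.nhdsWithin_eq hmem]
    exact hw
  intro v
  have hcl : IsClosed (LinearMap.range (fderiv ℂ (loc c Φ) (c.π x') : (Fin n → ℂ) →ₗ[ℂ] E) : Set E) :=
    Submodule.closed_of_finiteDimensional _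
  have hex : ∀ j, ∃ u : Fin n → ℂ, (∀ v' : E, True) ∧
      ((∀ v : E, ∃ u : Fin n → ℂ, ‖u‖ ≤ M' / ρ * ‖v‖ ∧
        fderiv ℂ (loc c (F j)) (c.π (x j)) u = v) → ‖u‖ ≤ M' / ρ * ‖v‖ ∧
        fderiv ℂ (loc c (F j)) (c.π (x j)) u = v) := by
    intro j
    by_cases h : (∀ v : E, ∃ u : Fin n → ℂ, ‖u‖ ≤ M' / ρ * ‖v‖ ∧
        fderiv ℂ (loc c (F j)) (c.π (x j)) u = v)
    · obtain ⟨u, hu⟩ := h v
      exact ⟨u, fun _ => trivial, fun _ => hu⟩
    · exact ⟨0, fun _ => trivial, fun h' => absurd h' h⟩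
  choose u _ hu using hex
  have hu' : ∀ᶠ j in atTop, ‖u j‖ ≤ M' / ρ * ‖v‖ ∧ fderiv ℂ (loc c (F j)) (c.π (x j)) (u j) = v := by
    filter_upwards [key] with j hj
    exact hu j hj
  have h4 : Tendsto (fun j => fderiv ℂ (loc c Φ) (c.π x') (u j)) atTop (𝓝 v) := by
    rw [tendsto_iff_norm_sub_tendsto_zero]
    have h5 : Tendsto (fun j => ‖fderiv ℂ (loc c Φ) (c.π x') - fderiv ℂ (loc c (F j)) (c.π (x j))‖
        * (M' / ρ * ‖v‖)) atTop (𝓝 (0 * (M' / ρ * ‖v‖))) := by
      refine Tendsto.mul_const _ ?_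
      have := (tendsto_const_nhds (x := fderiv ℂ (loc c Φ) (c.π x'))).sub h3
      simpa using this.norm
    rw [zero_mul] at h5
    refine squeeze_zero' (Eventually.of_forall fun j => norm_nonneg _) ?_ h5
    filter_upwards [hu'] with j ⟨h6, h7⟩
    have h8 : fderiv ℂ (loc c Φ) (c.π x') (u j) - v =
        (fderiv ℂ (loc c Φ) (c.π x') - fderiv ℂ (loc c (F j)) (c.π (x j))) (u j) := by
      rw [_root_.sub_apply, h7]
    rw [h8]
    exact (ContinuousLinearMap.le_opNorm _ _).trans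
      (mul_le_mul_of_nonneg_left h6 (norm_nonneg _))
  have h5 : v ∈ (LinearMap.range (fderiv ℂ (loc c Φ) (c.π x') : (Fin n → ℂ) →ₗ[ℂ] E) : Set E) :=
    hcl.mem_of_tendsto h4 (Eventually.of_forall fun j => ⟨u j, rfl⟩)
  obtain ⟨u0, hu0⟩ := h5
  exact ⟨u0, hu0⟩

/-- **Step B**: nondegenerate everywhere -/
lemma nd_all (hn : Module.finrank ℂ E = n) (hbd : Bornology.IsBounded U)
    (hconn : IsConnected U)
    (B : BihSeq U F G S R) (hlim : TendstoLocallyUniformly F Φ atTop) (hΦ : HolU U Φ)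
    (hU : IsSubmfd n U) {x : ℕ → U} {x' : U} (hx : Tendsto x atTop (𝓝 x')) {r : ℝ} (hr : 0 < r)
    (hball : ∀ᶠ j in atTop, ball (F j (x j)) r ⊆ R j) (y : U) : Nd n Φ y := by
  have : PreconnectedSpace U := isPreconnected_iff_preconnectedSpace.1 hconn.isPreconnected
  have h1 : IsClopen {y : U | Nd n Φ y} := by
    constructor
    · rw [← isOpen_compl_iff, isOpen_iff_mem_nhds]
      intro y hy
      obtain ⟨V, hV, h | h⟩ := dichotomy hn B hlim hΦ hU y
      · exact absurd (h y (mem_of_mem_nhds hV)) hy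
      · exact Filter.mem_of_superset hV h
    · rw [isOpen_iff_mem_nhds]
      intro y hy
      obtain ⟨V, hV, h | h⟩ := dichotomy hn B hlim hΦ hU y
      · exact Filter.mem_of_superset hV h
      · exact absurd hy (h y (mem_of_mem_nhds hV))
  have h2 := h1.eq_univ ⟨x', nd_start hn hbd B hlim hΦ hU hx hr hball⟩
  have h3 : y ∈ {y : U | Nd n Φ y} := by rw [h2]; exact mem_univ _
  exact h3

/-- the derivative as a continuous linear equivalence -/
lemma exists_equiv (hn : Module.finrank ℂ E = n) (c : LocChart n U x₀) {y : U}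
    (hy : (y : Fin N → ℂ) ∈ c.O) (hnd : Nd n Φ y) :
    ∃ A : (Fin n → ℂ) ≃L[ℂ] E, (A : (Fin n → ℂ) →L[ℂ] E) = fderiv ℂ (loc c Φ) (c.π y) := by
  have hEn : Module.finrank ℂ (Fin n → ℂ) = Module.finrank ℂ E := by simp [hn]
  have hs : Function.Surjective (fderiv ℂ (loc c Φ) (c.π y)) := hnd _ c hy
  have hi : Function.Injective (fderiv ℂ (loc c Φ) (c.π y)) :=
    (LinearMap.injective_iff_surjective_of_finrank_eq_finrank
      (f := (fderiv ℂ (loc c Φ) (c.π y) : (Fin n → ℂ) →ₗ[ℂ] E)) hEn).2 hs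
  let A := LinearEquiv.ofBijective (fderiv ℂ (loc c Φ) (c.π y) : (Fin n → ℂ) →ₗ[ℂ] E) ⟨hi, hs⟩
  refine ⟨A.toContinuousLinearEquiv, ?_⟩
  ext v
  rfl

/-- **Step C**: kernel property -/
lemma ker_lim (hn : Module.finrank ℂ E = n) (hU : IsSubmfd n U)
    (B : BihSeq U F G S R) (hlim : TendstoLocallyUniformly F Φ atTop) (hΦ : HolU U Φ)
    {y : U} (hnd : Nd n Φ y) {V : Set U} (hV : V ∈ 𝓝 y) :
    ∃ ρ > 0, ∀ᶠ j in atTop, ball (Φ y) ρ ⊆ F j '' (V ∩ S j) := by
  obtain ⟨c⟩ := hU y y.2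
  have hyW : c.π y ∈ c.W := c.π_mem y y.2 c.mem
  obtain ⟨A, hA⟩ := exists_equiv (Φ := Φ) hn c c.mem hnd
  obtain ⟨r, hr, hrW, hev⟩ := ev_diff B c hyW
  have hb : ball (c.π (y : Fin N → ℂ)) r ⊆ c.W := ball_subset_closedBall.trans hrW
  have hdΦ : DifferentiableOn ℂ (loc c Φ) (ball (c.π (y : Fin N → ℂ)) r) :=
    (differentiableOn_loc c hΦ).mono hb
  have hV' : {w | w ∈ ball (c.π (y : Fin N → ℂ)) r ∧ ∃ hw : w ∈ c.W, cps c w hw ∈ V}
      ∈ 𝓝 (c.π (y : Fin N → ℂ)) := by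
    refine inter_mem (ball_mem_nhds _ hr) ?_
    refine eventually_cps c hyW ?_
    rw [cps_pi c c.mem]
    exact hV
  obtain ⟨ρ, hρ, h1⟩ := eventually_ball_subset_image (p := atTop) isOpen_ball
    (mem_ball_self hr) ((tlu_loc c hlim).mono hb)
    (hev.mono (fun j hj w' hw' =>
      (hj w' (ball_subset_closedBall hw')).2.differentiableWithinAt)) hdΦ A hA hV'
  refine ⟨ρ, hρ, ?_⟩
  filter_upwards [h1, hev] with j h2 h3 z hz
  rw [loc_pi c Φ c.mem] at h2
  obtain ⟨w, ⟨hwb, hwW, hwV⟩, hwz⟩ := h2 hz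
  obtain ⟨⟨h4, h5⟩, _⟩ := h3 w (ball_subset_closedBall hwb)
  refine ⟨cps c w hwW, ⟨hwV, h5⟩, ?_⟩
  rw [← hwz, loc_apply c (F j) hwW]

/-- **Step D**: injectivity -/
lemma inj_lim (B : BihSeq U F G S R)
    (hker : ∀ y : U, ∀ V ∈ 𝓝 y, ∃ ρ > 0, ∀ᶠ j in atTop, ball (Φ y) ρ ⊆ F j '' (V ∩ S j)) :
    Function.Injective Φ := by
  intro y y' h
  by_contra hne
  obtain ⟨V, V', hV, hV', hd⟩ := t2_separation_nhds hne
  obtain ⟨ρ, hρ, h1⟩ := hker y V hV
  obtain ⟨ρ', hρ', h2⟩ := hker y' V' hV'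
  obtain ⟨j, h3, h4⟩ := (h1.and h2).exists
  obtain ⟨a, ⟨ha, haS⟩, ha'⟩ := h3 (mem_ball_self hρ)
  obtain ⟨b, ⟨hb, hbS⟩, hb'⟩ := h4 (mem_ball_self hρ')
  have hab : a = b := by
    rw [← B.left j a haS, ← B.left j b hbS, ha', hb', h]
  rw [hab] at ha
  exact Set.disjoint_left.1 hd ha hb

/-- **Step E**: local inverse -/
lemma local_inv (hn : Module.finrank ℂ E = n) (hU : IsSubmfd n U) (hΦ : HolU U Φ)
    {y : U} (hnd : Nd n Φ y) :
    ∃ T : Set E, IsOpen T ∧ Φ y ∈ T ∧ T ⊆ range Φ ∧ ∃ θ : E → (Fin N → ℂ),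
      DifferentiableOn ℂ θ T ∧ ∀ z ∈ T, ∃ x : U, Φ x = z ∧ θ z = x := by
  obtain ⟨c⟩ := hU y y.2
  have hyW : c.π y ∈ c.W := c.π_mem y y.2 c.mem
  obtain ⟨A, hA⟩ := exists_equiv (Φ := Φ) hn c c.mem hnd
  have hdΦ : DifferentiableOn ℂ (loc c Φ) c.W := differentiableOn_loc c hΦ
  have haΦ := analyticOnNhd_of_differentiableOn c.hW hdΦ
  obtain ⟨e, he1, he2, he3, he4, he5⟩ := exists_analytic_openPartialHomeomorph
    (haΦ _ hyW) A (by rw [hA]; exact (haΦ _ hyW).differentiableAt.hasFDerivAt)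
    (c.hW.mem_nhds hyW)
  have hcW : ∀ z ∈ e.target, e.symm z ∈ c.W := fun z hz => he2 (e.map_target hz)
  have hval : ∀ z (hz : z ∈ e.target), Φ (cps c (e.symm z) (hcW z hz)) = z := by
    intro z hz
    rw [← loc_apply c Φ (hcW z hz), ← he3, e.right_inv hz]
  refine ⟨e.target, e.open_target, ?_, ?_, fun z => c.ψ (e.symm z), ?_, ?_⟩
  · have := e.map_source he1
    rw [he3, loc_pi c Φ c.mem] at this
    exact this
  · intro z hz
    exact ⟨_, hval z hz⟩
  · exact c.hψ.comp he5.differentiableOn hcW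
  · intro z hz
    exact ⟨cps c (e.symm z) (hcW z hz), hval z hz, rfl⟩

end Main

/-- **Module C3.** -/
theorem c3 : C3Stmt := by
  intro N n E _ _ _ U F G S R Φ x x' r hn hU hconn hbd B hlim hx hr hball
  have hΦ : HolU U Φ := holU_lim hU B hlim
  have hnd : ∀ y, Nd n Φ y := nd_all hn hbd hconn B hlim hΦ hU hx hr hball
  have hker : ∀ y : U, ∀ V ∈ 𝓝 y, ∃ ρ > 0, ∀ᶠ j in atTop, ball (Φ y) ρ ⊆ F j '' (V ∩ S j) :=
    fun y V hV => ker_lim hn hU B hlim hΦ (hnd y) hV
  have hinj : Function.Injective Φ := inj_lim B hker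
  have hloc := fun y => local_inv hn hU hΦ (hnd y)
  refine ⟨hΦ, hinj, ?_, ?_, hker⟩
  · rw [isOpen_iff_mem_nhds]
    rintro _ ⟨y, rfl⟩
    obtain ⟨T, hT, hyT, hTr, _⟩ := hloc y
    exact Filter.mem_of_superset (hT.mem_nhds hyT) hTr
  · classical
    refine ⟨fun z => if h : ∃ y : U, Φ y = z then ((h.choose : U) : Fin N → ℂ) else 0, ?_, ?_⟩
    · rintro _ ⟨y, rfl⟩
      obtain ⟨T, hT, hyT, hTr, θ, hθ, hθT⟩ := hloc y
      have h1 : DifferentiableAt ℂ θ (Φ y) := hθ.differentiableAt (hT.mem_nhds hyT)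
      refine (h1.congr_of_eventuallyEq ?_).differentiableWithinAt
      filter_upwards [hT.mem_nhds hyT] with z hz
      obtain ⟨x1, hx1, hx2⟩ := hθT z hz
      have h2 : ∃ y : U, Φ y = z := ⟨x1, hx1⟩
      rw [dif_pos h2, hx2]
      have h3 : h2.choose = x1 := hinj (h2.choose_spec.trans hx1.symm)
      rw [h3]
    · intro y
      have h2 : ∃ y' : U, Φ y' = Φ y := ⟨y, rfl⟩
      simp only [dif_pos h2]
      rw [hinj h2.choose_spec]

end Crest.Agent.R264.CI
end

-- ▼ part R264/CK1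
section

/-!
Row 264, Part C, module C4 (helper126): compactness lemma for `Γ`-cocompact `U`.
-/

set_option autoImplicit false

open Topology Filter Set Metric

namespace Crest.Agent.R264.CK

open Crest.AlgGeometry.Semialg

variable {N n : ℕ} {U : Set (Fin N → ℂ)} {Γ : Subgroup (Equiv.Perm U)}

theorem isClosed_alg {V : Set (Fin N → ℂ)} (h : IsAlgebraicSet V) : IsClosed V := by
  obtain ⟨I, rfl⟩ := h
  have : MvPolynomial.zeroLocus ℂ I = ⋂ p ∈ I, {x : Fin N → ℂ | MvPolynomial.aeval x p = 0} := by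
    ext x
    simp [MvPolynomial.mem_zeroLocus_iff]
  rw [this]
  refine isClosed_biInter fun p _ => ?_
  refine isClosed_eq ?_ continuous_const
  have h2 : (fun x : Fin N → ℂ => (MvPolynomial.aeval x) p) = fun x => MvPolynomial.eval x p := by
    funext x
    exact congrFun (congrArg DFunLike.coe (MvPolynomial.coe_aeval_eq_eval x)) p
  rw [h2]
  exact MvPolynomial.continuous_eval p

/-- a compact subset of `U` has a compact neighbourhood in `U` (metric form) -/
theorem exists_thick (S : Setup N U Γ) {K : Set (Fin N → ℂ)} (hK : IsCompact K) (hKU : K ⊆ U) :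
    ∃ δ > 0, ∃ K' ⊆ U, IsCompact K' ∧ K ⊆ K' ∧ ∀ x ∈ K, ∀ y ∈ U, dist y x ≤ δ → y ∈ K' := by
  obtain ⟨V, O, hV, hO, hU⟩ := S.alg
  obtain ⟨δ, hδ, hδO⟩ := hK.exists_cthickening_subset_open hO (hKU.trans (hU ▸ inter_subset_left))
  refine ⟨δ, hδ, cthickening δ K ∩ V, ?_, hK.cthickening.inter_right (isClosed_alg hV), ?_, ?_⟩
  · rw [hU]
    exact inter_subset_inter_left _ hδO
  · exact subset_inter (self_subset_cthickening K) (hKU.trans (hU ▸ inter_subset_right))
  · intro x hx y hy hxy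
    refine ⟨mem_cthickening_of_dist_le y x δ K hx hxy, ?_⟩
    rw [hU] at hy
    exact hy.2

theorem continuous_smul_of (S : Setup N U Γ) (γ : Γ) :
    Continuous (fun y : U => ((γ : Equiv.Perm U) y)) := by
  rw [continuous_induced_rng, continuous_iff_continuousAt]
  intro x
  obtain ⟨O, hO, hx, Φ, hΦ, h⟩ := S.hol γ γ.2 x
  have h1 : ContinuousAt (fun y : U => Φ y) x :=
    ((hΦ.differentiableAt (hO.mem_nhds hx)).continuousAt).comp continuous_subtype_val.continuousAt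
  refine h1.congr ?_
  filter_upwards [continuous_subtype_val.continuousAt.preimage_mem_nhds (hO.mem_nhds hx)] with y hy
  exact (h y hy).symm

theorem continuousConstSMul (S : Setup N U Γ) : ContinuousConstSMul Γ U :=
  ⟨fun γ => continuous_smul_of S γ⟩

theorem isCompact_sub {K : Set (Fin N → ℂ)} (hK : IsCompact K) (hKU : K ⊆ U) :
    IsCompact ((↑) ⁻¹' K : Set U) := by
  rw [Subtype.isCompact_iff, Subtype.image_preimage_coe, inter_eq_self_of_subset_right hKU]
  exact hK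

/-- existence of a compact fundamental set -/
theorem exists_K0 (S : Setup N U Γ) : ∃ K0 : Set (Fin N → ℂ), IsCompact K0 ∧ K0 ⊆ U ∧
    ∀ x : U, ∃ γ : Γ, ∃ y : U, (y : Fin N → ℂ) ∈ K0 ∧ (γ : Equiv.Perm U) y = x := by
  have := continuousConstSMul S
  have := S.cpt
  have key : ∀ x : U, ∃ K ⊆ U, IsCompact K ∧ ∃ W : Set U, IsOpen W ∧ x ∈ W ∧ (∀ y ∈ W, (y : Fin N → ℂ) ∈ K) := by
    intro x
    obtain ⟨δ, hδ, K', hK'U, hK', -, h⟩ := exists_thick S (isCompact_singleton (x := (x : Fin N → ℂ)))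
      (by simp)
    refine ⟨K', hK'U, hK', {y : U | dist (y : Fin N → ℂ) x < δ}, ?_, ?_, ?_⟩
    · exact isOpen_lt (by fun_prop) continuous_const
    · simpa using hδ
    · intro y hy
      exact h x rfl y y.2 (le_of_lt hy)
  choose K hKU hK W hW hxW hWK using key
  let q : U → Quotient (MulAction.orbitRel Γ U) := Quotient.mk _
  have hq : IsOpenMap q := isOpenMap_quotient_mk'_mul
  have hcov : (univ : Set (Quotient (MulAction.orbitRel Γ U))) ⊆ ⋃ x : U, q '' W x := by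
    intro z _
    obtain ⟨x, rfl⟩ := Quotient.exists_rep z
    exact mem_iUnion.2 ⟨x, x, hxW x, rfl⟩
  obtain ⟨t, ht⟩ := isCompact_univ.elim_finite_subcover (fun x : U => q '' W x)
    (fun x => hq _ (hW x)) hcov
  refine ⟨⋃ x ∈ t, K x, t.isCompact_biUnion fun x _ => hK x, iUnion₂_subset fun x _ => hKU x, ?_⟩
  intro z
  have hz := ht (mem_univ (q z))
  simp only [mem_iUnion] at hz
  obtain ⟨x, hx, y, hy, hyz⟩ := hz
  have : (MulAction.orbitRel Γ U) y z := Quotient.exact hyz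
  rw [MulAction.orbitRel_apply] at this
  obtain ⟨γ, hγ⟩ := this
  refine ⟨γ⁻¹, y, mem_iUnion₂.2 ⟨x, hx, hWK x y hy⟩, ?_⟩
  have : γ⁻¹ • y = z := by rw [← hγ]; simp
  exact this

theorem finite_meet (S : Setup N U Γ) {K L : Set (Fin N → ℂ)} (hK : IsCompact K) (hKU : K ⊆ U)
    (hL : IsCompact L) (hLU : L ⊆ U) :
    {γ : Γ | ∃ x : U, (x : Fin N → ℂ) ∈ K ∧ (((γ : Equiv.Perm U) x : U) : Fin N → ℂ) ∈ L}.Finite := by
  have := S.pd
  refine (ProperlyDiscontinuousSMul.finite_disjoint_inter_image (Γ := Γ) (isCompact_sub hK hKU)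
    (isCompact_sub hL hLU)).subset ?_
  rintro γ ⟨x, hx, hx'⟩
  exact ⟨(γ : Equiv.Perm U) x, ⟨x, hx, rfl⟩, hx'⟩

/-- the image of a compact set under an element of `Γ` -/
theorem isCompact_image (S : Setup N U Γ) (γ : Γ) {K : Set (Fin N → ℂ)} (hK : IsCompact K)
    (hKU : K ⊆ U) :
    IsCompact {y : Fin N → ℂ | ∃ x : U, (x : Fin N → ℂ) ∈ K ∧ (((γ : Equiv.Perm U) x : U) : Fin N → ℂ) = y} := by
  have := (isCompact_sub hK hKU).image (continuous_subtype_val.comp (continuous_smul_of S γ))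
  exact this

/-- composition of a holomorphic map into `U` with an element of `Γ` -/
theorem comp_gamma {E : Type*} [NormedAddCommGroup E] [NormedSpace ℂ E] (S : Setup N U Γ) (γ : Γ)
    {D : Set E} (hD : IsOpen D) {f : E → (Fin N → ℂ)} (hf : DifferentiableOn ℂ f D)
    (hfU : MapsTo f D U) : ∃ g : E → (Fin N → ℂ), DifferentiableOn ℂ g D ∧ MapsTo g D U ∧
      ∀ z (hz : z ∈ D), g z = ((γ : Equiv.Perm U) ⟨f z, hfU hz⟩ : U) := by
  classical
  let g : E → (Fin N → ℂ) := fun z => if hz : z ∈ D then ((γ : Equiv.Perm U) ⟨f z, hfU hz⟩ : U) else 0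
  have hg : ∀ z (hz : z ∈ D), g z = ((γ : Equiv.Perm U) ⟨f z, hfU hz⟩ : U) := by
    intro z hz
    simp [g, hz]
  refine ⟨g, ?_, ?_, hg⟩
  · intro z hz
    obtain ⟨O, hO, hx, Φ, hΦ, h⟩ := S.hol γ γ.2 ⟨f z, hfU hz⟩
    have hfz : DifferentiableAt ℂ f z := hf.differentiableAt (hD.mem_nhds hz)
    have h1 : DifferentiableAt ℂ (fun w => Φ (f w)) z :=
      (hΦ.differentiableAt (hO.mem_nhds hx)).comp z hfz
    refine (h1.congr_of_eventuallyEq ?_).differentiableWithinAt
    filter_upwards [hD.mem_nhds hz, hfz.continuousAt.preimage_mem_nhds (hO.mem_nhds hx)] with w hw hw'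
    rw [hg w hw]
    exact h ⟨f w, hfU hw⟩ hw'
  · intro z hz
    rw [hg z hz]
    exact ((γ : Equiv.Perm U) ⟨f z, hfU hz⟩ : U).2

/-- COMPACTNESS LEMMA: holomorphic maps of a ball of radius `r` into `U` move compact sets only
inside compact sets, on a ball of uniform radius `ρ`. -/
theorem compactness {E : Type*} [NormedAddCommGroup E] [NormedSpace ℂ E] (S : Setup N U Γ)
    {r : ℝ} (hr : 0 < r) : ∃ ρ, 0 < ρ ∧ ρ < r ∧ ∀ K ⊆ U, IsCompact K → ∃ K' ⊆ U, IsCompact K' ∧ K ⊆ K' ∧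
      ∀ (ξ : E) (f : E → (Fin N → ℂ)), DifferentiableOn ℂ f (ball ξ r) → MapsTo f (ball ξ r) U →
        f ξ ∈ K → MapsTo f (closedBall ξ ρ) K' := by
  obtain ⟨K0, hK0, hK0U, hcov⟩ := exists_K0 S
  obtain ⟨δ, hδ, K1, hK1U, hK1, hK01, hth⟩ := exists_thick S hK0 hK0U
  set D := diam U with hDdef
  have hD0 : 0 ≤ D := diam_nonneg
  have hpos : 0 < δ / (D + 1) := by positivity
  refine ⟨min (r / 2) (δ / (D + 1) * r), by positivity, (min_le_left _ _).trans_lt (by linarith), ?_⟩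
  have base : ∀ (ξ : E) (f : E → (Fin N → ℂ)), DifferentiableOn ℂ f (ball ξ r) →
      MapsTo f (ball ξ r) U → f ξ ∈ K0 → MapsTo f (closedBall ξ (min (r / 2) (δ / (D + 1) * r))) K1 := by
    intro ξ f hf hfU hξ y hy
    rw [mem_closedBall] at hy
    have hyr : y ∈ ball ξ r := by
      rw [mem_ball]
      exact (hy.trans (min_le_left _ _)).trans_lt (by linarith)
    have hmaps : MapsTo f (ball ξ r) (closedBall (f ξ) D) := by
      intro z hz
      rw [mem_closedBall]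
      exact dist_le_diam_of_mem S.bdd (hfU hz) (hfU (mem_ball_self hr))
    have := Complex.dist_le_div_mul_dist_of_mapsTo_ball hf hmaps hyr
    refine hth _ hξ _ (hfU hyr) (this.trans ?_)
    calc D / r * dist y ξ ≤ D / r * (δ / (D + 1) * r) := by
          gcongr
          exact hy.trans (min_le_right _ _)
      _ = D / (D + 1) * δ := by field_simp
      _ ≤ 1 * δ := by
          gcongr
          rw [div_le_one (by positivity)]
          linarith
      _ = δ := one_mul δ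
  intro K hKU hK
  have hfin := finite_meet S hK0 hK0U hK hKU
  refine ⟨K ∪ ⋃ γ ∈ hfin.toFinset, {y : Fin N → ℂ | ∃ x : U, (x : Fin N → ℂ) ∈ K1 ∧
      (((γ : Equiv.Perm U) x : U) : Fin N → ℂ) = y}, ?_, ?_, subset_union_left, ?_⟩
  · refine union_subset hKU (iUnion₂_subset ?_)
    rintro γ _ y ⟨x, _, rfl⟩
    exact Subtype.coe_prop _
  · refine hK.union (hfin.toFinset.isCompact_biUnion fun γ _ => isCompact_image S γ hK1 hK1U)
  · intro ξ f hf hfU hξ y hy
    refine Or.inr ?_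
    have hξr : ξ ∈ ball ξ r := mem_ball_self hr
    have hyr : y ∈ ball ξ r := by
      rw [mem_ball]
      rw [mem_closedBall] at hy
      exact (hy.trans (min_le_left _ _)).trans_lt (by linarith)
    obtain ⟨γ, k, hk, hγk⟩ := hcov ⟨f ξ, hfU hξr⟩
    obtain ⟨g, hg, hgU, hgf⟩ := comp_gamma S γ⁻¹ isOpen_ball hf hfU
    have hgξ : g ξ = k := by
      rw [hgf ξ hξr, ← hγk]
      simp
    have h1 := base ξ g hg hgU (by rw [hgξ]; exact hk) hy
    have hγ : γ ∈ hfin.toFinset := by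
      rw [Set.Finite.mem_toFinset]
      refine ⟨k, hk, ?_⟩
      rw [hγk]
      exact hξ
    refine mem_iUnion₂.2 ⟨γ, hγ, ⟨g y, hgU hyr⟩, h1, ?_⟩
    have : (⟨g y, hgU hyr⟩ : U) = ((γ⁻¹ : Γ) : Equiv.Perm U) ⟨f y, hfU hyr⟩ := by
      ext1
      exact hgf y hyr
    rw [this]
    simp

end Crest.Agent.R264.CK
end

-- ▼ part R264/CK2
section

/-!
Row 264, Part C, module C4 (helper126): chains of balls, the limit domain is closed and the
kernel theorem (balls inside images of converging sequences).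
-/

set_option autoImplicit false

open Topology Filter Set Metric

namespace Crest.Agent.R264.CK

open Crest.AlgGeometry.Semialg

variable {N n : ℕ} {U : Set (Fin N → ℂ)} {Γ : Subgroup (Equiv.Perm U)}

section Chain

variable {E : Type*} [NormedAddCommGroup E] [NormedSpace ℂ E]

/-- CHAIN LEMMA: a holomorphic map `ball q (2 r) → U` taking one value (over `closedBall q r`) in
the compact set `K` maps `closedBall q r` into a compact set depending only on `K` and `r`. -/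
theorem chain (S : Setup N U Γ) {r : ℝ} (hr : 0 < r) {K : Set (Fin N → ℂ)} (hKU : K ⊆ U)
    (hK : IsCompact K) : ∃ K' ⊆ U, IsCompact K' ∧ K ⊆ K' ∧
      ∀ (q : E) (f : E → (Fin N → ℂ)), DifferentiableOn ℂ f (ball q (2 * r)) →
        MapsTo f (ball q (2 * r)) U → (∃ y₀ ∈ closedBall q r, f y₀ ∈ K) →
        MapsTo f (closedBall q r) K' := by
  obtain ⟨ρ, hρ, hρr, H⟩ := compactness (E := E) S hr
  have main : ∀ m : ℕ, ∃ K' ⊆ U, IsCompact K' ∧ K ⊆ K' ∧
      ∀ (q : E) (f : E → (Fin N → ℂ)), DifferentiableOn ℂ f (ball q (2 * r)) →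
        MapsTo f (ball q (2 * r)) U → ∀ y₀ ∈ closedBall q r, f y₀ ∈ K →
        ∀ y ∈ closedBall q r, dist y y₀ ≤ m * ρ → f y ∈ K' := by
    intro m
    induction m with
    | zero =>
      refine ⟨K, hKU, hK, Subset.rfl, ?_⟩
      intro q f _ _ y₀ _ hy₀ y _ hyy
      have : dist y y₀ = 0 := le_antisymm (by simpa using hyy) dist_nonneg
      rw [dist_eq_zero] at this
      rwa [this]
    | succ m ih =>
      obtain ⟨K1, hK1U, hK1, hKK1, h1⟩ := ih
      obtain ⟨K2, hK2U, hK2, hKK2, h2⟩ := H K1 hK1U hK1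
      refine ⟨K2, hK2U, hK2, hKK1.trans hKK2, ?_⟩
      intro q f hf hfU y₀ hy₀ hfy₀ y hy hyy
      set t : ℝ := (m : ℝ) / (m + 1) with ht
      have ht0 : 0 ≤ t := by positivity
      have ht1 : t ≤ 1 := by
        rw [ht, div_le_one (by positivity)]
        linarith
      have h1t : 1 - t = 1 / (m + 1) := by
        rw [ht]
        field_simp
        ring
      set y' : E := y₀ + t • (y - y₀) with hy'
      have hy'mem : y' ∈ closedBall q r :=
        (convex_closedBall q r).add_smul_sub_mem hy₀ hy ⟨ht0, ht1⟩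
      have hd1 : dist y' y₀ ≤ m * ρ := by
        rw [hy', dist_eq_norm, add_sub_cancel_left, norm_smul, Real.norm_of_nonneg ht0,
          ← dist_eq_norm]
        calc t * dist y y₀ ≤ t * ((m + 1 : ℕ) * ρ) := by gcongr
          _ = m * ρ := by
            rw [ht]
            push_cast
            field_simp
      have hd2 : dist y y' ≤ ρ := by
        have : y - y' = (1 - t) • (y - y₀) := by
          rw [hy', sub_smul, one_smul]
          abel
        rw [dist_eq_norm, this, norm_smul, Real.norm_of_nonneg (by linarith), ← dist_eq_norm, h1t]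
        calc 1 / ((m : ℝ) + 1) * dist y y₀ ≤ 1 / ((m : ℝ) + 1) * ((m + 1 : ℕ) * ρ) := by gcongr
          _ = ρ := by
            push_cast
            field_simp
      have hsub : ball y' r ⊆ ball q (2 * r) := by
        intro z hz
        rw [mem_ball] at hz ⊢
        rw [mem_closedBall] at hy'mem
        linarith [dist_triangle z y' q]
      have hK1 : f y' ∈ K1 := h1 q f hf hfU y₀ hy₀ hfy₀ y' hy'mem hd1
      exact h2 y' f (hf.mono hsub) (hfU.mono_left hsub) hK1 (mem_closedBall.2 hd2)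
  obtain ⟨m, hm⟩ := exists_nat_ge (2 * r / ρ)
  obtain ⟨K', hK'U, hK', hKK', h⟩ := main m
  refine ⟨K', hK'U, hK', hKK', ?_⟩
  rintro q f hf hfU ⟨y₀, hy₀, hfy₀⟩ y hy
  refine h q f hf hfU y₀ hy₀ hfy₀ y hy ?_
  rw [div_le_iff₀ hρ] at hm
  refine le_trans ?_ hm
  rw [mem_closedBall] at hy hy₀
  linarith [dist_triangle_right y y₀ q]

/-- The image of the limit map is relatively closed in the kernel. -/
theorem mem_of_closure (S : Setup N U Γ) {F : ℕ → U → E} {G : ℕ → E → U} {X : ℕ → Set U}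
    {R : ℕ → Set E} (B : CI.BihSeq U F G X R) {Φ : U → E} (hcont : Continuous Φ)
    (hlim : TendstoLocallyUniformly F Φ atTop) {q : E} {r : ℝ} (hr : 0 < r)
    (hq : ∀ᶠ j in atTop, ball q r ⊆ R j) (hcl : q ∈ closure (range Φ)) : q ∈ range Φ := by
  obtain ⟨y, ⟨x, rfl⟩, hxy⟩ := mem_closure_iff.1 hcl (r / 2) (by positivity)
  rw [dist_comm] at hxy
  have hr2 : 2 * (r / 2) = r := by ring
  obtain ⟨K, hKU, hK, hxK, hch⟩ := chain (E := E) S (half_pos hr) (K := {(x : Fin N → ℂ)}) (by simp)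
    isCompact_singleton
  rw [hr2] at hch
  have hK' : IsCompact ((↑) ⁻¹' K : Set U) := isCompact_sub hK hKU
  have hpt : Tendsto (fun j => F j x) atTop (𝓝 (Φ x)) :=
    hlim.tendstoLocallyUniformlyOn.tendsto_at (mem_univ x)
  have hnear : ∀ᶠ j in atTop, F j x ∈ ball q (r / 2) := hpt.eventually (isOpen_ball.mem_nhds hxy)
  have hxX : ∀ᶠ j in atTop, x ∈ X j := by
    filter_upwards [B.exh {x} isCompact_singleton] with j hj using hj rfl
  have hK2 : ∀ᶠ j in atTop, ((G j q : U) : Fin N → ℂ) ∈ K ∧ F j (G j q) = q := by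
    filter_upwards [hnear, hq, hxX] with j h1 h2 h3
    have hq' : q ∈ closedBall q (r / 2) := mem_closedBall_self (by positivity)
    have hqV : q ∈ R j := h2 (mem_ball_self hr)
    refine ⟨?_, B.right j q hqV⟩
    refine hch q (fun z => (G j z : Fin N → ℂ)) ((B.holG j).mono h2) (fun z _ => (G j z).2)
      ⟨F j x, ball_subset_closedBall h1, ?_⟩ hq'
    show ((G j (F j x) : U) : Fin N → ℂ) ∈ ({(x : Fin N → ℂ)} : Set (Fin N → ℂ))
    rw [B.left j x h3]
    rfl
  have hunif : TendstoUniformlyOn F Φ atTop ((↑) ⁻¹' K : Set U) :=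
    (tendstoLocallyUniformlyOn_iff_tendstoUniformlyOn_of_compact hK').1 hlim.tendstoLocallyUniformlyOn
  have hlimq : Tendsto (fun j => Φ (G j q)) atTop (𝓝 q) := by
    rw [Metric.tendsto_nhds]
    intro ε hε
    filter_upwards [Metric.tendstoUniformlyOn_iff.1 hunif ε hε, hK2] with j h1 h2
    have := h1 _ h2.1
    rwa [h2.2] at this
  have hcomp : IsCompact (Φ '' ((↑) ⁻¹' K : Set U)) := hK'.image hcont
  have : q ∈ Φ '' ((↑) ⁻¹' K : Set U) := hcomp.isClosed.mem_of_tendsto hlimq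
    (hK2.mono fun j h => mem_image_of_mem _ h.1)
  exact image_subset_range _ _ this

end Chain

end Crest.Agent.R264.CK
end

-- ▼ part R264/CK3

/-!
Row 264, Part C, module C4 (helper126): `PropC34` from `C3Stmt`.
-/

set_option autoImplicit false

open Topology Filter Set Metric

namespace Crest.Agent.R264.CK

open Crest.AlgGeometry.Semialg

section Dil

variable {m k : ℕ}

theorem differentiable_Dil (ε : ℝ) : Differentiable ℂ (Dil (m := m) (k := k) ε) := by
  unfold Dil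
  fun_prop

theorem Dil_Dil_inv {ε : ℝ} (hε : ε ≠ 0) (y : EE m k) : Dil ε (Dil ε⁻¹ y) = y := by
  have h : (ε : ℂ) ≠ 0 := by exact_mod_cast hε
  unfold Dil
  refine Prod.ext ?_ ?_
  · funext i
    simp only [Pi.smul_apply, smul_eq_mul, Complex.ofReal_inv]
    field_simp
  · funext i
    simp only [Pi.smul_apply, smul_eq_mul, Complex.ofReal_inv]
    field_simp

theorem Dil_inv_Dil {ε : ℝ} (hε : ε ≠ 0) (y : EE m k) : Dil ε⁻¹ (Dil ε y) = y := by
  have := Dil_Dil_inv (m := m) (k := k) (inv_ne_zero hε) y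
  rwa [inv_inv] at this

end Dil

variable {N : ℕ} {U : Set (Fin N → ℂ)} {n : ℕ} {Γ : Subgroup (Equiv.Perm U)}

open Classical in
/-- the maps `Ψ_j = φ_j⁻¹ ∘ χ ∘ Dil ε_j` -/
noncomputable def GG {P : PeakData U n} (T : ScaleSeq Γ P) (j : ℕ) (z : EE P.m P.k) : U :=
  if hz : Dil (T.ε j) z ∈ P.UU then (T.φ j).symm ⟨P.χ (Dil (T.ε j) z), (P.χ_mem _ hz).1⟩ else T.xs

theorem GG_of_mem {P : PeakData U n} (T : ScaleSeq Γ P) {j : ℕ} {z : EE P.m P.k}
    (hz : Dil (T.ε j) z ∈ P.UU) :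
    GG T j z = (T.φ j).symm ⟨P.χ (Dil (T.ε j) z), (P.χ_mem _ hz).1⟩ := by
  simp [GG, hz]

theorem bihSeq (S : Setup N U Γ) {P : PeakData U n} (T : ScaleSeq Γ P) :
    CI.BihSeq U (fun j y => Dil (T.ε j)⁻¹ (P.κ (T.φ j y : U))) (GG T)
      (fun j => {y : U | ((T.φ j y : U) : Fin N → ℂ) ∈ P.O})
      (fun j => {z | Dil (T.ε j) z ∈ P.UU}) where
  S_open j := by
    have h : Continuous (fun y : U => ((T.φ j y : U) : Fin N → ℂ)) :=
      continuous_subtype_val.comp (continuous_smul_of S ⟨T.φ j, T.hφ j⟩)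
    exact P.hO.preimage h
  R_open j := P.hUU.preimage (differentiable_Dil _).continuous
  holF j := by
    intro x hx
    obtain ⟨O, hO, hxO, g, hg, hgx⟩ := S.hol (T.φ j) (T.hφ j) x
    refine ⟨O ∩ g ⁻¹' P.O, hg.continuousOn.isOpen_inter_preimage hO P.hO, ⟨hxO, ?_⟩,
      fun y => Dil (T.ε j)⁻¹ (P.κ (g y)), ?_, ?_⟩
    · rw [mem_preimage, ← hgx x hxO]
      exact hx
    · refine (differentiable_Dil _).comp_differentiableOn (P.hκ.comp (hg.mono inter_subset_left) ?_)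
      intro y hy
      exact hy.2
    · intro y _ hyO
      show Dil (T.ε j)⁻¹ (P.κ (T.φ j y : U)) = Dil (T.ε j)⁻¹ (P.κ (g y))
      rw [← hgx y hyO.1]
  holG j := by
    have hD : IsOpen {z | Dil (T.ε j) z ∈ P.UU} := P.hUU.preimage (differentiable_Dil _).continuous
    have hf : DifferentiableOn ℂ (fun z => P.χ (Dil (T.ε j) z)) {z | Dil (T.ε j) z ∈ P.UU} :=
      P.hχ.comp (differentiable_Dil _).differentiableOn fun z hz => hz
    have hfU : MapsTo (fun z => P.χ (Dil (T.ε j) z)) {z | Dil (T.ε j) z ∈ P.UU} U :=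
      fun z hz => (P.χ_mem _ hz).1
    obtain ⟨g, hg, -, hgf⟩ := comp_gamma S ⟨(T.φ j)⁻¹, Γ.inv_mem (T.hφ j)⟩ hD hf hfU
    refine hg.congr ?_
    intro z hz
    rw [hgf z hz]
    show ((GG T j z : U) : Fin N → ℂ) = _
    rw [GG_of_mem T hz]
    rfl
  mapsF j := by
    intro y hy
    show Dil (T.ε j) (Dil (T.ε j)⁻¹ (P.κ (T.φ j y : U))) ∈ P.UU
    rw [Dil_Dil_inv (T.ε_pos j).ne']
    exact P.κ_mem _ (T.φ j y : U).2 hy
  mapsG j := by
    intro z hz
    show ((T.φ j (GG T j z) : U) : Fin N → ℂ) ∈ P.O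
    rw [GG_of_mem T hz, Equiv.apply_symm_apply]
    exact (P.χ_mem _ hz).2
  left j := by
    intro y hy
    have hz : Dil (T.ε j) (Dil (T.ε j)⁻¹ (P.κ (T.φ j y : U))) ∈ P.UU := by
      rw [Dil_Dil_inv (T.ε_pos j).ne']
      exact P.κ_mem _ (T.φ j y : U).2 hy
    rw [GG_of_mem T hz, Equiv.symm_apply_eq]
    ext1
    show P.χ (Dil (T.ε j) (Dil (T.ε j)⁻¹ (P.κ (T.φ j y : U)))) = _
    rw [Dil_Dil_inv (T.ε_pos j).ne', P.χ_κ _ (T.φ j y : U).2 hy]
  right j := by
    intro z hz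
    show Dil (T.ε j)⁻¹ (P.κ (T.φ j (GG T j z) : U)) = z
    rw [GG_of_mem T hz, Equiv.apply_symm_apply]
    show Dil (T.ε j)⁻¹ (P.κ (P.χ (Dil (T.ε j) z))) = z
    rw [P.κ_χ _ hz, Dil_inv_Dil (T.ε_pos j).ne']
  exh K hK := by
    filter_upwards [T.ev_mem K hK] with j hj y hy using hj y hy

theorem continuous_of_isHol {F : Type*} [NormedAddCommGroup F] [NormedSpace ℂ F] {f : U → F}
    (h : IsHol U f) : Continuous f := by
  rw [continuous_iff_continuousAt]
  intro x
  obtain ⟨O, hO, hx, g, hg, he⟩ := h x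
  have h2 : ContinuousAt (fun y : U => g y) x :=
    ContinuousAt.comp (f := fun y : U => (y : Fin N → ℂ))
      ((hg x hx).differentiableAt (hO.mem_nhds hx)).continuousAt continuous_subtype_val.continuousAt
  refine h2.congr ?_
  filter_upwards [continuous_subtype_val.continuousAt.eventually (hO.mem_nhds hx)] with y hy
  exact (he y hy).symm

/-- the boxes of Theorem B become balls of fixed radius after rescaling -/
theorem ball_subset_R {P : PeakData U n} (T : ScaleSeq Γ P) (j : ℕ) :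
    ball (Dil (T.ε j)⁻¹ (P.κ (T.φ j (T.x j) : U))) P.c ⊆ {z | Dil (T.ε j) z ∈ P.UU} := by
  intro z hz
  have hε := T.ε_pos j
  have hεc : (T.ε j : ℂ) ≠ 0 := by exact_mod_cast hε.ne'
  have ht : 0 < T.ε j ^ 2 := by positivity
  rw [mem_ball, T.κφx j] at hz
  have hDil : Dil (T.ε j)⁻¹ ((0, (Complex.I * ((T.ε j ^ 2 : ℝ) : ℂ)) • cvec (P.e (T.ε j ^ 2))) :
      EE P.m P.k) = (0, Complex.I • cvec (P.e (T.ε j ^ 2))) := by
    unfold Dil
    refine Prod.ext ?_ ?_
    · simp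
    · funext i
      simp only [Pi.smul_apply, smul_eq_mul, Complex.ofReal_inv, Complex.ofReal_pow]
      field_simp
  rw [hDil, Prod.dist_eq, max_lt_iff] at hz
  refine P.box (T.ε j ^ 2) ht (T.ε_lt j) _ ?_ ?_
  · show ‖(T.ε j : ℂ) • z.1‖ < _
    rw [norm_smul, Complex.norm_real, Real.norm_of_nonneg hε.le, Real.sqrt_sq hε.le, mul_comm]
    have : ‖z.1‖ < P.c := by simpa [dist_eq_norm] using hz.1
    gcongr
  · show ‖((T.ε j : ℂ) ^ 2) • z.2 - _‖ < _
    have h1 : ((T.ε j : ℂ) ^ 2) • z.2 - (Complex.I * ((T.ε j ^ 2 : ℝ) : ℂ)) • cvec (P.e (T.ε j ^ 2))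
        = ((T.ε j : ℂ) ^ 2) • (z.2 - Complex.I • cvec (P.e (T.ε j ^ 2))) := by
      rw [smul_sub, smul_smul]
      congr 2
      push_cast
      ring
    rw [h1, norm_smul, norm_pow, Complex.norm_real, Real.norm_of_nonneg hε.le, mul_comm]
    have : ‖z.2 - Complex.I • cvec (P.e (T.ε j ^ 2))‖ < P.c := by
      simpa [dist_eq_norm] using hz.2
    gcongr

theorem finrank_EE (P : PeakData U n) : Module.finrank ℂ (EE P.m P.k) = n := by
  simp [EE, Module.finrank_prod, P.hmk]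

/-- C3 + C4 from C3. -/
theorem propC34_of (h3 : CI.C3Stmt) : PropC34 := by
  intro N U Γ S n hn hsub P T
  have B := bihSeq S T
  have hc : CI.C3Out U (fun j y => Dil (T.ε j)⁻¹ (P.κ (T.φ j y : U)))
      (fun j => {y : U | ((T.φ j y : U) : Fin N → ℂ) ∈ P.O}) T.Φ :=
    h3 N n (EE P.m P.k) U _ (GG T) _ _ T.Φ T.x T.xs P.c (finrank_EE P) hsub S.conn S.bdd B T.lim
      T.hx P.hc (Eventually.of_forall fun j => ball_subset_R T j)
  obtain ⟨Θ, hΘ, hΘl⟩ := hc.inv
  have hεlim : Tendsto T.ε atTop (𝓝[>] (0 : ℝ)) := by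
    rw [tendsto_nhdsWithin_iff]
    exact ⟨T.ε_lim, Eventually.of_forall fun j => T.ε_pos j⟩
  refine ⟨⟨Θ, hΘl, hΘ, hc.isOpen, ?_, ?_⟩⟩
  · rintro _ ⟨x, rfl⟩
    obtain ⟨ρ, hρ, hball⟩ := hc.ker x univ univ_mem
    refine P.kernel₂ _ ρ hρ ?_
    refine hεlim.frequently (p := fun ε => ∀ y ∈ ball (T.Φ x) ρ, Dil ε y ∈ P.UU) ?_
    refine (hball.mono fun j hj y hy => ?_).frequently
    obtain ⟨w, ⟨-, hw⟩, rfl⟩ := hj hy
    exact B.mapsF j hw
  · intro q hq hcl
    obtain ⟨r, hr, h⟩ := P.kernel₁ q hq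
    exact mem_of_closure S B (continuous_of_isHol T.hΦ) T.lim hr (hεlim.eventually h) hcl

end Crest.Agent.R264.CK
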