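import Crest.Agent.R264.TopDefs
import Crest.Agent.R264.CPDefs
import Crest.Agent.R264.TopSetup

-- ▼ part R264/CN1
section

/-!
Row 264, module CN (helper190), part 1: relative holomorphy on a submanifold `U ⊆ ℂ^N`
and ball charts.
-/

set_option autoImplicit false

open Topology Filter Set Metric

namespace Crest.Agent.R264.CN

open Crest.Agent.R264 Crest.AlgGeometry.Semialg

variable {N n : ℕ} {F : Type*} [NormedAddCommGroup F] [NormedSpace ℂ F]
  {G : Type*} [NormedAddCommGroup G] [NormedSpace ℂ G] {U : Set (Fin N → ℂ)}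

/-- `f : U → F` is holomorphic at `x : U` (restriction of an ambient holomorphic map near `x`). -/
def HolAt (U : Set (Fin N → ℂ)) (f : U → F) (x : U) : Prop :=
  ∃ O : Set (Fin N → ℂ), IsOpen O ∧ (x : Fin N → ℂ) ∈ O ∧
    ∃ g : (Fin N → ℂ) → F, DifferentiableOn ℂ g O ∧ ∀ y : U, (y : Fin N → ℂ) ∈ O → f y = g y

/-- `f : U → F` is holomorphic. -/
def HolU (U : Set (Fin N → ℂ)) (f : U → F) : Prop :=
  ∀ x : U, ∃ O : Set (Fin N → ℂ), IsOpen O ∧ (x : Fin N → ℂ) ∈ O ∧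
    ∃ g : (Fin N → ℂ) → F, DifferentiableOn ℂ g O ∧ ∀ y : U, (y : Fin N → ℂ) ∈ O → f y = g y


theorem HolU.holAt {f : U → F} (h : HolU U f) (x : U) : HolAt U f x := h x


theorem HolAt.eventually {f : U → F} {x : U} (h : HolAt U f x) : ∀ᶠ y in 𝓝 x, HolAt U f y := by
  obtain ⟨O, hO, hx, g, hg, h⟩ := h
  have : ∀ᶠ y : U in 𝓝 x, (y : Fin N → ℂ) ∈ O :=
    continuous_subtype_val.continuousAt.eventually (hO.mem_nhds hx)
  filter_upwards [this] with y hy
  exact ⟨O, hO, hy, g, hg, h⟩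

theorem HolAt.continuousAt {f : U → F} {x : U} (h : HolAt U f x) : ContinuousAt f x := by
  obtain ⟨O, hO, hx, g, hg, h⟩ := h
  have h1 : ContinuousAt (fun y : U => g y) x :=
    ((hg.differentiableAt (hO.mem_nhds hx)).continuousAt).comp
      (continuous_subtype_val.continuousAt)
  refine h1.congr ?_
  have : ∀ᶠ y : U in 𝓝 x, (y : Fin N → ℂ) ∈ O :=
    continuous_subtype_val.continuousAt.eventually (hO.mem_nhds hx)
  filter_upwards [this] with y hy
  exact (h y hy).symm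

theorem HolU.continuous {f : U → F} (h : HolU U f) : Continuous f :=
  continuous_iff_continuousAt.2 fun x => (h.holAt x).continuousAt

/-- Composition with a map holomorphic near the value. -/
theorem HolAt.comp {f : U → F} {x : U} (h : HolAt U f x) {k : F → G} {B : Set F} (hB : IsOpen B)
    (hk : DifferentiableOn ℂ k B) (hx : f x ∈ B) : HolAt U (fun y => k (f y)) x := by
  obtain ⟨O, hO, hx', g, hg, h⟩ := h
  have h1 : IsOpen (O ∩ g ⁻¹' B) := hg.continuousOn.isOpen_inter_preimage hO hB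
  refine ⟨O ∩ g ⁻¹' B, h1, ⟨hx', ?_⟩, fun z => k (g z), ?_, ?_⟩
  · show g x ∈ B
    rw [← h x hx']; exact hx
  · exact hk.comp (hg.mono inter_subset_left) (fun z hz => hz.2)
  · intro y hy
    show k (f y) = k (g y)
    rw [h y hy.1]

theorem HolU.comp {f : U → F} (h : HolU U f) {k : F → G} (hk : Differentiable ℂ k) :
    HolU U (fun y => k (f y)) := fun x =>
  (h.holAt x).comp isOpen_univ hk.differentiableOn (mem_univ _)


theorem HolAt.prodMk {f : U → F} {g : U → G} {x : U} (hf : HolAt U f x) (hg : HolAt U g x) :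
    HolAt U (fun y => (f y, g y)) x := by
  obtain ⟨O, hO, hx, a, ha, h⟩ := hf
  obtain ⟨O', hO', hx', b, hb, h'⟩ := hg
  refine ⟨O ∩ O', hO.inter hO', ⟨hx, hx'⟩, fun z => (a z, b z),
    (ha.mono inter_subset_left).prodMk (hb.mono inter_subset_right), ?_⟩
  intro y hy
  show (f y, g y) = (a y, b y)
  rw [h y hy.1, h' y hy.2]

/-- A ball chart of `U` at `x`. -/
structure BC (n : ℕ) (U : Set (Fin N → ℂ)) (x : U) where
  e : (Fin n → ℂ) → U
  p : (Fin N → ℂ) → (Fin n → ℂ)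
  O : Set (Fin N → ℂ)
  hO : IsOpen O
  mem : (x : Fin N → ℂ) ∈ O
  e0 : e 0 = x
  de : DifferentiableOn ℂ (fun w => (e w : Fin N → ℂ)) (ball 0 1)
  dp : DifferentiableOn ℂ p O
  e_mem : ∀ w ∈ ball (0 : Fin n → ℂ) 1, (e w : Fin N → ℂ) ∈ O
  pe : ∀ w ∈ ball (0 : Fin n → ℂ) 1, p (e w) = w
  p_mem : ∀ y : U, (y : Fin N → ℂ) ∈ O → p y ∈ ball (0 : Fin n → ℂ) 1
  ep : ∀ y : U, (y : Fin N → ℂ) ∈ O → e (p y) = y

theorem exists_BC (hU : IsSubmfd n U) (x : U) : Nonempty (BC n U x) := by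
  classical
  obtain ⟨c⟩ := hU x x.2
  have hx0 : c.π x ∈ c.W := c.π_mem x x.2 c.mem
  obtain ⟨r, hr, hrW⟩ := Metric.isOpen_iff.1 c.hW _ hx0
  have hmap : ∀ w ∈ ball (0 : Fin n → ℂ) 1, c.π x + (r : ℂ) • w ∈ ball (c.π x) r := by
    intro w hw
    rw [mem_ball, dist_eq_norm] at *
    rw [add_sub_cancel_left, norm_smul]
    rw [sub_zero] at hw
    simp only [Complex.norm_real, Real.norm_eq_abs, abs_of_pos hr]
    nlinarith
  let e : (Fin n → ℂ) → U := fun w =>
    if h : w ∈ ball (0 : Fin n → ℂ) 1 then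
      ⟨c.ψ (c.π x + (r : ℂ) • w), (c.ψ_mem _ (hrW (hmap w h))).1⟩ else x
  have he : ∀ w ∈ ball (0 : Fin n → ℂ) 1, (e w : Fin N → ℂ) = c.ψ (c.π x + (r : ℂ) • w) := by
    intro w hw
    simp only [e, dif_pos hw]
  have hrc : (r : ℂ) ≠ 0 := by exact_mod_cast hr.ne'
  refine ⟨{ e := e, p := fun y => (r : ℂ)⁻¹ • (c.π y - c.π x),
            O := c.O ∩ c.π ⁻¹' ball (c.π x) r,
            hO := c.hπ.continuousOn.isOpen_inter_preimage c.hO isOpen_ball,
            mem := ⟨c.mem, mem_ball_self hr⟩,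
            e0 := ?_, de := ?_, dp := ?_, e_mem := ?_, pe := ?_, p_mem := ?_, ep := ?_ }⟩
  · apply Subtype.ext
    rw [he 0 (mem_ball_self one_pos), smul_zero, add_zero]
    exact c.ψ_π x x.2 c.mem
  · have h1 : DifferentiableOn ℂ (fun w : Fin n → ℂ => c.ψ (c.π x + (r : ℂ) • w)) (ball 0 1) := by
      refine c.hψ.comp (Differentiable.differentiableOn ?_) (fun w hw => hrW (hmap w hw))
      fun_prop
    exact h1.congr he
  · exact DifferentiableOn.const_smul ((c.hπ.mono inter_subset_left).sub_const _) ((r : ℂ)⁻¹)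
  · intro w hw
    rw [he w hw]
    refine ⟨(c.ψ_mem _ (hrW (hmap w hw))).2, ?_⟩
    show c.π (c.ψ (c.π x + (r : ℂ) • w)) ∈ ball (c.π x) r
    rw [c.π_ψ _ (hrW (hmap w hw))]
    exact hmap w hw
  · intro w hw
    show (r : ℂ)⁻¹ • (c.π (e w) - c.π x) = w
    rw [he w hw, c.π_ψ _ (hrW (hmap w hw)), add_sub_cancel_left, smul_smul,
      inv_mul_cancel₀ hrc, one_smul]
  · intro y hy
    have h2 : c.π y ∈ ball (c.π x) r := hy.2
    rw [mem_ball, dist_eq_norm] at h2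
    rw [mem_ball, dist_zero_right, norm_smul, norm_inv, Complex.norm_real, Real.norm_eq_abs,
      abs_of_pos hr]
    rw [inv_mul_lt_iff₀ hr, mul_one]
    exact h2
  · intro y hy
    have h2 : c.π y ∈ ball (c.π x) r := hy.2
    have h3 : (r : ℂ)⁻¹ • (c.π y - c.π x) ∈ ball (0 : Fin n → ℂ) 1 := by
      rw [mem_ball, dist_eq_norm] at h2
      rw [mem_ball, dist_zero_right, norm_smul, norm_inv, Complex.norm_real, Real.norm_eq_abs,
        abs_of_pos hr]
      rw [inv_mul_lt_iff₀ hr, mul_one]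
      exact h2
    apply Subtype.ext
    rw [he _ h3, smul_smul, mul_inv_cancel₀ hrc, one_smul, add_sub_cancel]
    exact c.ψ_π y y.2 hy.1

namespace BC

variable {x : U} (c : BC n U x)

include c in
theorem px : c.p x = 0 := by
  have := c.pe 0 (mem_ball_self one_pos)
  rwa [c.e0] at this

theorem cont : ContinuousOn c.e (ball 0 1) := by
  have h := c.de.continuousOn
  intro w hw
  exact (continuousWithinAt_subtype_rng' (h w hw))
where
  continuousWithinAt_subtype_rng' {w : Fin n → ℂ} {s : Set (Fin n → ℂ)}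
    (h : ContinuousWithinAt (fun w => (c.e w : Fin N → ℂ)) s w) : ContinuousWithinAt c.e s w := by
    exact tendsto_subtype_rng.2 h

theorem continuousAt {w : Fin n → ℂ} (hw : w ∈ ball (0 : Fin n → ℂ) 1) : ContinuousAt c.e w :=
  (c.cont w hw).continuousAt (isOpen_ball.mem_nhds hw)

/-- a holomorphic function on `U` is holomorphic in a ball chart. -/
theorem differentiableAt {f : U → F} {w : Fin n → ℂ} (hw : w ∈ ball (0 : Fin n → ℂ) 1)
    (hf : HolAt U f (c.e w)) : DifferentiableAt ℂ (fun v => f (c.e v)) w := by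
  obtain ⟨O, hO, hx, g, hg, h⟩ := hf
  have h1 : DifferentiableAt ℂ (fun v => g (c.e v)) w := by
    have h2 : DifferentiableAt ℂ g (c.e w) := hg.differentiableAt (hO.mem_nhds hx)
    exact h2.comp (f := fun v => (c.e v : Fin N → ℂ)) w
      (c.de.differentiableAt (isOpen_ball.mem_nhds hw))
  refine h1.congr_of_eventuallyEq ?_
  have h3 : ContinuousAt (fun v => (c.e v : Fin N → ℂ)) w :=
    (c.de.differentiableAt (isOpen_ball.mem_nhds hw)).continuousAt
  filter_upwards [h3.eventually (hO.mem_nhds hx)] with v hv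
  exact h _ hv

theorem differentiableOn {f : U → F} (hf : HolU U f) :
    DifferentiableOn ℂ (fun v => f (c.e v)) (ball 0 1) := fun w hw =>
  (c.differentiableAt hw (hf _)).differentiableWithinAt

/-- the image of a small ball is a neighbourhood -/
theorem image_mem_nhds {r : ℝ} (hr : 0 < r) : c.e '' (ball 0 r ∩ ball 0 1) ∈ 𝓝 x := by
  have h1 : ContinuousAt c.p x := (c.dp.differentiableAt (c.hO.mem_nhds c.mem)).continuousAt
  have h2 : ContinuousAt (fun y : U => c.p y) x := by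
    have h3 : Tendsto (fun y : U => (y : Fin N → ℂ)) (𝓝 x) (𝓝 (x : Fin N → ℂ)) :=
      continuous_subtype_val.continuousAt
    exact h1.tendsto.comp h3
  have h4 : ∀ᶠ y : U in 𝓝 x, c.p y ∈ ball (0 : Fin n → ℂ) r := by
    apply h2.eventually
    show ball (0 : Fin n → ℂ) r ∈ 𝓝 (c.p x)
    rw [c.px]
    exact ball_mem_nhds _ hr
  have h5 : ∀ᶠ y : U in 𝓝 x, (y : Fin N → ℂ) ∈ c.O :=
    continuous_subtype_val.continuousAt.eventually (c.hO.mem_nhds c.mem)
  filter_upwards [h4, h5] with y hy1 hy2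
  exact ⟨c.p y, ⟨hy1, c.p_mem y hy2⟩, c.ep y hy2⟩

theorem image_mem_nhds' {r : ℝ} (hr : 0 < r) (hr1 : r ≤ 1) : c.e '' (ball 0 r) ∈ 𝓝 x := by
  have := c.image_mem_nhds hr
  rwa [inter_eq_left.2 (ball_subset_ball hr1)] at this


/-- converse: a function holomorphic in the chart is holomorphic on `U`. -/
theorem holAt_of {f : U → F} {y : U} (hy : (y : Fin N → ℂ) ∈ c.O) {s : Set (Fin n → ℂ)}
    (hs : IsOpen s) (hys : c.p y ∈ s) (hf : DifferentiableOn ℂ (fun v => f (c.e v)) s) :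
    HolAt U f y := by
  refine ⟨c.O ∩ c.p ⁻¹' s, c.dp.continuousOn.isOpen_inter_preimage c.hO hs, ⟨hy, hys⟩,
    fun z => f (c.e (c.p z)), ?_, ?_⟩
  · exact hf.comp (c.dp.mono inter_subset_left) (fun z hz => hz.2)
  · intro z hz
    show f z = f (c.e (c.p z))
    rw [c.ep z hz.1]

end BC

end Crest.Agent.R264.CN
end

-- ▼ part R264/CN2
section

/-!
Row 264, module CN (helper190), part 2: Harnack's inequality on a connected submanifold,
maximum principle, identity theorem.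
-/

set_option autoImplicit false

open Topology Filter Set Metric

namespace Crest.Agent.R264.CN

open Crest.Agent.R264 Crest.AlgGeometry.Semialg

section Ball

variable {E : Type*} [NormedAddCommGroup E] [NormedSpace ℂ E]

theorem harnack_aux {τ : E → ℂ} {c : E} {R : ℝ}
    (hd : DifferentiableOn ℂ τ (ball c R)) (hre : ∀ z ∈ ball c R, 0 < (τ z).re) {z : E}
    (hz : z ∈ ball c (R / 2)) : ‖τ z‖ ≤ 3 * ‖τ c‖ := by
  have hR : 0 < R := by
    have := nonempty_ball.1 ⟨z, hz⟩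
    linarith
  have hzR : z ∈ ball c R := ball_subset_ball (by linarith) hz
  have hcR : c ∈ ball c R := mem_ball_self hR
  set a := τ c with ha
  have ha0 : 0 < a.re := hre c hcR
  have hden : ∀ w ∈ ball c R, τ w + (starRingEnd ℂ) a ≠ 0 := by
    intro w hw h
    have h1 := congrArg Complex.re h
    simp only [Complex.add_re, Complex.conj_re, Complex.zero_re] at h1
    have := hre w hw
    linarith
  have hle : ∀ w ∈ ball c R, ‖τ w - a‖ ≤ ‖τ w + (starRingEnd ℂ) a‖ := by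
    intro w hw
    have h1 := hre w hw
    rw [Complex.norm_def, Complex.norm_def]
    apply Real.sqrt_le_sqrt
    simp only [Complex.normSq_apply, Complex.sub_re, Complex.sub_im, Complex.add_re,
      Complex.conj_re, Complex.add_im, Complex.conj_im]
    nlinarith [mul_pos h1 ha0]
  let h : E → ℂ := fun w => (τ w - a) / (τ w + (starRingEnd ℂ) a)
  have hh : DifferentiableOn ℂ h (ball c R) := by
    have h0 : DifferentiableOn ℂ (fun w => (τ w - a) * (τ w + (starRingEnd ℂ) a)⁻¹) (ball c R) :=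
      (hd.sub_const a).mul ((hd.add_const ((starRingEnd ℂ) a)).inv hden)
    exact h0.congr fun w _ => div_eq_mul_inv _ _
  have hhc : h c = 0 := by simp [h, ha]
  have hm : MapsTo h (ball c R) (closedBall (h c) 1) := by
    intro w hw
    rw [hhc, mem_closedBall, dist_zero_right]
    simp only [h, norm_div]
    rw [div_le_one (norm_pos_iff.2 (hden w hw))]
    exact hle w hw
  have hs := Complex.dist_le_div_mul_dist_of_mapsTo_ball hh hm hzR
  rw [hhc, dist_zero_right] at hs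
  have hs2 : ‖h z‖ ≤ 1 / 2 := by
    refine hs.trans ?_
    rw [mem_ball] at hz
    rw [div_mul_eq_mul_div, one_mul, div_le_iff₀ hR]
    linarith
  simp only [h, norm_div] at hs2
  rw [div_le_iff₀ (norm_pos_iff.2 (hden z hzR))] at hs2
  have h3 : ‖τ z + (starRingEnd ℂ) a‖ ≤ ‖τ z‖ + ‖a‖ := by
    refine (norm_add_le _ _).trans ?_
    rw [RCLike.norm_conj]
  have h4 : ‖τ z‖ ≤ ‖τ z - a‖ + ‖a‖ := by
    have := norm_add_le (τ z - a) a
    rwa [sub_add_cancel] at this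
  linarith

/-- Harnack's inequality on a ball. -/
theorem harnack_ball {τ : E → ℂ} {c : E} {R : ℝ}
    (hd : DifferentiableOn ℂ τ (ball c R)) (hre : ∀ z ∈ ball c R, 0 ≤ (τ z).re) {z : E}
    (hz : z ∈ ball c (R / 2)) : ‖τ z‖ ≤ 3 * ‖τ c‖ := by
  refine le_of_forall_pos_le_add fun δ hδ => ?_
  have h1 : ‖τ z + (δ / 4 : ℝ)‖ ≤ 3 * ‖τ c + (δ / 4 : ℝ)‖ := by
    refine harnack_aux (τ := fun w => τ w + (δ / 4 : ℝ)) (hd.add_const _) ?_ hz
    intro w hw
    have := hre w hw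
    simp only [Complex.add_re, Complex.ofReal_re]
    linarith
  have h2 : ‖((δ / 4 : ℝ) : ℂ)‖ = δ / 4 := by
    rw [Complex.norm_real, Real.norm_eq_abs, abs_of_pos (by linarith)]
  have h3 : ‖τ c + (δ / 4 : ℝ)‖ ≤ ‖τ c‖ + δ / 4 := (norm_add_le _ _).trans (by rw [h2])
  have h4 : ‖τ z‖ ≤ ‖τ z + (δ / 4 : ℝ)‖ + δ / 4 := by
    have := norm_sub_le (τ z + (δ / 4 : ℝ)) ((δ / 4 : ℝ) : ℂ)
    rwa [add_sub_cancel_right, h2] at this
  linarith

end Ball

variable {N n : ℕ} {U : Set (Fin N → ℂ)}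

/-- the class of holomorphic functions with nonnegative real part -/
def Pos (U : Set (Fin N → ℂ)) (τ : U → ℂ) : Prop := HolU U τ ∧ ∀ x, 0 ≤ (τ x).re

theorem harnack_local (hU : IsSubmfd n U) (x : U) :
    ∀ᶠ y in 𝓝 x, ∀ τ : U → ℂ, Pos U τ → ‖τ y‖ ≤ 3 * ‖τ x‖ ∧ ‖τ x‖ ≤ 3 * ‖τ y‖ := by
  obtain ⟨c⟩ := exists_BC hU x
  filter_upwards [c.image_mem_nhds' (r := 1 / 4) (by norm_num) (by norm_num)]
  rintro _ ⟨w, hw, rfl⟩ τ hτ
  have hd := c.differentiableOn hτ.1
  rw [mem_ball, dist_zero_right] at hw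
  constructor
  · have := harnack_ball (τ := fun v => τ (c.e v)) (c := 0) (R := 1) hd (fun z _ => hτ.2 _)
      (z := w) (by rw [mem_ball, dist_zero_right]; linarith)
    simpa [c.e0] using this
  · have hsub : ball w (3 / 4) ⊆ ball (0 : Fin n → ℂ) 1 := by
      intro v hv
      rw [mem_ball] at hv ⊢
      calc dist v 0 ≤ dist v w + dist w 0 := dist_triangle _ _ _
        _ < 1 := by rw [dist_zero_right]; linarith
    have := harnack_ball (τ := fun v => τ (c.e v)) (c := w) (R := 3 / 4) (hd.mono hsub)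
      (fun z _ => hτ.2 _) (z := 0) (by rw [mem_ball, dist_comm, dist_zero_right]; linarith)
    simpa [c.e0] using this

theorem harnack_two (hU : IsSubmfd n U) (hc : IsPreconnected U) (x y : U) :
    ∃ C : ℝ, 0 ≤ C ∧ ∀ τ : U → ℂ, Pos U τ → ‖τ y‖ ≤ C * ‖τ x‖ := by
  have : PreconnectedSpace U := Subtype.preconnectedSpace hc
  refine PreconnectedSpace.induction₂'
    (fun x y : U => ∃ C : ℝ, 0 ≤ C ∧ ∀ τ : U → ℂ, Pos U τ → ‖τ y‖ ≤ C * ‖τ x‖) ?_ ?_ x y
  · intro x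
    filter_upwards [harnack_local hU x] with y hy
    exact ⟨⟨3, by norm_num, fun τ hτ => (hy τ hτ).1⟩, ⟨3, by norm_num, fun τ hτ => (hy τ hτ).2⟩⟩
  · constructor
    rintro a b c ⟨C, hC, h⟩ ⟨C', hC', h'⟩
    refine ⟨C' * C, by positivity, fun τ hτ => ?_⟩
    calc ‖τ c‖ ≤ C' * ‖τ b‖ := h' τ hτ
      _ ≤ C' * (C * ‖τ a‖) := by gcongr; exact h τ hτ
      _ = C' * C * ‖τ a‖ := by ring

/-- **Harnack's inequality** on a connected submanifold. -/
theorem harnack (hU : IsSubmfd n U) (hc : IsPreconnected U) {K0 K : Set U}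
    (hK0 : IsCompact K0) (hK : IsCompact K) :
    ∃ C : ℝ, 0 ≤ C ∧ ∀ τ : U → ℂ, Pos U τ → ∀ x ∈ K0, ∀ y ∈ K, ‖τ y‖ ≤ C * ‖τ x‖ := by
  have h1 : ∀ x0 : U, ∃ C : ℝ, 0 ≤ C ∧ ∀ τ : U → ℂ, Pos U τ → ∀ y ∈ K, ‖τ y‖ ≤ C * ‖τ x0‖ := by
    intro x0
    refine hK.induction_on
      (p := fun K => ∃ C : ℝ, 0 ≤ C ∧ ∀ τ : U → ℂ, Pos U τ → ∀ y ∈ K, ‖τ y‖ ≤ C * ‖τ x0‖) ?_ ?_ ?_ ?_
    · exact ⟨0, le_rfl, fun τ _ y hy => hy.elim⟩
    · rintro s t hst ⟨C, hC, h⟩
      exact ⟨C, hC, fun τ hτ y hy => h τ hτ y (hst hy)⟩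
    · rintro s t ⟨C, hC, h⟩ ⟨C', hC', h'⟩
      refine ⟨max C C', le_max_of_le_left hC, fun τ hτ y hy => ?_⟩
      rcases hy with hy | hy
      · exact (h τ hτ y hy).trans (by gcongr; exact le_max_left _ _)
      · exact (h' τ hτ y hy).trans (by gcongr; exact le_max_right _ _)
    · intro y _
      obtain ⟨C, hC, h⟩ := harnack_two hU hc x0 y
      refine ⟨{z | ∀ τ : U → ℂ, Pos U τ → ‖τ z‖ ≤ 3 * ‖τ y‖ ∧ ‖τ y‖ ≤ 3 * ‖τ z‖},
        mem_nhdsWithin_of_mem_nhds (harnack_local hU y), 3 * C, by positivity, ?_⟩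
      intro τ hτ z hz
      calc ‖τ z‖ ≤ 3 * ‖τ y‖ := (hz τ hτ).1
        _ ≤ 3 * (C * ‖τ x0‖) := by gcongr; exact h τ hτ
        _ = 3 * C * ‖τ x0‖ := by ring
  refine hK0.induction_on
    (p := fun K0 => ∃ C : ℝ, 0 ≤ C ∧ ∀ τ : U → ℂ, Pos U τ → ∀ x ∈ K0, ∀ y ∈ K,
      ‖τ y‖ ≤ C * ‖τ x‖) ?_ ?_ ?_ ?_
  · exact ⟨0, le_rfl, fun τ _ x hx => hx.elim⟩
  · rintro s t hst ⟨C, hC, h⟩
    exact ⟨C, hC, fun τ hτ x hx => h τ hτ x (hst hx)⟩
  · rintro s t ⟨C, hC, h⟩ ⟨C', hC', h'⟩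
    refine ⟨max C C', le_max_of_le_left hC, fun τ hτ x hx y hy => ?_⟩
    rcases hx with hx | hx
    · exact (h τ hτ x hx y hy).trans (by gcongr; exact le_max_left _ _)
    · exact (h' τ hτ x hx y hy).trans (by gcongr; exact le_max_right _ _)
  · intro x _
    obtain ⟨C, hC, h⟩ := h1 x
    refine ⟨{z | ∀ τ : U → ℂ, Pos U τ → ‖τ z‖ ≤ 3 * ‖τ x‖ ∧ ‖τ x‖ ≤ 3 * ‖τ z‖},
      mem_nhdsWithin_of_mem_nhds (harnack_local hU x), 3 * C, by positivity, ?_⟩
    intro τ hτ z hz y hy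
    calc ‖τ y‖ ≤ C * ‖τ x‖ := h τ hτ y hy
      _ ≤ C * (3 * ‖τ z‖) := by gcongr; exact (hz τ hτ).2
      _ = 3 * C * ‖τ z‖ := by ring


end Crest.Agent.R264.CN
end

-- ▼ part R264/CN3
section

/-!
Row 264, module CN (helper190), part 3: Montel's theorem and locally uniform limits
(on normed spaces and on submanifolds).
-/

set_option autoImplicit false

open Topology Filter Set Metric TopologicalSpace

namespace Crest.Agent.R264.CN

open Crest.Agent.R264 Crest.AlgGeometry.Semialg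

/-! ### limits of holomorphic functions on a normed space -/

section Limit

variable {E F ι : Type*} [NormedAddCommGroup E] [NormedSpace ℂ E]
  [NormedAddCommGroup F] [NormedSpace ℂ F] [CompleteSpace F]
  {l : Filter ι} {f : ι → E → F} {g : E → F} {x : E} {R : ℝ}

/-- Uniform limits of holomorphic maps on a ball are holomorphic on the half ball, and the
derivatives converge uniformly there. -/
theorem limit_ball [l.NeBot] (hR : 0 < R) (hd : ∀ᶠ j in l, DifferentiableOn ℂ (f j) (ball x R))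
    (hlim : TendstoUniformlyOn f g l (ball x R)) :
    DifferentiableOn ℂ g (ball x (R / 2)) ∧
      TendstoUniformlyOn (fun j y => fderiv ℂ (f j) y) (fderiv ℂ g) l (ball x (R / 2)) := by
  have hr : 0 < R / 2 := by linarith
  have hC : UniformCauchySeqOn (fun j y => fderiv ℂ (f j) y) l (ball x (R / 2)) := by
    intro u hu
    obtain ⟨ε, hε, hu⟩ := Metric.mem_uniformity_dist.1 hu
    set δ := ε * R / 32 with hδ
    have hδ0 : 0 < δ := by positivity
    have h1 := (Metric.tendstoUniformlyOn_iff.1 hlim) δ hδ0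
    have h2 := hd.and h1
    filter_upwards [h2.prod_mk h2]
    rintro ⟨j, k⟩ ⟨⟨hj, hj'⟩, ⟨hk, hk'⟩⟩ y hy
    apply hu
    have hsub : ball y (R / 2) ⊆ ball x R := by
      intro z hz
      rw [mem_ball] at *
      calc dist z x ≤ dist z y + dist y x := dist_triangle _ _ _
        _ < R := by linarith
    have hyR : y ∈ ball x R := hsub (mem_ball_self hr)
    have hDj := hj.differentiableAt (isOpen_ball.mem_nhds hyR)
    have hDk := hk.differentiableAt (isOpen_ball.mem_nhds hyR)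
    have hdd : DifferentiableOn ℂ (fun z => f j z - f k z) (ball y (R / 2)) :=
      (hj.mono hsub).sub (hk.mono hsub)
    have hbd : ∀ z ∈ ball x R, ‖f j z - f k z‖ ≤ 2 * δ := by
      intro z hz
      have a1 := hj' z hz
      have a2 := hk' z hz
      rw [← dist_eq_norm]
      have := dist_triangle_left (f j z) (f k z) (g z)
      linarith
    have hm : MapsTo (fun z => f j z - f k z) (ball y (R / 2))
        (closedBall (f j y - f k y) (4 * δ)) := by
      intro z hz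
      rw [mem_closedBall, dist_eq_norm]
      refine (norm_sub_le _ _).trans ?_
      have a1 := hbd z (hsub hz)
      have a2 := hbd y hyR
      linarith
    have h3 := Complex.norm_fderiv_le_div_of_mapsTo_ball hdd hm hr
    have h4 : fderiv ℂ (fun z => f j z - f k z) y = fderiv ℂ (f j) y - fderiv ℂ (f k) y :=
      fderiv_fun_sub hDj hDk
    rw [h4] at h3
    rw [dist_eq_norm]
    refine lt_of_le_of_lt h3 ?_
    rw [hδ, div_lt_iff₀ hr]
    nlinarith
  have hex : ∀ y : E, ∃ L : E →L[ℂ] F, y ∈ ball x (R / 2) →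
      Tendsto (fun j => fderiv ℂ (f j) y) l (𝓝 L) := by
    intro y
    by_cases hy : y ∈ ball x (R / 2)
    · have h5 := hC.cauchy_map hy
      obtain ⟨L, hL⟩ := CompleteSpace.complete h5
      exact ⟨L, fun _ => hL⟩
    · exact ⟨0, fun h => absurd h hy⟩
  choose g' hg' using hex
  have hU' : TendstoUniformlyOn (fun j y => fderiv ℂ (f j) y) g' l (ball x (R / 2)) :=
    hC.tendstoUniformlyOn_of_tendsto hg'
  have hfd : ∀ y ∈ ball x (R / 2), HasFDerivAt g (g' y) y := by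
    intro y hy
    have hsub : ball x (R / 2) ⊆ ball x R := ball_subset_ball (by linarith)
    have hy' : ball x (R / 2) ∈ 𝓝 y := isOpen_ball.mem_nhds hy
    refine hasFDerivAt_of_tendstoUniformlyOnFilter (f := f)
      (f' := fun j y => fderiv ℂ (f j) y) (l := l) ?_ ?_ ?_
    · exact (tendstoUniformlyOn_iff_tendstoUniformlyOnFilter.1 hU').mono_right
        (le_principal_iff.2 hy')
    · have h6 : ∀ᶠ z in 𝓝 y, z ∈ ball x (R / 2) := hy'
      filter_upwards [hd.prod_mk h6]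
      rintro ⟨j, z⟩ ⟨hj, hz⟩
      exact (hj.differentiableAt (isOpen_ball.mem_nhds (hsub hz))).hasFDerivAt
    · filter_upwards [hy'] with z hz
      exact hlim.tendsto_at (hsub hz)
  refine ⟨fun y hy => (hfd y hy).differentiableAt.differentiableWithinAt, ?_⟩
  refine hU'.congr_right ?_
  intro y hy
  exact (hfd y hy).fderiv.symm

/-- Locally uniform limits of holomorphic maps are holomorphic. -/
theorem limit_open [LocallyCompactSpace E] [l.NeBot] {s : Set E} (hs : IsOpen s)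
    (hd : ∀ x ∈ s, ∃ t ∈ 𝓝 x, ∀ᶠ j in l, DifferentiableOn ℂ (f j) t)
    (hlim : TendstoLocallyUniformlyOn f g l s) : DifferentiableOn ℂ g s := by
  intro x hx
  obtain ⟨t, ht, htd⟩ := hd x hx
  obtain ⟨K, hK, hKs, hKc⟩ := LocallyCompactSpace.local_compact_nhds x (s ∩ t)
    (inter_mem (hs.mem_nhds hx) ht)
  obtain ⟨r, hr, hrK⟩ := Metric.mem_nhds_iff.1 hK
  have h1 : TendstoUniformlyOn f g l K :=
    (tendstoLocallyUniformlyOn_iff_forall_isCompact hs).1 hlim K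
      (fun z hz => (hKs hz).1) hKc
  have h2 := (limit_ball (x := x) hr (htd.mono fun j hj => hj.mono fun z hz => (hKs (hrK hz)).2)
    (h1.mono hrK)).1
  exact (h2.differentiableAt (isOpen_ball.mem_nhds (mem_ball_self (by linarith)))).differentiableWithinAt

end Limit

/-! ### Arzela-Ascoli for sequences, elementary form -/

section Ascoli

variable {X F : Type*} [TopologicalSpace X] [SeparableSpace X] [NormedAddCommGroup F]
  [ProperSpace F]

/-- A sequence of maps, eventually pointwise bounded and eventually locally equicontinuous, has a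
locally uniformly convergent subsequence. -/
theorem ascoli (f : ℕ → X → F) (hb : ∀ x, ∃ C : ℝ, ∀ᶠ j in atTop, ‖f j x‖ ≤ C)
    (he : ∀ x, ∀ ε > 0, ∃ V ∈ 𝓝 x, ∀ᶠ j in atTop, ∀ y ∈ V, dist (f j y) (f j x) ≤ ε) :
    ∃ (σ : ℕ → ℕ) (g : X → F), StrictMono σ ∧
      TendstoLocallyUniformly (fun j => f (σ j)) g atTop := by
  obtain ⟨D, hDc, hDd⟩ := exists_countable_dense X
  have : Countable D := hDc.to_subtype
  have hb' : ∀ x, ∃ C : ℝ, ∀ j, ‖f j x‖ ≤ C := by
    intro x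
    obtain ⟨C, hC⟩ := hb x
    obtain ⟨J, hJ⟩ := eventually_atTop.1 hC
    refine ⟨max C (∑ i ∈ Finset.range J, ‖f i x‖), fun j => ?_⟩
    by_cases hj : J ≤ j
    · exact le_max_of_le_left (hJ j hj)
    · refine le_max_of_le_right ?_
      exact Finset.single_le_sum (f := fun i => ‖f i x‖) (fun i _ => norm_nonneg _)
        (Finset.mem_range.2 (not_le.1 hj))
  choose C hC using hb'
  have hcpt : IsCompact (Set.pi univ (fun d : D => closedBall (0 : F) (C d))) :=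
    isCompact_univ_pi fun d => isCompact_closedBall _ _
  have hmem : ∀ j, (fun d : D => f j d) ∈ Set.pi univ (fun d : D => closedBall (0 : F) (C d)) := by
    intro j d _
    rw [mem_closedBall, dist_zero_right]
    exact hC d j
  obtain ⟨a, -, σ, hσ, hlim⟩ := hcpt.tendsto_subseq hmem
  have hD : ∀ d : D, Tendsto (fun j => f (σ j) d) atTop (𝓝 (a d)) := fun d =>
    (tendsto_pi_nhds.1 hlim) d
  have he' : ∀ x, ∀ ε > 0, ∃ V ∈ 𝓝 x, ∀ᶠ j in atTop, ∀ y ∈ V,
      dist (f (σ j) y) (f (σ j) x) ≤ ε := by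
    intro x ε hε
    obtain ⟨V, hV, h⟩ := he x ε hε
    exact ⟨V, hV, hσ.tendsto_atTop.eventually h⟩
  have hcau : ∀ x, CauchySeq (fun j => f (σ j) x) := by
    intro x
    rw [Metric.cauchySeq_iff]
    intro ε hε
    obtain ⟨V, hV, h⟩ := he' x (ε / 4) (by linarith)
    obtain ⟨d, hdV, hdD⟩ := mem_closure_iff_nhds.1 (hDd x) V hV
    have h1 : CauchySeq (fun j => f (σ j) d) := (hD ⟨d, hdD⟩).cauchySeq
    obtain ⟨N1, hN1⟩ := Metric.cauchySeq_iff.1 h1 (ε / 4) (by linarith)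
    obtain ⟨N2, hN2⟩ := eventually_atTop.1 h
    refine ⟨max N1 N2, fun j hj k hk => ?_⟩
    have a1 := hN2 j (le_trans (le_max_right _ _) hj) d hdV
    have a2 := hN2 k (le_trans (le_max_right _ _) hk) d hdV
    have a3 := hN1 j (le_trans (le_max_left _ _) hj) k (le_trans (le_max_left _ _) hk)
    have a4 := dist_triangle4 (f (σ j) x) (f (σ j) d) (f (σ k) d) (f (σ k) x)
    rw [dist_comm (f (σ j) x) (f (σ j) d)] at a4
    linarith
  have hex : ∀ x, ∃ y, Tendsto (fun j => f (σ j) x) atTop (𝓝 y) := fun x =>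
    cauchySeq_tendsto_of_complete (hcau x)
  choose g hg using hex
  refine ⟨σ, g, hσ, ?_⟩
  rw [Metric.tendstoLocallyUniformly_iff]
  intro ε hε x
  obtain ⟨V, hV, h⟩ := he' x (ε / 4) (by linarith)
  refine ⟨V, hV, ?_⟩
  have h1 : ∀ᶠ j in atTop, dist (f (σ j) x) (g x) < ε / 4 :=
    (Metric.tendsto_nhds.1 (hg x)) _ (by linarith)
  have h2 : ∀ y ∈ V, dist (g y) (g x) ≤ ε / 4 := by
    intro y hy
    refine le_of_tendsto ((hg y).dist (hg x)) ?_
    filter_upwards [h] with j hj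
    exact hj y hy
  filter_upwards [h, h1] with j hj hj1 y hy
  have a1 := hj y hy
  have a2 := h2 y hy
  have a4 := dist_triangle4 (g y) (g x) (f (σ j) x) (f (σ j) y)
  rw [dist_comm (g x), dist_comm (f (σ j) x) (f (σ j) y)] at a4
  linarith

end Ascoli

/-! ### Montel -/

section Montel

variable {E F : Type*} [NormedAddCommGroup E] [NormedSpace ℂ E]
  [NormedAddCommGroup F] [NormedSpace ℂ F]

theorem schwarz_bound {f : E → F} {c z : E} {R C : ℝ} (hd : DifferentiableOn ℂ f (ball c R))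
    (hb : ∀ z ∈ ball c R, ‖f z‖ ≤ C) (hz : z ∈ ball c R) :
    dist (f z) (f c) ≤ 2 * C / R * dist z c := by
  have hR : 0 < R := nonempty_ball.1 ⟨z, hz⟩
  refine Complex.dist_le_div_mul_dist_of_mapsTo_ball hd ?_ hz
  intro w hw
  rw [mem_closedBall, dist_eq_norm]
  refine (norm_sub_le _ _).trans ?_
  have := hb w hw
  have := hb c (mem_ball_self hR)
  linarith


variable {N n : ℕ} {U : Set (Fin N → ℂ)}

/-- Locally uniform limits of (eventually locally) holomorphic maps on a submanifold are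
holomorphic. -/
theorem limit_U [CompleteSpace F] {ι : Type*} {l : Filter ι} [l.NeBot] (hU : IsSubmfd n U)
    {f : ι → U → F} {g : U → F}
    (hd : ∀ x : U, ∃ V ∈ 𝓝 x, ∀ᶠ j in l, ∀ y ∈ V, HolAt U (f j) y)
    (hlim : TendstoLocallyUniformly f g l) : HolU U g := by
  intro x
  obtain ⟨c⟩ := exists_BC hU x
  have h1 : DifferentiableOn ℂ (fun v => g (c.e v)) (ball 0 1) := by
    refine limit_open (l := l) (f := fun j v => f j (c.e v)) isOpen_ball ?_ ?_
    · intro w hw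
      obtain ⟨V, hV, h⟩ := hd (c.e w)
      refine ⟨c.e ⁻¹' V ∩ ball 0 1, inter_mem ((c.continuousAt hw).preimage_mem_nhds hV)
        (isOpen_ball.mem_nhds hw), ?_⟩
      filter_upwards [h] with j hj v hv
      exact (c.differentiableAt hv.2 (hj _ hv.1)).differentiableWithinAt
    · intro u hu w hw
      obtain ⟨t, ht, h⟩ := hlim u hu (c.e w)
      refine ⟨c.e ⁻¹' t, mem_nhdsWithin_of_mem_nhds ((c.continuousAt hw).preimage_mem_nhds ht), ?_⟩
      filter_upwards [h] with j hj v hv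
      exact hj _ hv
  exact c.holAt_of c.mem isOpen_ball (by rw [c.px]; exact mem_ball_self one_pos) h1

/-- **Montel** on a submanifold. -/
theorem montel_U [ProperSpace F] (hU : IsSubmfd n U) (f : ℕ → U → F)
    (h : ∀ x : U, ∃ V ∈ 𝓝 x, ∃ C : ℝ, ∀ᶠ j in atTop, ∀ y ∈ V, HolAt U (f j) y ∧ ‖f j y‖ ≤ C) :
    ∃ (σ : ℕ → ℕ) (g : U → F), StrictMono σ ∧ HolU U g ∧
      TendstoLocallyUniformly (fun j => f (σ j)) g atTop := by
  obtain ⟨σ, g, hσ, hg⟩ := ascoli f (by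
    intro x
    obtain ⟨V, hV, C, h⟩ := h x
    exact ⟨C, h.mono fun j hj => (hj x (mem_of_mem_nhds hV)).2⟩) (by
    intro x ε hε
    obtain ⟨V, hV, C, h⟩ := h x
    obtain ⟨c⟩ := exists_BC hU x
    have h0 : c.e ⁻¹' V ∈ 𝓝 (0 : Fin n → ℂ) :=
      (c.continuousAt (mem_ball_self one_pos)).preimage_mem_nhds (by rw [c.e0]; exact hV)
    obtain ⟨r, hr, hrV⟩ := Metric.mem_nhds_iff.1 (inter_mem h0 (ball_mem_nhds 0 one_pos))
    have hC : 0 < |C| + 1 := by positivity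
    set ρ := min r (ε * r / (2 * (|C| + 1))) with hρ
    have hρ0 : 0 < ρ := lt_min hr (by positivity)
    refine ⟨c.e '' (ball 0 ρ ∩ ball 0 1), c.image_mem_nhds hρ0, ?_⟩
    filter_upwards [h] with j hj
    rintro _ ⟨w, hw, rfl⟩
    have h1 := schwarz_bound (f := fun v => f j (c.e v)) (c := (0 : Fin n → ℂ)) (z := w) (R := r)
      (C := C) (fun v hv => (c.differentiableAt (hrV hv).2
        (hj _ (hrV hv).1).1).differentiableWithinAt) (fun z hz => (hj _ (hrV hz).1).2)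
      (ball_subset_ball (min_le_left _ _) hw.1)
    rw [c.e0] at h1
    refine h1.trans ?_
    have h2 : dist w 0 ≤ ε * r / (2 * (|C| + 1)) := (mem_ball.1 hw.1).le.trans (min_le_right _ _)
    have h3 : 2 * C / r ≤ 2 * (|C| + 1) / r := by
      gcongr
      exact (le_abs_self C).trans (by linarith)
    calc 2 * C / r * dist w 0 ≤ 2 * (|C| + 1) / r * (ε * r / (2 * (|C| + 1))) := by
          gcongr
      _ = ε := by field_simp)
  refine ⟨σ, g, hσ, ?_, hg⟩
  refine limit_U hU (l := atTop) ?_ hg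
  intro x
  obtain ⟨V, hV, C, h⟩ := h x
  exact ⟨V, hV, (hσ.tendsto_atTop.eventually h).mono fun j hj y hy => (hj y hy).1⟩

end Montel

end Crest.Agent.R264.CN
end

-- ▼ part R264/CN4

/-!
Row 264, module CN (helper190), part 4: scaling, C0 + C1 + C2 (`PropC2`).
-/

set_option autoImplicit false

open Topology Filter Set Metric

namespace Crest.Agent.R264.CN

open Crest.Agent.R264 Crest.AlgGeometry.Semialg

/-- Real linearly independent vectors `ν_1..ν_k` of `ℝ^k` control `ℂ^k`. -/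
theorem exists_nu_bound {k : ℕ} {ν : Fin k → Fin k → ℝ} (hν : LinearIndependent ℝ ν) :
    ∃ C : ℝ, 0 ≤ C ∧ ∀ w : Fin k → ℂ, ∀ B : ℝ, 0 ≤ B →
      (∀ i, ‖∑ j, (ν i j : ℂ) * w j‖ ≤ B) → ‖w‖ ≤ C * B := by
  classical
  set A : Matrix (Fin k) (Fin k) ℝ := Matrix.of ν with hA
  have hAu : IsUnit A := by
    have h1 : LinearIndependent ℝ A.row := hν
    exact Matrix.linearIndependent_rows_iff_isUnit.1 h1
  obtain ⟨u, hu⟩ := hAu
  set Bm : Matrix (Fin k) (Fin k) ℝ := ((u⁻¹ : (Matrix (Fin k) (Fin k) ℝ)ˣ) : Matrix (Fin k) (Fin k) ℝ) with hBm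
  have hBA : Bm * A = 1 := by rw [← hu, hBm]; exact u.inv_mul
  refine ⟨∑ i, ∑ j, |Bm i j|, by positivity, ?_⟩
  intro w B hB h
  rw [pi_norm_le_iff_of_nonneg (by positivity)]
  intro i
  have h2 : w i = ∑ j, (Bm i j : ℂ) * ∑ l, (ν j l : ℂ) * w l := by
    have h3 : ∀ l, ∑ j, (Bm i j) * (ν j l) = if i = l then 1 else 0 := by
      intro l
      have := congrFun (congrFun hBA i) l
      rw [Matrix.mul_apply, Matrix.one_apply] at this
      exact this
    calc w i = ∑ l, (if i = l then (1 : ℂ) else 0) * w l := by simp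
      _ = ∑ l, ((∑ j, (Bm i j) * (ν j l) : ℝ) : ℂ) * w l := by
          refine Finset.sum_congr rfl fun l _ => ?_
          rw [h3 l]
          split_ifs <;> simp
      _ = ∑ l, ∑ j, (Bm i j : ℂ) * ((ν j l : ℂ) * w l) := by
          refine Finset.sum_congr rfl fun l _ => ?_
          rw [Complex.ofReal_sum, Finset.sum_mul]
          refine Finset.sum_congr rfl fun j _ => ?_
          push_cast
          ring
      _ = ∑ j, ∑ l, (Bm i j : ℂ) * ((ν j l : ℂ) * w l) := Finset.sum_comm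
      _ = _ := by
          refine Finset.sum_congr rfl fun j _ => ?_
          rw [Finset.mul_sum]
  rw [h2]
  calc ‖∑ j, (Bm i j : ℂ) * ∑ l, (ν j l : ℂ) * w l‖
      ≤ ∑ j, ‖(Bm i j : ℂ) * ∑ l, (ν j l : ℂ) * w l‖ := norm_sum_le _ _
    _ ≤ ∑ j, |Bm i j| * B := by
        refine Finset.sum_le_sum fun j _ => ?_
        rw [norm_mul, Complex.norm_real, Real.norm_eq_abs]
        exact mul_le_mul_of_nonneg_left (h j) (abs_nonneg _)
    _ = (∑ j, |Bm i j|) * B := by rw [Finset.sum_mul]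
    _ ≤ (∑ i, ∑ j, |Bm i j|) * B := by
        refine mul_le_mul_of_nonneg_right ?_ hB
        exact Finset.single_le_sum (f := fun i => ∑ j, |Bm i j|)
          (fun i _ => Finset.sum_nonneg fun j _ => abs_nonneg _) (Finset.mem_univ i)

section

variable {N n : ℕ} {U : Set (Fin N → ℂ)} {Γ : Subgroup (Equiv.Perm U)}

/-- strict peak: if `M - Re h` is small then the point is near `p0`. -/
theorem peak_near (hb : Bornology.IsBounded U) (P : PeakData U n) (i : Fin P.k)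
    {O : Set (Fin N → ℂ)} (hO : IsOpen O) (hp : P.p0 ∈ O) :
    ∃ δ > 0, ∀ y ∈ U, P.M i - (P.h i y).re < δ → y ∈ O := by
  have hK : IsCompact (closure U \ O) := (hb.isCompact_closure).diff hO
  by_cases hne : (closure U \ O).Nonempty
  · have hcont : ContinuousOn (fun y => P.M i - (P.h i y).re) (closure U \ O) := by
      refine Continuous.continuousOn ?_
      exact continuous_const.sub (Complex.continuous_re.comp (P.hh i).continuous)
    obtain ⟨y0, hy0, hmin⟩ := hK.exists_isMinOn hne hcont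
    refine ⟨P.M i - (P.h i y0).re, ?_, ?_⟩
    · have : y0 ≠ P.p0 := by
        rintro rfl
        exact hy0.2 hp
      have := P.h_lt i y0 hy0.1 this
      linarith
    · intro y hy hlt
      by_contra hyO
      have := hmin ⟨subset_closure hy, hyO⟩
      simp only [mem_ofPred_eq] at this
      linarith
  · refine ⟨1, one_pos, fun y hy _ => ?_⟩
    by_contra hyO
    exact hne ⟨y, subset_closure hy, hyO⟩


/-- the box point at scale `t` -/
noncomputable def Yp (P : PeakData U n) (t : ℝ) : EE P.m P.k :=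
  (0, (Complex.I * (t : ℂ)) • cvec (P.e t))

theorem norm_cvec {k : ℕ} (v : Fin k → ℝ) : ‖cvec v‖ ≤ ‖v‖ := by
  rw [pi_norm_le_iff_of_nonneg (norm_nonneg _)]
  intro i
  simp only [cvec, Complex.norm_real]
  exact norm_le_pi_norm v i

theorem Cp_nonneg (P : PeakData U n) : 0 ≤ P.Cp :=
  (norm_nonneg _).trans (P.e_le (P.ts / 2) (by linarith [P.hts]) (by linarith [P.hts]))

theorem norm_Yp (P : PeakData U n) {t : ℝ} (h0 : 0 < t) (h1 : t < P.ts) :
    ‖(Yp P t).2‖ ≤ P.Cp * t := by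
  simp only [Yp]
  rw [norm_smul, norm_mul, Complex.norm_I, one_mul, Complex.norm_real, Real.norm_eq_abs,
    abs_of_pos h0, mul_comm]
  exact mul_le_mul_of_nonneg_right ((norm_cvec _).trans (P.e_le t h0 h1)) h0.le

theorem Yp_mem (P : PeakData U n) {t : ℝ} (h0 : 0 < t) (h1 : t < P.ts) : Yp P t ∈ P.UU := by
  refine P.box t h0 h1 _ ?_ ?_
  · simp only [Yp, norm_zero]
    exact mul_pos P.hc (Real.sqrt_pos.2 h0)
  · simp only [Yp, sub_self, norm_zero]
    exact mul_pos P.hc h0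

theorem norm_lin {k : ℕ} (ν : Fin k → ℝ) (w : Fin k → ℂ) :
    ‖∑ j, (ν j : ℂ) * w j‖ ≤ (∑ j, |ν j|) * ‖w‖ := by
  refine (norm_sum_le _ _).trans ?_
  rw [Finset.sum_mul]
  refine Finset.sum_le_sum fun j _ => ?_
  rw [norm_mul, Complex.norm_real, Real.norm_eq_abs]
  exact mul_le_mul_of_nonneg_left (norm_le_pi_norm w j) (abs_nonneg _)

/-- the peak functions at the box points -/
theorem tau_Yp (P : PeakData U n) (i : Fin P.k) :
    ∃ C : ℝ, 0 ≤ C ∧ ∀ t, 0 < t → t < P.ts →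
      ‖(P.M i : ℂ) - P.h i (P.χ (Yp P t))‖ ≤ C * t := by
  have hCp := Cp_nonneg P
  refine ⟨(∑ j, |P.ν i j|) * P.Cp + P.Cp * P.Cp ^ 2 * P.ts, ?_, ?_⟩
  · have := P.hts
    positivity
  intro t h0 h1
  have hY := norm_Yp P h0 h1
  have hex := P.expand i _ (Yp_mem P h0 h1)
  have h10 : ‖(Yp P t).1‖ = 0 := by simp [Yp]
  have h11 : (Yp P t).1 = 0 := rfl
  have htau : ‖tauF (P.ν i) (P.Q i) (Yp P t)‖ ≤ (∑ j, |P.ν i j|) * (P.Cp * t) := by
    unfold tauF
    rw [h11, map_zero, add_zero, norm_mul, norm_neg, Complex.norm_I, one_mul]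
    refine (norm_lin _ _).trans ?_
    gcongr
  rw [h10] at hex
  have h2 : ‖(P.M i : ℂ) - P.h i (P.χ (Yp P t))‖ ≤
      ‖(P.M i : ℂ) - P.h i (P.χ (Yp P t)) - tauF (P.ν i) (P.Q i) (Yp P t)‖ +
        ‖tauF (P.ν i) (P.Q i) (Yp P t)‖ := by
    have := norm_add_le ((P.M i : ℂ) - P.h i (P.χ (Yp P t)) - tauF (P.ν i) (P.Q i) (Yp P t))
      (tauF (P.ν i) (P.Q i) (Yp P t))
    rwa [sub_add_cancel] at this
  have h3 : ‖(Yp P t).2‖ ^ 2 ≤ P.Cp ^ 2 * P.ts * t := by
    calc ‖(Yp P t).2‖ ^ 2 ≤ (P.Cp * t) ^ 2 := by gcongr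
      _ = P.Cp ^ 2 * t * t := by ring
      _ ≤ P.Cp ^ 2 * P.ts * t := by gcongr
  have h4 : P.Cp * ((0 : ℝ) ^ 3 + 0 * ‖(Yp P t).2‖ + ‖(Yp P t).2‖ ^ 2) ≤
      P.Cp * (P.Cp ^ 2 * P.ts * t) := by
    refine mul_le_mul_of_nonneg_left ?_ hCp
    have : (0 : ℝ) ^ 3 + 0 * ‖(Yp P t).2‖ + ‖(Yp P t).2‖ ^ 2 = ‖(Yp P t).2‖ ^ 2 := by ring
    rw [this]
    exact h3
  nlinarith

theorem pos_tau (S : Setup N U Γ) (P : PeakData U n) (i : Fin P.k) {φ : Equiv.Perm U}
    (hφ : φ ∈ Γ) : Pos U (fun z => (P.M i : ℂ) - P.h i (φ z : U)) := by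
  have h1 : HolU U (fun z : U => ((φ z : U) : Fin N → ℂ)) := S.hol φ hφ
  refine ⟨h1.comp (k := fun y => (P.M i : ℂ) - P.h i y) ?_, ?_⟩
  · exact (P.hh i).const_sub _
  · intro z
    rw [Complex.sub_re, Complex.ofReal_re]
    by_cases h : ((φ z : U) : Fin N → ℂ) = P.p0
    · rw [h, P.h_p0 i, Complex.ofReal_re, sub_self]
    · have := P.h_lt i _ (subset_closure (φ z).2) h
      linarith

/-- scale-`ε` data -/
structure Sc (P : PeakData U n) (φ : Equiv.Perm U) (x : U) (ε : ℝ) : Prop where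
  ε_pos : 0 < ε
  ε_lt : ε ^ 2 < P.ts
  mem : ((φ x : U) : Fin N → ℂ) ∈ P.O
  eq : P.κ (φ x : U) = Yp P (ε ^ 2)

theorem tau_small (S : Setup N U Γ) (hU : IsSubmfd n U) (P : PeakData U n) {K0 K : Set U}
    (hK0 : IsCompact K0) (hK : IsCompact K) (i : Fin P.k) :
    ∃ C : ℝ, 0 ≤ C ∧ ∀ φ ∈ Γ, ∀ x ∈ K0, ∀ ε, Sc P φ x ε → ∀ z ∈ K,
      ‖(P.M i : ℂ) - P.h i (φ z : U)‖ ≤ C * ε ^ 2 := by
  obtain ⟨CH, hCH, hH⟩ := harnack hU S.conn.isPreconnected hK0 hK
  obtain ⟨C1, hC1, h1⟩ := tau_Yp P i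
  refine ⟨CH * C1, by positivity, ?_⟩
  intro φ hφ x hx ε hs z hz
  have h2 := hH _ (pos_tau S P i hφ) x hx z hz
  have h3 : P.χ (Yp P (ε ^ 2)) = (φ x : U) := by
    rw [← hs.eq, P.χ_κ _ (φ x).2 hs.mem]
  have h4 := h1 (ε ^ 2) (by have := hs.ε_pos; positivity) hs.ε_lt
  rw [h3] at h4
  calc _ ≤ CH * ‖(P.M i : ℂ) - P.h i (φ x : U)‖ := h2
    _ ≤ CH * (C1 * ε ^ 2) := by gcongr
    _ = CH * C1 * ε ^ 2 := by ring

theorem tau_small_all (S : Setup N U Γ) (hU : IsSubmfd n U) (P : PeakData U n) {K0 K : Set U}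
    (hK0 : IsCompact K0) (hK : IsCompact K) :
    ∃ C : ℝ, 0 ≤ C ∧ ∀ i, ∀ φ ∈ Γ, ∀ x ∈ K0, ∀ ε, Sc P φ x ε → ∀ z ∈ K,
      ‖(P.M i : ℂ) - P.h i (φ z : U)‖ ≤ C * ε ^ 2 := by
  choose C hC h using fun i => tau_small S hU P hK0 hK i
  refine ⟨∑ i, C i, Finset.sum_nonneg fun i _ => hC i, ?_⟩
  intro i φ hφ x hx ε hs z hz
  refine (h i φ hφ x hx ε hs z hz).trans ?_
  refine mul_le_mul_of_nonneg_right ?_ (by positivity)
  exact Finset.single_le_sum (f := C) (fun i _ => hC i) (Finset.mem_univ i)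

/-- **localisation**: uniform on compact sets -/
theorem loc (S : Setup N U Γ) (hU : IsSubmfd n U) (P : PeakData U n) {K0 K : Set U}
    (hK0 : IsCompact K0) (hK : IsCompact K) {O : Set (Fin N → ℂ)} (hO : IsOpen O)
    (hp : P.p0 ∈ O) :
    ∃ ε0 > 0, ∀ φ ∈ Γ, ∀ x ∈ K0, ∀ ε, Sc P φ x ε → ε < ε0 → ∀ z ∈ K,
      ((φ z : U) : Fin N → ℂ) ∈ O := by
  obtain ⟨C, hC, h⟩ := tau_small_all S hU P hK0 hK
  let i : Fin P.k := ⟨0, P.hk⟩
  obtain ⟨δ, hδ, hn⟩ := peak_near S.bdd P i hO hp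
  refine ⟨min 1 (δ / (C + 1)), lt_min one_pos (by positivity), ?_⟩
  intro φ hφ x hx ε hs hε z hz
  refine hn _ (φ z).2 ?_
  have h1 := h i φ hφ x hx ε hs z hz
  have h2 := Complex.re_le_norm ((P.M i : ℂ) - P.h i (φ z : U))
  rw [Complex.sub_re, Complex.ofReal_re] at h2
  have h3 : ε < 1 := hε.trans_le (min_le_left _ _)
  have h4 : ε < δ / (C + 1) := hε.trans_le (min_le_right _ _)
  rw [lt_div_iff₀ (by positivity)] at h4
  have h5 := hs.ε_pos
  calc P.M i - (P.h i (φ z : U)).re ≤ C * ε ^ 2 := h2.trans h1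
    _ ≤ C * ε := by
        refine mul_le_mul_of_nonneg_left ?_ hC
        nlinarith
    _ < δ := by nlinarith

/-- **normality**: the scaled maps are bounded on compact sets -/
theorem scaled_bound (S : Setup N U Γ) (hU : IsSubmfd n U) (P : PeakData U n) {K0 K : Set U}
    (hK0 : IsCompact K0) (hK : IsCompact K) :
    ∃ C : ℝ, ∀ φ ∈ Γ, ∀ x ∈ K0, ∀ ε, Sc P φ x ε → ∀ z ∈ K,
      ((φ z : U) : Fin N → ℂ) ∈ P.O → ‖Dil ε⁻¹ (P.κ (φ z : U))‖ ≤ C := by
  obtain ⟨C1, hC1, h⟩ := tau_small_all S hU P hK0 hK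
  obtain ⟨Cν, hCν, hν⟩ := exists_nu_bound P.hν
  have hCp := Cp_nonneg P
  have hts := P.hts
  set A : ℝ := P.Cp * C1 with hA
  have hA0 : 0 ≤ A := by positivity
  set B : ℝ := C1 + P.Cp * (A * (3 + A * P.ts)) + (∑ i, ‖P.Q i‖) * A with hB
  have hB0 : 0 ≤ B := by positivity
  refine ⟨1 + A + Cν * B, ?_⟩
  intro φ hφ x hx ε hs z hz hzO
  have hε := hs.ε_pos
  set y := P.κ (φ z : U) with hy
  have hyU : y ∈ P.UU := P.κ_mem _ (φ z).2 hzO
  have hχ : P.χ y = (φ z : U) := P.χ_κ _ (φ z).2 hzO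
  set t := ε ^ 2 with ht
  have ht0 : 0 < t := by positivity
  have i0 : Fin P.k := ⟨0, P.hk⟩
  have hctrl : ‖y.1‖ ^ 2 + ‖y.2‖ ^ 2 ≤ A * t := by
    have h1 := P.ctrl i0 y hyU
    rw [hχ] at h1
    have h2 := Complex.re_le_norm ((P.M i0 : ℂ) - P.h i0 (φ z : U))
    rw [Complex.sub_re, Complex.ofReal_re] at h2
    have h3 := h i0 φ hφ x hx ε hs z hz
    calc _ ≤ P.Cp * (P.M i0 - (P.h i0 (φ z : U)).re) := h1
      _ ≤ P.Cp * (C1 * t) := by gcongr; exact h2.trans h3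
      _ = A * t := by rw [hA]; ring
  have hy1 : ‖y.1‖ ^ 2 ≤ A * t := by nlinarith [sq_nonneg ‖y.2‖]
  have hy2 : ‖y.2‖ ^ 2 ≤ A * t := by nlinarith [sq_nonneg ‖y.1‖]
  have hy12 : ‖y.1‖ * ‖y.2‖ ≤ A * t := by nlinarith [sq_nonneg (‖y.1‖ - ‖y.2‖)]
  have hAt : A * t ≤ A * P.ts := by
    have := hs.ε_lt
    gcongr
  have hy1' : ‖y.1‖ ≤ 1 + A * P.ts := by nlinarith [sq_nonneg (‖y.1‖ - 1), norm_nonneg y.1]
  have hy13 : ‖y.1‖ ^ 3 ≤ A * t * (1 + A * P.ts) := by
    calc ‖y.1‖ ^ 3 = ‖y.1‖ ^ 2 * ‖y.1‖ := by ring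
      _ ≤ A * t * (1 + A * P.ts) := by gcongr
  have herr : P.Cp * (‖y.1‖ ^ 3 + ‖y.1‖ * ‖y.2‖ + ‖y.2‖ ^ 2) ≤ P.Cp * (A * (3 + A * P.ts)) * t := by
    have h5 : ‖y.1‖ ^ 3 + ‖y.1‖ * ‖y.2‖ + ‖y.2‖ ^ 2 ≤ A * (3 + A * P.ts) * t := by nlinarith
    calc _ ≤ P.Cp * (A * (3 + A * P.ts) * t) := by gcongr
      _ = _ := by ring
  have hlin : ∀ i, ‖∑ j, (P.ν i j : ℂ) * y.2 j‖ ≤ B * t := by
    intro i
    have h1 := P.expand i y hyU
    rw [hχ] at h1
    have h3 := h i φ hφ x hx ε hs z hz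
    have h4 : -Complex.I * ∑ j, (P.ν i j : ℂ) * y.2 j =
        ((P.M i : ℂ) - P.h i (φ z : U)) -
          ((P.M i : ℂ) - P.h i (φ z : U) - tauF (P.ν i) (P.Q i) y) - P.Q i y.1 y.1 := by
      simp only [tauF]
      ring
    have h5 : ‖P.Q i y.1 y.1‖ ≤ (∑ i, ‖P.Q i‖) * A * t := by
      calc ‖P.Q i y.1 y.1‖ ≤ ‖P.Q i y.1‖ * ‖y.1‖ := ContinuousLinearMap.le_opNorm _ _
        _ ≤ ‖P.Q i‖ * ‖y.1‖ * ‖y.1‖ := by
            gcongr
            exact ContinuousLinearMap.le_opNorm _ _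
        _ = ‖P.Q i‖ * ‖y.1‖ ^ 2 := by ring
        _ ≤ (∑ i, ‖P.Q i‖) * (A * t) := by
            gcongr
            exact Finset.single_le_sum (f := fun i => ‖P.Q i‖)
              (fun i _ => ContinuousLinearMap.opNorm_nonneg _) (Finset.mem_univ i)
        _ = _ := by ring
    have h6 : ‖∑ j, (P.ν i j : ℂ) * y.2 j‖ = ‖-Complex.I * ∑ j, (P.ν i j : ℂ) * y.2 j‖ := by
      rw [norm_mul, norm_neg, Complex.norm_I, one_mul]
    rw [h6, h4]
    refine (norm_sub_le _ _).trans ?_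
    have h7 := norm_sub_le ((P.M i : ℂ) - P.h i (φ z : U))
      ((P.M i : ℂ) - P.h i (φ z : U) - tauF (P.ν i) (P.Q i) y)
    have h8 : B * t = C1 * t + P.Cp * (A * (3 + A * P.ts)) * t + (∑ i, ‖P.Q i‖) * A * t := by
      rw [hB]; ring
    rw [h8]
    linarith
  have hy2' : ‖y.2‖ ≤ Cν * (B * t) := hν _ _ (by positivity) hlin
  have h1 : ‖(Dil ε⁻¹ y).1‖ ≤ 1 + A := by
    simp only [Dil]
    rw [norm_smul, Complex.norm_real, Real.norm_eq_abs, abs_of_pos (by positivity)]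
    have h9 : (ε⁻¹ * ‖y.1‖) ^ 2 ≤ A := by
      rw [mul_pow, inv_pow, inv_mul_le_iff₀ (by positivity)]
      linarith
    nlinarith [sq_nonneg (ε⁻¹ * ‖y.1‖ - 1)]
  have h2 : ‖(Dil ε⁻¹ y).2‖ ≤ Cν * B := by
    simp only [Dil]
    rw [norm_smul, norm_pow, Complex.norm_real, Real.norm_eq_abs, abs_of_pos (by positivity),
      inv_pow, inv_mul_le_iff₀ (by positivity)]
    linarith
  rw [Prod.norm_def]
  refine max_le ?_ ?_
  · have : 0 ≤ Cν * B := by positivity
    linarith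
  · linarith

end

end Crest.Agent.R264.CN
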