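import Mathlib

/-!
Row 264, Part D, node D8alg: frozen interface of the PURE ALGEBRA UNIT.

`Conj L`   : a conjugation of a complex Lie algebra `L`.
`Perp h Y` : `Y` is Killing-orthogonal to `h`   (the space `n` of the blueprint).
`Hyp`      : the hypotheses (1)-(4) of the blueprint.
`Concl`    : the conclusion (`nb = σ n = {Y | Perp h (σ Y)}`).

`cx g : Conj (ℂ ⊗[ℝ] g)` is the standard conjugation of the complexification.
-/

open scoped TensorProduct ComplexConjugate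

namespace Crest.Agent.R264.DA

/-- A conjugation of a complex Lie algebra: an antilinear involutive automorphism. -/
structure Conj (L : Type*) [LieRing L] [LieAlgebra ℂ L] where
  /-- the map -/
  σ : L → L
  add : ∀ x y, σ (x + y) = σ x + σ y
  smul : ∀ (c : ℂ) x, σ (c • x) = conj c • σ x
  inv : ∀ x, σ (σ x) = x
  lie : ∀ x y, σ ⁅x, y⁆ = ⁅σ x, σ y⁆

variable {L : Type*} [LieRing L] [LieAlgebra ℂ L]

/-- `Y` is Killing-orthogonal to `h`. -/
def Perp (h : LieSubalgebra ℂ L) (Y : L) : Prop := ∀ X ∈ h, killingForm ℂ L Y X = 0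

/-- `ad A` is diagonalisable with purely imaginary eigenvalues. -/
def ImDiag (A : L) : Prop := ∀ (μ : ℂ) (v : L),
  ⁅A, ⁅A, v⁆⁆ - (2 * μ) • ⁅A, v⁆ + (μ * μ) • v = 0 → ⁅A, v⁆ = μ • v ∧ (v ≠ 0 → μ.re = 0)

/-- Hypotheses of the algebra unit. -/
structure Hyp (S : Conj L) (h : LieSubalgebra ℂ L) (δ : L →ₗ[ℂ] ℂ) : Prop where
  perp : ∀ Y, Perp h Y → Y ∈ h
  ss : ∀ A ∈ h, S.σ A = A → ImDiag A
  dsig : ∀ Y, δ (S.σ Y) = - conj (δ Y)
  dperp : ∀ Y, Perp h Y → δ Y = 0
  dh : ∀ Y ∈ h, ∀ W ∈ h, δ ⁅Y, W⁆ = 0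
  lev : ∀ Y, Perp h (S.σ Y) → Y ∉ h → 0 < (-(δ ⁅Y, S.σ Y⁆)).re
  nocurve : ∀ (y : L) (l : ℝ), Perp h (S.σ y) → y ∉ h → l < 0 → ⁅y, S.σ y⁆ ∈ h →
    ⁅⁅y, S.σ y⁆, y⁆ = (l : ℂ) • y → False

/-- Conclusion of the algebra unit. -/
def Concl (S : Conj L) (h : LieSubalgebra ℂ L) : Prop :=
  (∃ Z ∈ h, S.σ Z = Z ∧ ∀ Y, Perp h (S.σ Y) → ⁅Z, Y⁆ = (-Complex.I) • Y) ∧
    ∀ X : L, ∃ Y ∈ h, ∃ W, Perp h (S.σ W) ∧ X = Y + W

/-! ### the complexification of a real Lie algebra -/

section Cx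

variable (g : Type*) [LieRing g] [LieAlgebra ℝ g]

/-- conjugation on `ℂ ⊗ g`, as a real linear map -/
noncomputable def cxσ : (ℂ ⊗[ℝ] g) →ₗ[ℝ] (ℂ ⊗[ℝ] g) :=
  TensorProduct.map Complex.conjAe.toAlgHom.toLinearMap (LinearMap.id : g →ₗ[ℝ] g)

@[simp] lemma cxσ_tmul (c : ℂ) (x : g) : cxσ g (c ⊗ₜ[ℝ] x) = (conj c) ⊗ₜ[ℝ] x := by
  simp [cxσ]

/-- The standard conjugation of the complexification `ℂ ⊗ g`. -/
noncomputable def cx : Conj (ℂ ⊗[ℝ] g) where
  σ := cxσ g
  add := map_add _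
  smul c x := by
    induction x using TensorProduct.induction_on with
    | zero => simp
    | tmul d v => simp [TensorProduct.smul_tmul']
    | add x y hx hy => simp only [smul_add, map_add, hx, hy]
  inv x := by
    induction x using TensorProduct.induction_on with
    | zero => simp
    | tmul d v => simp
    | add x y hx hy => simp only [map_add, hx, hy]
  lie x y := by
    induction x using TensorProduct.induction_on with
    | zero => simp
    | tmul d v =>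
      induction y using TensorProduct.induction_on with
      | zero => simp
      | tmul e w => simp
      | add x y hx hy => simp only [map_add, lie_add, hx, hy]
    | add x y hx hy => simp only [map_add, add_lie, hx, hy]

@[simp] lemma cx_σ_tmul (c : ℂ) (x : g) : (cx g).σ (c ⊗ₜ[ℝ] x) = (conj c) ⊗ₜ[ℝ] x :=
  cxσ_tmul g c x

variable {g}



end Cx

end Crest.Agent.R264.DA
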