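import Mathlib
import Crest.Agent.R264.DADefs

/-!
Row 264, Part D: the complexification `CX g = g + i g` of a real Lie algebra, as a plain structure
(no tensor products).  `CX.conj : DA.Conj (CX g)`.
-/

set_option autoImplicit false
set_option linter.unusedSectionVars false

open scoped ComplexConjugate

namespace Crest.Agent.R264

/-- `CX g = g + i g`. -/
@[ext] structure CX (g : Type*) where
  /-- real part -/
  re : g
  /-- imaginary part -/
  im : g

namespace CX

section Module

variable {g : Type*} [AddCommGroup g] [Module ℝ g]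

instance : Zero (CX g) := ⟨⟨0, 0⟩⟩
instance : Add (CX g) := ⟨fun x y => ⟨x.re + y.re, x.im + y.im⟩⟩
instance : Neg (CX g) := ⟨fun x => ⟨-x.re, -x.im⟩⟩
instance : Sub (CX g) := ⟨fun x y => ⟨x.re - y.re, x.im - y.im⟩⟩
instance : SMul ℂ (CX g) := ⟨fun c x => ⟨c.re • x.re - c.im • x.im, c.re • x.im + c.im • x.re⟩⟩

@[simp] lemma zero_re : (0 : CX g).re = 0 := rfl
@[simp] lemma zero_im : (0 : CX g).im = 0 := rfl
@[simp] lemma add_re (x y : CX g) : (x + y).re = x.re + y.re := rfl
@[simp] lemma add_im (x y : CX g) : (x + y).im = x.im + y.im := rfl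
@[simp] lemma neg_re (x : CX g) : (-x).re = -x.re := rfl
@[simp] lemma neg_im (x : CX g) : (-x).im = -x.im := rfl
@[simp] lemma sub_re (x y : CX g) : (x - y).re = x.re - y.re := rfl
@[simp] lemma sub_im (x y : CX g) : (x - y).im = x.im - y.im := rfl
@[simp] lemma smul_re (c : ℂ) (x : CX g) : (c • x).re = c.re • x.re - c.im • x.im := rfl
@[simp] lemma smul_im (c : ℂ) (x : CX g) : (c • x).im = c.re • x.im + c.im • x.re := rfl

instance : AddCommGroup (CX g) where
  add_assoc x y z := by ext <;> simp [add_assoc]
  zero_add x := by ext <;> simp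
  add_zero x := by ext <;> simp
  nsmul := nsmulRec
  zsmul := zsmulRec
  neg_add_cancel x := by ext <;> simp
  add_comm x y := by ext <;> simp [add_comm]
  sub_eq_add_neg x y := by ext <;> simp [sub_eq_add_neg]

instance : Module ℂ (CX g) where
  one_smul x := by ext <;> simp
  mul_smul c d x := by
    ext <;> simp [smul_sub, smul_add, sub_smul, add_smul, mul_smul] <;> abel
  smul_zero c := by ext <;> simp
  smul_add c x y := by ext <;> simp [smul_add] <;> abel
  add_smul c d x := by ext <;> simp [add_smul] <;> abel
  zero_smul x := by ext <;> simp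

/-- the inclusion `g → g + i g` -/
def of (x : g) : CX g := ⟨x, 0⟩

@[simp] lemma of_re (x : g) : (of x).re = x := rfl
@[simp] lemma of_im (x : g) : (of x).im = 0 := rfl

lemma of_add (x y : g) : of (x + y) = of x + of y := by ext <;> simp
@[simp] lemma rsmul_re (c : ℝ) (x : CX g) : (c • x).re = c • x.re := by
  rw [← Complex.coe_smul c x]; simp only [smul_re]; simp
@[simp] lemma rsmul_im (c : ℝ) (x : CX g) : (c • x).im = c • x.im := by
  rw [← Complex.coe_smul c x]; simp only [smul_im]; simp
lemma of_smul (c : ℝ) (x : g) : of (c • x) = (c : ℂ) • of x := by ext <;> simp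
@[simp] lemma of_zero : of (0 : g) = 0 := rfl
lemma of_injective : Function.Injective (of : g → CX g) := fun _ _ h => congrArg CX.re h

lemma eq_of_add (x : CX g) : x = of x.re + Complex.I • of x.im := by ext <;> simp

/-- complex linear extension of a real linear map to a complex vector space -/
noncomputable def lift {V : Type*} [AddCommGroup V] [Module ℂ V] (f : g →ₗ[ℝ] V) :
    CX g →ₗ[ℂ] V where
  toFun x := f x.re + Complex.I • f x.im
  map_add' x y := by simp [smul_add]; abel
  map_smul' c x := by
    have h : ∀ (r : ℝ) (v : V), (r • v : V) = (r : ℂ) • v := fun r v => (Complex.coe_smul r v).symm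
    simp only [smul_re, smul_im, map_sub, map_add, map_smul, h, RingHom.id_apply, smul_add,
      smul_smul]
    conv_rhs => rw [← Complex.re_add_im c]
    rw [add_smul, add_mul, add_smul]
    have : (Complex.I * (c.im : ℂ)) • f x.re = ((c.im : ℂ) * Complex.I) • f x.re := by
      rw [mul_comm]
    rw [this]
    have h2 : ((c.im : ℂ) * Complex.I * Complex.I) • f x.im = - ((c.im : ℂ) • f x.im) := by
      rw [mul_assoc, Complex.I_mul_I]; simp
    rw [h2, mul_comm Complex.I (c.re : ℂ)]
    abel

@[simp] lemma lift_apply {V : Type*} [AddCommGroup V] [Module ℂ V] (f : g →ₗ[ℝ] V) (x : CX g) :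
    lift f x = f x.re + Complex.I • f x.im := rfl

lemma lift_of {V : Type*} [AddCommGroup V] [Module ℂ V] (f : g →ₗ[ℝ] V) (x : g) :
    lift f (of x) = f x := by simp

end Module

section Lie

variable {g : Type*} [LieRing g] [LieAlgebra ℝ g]

instance : Bracket (CX g) (CX g) :=
  ⟨fun x y => ⟨⁅x.re, y.re⁆ - ⁅x.im, y.im⁆, ⁅x.re, y.im⁆ + ⁅x.im, y.re⁆⟩⟩

@[simp] lemma lie_re (x y : CX g) : ⁅x, y⁆.re = ⁅x.re, y.re⁆ - ⁅x.im, y.im⁆ := rfl
@[simp] lemma lie_im (x y : CX g) : ⁅x, y⁆.im = ⁅x.re, y.im⁆ + ⁅x.im, y.re⁆ := rfl

instance : LieRing (CX g) where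
  add_lie x y z := by ext <;> simp <;> abel
  lie_add x y z := by ext <;> simp <;> abel
  lie_self x := by
    ext
    · simp
    · simp only [lie_im, zero_im]; rw [← lie_skew x.re x.im, neg_add_cancel]
  leibniz_lie x y z := by
    ext
    · simp only [lie_re, lie_im, add_re, lie_sub, lie_add, sub_lie, add_lie,
        leibniz_lie x.re y.re z.re, leibniz_lie x.re y.im z.im, leibniz_lie x.im y.re z.im,
        leibniz_lie x.im y.im z.re]
      abel
    · simp only [lie_re, lie_im, add_im, lie_sub, lie_add, sub_lie, add_lie,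
        leibniz_lie x.re y.re z.im, leibniz_lie x.re y.im z.re, leibniz_lie x.im y.re z.re,
        leibniz_lie x.im y.im z.im]
      abel

instance : LieAlgebra ℂ (CX g) where
  lie_smul c x y := by
    ext
    · simp only [lie_re, smul_re, smul_im, lie_sub, lie_add, lie_smul, smul_sub, smul_add, lie_im]
      abel
    · simp only [lie_im, smul_re, smul_im, lie_sub, lie_add, lie_smul, smul_sub, smul_add, lie_re]
      abel

lemma of_lie (x y : g) : of ⁅x, y⁆ = ⁅of x, of y⁆ := by ext <;> simp

/-- the conjugation `a + i b ↦ a - i b` -/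
def conj' (x : CX g) : CX g := ⟨x.re, -x.im⟩

@[simp] lemma conj'_re (x : CX g) : (conj' x).re = x.re := rfl
@[simp] lemma conj'_im (x : CX g) : (conj' x).im = -x.im := rfl

variable (g) in
/-- the standard conjugation of the complexification -/
def cc : DA.Conj (CX g) where
  σ := conj'
  add x y := by ext <;> simp [add_comm]
  smul c x := by
    ext
    · simp
    · simp; abel
  inv x := by ext <;> simp
  lie x y := by ext <;> simp [add_comm]

@[simp] lemma cc_σ_re (x : CX g) : ((cc g).σ x).re = x.re := rfl
@[simp] lemma cc_σ_im (x : CX g) : ((cc g).σ x).im = -x.im := rfl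
@[simp] lemma cc_σ_of (x : g) : (cc g).σ (of x) = of x := by ext <;> simp

lemma eq_of_fixed {x : CX g} (h : (cc g).σ x = x) : x = of x.re := by
  ext
  · simp
  · have := congrArg CX.im h
    simp only [cc_σ_im] at this
    have h2 : (2 : ℝ) • x.im = 0 := by
      rw [two_smul]; nth_rw 1 [← this]; simp
    have h3 := congrArg (fun z => (2⁻¹ : ℝ) • z) h2
    simpa [smul_smul] using h3

end Lie

section Basis

variable {g : Type*} [AddCommGroup g] [Module ℝ g]

instance [Module.Finite ℝ g] : Module.Finite ℂ (CX g) := by
  obtain ⟨s, hs⟩ := (Module.Finite.fg_top : (⊤ : Submodule ℝ g).FG)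
  classical
  refine ⟨⟨s.image of, ?_⟩⟩
  rw [eq_top_iff]
  have key : ∀ x : g, of x ∈ Submodule.span ℂ ((s.image of : Finset (CX g)) : Set (CX g)) := by
    intro x
    have hx : x ∈ Submodule.span ℝ (s : Set g) := by rw [hs]; trivial
    induction hx using Submodule.span_induction with
    | mem y hy => exact Submodule.subset_span (by simpa using ⟨y, hy, rfl⟩)
    | zero => simp
    | add y z _ _ hy hz => rw [of_add]; exact Submodule.add_mem _ hy hz
    | smul c y _ hy => rw [of_smul]; exact Submodule.smul_mem _ _ hy
  intro x _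
  rw [eq_of_add x]
  exact Submodule.add_mem _ (key _) (Submodule.smul_mem _ _ (key _))

/-- a real basis of `g` is a complex basis of `CX g` -/
noncomputable def basis {ι : Type*} [Fintype ι] (b : Module.Basis ι ℝ g) :
    Module.Basis ι ℂ (CX g) :=
  Module.Basis.ofEquivFun
    { toFun := fun x i => ⟨b.repr x.re i, b.repr x.im i⟩
      map_add' := fun x y => by
        funext i; apply Complex.ext <;> simp
      map_smul' := fun c x => by
        funext i
        apply Complex.ext
        · simp [map_sub, map_smul]
        · simp [map_add, map_smul]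
      invFun := fun f => ⟨∑ i, (f i).re • b i, ∑ i, (f i).im • b i⟩
      left_inv := fun x => by
        ext
        · simp [b.sum_repr]
        · simp [b.sum_repr]
      right_inv := fun f => by
        funext i
        apply Complex.ext
        · exact congrFun (b.repr_sum_self fun i => (f i).re) i
        · exact congrFun (b.repr_sum_self fun i => (f i).im) i }

end Basis

end CX

end Crest.Agent.R264
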