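import Mathlib
import Crest.Agent.R264.CX
import Crest.Agent.R266.Osgood
import Crest.Agent.R266.SCV
import Crest.Agent.R264.DIface

-- ▼ part R264/CasAlg
section

/-!
Row 264 (S0402), part D8 (a),(b): the Casimir element of the Killing form (helper851).
Pure algebra.
-/

set_option autoImplicit false
set_option linter.unusedSectionVars false

open scoped TensorProduct
open Module

namespace Crest.Agent.R264.Cas

variable (g : Type*) [LieRing g] [LieAlgebra ℝ g] [FiniteDimensional ℝ g]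
  [LieAlgebra.IsKilling ℝ g]

/-- a basis of `g` -/
noncomputable def kb : Basis (Fin (finrank ℝ g)) ℝ g := Module.finBasis ℝ g

/-- the Killing-dual basis -/
noncomputable def kd : Basis (Fin (finrank ℝ g)) ℝ g :=
  LinearMap.BilinForm.dualBasis (killingForm ℝ g)
    (LieAlgebra.IsKilling.killingForm_nondegenerate ℝ g) (kb g)

variable {g}

lemma kf_symm (u v : g) : killingForm ℝ g u v = killingForm ℝ g v u :=
  LieModule.traceForm_comm ℝ g g u v

/-- `u = ∑ κ(u, b_i) b'_i`. -/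
lemma sum_kd (u : g) : ∑ i, killingForm ℝ g u (kb g i) • kd g i = u := by
  have h := (kd g).sum_repr u
  have h2 : ∀ i, (kd g).repr u i = killingForm ℝ g u (kb g i) := fun i =>
    LinearMap.BilinForm.dualBasis_repr_apply _ _ _ _
  simpa [h2] using h

/-- `u = ∑ κ(u, b'_i) b_i`. -/
lemma sum_kb (u : g) : ∑ i, killingForm ℝ g u (kd g i) • kb g i = u := by
  have h := (kb g).sum_repr u
  have h2 : ∀ i, (kb g).repr u i = killingForm ℝ g u (kd g i) := by
    intro i
    conv_rhs => rw [← (kb g).sum_repr u]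
    rw [map_sum, LinearMap.sum_apply]
    have h3 : ∀ j, killingForm ℝ g ((kb g).repr u j • kb g j) (kd g i)
        = if j = i then (kb g).repr u j else 0 := by
      intro j
      rw [map_smul, LinearMap.smul_apply, kf_symm, kd, LinearMap.BilinForm.apply_dualBasis_left]
      split_ifs <;> simp
    rw [Finset.sum_congr rfl fun j _ => h3 j]
    simp
  simpa [h2] using h

/-- the Casimir element is invariant under automorphisms -/
lemma sum_equiv {M : Type*} [AddCommGroup M] [Module ℝ M] (φ : g ≃ₗ⁅ℝ⁆ g)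
    (β : g →ₗ[ℝ] g →ₗ[ℝ] M) :
    ∑ i, β (φ (kb g i)) (φ (kd g i)) = ∑ i, β (kb g i) (kd g i) := by
  have h1 : ∀ i, φ (kb g i) = ∑ j, killingForm ℝ g (φ (kb g i)) (kd g j) • kb g j := fun i =>
    (sum_kb _).symm
  calc ∑ i, β (φ (kb g i)) (φ (kd g i))
      = ∑ i, ∑ j, killingForm ℝ g (φ (kb g i)) (kd g j) • β (kb g j) (φ (kd g i)) := by
        refine Finset.sum_congr rfl fun i _ => ?_
        conv_lhs => rw [h1 i]
        rw [map_sum, LinearMap.sum_apply]
        refine Finset.sum_congr rfl fun j _ => ?_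
        rw [map_smul, LinearMap.smul_apply]
    _ = ∑ j, ∑ i, killingForm ℝ g (φ (kb g i)) (kd g j) • β (kb g j) (φ (kd g i)) :=
        Finset.sum_comm
    _ = ∑ j, β (kb g j) (kd g j) := by
        refine Finset.sum_congr rfl fun j _ => ?_
        have h2 : ∑ i, killingForm ℝ g (φ (kb g i)) (kd g j) • φ (kd g i) = kd g j := by
          have h3 : ∀ i, killingForm ℝ g (φ (kb g i)) (kd g j)
              = killingForm ℝ g (φ.symm (kd g j)) (kb g i) := by
            intro i
            rw [← LieAlgebra.killingForm_of_equiv_apply φ (φ.symm (kd g j)) (kb g i),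
              LieEquiv.apply_symm_apply, kf_symm]
          simp_rw [h3]
          have h4 := congrArg (φ : g ≃ₗ[ℝ] g) (sum_kd (φ.symm (kd g j)))
          rw [map_sum] at h4
          have h5 : (φ : g ≃ₗ[ℝ] g) (φ.symm (kd g j)) = kd g j := φ.apply_symm_apply _
          rw [h5] at h4
          conv_rhs => rw [← h4]
          refine Finset.sum_congr rfl fun i _ => ?_
          rw [map_smul]
          rfl
        conv_rhs => rw [← h2]
        rw [map_sum]
        refine Finset.sum_congr rfl fun i _ => ?_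
        rw [map_smul]

/-! ### complexification -/

/-- complexification of an endomorphism -/
noncomputable def endC {V : Type*} [AddCommGroup V] [Module ℝ V] (A : V →ₗ[ℝ] V) :
    CX V →ₗ[ℂ] CX V where
  toFun x := ⟨A x.re, A x.im⟩
  map_add' x y := by ext <;> simp
  map_smul' c x := by ext <;> simp

lemma basis_apply {V : Type*} [AddCommGroup V] [Module ℝ V] {ι : Type*} [Fintype ι]
    (b : Basis ι ℝ V) (i : ι) : (CX.basis b i : CX V) = CX.of (b i) := by
  classical
  rw [CX.basis, Basis.coe_ofEquivFun]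
  show (⟨∑ j, ((Pi.single i (1 : ℂ) : ι → ℂ) j).re • b j,
    ∑ j, ((Pi.single i (1 : ℂ) : ι → ℂ) j).im • b j⟩ : CX V) = ⟨b i, 0⟩
  congr 1
  · rw [Finset.sum_eq_single i]
    · simp
    · intro j _ hj; simp [Pi.single_eq_of_ne hj]
    · simp
  · refine Finset.sum_eq_zero fun j _ => ?_
    by_cases hj : j = i
    · subst hj; simp
    · simp [Pi.single_eq_of_ne hj]

lemma basis_repr {V : Type*} [AddCommGroup V] [Module ℝ V] {ι : Type*} [Fintype ι]
    (b : Basis ι ℝ V) (x : CX V) (i : ι) :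
    (CX.basis b).repr x i = ⟨b.repr x.re i, b.repr x.im i⟩ := rfl

lemma trace_endC {V : Type*} [AddCommGroup V] [Module ℝ V] {ι : Type*} [Fintype ι]
    (b : Basis ι ℝ V) (A : V →ₗ[ℝ] V) :
    LinearMap.trace ℂ (CX V) (endC A) = ((LinearMap.trace ℝ V A : ℝ) : ℂ) := by
  classical
  rw [LinearMap.trace_eq_matrix_trace ℂ (CX.basis b), LinearMap.trace_eq_matrix_trace ℝ b,
    Matrix.trace, Matrix.trace, Complex.ofReal_sum]
  refine Finset.sum_congr rfl fun i _ => ?_
  rw [Matrix.diag_apply, Matrix.diag_apply, LinearMap.toMatrix_apply, LinearMap.toMatrix_apply,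
    basis_apply, basis_repr]
  apply Complex.ext <;> simp [endC]

/-- `killingForm` of the complexification on real elements -/
lemma kf_of (u v : g) :
    killingForm ℂ (CX g) (CX.of u) (CX.of v) = ((killingForm ℝ g u v : ℝ) : ℂ) := by
  rw [killingForm_apply_apply, killingForm_apply_apply, ← trace_endC (Module.finBasis ℝ g)]
  congr 1
  ext x
  · simp [endC]
  · simp [endC]

lemma kf_of_right (Y : CX g) (v : g) :
    killingForm ℂ (CX g) Y (CX.of v)
      = (killingForm ℝ g Y.re v : ℝ) + Complex.I * (killingForm ℝ g Y.im v : ℝ) := by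
  conv_lhs => rw [CX.eq_of_add Y]
  rw [map_add, LinearMap.add_apply, map_smul, LinearMap.smul_apply, kf_of, kf_of, smul_eq_mul]

/-- `Y = ∑ κ_C(Y, b'_i) b_i` in the complexification. -/
lemma sum_kbC (Y : CX g) :
    ∑ i, killingForm ℂ (CX g) Y (CX.of (kd g i)) • CX.of (kb g i) = Y := by
  have h : ∀ i, killingForm ℂ (CX g) Y (CX.of (kd g i)) • CX.of (kb g i)
      = CX.of (killingForm ℝ g Y.re (kd g i) • kb g i)
        + Complex.I • CX.of (killingForm ℝ g Y.im (kd g i) • kb g i) := by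
    intro i
    rw [kf_of_right, add_smul, CX.of_smul, CX.of_smul, mul_smul]
  rw [Finset.sum_congr rfl fun i _ => h i, Finset.sum_add_distrib, ← Finset.smul_sum]
  have h2 : ∀ f : Fin (finrank ℝ g) → g, ∑ i, CX.of (f i) = CX.of (∑ i, f i) := by
    intro f
    let F : g →+ CX g := { toFun := CX.of, map_zero' := rfl, map_add' := CX.of_add }
    exact (map_sum F f Finset.univ).symm
  rw [h2, h2, sum_kb, sum_kb, ← CX.eq_of_add]

end Crest.Agent.R264.Cas
end

-- ▼ part R264/CasDiv
section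

/-!
Row 264 (S0402), part D8 (a),(b): behaviour of the divergence of a holomorphic vector field under
push-forward (helper851).
-/

set_option autoImplicit false
set_option linter.unusedSectionVars false

open Set Filter Topology
open scoped TensorProduct
open Module

namespace Crest.Agent.R264.Cas

variable {E : Type*} [NormedAddCommGroup E] [NormedSpace ℂ E] [FiniteDimensional ℂ E]

/-- trace of a continuous endomorphism, as a continuous linear map -/
noncomputable def trL (E : Type*) [NormedAddCommGroup E] [NormedSpace ℂ E]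
    [FiniteDimensional ℂ E] : (E →L[ℂ] E) →L[ℂ] ℂ :=
  haveI : FiniteDimensional ℂ (E →L[ℂ] E) :=
    FiniteDimensional.of_injective (ContinuousLinearMap.coeLM ℂ) ContinuousLinearMap.coe_injective
  LinearMap.toContinuousLinearMap ((LinearMap.trace ℂ E) ∘ₗ (ContinuousLinearMap.coeLM ℂ))

lemma trL_apply (A : E →L[ℂ] E) : trL E A = LinearMap.trace ℂ E (A : E →ₗ[ℂ] E) := rfl

lemma trL_comm (A B : E →L[ℂ] E) : trL E (A.comp B) = trL E (B.comp A) := by
  rw [trL_apply, trL_apply]
  exact LinearMap.trace_comp_comm' (A : E →ₗ[ℂ] E) (B : E →ₗ[ℂ] E) |>.symm ▸ rfl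

/-- the divergence at `x` of the vector field `X` -/
noncomputable def divv (X : E → E) (x : E) : ℂ :=
  LinearMap.trace ℂ E ((fderiv ℂ X x : E →L[ℂ] E) : E →ₗ[ℂ] E)

lemma divv_eq (X : E → E) (x : E) : divv X x = trL E (fderiv ℂ X x) := rfl

/-- the functional `λ_x(w) = tr (f''(x)(·, w) ∘ h'(f x))`, `h = f⁻¹` -/
noncomputable def lamL (f h : E → E) (x : E) : E →L[ℂ] ℂ :=
  (trL E).comp (((ContinuousLinearMap.compL ℂ E E E).flip (fderiv ℂ h (f x))).comp
    (fderiv ℂ (fderiv ℂ f) x).flip)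

lemma lamL_apply (f h : E → E) (x w : E) :
    lamL f h x w = trL E (((fderiv ℂ (fderiv ℂ f) x).flip w).comp (fderiv ℂ h (f x))) := rfl

lemma fderiv_fderiv_diff {D : Set E} (hD : IsOpen D) {F : Type*} [NormedAddCommGroup F]
    [NormedSpace ℂ F] [CompleteSpace F] {f : E → F} (hf : DifferentiableOn ℂ f D) :
    DifferentiableOn ℂ (fderiv ℂ f) D :=
  (R266.SCV.analyticOnNhd_of_differentiableOn hD hf).fderiv.differentiableOn

/-- derivative of a composition `h ∘ f = id`. -/
lemma fderiv_comp_id {D : Set E} (hD : IsOpen D) {f h : E → E} (hf : DifferentiableOn ℂ f D)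
    (hh : DifferentiableOn ℂ h D) (hm : MapsTo f D D) (hid : ∀ x ∈ D, h (f x) = x) {x : E}
    (hx : x ∈ D) :
    (fderiv ℂ h (f x)).comp (fderiv ℂ f x) = ContinuousLinearMap.id ℂ E ∧
    (fderiv ℂ f x).comp (fderiv ℂ h (f x)) = ContinuousLinearMap.id ℂ E := by
  have h1 : (fderiv ℂ h (f x)).comp (fderiv ℂ f x) = ContinuousLinearMap.id ℂ E := by
    have e : (fun y => h (f y)) =ᶠ[𝓝 x] fun y => y := by
      filter_upwards [hD.mem_nhds hx] with y hy using hid y hy
    have h2 := e.fderiv_eq (𝕜 := ℂ)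
    rw [fderiv_fun_comp (𝕜 := ℂ) x (hh.differentiableAt (hD.mem_nhds (hm hx)))
      (hf.differentiableAt (hD.mem_nhds hx))] at h2
    rw [h2]
    exact fderiv_fun_id
  refine ⟨h1, ?_⟩
  have h3 : ((fderiv ℂ h (f x) : E →L[ℂ] E) : E →ₗ[ℂ] E) ∘ₗ ((fderiv ℂ f x : E →L[ℂ] E) :
      E →ₗ[ℂ] E) = LinearMap.id := by
    ext v
    exact congrArg (fun A : E →L[ℂ] E => A v) h1
  have h4 := (LinearMap.comp_eq_id_comm ℂ E).1 h3
  ext v
  exact congrArg (fun A : E →ₗ[ℂ] E => A v) h4

/-- **Divergence of a push-forward.** -/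
theorem divv_push {D : Set E} (hD : IsOpen D) {f h : E → E} (hf : DifferentiableOn ℂ f D)
    (hh : DifferentiableOn ℂ h D) (hm : MapsTo f D D) (hid : ∀ x ∈ D, h (f x) = x)
    {X Y : E → E} (hX : DifferentiableOn ℂ X D) (hY : DifferentiableOn ℂ Y D)
    (hXY : ∀ x ∈ D, Y (f x) = fderiv ℂ f x (X x)) {x : E} (hx : x ∈ D) :
    divv Y (f x) = divv X x + lamL f h x (X x) := by
  have hxn := hD.mem_nhds hx
  have e : (fun y => Y (f y)) =ᶠ[𝓝 x] fun y => fderiv ℂ f y (X y) := by
    filter_upwards [hxn] with y hy using hXY y hy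
  have h2 := e.fderiv_eq (𝕜 := ℂ)
  rw [fderiv_fun_comp (𝕜 := ℂ) x (hY.differentiableAt (hD.mem_nhds (hm hx)))
      (hf.differentiableAt hxn),
    fderiv_clm_apply ((fderiv_fderiv_diff hD hf).differentiableAt hxn)
      (hX.differentiableAt hxn)] at h2
  obtain ⟨hST, hTS⟩ := fderiv_comp_id hD hf hh hm hid hx
  have h3 : fderiv ℂ Y (f x) = ((fderiv ℂ f x).comp (fderiv ℂ X x)
      + (fderiv ℂ (fderiv ℂ f) x).flip (X x)).comp (fderiv ℂ h (f x)) := by
    rw [← h2, ContinuousLinearMap.comp_assoc, hTS, ContinuousLinearMap.comp_id]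
  rw [divv_eq, divv_eq, lamL_apply, h3, ContinuousLinearMap.add_comp, map_add]
  congr 1
  rw [ContinuousLinearMap.comp_assoc, trL_comm, ContinuousLinearMap.comp_assoc, hST,
    ContinuousLinearMap.comp_id]

lemma divv_add {X Y : E → E} {x : E} (hX : DifferentiableAt ℂ X x)
    (hY : DifferentiableAt ℂ Y x) : divv (fun y => X y + Y y) x = divv X x + divv Y x := by
  rw [divv_eq, divv_eq, divv_eq, fderiv_fun_add hX hY, map_add]

lemma divv_const_smul {X : E → E} {x : E} (c : ℂ) (hX : DifferentiableAt ℂ X x) :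
    divv (fun y => c • X y) x = c * divv X x := by
  rw [divv_eq, divv_eq, fderiv_fun_const_smul hX, map_smul, smul_eq_mul]


lemma divv_diff {D : Set E} (hD : IsOpen D) {X : E → E} (hX : DifferentiableOn ℂ X D) :
    DifferentiableOn ℂ (divv X) D := by
  have h1 := fderiv_fderiv_diff hD hX
  exact (trL E).differentiable.comp_differentiableOn h1

end Crest.Agent.R264.Cas
end

-- ▼ part R264/LemI
section

/-!
Row 264, part D, node D4 (LEMMA I), helper420.
Gamma-semi-invariant holomorphic sections of `T^{⊗ j}` (unimodular multipliers) vanish.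
-/

set_option autoImplicit false

open Set Filter Topology Metric Complex

noncomputable section

namespace Crest.Agent.R264.LemI

open Crest.Agent.R266.SCV

section Gen

variable {E : Type*} [NormedAddCommGroup E] [NormedSpace ℂ E] [FiniteDimensional ℂ E]
variable {G : Type*} [NormedAddCommGroup G] [NormedSpace ℂ G] [CompleteSpace G]

/-- Montel's theorem for maps from `D` to `G`, as a proposition. -/
def MontelOn (D : Set E) (G : Type*) [NormedAddCommGroup G] [NormedSpace ℂ G] : Prop :=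
  ∀ (f : ℕ → E → G) (M : ℝ), (∀ k, DifferentiableOn ℂ (f k) D) →
    (∀ k, ∀ z ∈ D, ‖f k z‖ ≤ M) → ∃ g : E → G, DifferentiableOn ℂ g D ∧
      ∃ ph : ℕ → ℕ, StrictMono ph ∧ TendstoLocallyUniformlyOn (fun k => f (ph k)) g atTop D

/-- derivatives converge at converging points -/
theorem tendsto_fderiv {D : Set E} (hD : IsOpen D) {F : ℕ → E → G} {f : E → G}
    (hF : ∀ k, DifferentiableOn ℂ (F k) D) (hlim : TendstoLocallyUniformlyOn F f atTop D)
    {x : E} (hx : x ∈ D) {u : ℕ → E} (hu : Tendsto u atTop (𝓝 x)) :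
    Tendsto (fun k => fderiv ℂ (F k) (u k)) atTop (𝓝 (fderiv ℂ f x)) := by
  have : ProperSpace E := FiniteDimensional.proper ℂ E
  have hfa : AnalyticOnNhd ℂ f D :=
    analyticOnNhd_of_tendstoLocallyUniformlyOn hD hlim (Eventually.of_forall hF)
  have hc : ContinuousAt (fderiv ℂ f) x := (hfa x hx).fderiv.continuousAt
  obtain ⟨R, hR, hRD⟩ := Metric.isOpen_iff.1 hD x hx
  have hR2 : 0 < R / 2 := by positivity
  have hcb : closedBall x (R / 2) ⊆ D := (closedBall_subset_ball (by linarith)).trans hRD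
  have hunif := (tendstoLocallyUniformlyOn_iff_forall_isCompact hD).1 hlim _ hcb
    (isCompact_closedBall x (R / 2))
  have h1 : Tendsto (fun k => fderiv ℂ (F k) (u k) - fderiv ℂ f (u k)) atTop (𝓝 0) := by
    rw [Metric.tendsto_nhds]
    intro ε hε
    have hε' : 0 < ε / 2 * (R / 4) := by positivity
    filter_upwards [Metric.tendstoUniformlyOn_iff.1 hunif _ hε',
      hu.eventually (ball_mem_nhds x (show 0 < R / 4 by positivity))] with k hk hk2
    have hsub : ball (u k) (R / 4) ⊆ closedBall x (R / 2) := by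
      intro y hy
      have hy' : dist y (u k) < R / 4 := hy
      have hk2' : dist (u k) x < R / 4 := hk2
      have h3 : dist y x ≤ dist y (u k) + dist (u k) x := dist_triangle _ _ _
      have h4 : dist y x ≤ R / 2 := by linarith
      exact h4
    have hukD : u k ∈ D := hcb (hsub (mem_ball_self (by positivity)))
    have hdk : DifferentiableAt ℂ (F k) (u k) := (hF k).differentiableAt (hD.mem_nhds hukD)
    have hdf : DifferentiableAt ℂ f (u k) := (hfa _ hukD).differentiableAt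
    have hest : ‖fderiv ℂ (fun y => F k y - f y) (u k)‖ ≤ (ε / 2 * (R / 4)) / (R / 4) := by
      refine norm_fderiv_le_of_ball (by positivity) ?_ ?_
      · exact ((hF k).mono (hsub.trans hcb)).sub
          (hfa.differentiableOn.mono (hsub.trans hcb))
      · intro y hy
        have := hk y (hsub hy)
        rw [dist_comm, dist_eq_norm] at this
        exact this.le
    have heq : fderiv ℂ (fun y => F k y - f y) (u k) = fderiv ℂ (F k) (u k) - fderiv ℂ f (u k) :=
      fderiv_fun_sub hdk hdf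
    rw [heq] at hest
    rw [dist_zero_right]
    have : (ε / 2 * (R / 4)) / (R / 4) = ε / 2 := by field_simp
    rw [this] at hest
    linarith
  have h2 : Tendsto (fun k => fderiv ℂ f (u k)) atTop (𝓝 (fderiv ℂ f x)) := hc.tendsto.comp hu
  simpa using h1.add h2

/-- values converge at converging points -/
theorem tendsto_val {D : Set E} (hD : IsOpen D) {F : ℕ → E → G} {f : E → G}
    (hF : ∀ k, DifferentiableOn ℂ (F k) D) (hlim : TendstoLocallyUniformlyOn F f atTop D)
    {x : E} (hx : x ∈ D) {u : ℕ → E} (hu : Tendsto u atTop (𝓝 x)) :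
    Tendsto (fun k => F k (u k)) atTop (𝓝 (f x)) := by
  have hfa : AnalyticOnNhd ℂ f D :=
    analyticOnNhd_of_tendstoLocallyUniformlyOn hD hlim (Eventually.of_forall hF)
  have hc : ContinuousAt f x := (hfa x hx).continuousAt
  have h2 : Tendsto (fun k => f (u k)) atTop (𝓝 (f x)) := hc.tendsto.comp hu
  have h1 : Tendsto (fun k => F k (u k) - f (u k)) atTop (𝓝 0) := by
    rw [Metric.tendsto_nhds]
    intro ε hε
    obtain ⟨t, ht, hev⟩ := Metric.tendstoLocallyUniformlyOn_iff.1 hlim ε hε x hx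
    rw [nhdsWithin_eq_nhds.2 (hD.mem_nhds hx)] at ht
    filter_upwards [hev, hu.eventually ht] with k hk hk2
    have := hk _ hk2
    rwa [dist_comm, dist_eq_norm, ← dist_zero_right] at this
  simpa using h1.add h2

end Gen

section Tensor

variable {E : Type*} [NormedAddCommGroup E] [NormedSpace ℂ E] [FiniteDimensional ℂ E]
variable {j : ℕ}

omit [FiniteDimensional ℂ E] in
lemma expand {ι : Type*} [Fintype ι] (b : Module.Basis ι ℂ (E →L[ℂ] ℂ))
    (s : MultilinearMap ℂ (fun _ : Fin j => E →L[ℂ] ℂ) ℂ) (ξ : Fin j → (E →L[ℂ] ℂ)) :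
    s ξ = ∑ r : Fin j → ι, (∏ l, b.repr (ξ l) (r l)) * s (fun l => b (r l)) := by
  classical
  have h : ξ = fun l => ∑ i, b.repr (ξ l) i • b i := by
    funext l
    exact (b.sum_repr (ξ l)).symm
  conv_lhs => rw [h]
  rw [s.map_sum]
  refine Finset.sum_congr rfl (fun r _ => ?_)
  rw [s.map_smul_univ (fun l => b.repr (ξ l) (r l)) (fun l => b (r l)), smul_eq_mul]

/-- coordinate functional as a continuous linear map -/
lemma continuous_repr {ι : Type*} [Fintype ι] (b : Module.Basis ι ℂ (E →L[ℂ] ℂ)) (i : ι) :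
    Continuous (fun ξ : E →L[ℂ] ℂ => b.repr ξ i) := by
  have h : Continuous (b.coord i) := LinearMap.continuous_of_finiteDimensional (b.coord i)
  exact h

lemma tendsto_tensor {D : Set E} {s : E → MultilinearMap ℂ (fun _ : Fin j => E →L[ℂ] ℂ) ℂ}
    (hDo : IsOpen D) (hs : ∀ ξ, ContinuousOn (fun x => s x ξ) D) {x : E} (hx : x ∈ D)
    {u : ℕ → E} (hu : Tendsto u atTop (𝓝 x)) {ξ : ℕ → Fin j → (E →L[ℂ] ℂ)}
    {η : Fin j → (E →L[ℂ] ℂ)} (hξ : ∀ l, Tendsto (fun k => ξ k l) atTop (𝓝 (η l))) :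
    Tendsto (fun k => s (u k) (ξ k)) atTop (𝓝 (s x η)) := by
  classical
  let b := Module.finBasis ℂ (E →L[ℂ] ℂ)
  rw [expand b (s x) η]
  have hfun : (fun k => s (u k) (ξ k)) = fun k => ∑ r : Fin j → _,
      (∏ l, b.repr (ξ k l) (r l)) * s (u k) (fun l => b (r l)) :=
    funext fun k => expand b (s (u k)) (ξ k)
  rw [hfun]
  refine tendsto_finsetSum _ (fun r _ => Tendsto.mul ?_ ?_)
  · refine tendsto_finsetProd _ (fun l _ => ?_)
    exact ((continuous_repr b (r l)).tendsto (η l)).comp (hξ l)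
  · exact (((hs _).continuousAt (hDo.mem_nhds hx)).tendsto).comp hu

omit [FiniteDimensional ℂ E] in
lemma differentiableOn_prod {ι : Type*} {D : Set E} (u : Finset ι) (f : ι → E → ℂ)
    (h : ∀ i ∈ u, DifferentiableOn ℂ (f i) D) : DifferentiableOn ℂ (fun x => ∏ i ∈ u, f i x) D := by
  classical
  induction u using Finset.induction_on with
  | empty => simp
  | insert a v ha ih =>
    simp only [Finset.prod_insert ha]
    exact (h a (Finset.mem_insert_self a v)).mul
      (ih (fun i hi => h i (Finset.mem_insert_of_mem hi)))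

/-- pairing of the tensor with the derivatives of the components of `F` -/
def pair (s : E → MultilinearMap ℂ (fun _ : Fin j => E →L[ℂ] ℂ) ℂ) (F : E → (Fin j → ℂ)) (x : E) :
    ℂ := s x (fun l => fderiv ℂ (fun y => F y l) x)

lemma differentiableOn_pair {D : Set E} (hDo : IsOpen D)
    {s : E → MultilinearMap ℂ (fun _ : Fin j => E →L[ℂ] ℂ) ℂ}
    (hs : ∀ ξ, DifferentiableOn ℂ (fun x => s x ξ) D) {F : E → (Fin j → ℂ)}
    (hF : DifferentiableOn ℂ F D) : DifferentiableOn ℂ (pair s F) D := by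
  classical
  let b := Module.finBasis ℂ (E →L[ℂ] ℂ)
  have h : pair s F = fun x => ∑ r : Fin j → _,
      (∏ l, (b.coord (r l)).toContinuousLinearMap (fderiv ℂ (fun y => F y l) x)) *
        s x (fun l => b (r l)) := by
    funext x
    exact expand b (s x) _
  rw [h]
  have hd : ∀ l, DifferentiableOn ℂ (fun x => fderiv ℂ (fun y => F y l) x) D := by
    intro l
    have hFl : DifferentiableOn ℂ (fun y => F y l) D := differentiableOn_pi.1 hF l
    exact (analyticOnNhd_of_differentiableOn hDo hFl).fderiv.differentiableOn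
  refine DifferentiableOn.fun_sum (fun r _ => DifferentiableOn.mul ?_ (hs _))
  have hl : ∀ l, DifferentiableOn ℂ
      (fun x => (b.coord (r l)).toContinuousLinearMap (fderiv ℂ (fun y => F y l) x)) D := fun l =>
    (b.coord (r l)).toContinuousLinearMap.differentiable.comp_differentiableOn (hd l)
  exact differentiableOn_prod _ _ (fun l _ => hl l)

/-- **LEMMA I** (with Montel's theorem as a hypothesis). -/
theorem lemI_of_montel (hj : 0 < j) {D : Set E} (hDo : IsOpen D) (hDc : IsPreconnected D)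
    (hDb : Bornology.IsBounded D) {K0 : Set E} (hK : IsCompact K0) (hKD : K0 ⊆ D)
    (Γ : Set (E → E)) (hΓ : ∀ γ ∈ Γ, DifferentiableOn ℂ γ D ∧ MapsTo γ D D)
    (hcov : ∀ x ∈ D, ∃ γ ∈ Γ, ∃ κ ∈ K0, γ κ = x) (hM : MontelOn D (Fin j → ℂ))
    (s : E → MultilinearMap ℂ (fun _ : Fin j => E →L[ℂ] ℂ) ℂ)
    (hs : ∀ ξ, DifferentiableOn ℂ (fun x => s x ξ) D)
    (hinv : ∀ γ ∈ Γ, ∃ c : ℂ, ‖c‖ = 1 ∧ ∀ x ∈ D, ∀ ξ,
      s (γ x) ξ = c * s x (fun i => (ξ i).comp (fderiv ℂ γ x))) :
    ∀ x ∈ D, s x = 0 := by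
  classical
  -- admissible maps
  let Adm : Set (E → (Fin j → ℂ)) := {F | DifferentiableOn ℂ F D ∧ ∀ x ∈ D, ‖F x‖ ≤ 1}
  have hcomp : ∀ γ ∈ Γ, ∀ F ∈ Adm, F ∘ γ ∈ Adm := fun γ hγ F hF =>
    ⟨hF.1.comp (hΓ γ hγ).1 (hΓ γ hγ).2, fun x hx => hF.2 _ ((hΓ γ hγ).2 hx)⟩
  -- invariance of the norm of the pairing
  have hpinv : ∀ γ ∈ Γ, ∀ F ∈ Adm, ∀ x ∈ D, ‖pair s F (γ x)‖ = ‖pair s (F ∘ γ) x‖ := by
    intro γ hγ F hF x hx
    obtain ⟨c, hc, h⟩ := hinv γ hγ
    unfold pair
    rw [h x hx, norm_mul, hc, one_mul]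
    congr 2
    funext l
    have hγx : DifferentiableAt ℂ γ x := (hΓ γ hγ).1.differentiableAt (hDo.mem_nhds hx)
    have hFx : DifferentiableAt ℂ (fun y => F y l) (γ x) :=
      (differentiableOn_pi.1 hF.1 l).differentiableAt (hDo.mem_nhds ((hΓ γ hγ).2 hx))
    have := fderiv_comp x hFx hγx
    rw [← this]
    rfl
  -- limits of pairings
  have hlimp : ∀ (F : ℕ → E → (Fin j → ℂ)) (f : E → (Fin j → ℂ)) (u : ℕ → E) (x : E),
      (∀ k, F k ∈ Adm) → TendstoLocallyUniformlyOn F f atTop D → x ∈ D →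
      Tendsto u atTop (𝓝 x) → Tendsto (fun k => pair s (F k) (u k)) atTop (𝓝 (pair s f x)) := by
    intro F f u x hF hlim hx hu
    refine tendsto_tensor hDo (fun ξ => (hs ξ).continuousOn) hx hu (fun l => ?_)
    refine tendsto_fderiv (G := ℂ) hDo (F := fun k y => F k y l)
      (fun k => differentiableOn_pi.1 (hF k).1 l) ?_ hx hu
    have hcl : UniformContinuous (fun v : Fin j → ℂ => v l) :=
      Pi.uniformContinuous_proj (fun _ : Fin j => ℂ) l
    exact hcl.comp_tendstoLocallyUniformlyOn hlim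
  -- limits of admissible maps are admissible
  have hlimA : ∀ (F : ℕ → E → (Fin j → ℂ)) (f : E → (Fin j → ℂ)), (∀ k, F k ∈ Adm) →
      TendstoLocallyUniformlyOn F f atTop D → f ∈ Adm := by
    intro F f hF hlim
    refine ⟨(analyticOnNhd_of_tendstoLocallyUniformlyOn hDo hlim
      (Eventually.of_forall fun k => (hF k).1)).differentiableOn, fun x hx => ?_⟩
    have h := tendsto_val hDo (fun k => (hF k).1) hlim hx (tendsto_const_nhds (x := x))
    exact le_of_tendsto h.norm (Eventually.of_forall fun k => (hF k).2 x hx)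
  -- extraction
  have hext : ∀ (F : ℕ → E → (Fin j → ℂ)) (u : ℕ → E), (∀ k, F k ∈ Adm) → (∀ k, u k ∈ K0) →
      ∃ f ∈ Adm, ∃ x ∈ K0, ∃ ph : ℕ → ℕ, StrictMono ph ∧
        TendstoLocallyUniformlyOn (fun k => F (ph k)) f atTop D ∧
        Tendsto (fun k => u (ph k)) atTop (𝓝 x) := by
    intro F u hF hu
    obtain ⟨x, hx, p1, hp1, hx1⟩ := hK.tendsto_subseq hu
    obtain ⟨g, hg, p2, hp2, hlim⟩ := hM (fun k => F (p1 k)) 1 (fun k => (hF _).1)
      (fun k => (hF _).2)
    refine ⟨g, hlimA _ _ (fun k => hF _) hlim, x, hx, p1 ∘ p2, hp1.comp hp2, hlim, ?_⟩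
    exact hx1.comp hp2.tendsto_atTop
  by_contra hne
  push Not at hne
  obtain ⟨x1, hx1, hsx1⟩ := hne
  -- value set
  let S : Set ℝ := {a | ∃ F ∈ Adm, ∃ κ ∈ K0, a = ‖pair s F κ‖}
  -- S is bounded above
  have hbdd : BddAbove S := by
    by_contra hb
    rw [not_bddAbove_iff] at hb
    choose a ha hak using fun k : ℕ => hb (k : ℝ)
    choose F hF κ hκ haF using ha
    obtain ⟨f, hf, x, hx, ph, hph, hl, hlx⟩ := hext F κ hF hκ
    have h := (hlimp _ f _ x (fun k => hF _) hl (hKD hx) hlx).norm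
    have h2 : Tendsto (fun k => ‖pair s (F (ph k)) (κ (ph k))‖) atTop atTop := by
      refine tendsto_atTop_mono (fun k => ?_) tendsto_natCast_atTop_atTop
      rw [← haF]
      exact ((Nat.cast_le.2 (hph.id_le k)).trans (hak (ph k)).le)
    exact not_tendsto_atTop_of_tendsto_nhds h h2
  -- a nonzero value
  have hpos : ∃ a ∈ S, 0 < a := by
    obtain ⟨γ, hγ, κ, hκ, hκx⟩ := hcov x1 hx1
    have hξ : ∃ ξ, s x1 ξ ≠ 0 := by
      by_contra h
      push Not at h
      exact hsx1 (MultilinearMap.ext h)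
    obtain ⟨ξ, hξ⟩ := hξ
    obtain ⟨M, hM0⟩ := hDb.exists_norm_le
    have hM1 : ∀ x ∈ D, ‖x‖ ≤ |M| := fun x hx => (hM0 x hx).trans (le_abs_self M)
    obtain ⟨c, hc0, hc⟩ : ∃ c : ℝ, 0 < c ∧ ∀ l, c * (‖ξ l‖ * |M|) ≤ 1 := by
      refine ⟨1 / (1 + ∑ l, ‖ξ l‖ * |M|), by positivity, fun l => ?_⟩
      have h1 : ‖ξ l‖ * |M| ≤ ∑ l, ‖ξ l‖ * |M| :=
        Finset.single_le_sum (f := fun l => ‖ξ l‖ * |M|) (fun i _ => by positivity)
          (Finset.mem_univ l)
      have h2 : 0 ≤ ∑ l, ‖ξ l‖ * |M| := Finset.sum_nonneg (fun i _ => by positivity)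
      rw [one_div, inv_mul_le_iff₀ (by positivity)]
      linarith
    let F : E → (Fin j → ℂ) := fun y l => (c : ℂ) * ξ l y
    have hFA : F ∈ Adm := by
      refine ⟨?_, fun x hx => ?_⟩
      · refine differentiableOn_pi.2 (fun l => ?_)
        exact ((ξ l).differentiable.const_mul (c : ℂ)).differentiableOn
      · rw [pi_norm_le_iff_of_nonneg zero_le_one]
        intro l
        show ‖(c : ℂ) * ξ l x‖ ≤ 1
        rw [norm_mul, Complex.norm_real, Real.norm_of_nonneg hc0.le]
        refine le_trans ?_ (hc l)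
        gcongr
        exact ((ξ l).le_opNorm x).trans (by gcongr; exact hM1 x hx)
    refine ⟨‖pair s (F ∘ γ) κ‖, ⟨F ∘ γ, hcomp γ hγ F hFA, κ, hκ, rfl⟩, ?_⟩
    rw [← hpinv γ hγ F hFA κ (hKD hκ), hκx]
    rw [norm_pos_iff]
    unfold pair
    have : (fun l => fderiv ℂ (fun y => F y l) x1) = fun l => (fun _ => (c : ℂ)) l • ξ l := by
      funext l
      show fderiv ℂ (fun y => (c : ℂ) * ξ l y) x1 = (c : ℂ) • ξ l
      rw [fderiv_const_mul (ξ l).differentiableAt, ContinuousLinearMap.fderiv]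
    rw [this, (s x1).map_smul_univ]
    simp only [Finset.prod_const, smul_eq_mul]
    have hc' : (c : ℂ) ≠ 0 := by exact_mod_cast hc0.ne'
    exact mul_ne_zero (pow_ne_zero _ hc') hξ
  obtain ⟨a0, ha0S, ha0⟩ := hpos
  set A : ℝ := sSup S with hA
  have hApos : 0 < A := lt_of_lt_of_le ha0 (le_csSup hbdd ha0S)
  -- upper bound on all of D
  have hub : ∀ F ∈ Adm, ∀ x ∈ D, ‖pair s F x‖ ≤ A := by
    intro F hF x hx
    obtain ⟨γ, hγ, κ, hκ, rfl⟩ := hcov x hx
    rw [hpinv γ hγ F hF κ (hKD hκ)]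
    exact le_csSup hbdd ⟨F ∘ γ, hcomp γ hγ F hF, κ, hκ, rfl⟩
  -- attained
  obtain ⟨F, hF, κs, hκs, hFA⟩ : ∃ F ∈ Adm, ∃ κ ∈ K0, ‖pair s F κ‖ = A := by
    obtain ⟨v, -, hv, hvS⟩ := exists_seq_tendsto_sSup ⟨a0, ha0S⟩ hbdd
    choose F hF κ hκ hvF using hvS
    obtain ⟨f, hf, x, hx, ph, hph, hl, hlx⟩ := hext F κ hF hκ
    refine ⟨f, hf, x, hx, ?_⟩
    have h := (hlimp _ f _ x (fun k => hF _) hl (hKD hx) hlx).norm
    have h2 : Tendsto (fun k => ‖pair s (F (ph k)) (κ (ph k))‖) atTop (𝓝 A) := by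
      have := hv.comp hph.tendsto_atTop
      refine this.congr (fun k => ?_)
      simp [hvF]
    exact tendsto_nhds_unique h h2
  have hconst : ∀ x ∈ D, ‖pair s F x‖ = A := by
    have hmax : IsMaxOn (norm ∘ pair s F) D κs := by
      intro x hx
      show ‖pair s F x‖ ≤ ‖pair s F κs‖
      rw [hFA]
      exact hub F hF x hx
    have h := Complex.norm_eqOn_of_isPreconnected_of_isMaxOn hDc hDo
      (differentiableOn_pair hDo hs hF.1) (hKD hκs) hmax
    intro x hx
    have := h hx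
    simpa [hFA] using this
  -- the component `0`
  let l0 : Fin j := ⟨0, hj⟩
  let S1 : Set ℝ := (fun x => ‖F x l0‖) '' D
  have hS1b : BddAbove S1 := by
    refine ⟨1, ?_⟩
    rintro _ ⟨x, hx, rfl⟩
    exact (norm_le_pi_norm (F x) l0).trans (hF.2 x hx)
  obtain ⟨w, -, hw, hwS⟩ := exists_seq_tendsto_sSup (S := S1) ⟨_, κs, hKD hκs, rfl⟩ hS1b
  choose xk hxk hwk using hwS
  choose γ hγ κ hκ hγκ using fun k => hcov (xk k) (hxk k)
  obtain ⟨f, hf, x, hx, ph, hph, hl, hlx⟩ :=
    hext (fun k => F ∘ γ k) κ (fun k => hcomp _ (hγ k) F hF) hκ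
  -- pairing of the limit is nonzero
  have hfx : ‖pair s f x‖ = A := by
    have h := (hlimp _ f _ x (fun k => hcomp _ (hγ _) F hF) hl (hKD hx) hlx).norm
    refine tendsto_nhds_unique h ?_
    refine tendsto_const_nhds.congr (fun k => ?_)
    rw [← hpinv _ (hγ _) F hF _ (hKD (hκ _))]
    exact (hconst _ ((hΓ _ (hγ _)).2 (hKD (hκ _)))).symm
  -- the component `0` of the limit has its maximum at `x`
  have hfmax : IsMaxOn (norm ∘ fun y => f y l0) D x := by
    have hval : ‖f x l0‖ = sSup S1 := by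
      have h := tendsto_val hDo (fun k => (hcomp _ (hγ (ph k)) F hF).1) hl (hKD hx) hlx
      have h' := ((continuous_apply l0).tendsto _).comp h
      have h'' := h'.norm
      refine tendsto_nhds_unique h'' ?_
      have := hw.comp hph.tendsto_atTop
      refine this.congr (fun k => ?_)
      simp only [Function.comp_apply]
      rw [hγκ, ← hwk]
    intro y hy
    show ‖f y l0‖ ≤ ‖f x l0‖
    rw [hval]
    have h := tendsto_val hDo (fun k => (hcomp _ (hγ (ph k)) F hF).1) hl hy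
      (tendsto_const_nhds (x := y))
    have h' := ((continuous_apply l0).tendsto _).comp h
    refine le_of_tendsto h'.norm (Eventually.of_forall fun k => ?_)
    exact le_csSup hS1b ⟨γ (ph k) y, (hΓ _ (hγ _)).2 hy, rfl⟩
  have hfl : DifferentiableOn ℂ (fun y => f y l0) D := differentiableOn_pi.1 hf.1 l0
  have hcst := Complex.eqOn_of_isPreconnected_of_isMaxOn_norm hDc hDo hfl (hKD hx) hfmax
  have hder : fderiv ℂ (fun y => f y l0) x = 0 := by
    have heq : (fun y => f y l0) =ᶠ[𝓝 x] fun _ => f x l0 := by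
      filter_upwards [hDo.mem_nhds (hKD hx)] with y hy using hcst hy
    rw [heq.fderiv_eq]
    simp
  have hz : pair s f x = 0 := by
    unfold pair
    exact (s x).map_coord_zero l0 hder
  rw [hz, norm_zero] at hfx
  exact hApos.ne hfx

end Tensor

end Crest.Agent.R264.LemI
end
end

-- ▼ part R264/Montel
section

/-!
Row 264: Montel's theorem on an open subset of a finite dimensional complex space (helper420).
-/

set_option autoImplicit false

open Set Filter Topology Metric Complex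

noncomputable section

namespace Crest.Agent.R264

open Crest.Agent.R266.SCV

variable {E : Type*} [NormedAddCommGroup E] [NormedSpace ℂ E] [FiniteDimensional ℂ E]
variable {G : Type*} [NormedAddCommGroup G] [NormedSpace ℂ G] [FiniteDimensional ℂ G]

omit [FiniteDimensional ℂ E] [FiniteDimensional ℂ G] in
/-- uniform local Lipschitz estimate -/
lemma lip_of_bounded {D : Set E} {f : E → G} {M : ℝ}
    (hf : DifferentiableOn ℂ f D) (hD : IsOpen D) (hM : ∀ z ∈ D, ‖f z‖ ≤ M) {x : E} {r : ℝ}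
    (hr : 0 < r) (hx : ball x (2 * r) ⊆ D) {y z : E} (hy : y ∈ ball x r) (hz : z ∈ ball x r) :
    ‖f y - f z‖ ≤ M / r * ‖y - z‖ := by
  have hsub : ∀ w ∈ ball x r, ball w r ⊆ D := by
    intro w hw v hv
    refine hx ?_
    have h1 : dist w x < r := hw
    have h2 : dist v w < r := hv
    have h3 : dist v x ≤ dist v w + dist w x := dist_triangle _ _ _
    show dist v x < 2 * r
    linarith
  refine (convex_ball x r).norm_image_sub_le_of_norm_fderiv_le (𝕜 := ℂ) (fun w hw => ?_)
    (fun w hw => ?_) hz hy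
  · exact hf.differentiableAt (hD.mem_nhds (hsub w hw (mem_ball_self hr)))
  · exact norm_fderiv_le_of_ball hr (hf.mono (hsub w hw)) (fun v hv => hM v (hsub w hw hv))

/-- **Montel's theorem.** -/
theorem montel {D : Set E} (hD : IsOpen D) {f : ℕ → E → G}
    (hf : ∀ k, DifferentiableOn ℂ (f k) D) {M : ℝ} (hM : ∀ k, ∀ z ∈ D, ‖f k z‖ ≤ M) :
    ∃ g : E → G, DifferentiableOn ℂ g D ∧
      ∃ ph : ℕ → ℕ, StrictMono ph ∧ TendstoLocallyUniformlyOn (fun k => f (ph k)) g atTop D := by
  classical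
  have : ProperSpace E := FiniteDimensional.proper ℂ E
  have : ProperSpace G := FiniteDimensional.proper ℂ G
  obtain ⟨S, hSD, hSc, hSd⟩ :=
    (TopologicalSpace.IsSeparable.of_separableSpace D).exists_countable_dense_subset
  have : Countable S := hSc.to_subtype
  have hM' : ∀ k, ∀ z ∈ D, ‖f k z‖ ≤ |M| := fun k z hz => (hM k z hz).trans (le_abs_self M)
  -- extraction of a subsequence converging on `S`
  let v : ℕ → (S → G) := fun k s => f k s
  have hv : ∀ k, v k ∈ Set.univ.pi (fun _ : S => closedBall (0 : G) |M|) := by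
    intro k s _
    exact mem_closedBall_zero_iff.2 (hM' k s (hSD s.2))
  have hcomp : IsCompact (Set.univ.pi (fun _ : S => closedBall (0 : G) |M|)) :=
    isCompact_univ_pi (fun _ => isCompact_closedBall _ _)
  obtain ⟨w, -, ph, hph, hlim⟩ := hcomp.tendsto_subseq hv
  have hlimS : ∀ s (hs : s ∈ S), Tendsto (fun k => f (ph k) s) atTop (𝓝 (w ⟨s, hs⟩)) :=
    fun s hs => tendsto_pi_nhds.1 hlim ⟨s, hs⟩
  -- local radius and Lipschitz constant
  have hloc : ∀ x ∈ D, ∀ ε > 0, ∃ δ > 0, ball x δ ⊆ D ∧ ∀ k, ∀ y ∈ ball x δ, ∀ z ∈ ball x δ,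
      ‖f k y - f k z‖ ≤ ε := by
    intro x hx ε hε
    obtain ⟨R, hR, hRD⟩ := Metric.isOpen_iff.1 hD x hx
    have hr : 0 < R / 2 := by positivity
    have hL : 0 < |M| / (R / 2) + 1 := by positivity
    refine ⟨min (R / 2) (ε / (2 * (|M| / (R / 2) + 1))), lt_min hr (by positivity), ?_, ?_⟩
    · exact (ball_subset_ball ((min_le_left _ _).trans (by linarith))).trans hRD
    · intro k y hy z hz
      have hy1 : y ∈ ball x (R / 2) := ball_subset_ball (min_le_left _ _) hy
      have hz1 : z ∈ ball x (R / 2) := ball_subset_ball (min_le_left _ _) hz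
      have h1 := lip_of_bounded (hf k) hD (hM' k) hr
        (by rw [mul_div_cancel₀ R two_ne_zero]; exact hRD) hy1 hz1
      have hy2 : dist y x < ε / (2 * (|M| / (R / 2) + 1)) := lt_of_lt_of_le hy (min_le_right _ _)
      have hz2 : dist z x < ε / (2 * (|M| / (R / 2) + 1)) := lt_of_lt_of_le hz (min_le_right _ _)
      have h3 : ‖y - z‖ ≤ 2 * (ε / (2 * (|M| / (R / 2) + 1))) := by
        rw [← dist_eq_norm]
        have := dist_triangle_right y z x
        linarith
      calc ‖f k y - f k z‖ ≤ |M| / (R / 2) * ‖y - z‖ := h1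
        _ ≤ (|M| / (R / 2) + 1) * (2 * (ε / (2 * (|M| / (R / 2) + 1)))) := by
            gcongr
            linarith
        _ = ε := by field_simp
  have hpt : ∀ x ∈ D, ∃ a, Tendsto (fun k => f (ph k) x) atTop (𝓝 a) := by
    intro x hx
    refine cauchySeq_tendsto_of_complete ?_
    rw [Metric.cauchySeq_iff]
    intro ε hε
    obtain ⟨δ, hδ, -, hδf⟩ := hloc x hx (ε / 4) (by positivity)
    obtain ⟨s, hs, hsx⟩ := Metric.mem_closure_iff.1 (hSd hx) δ hδ
    have hsb : s ∈ ball x δ := by rw [mem_ball, dist_comm]; exact hsx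
    obtain ⟨N, hN⟩ := Metric.cauchySeq_iff.1 (hlimS s hs).cauchySeq (ε / 4) (by positivity)
    refine ⟨N, fun m hm n hn => ?_⟩
    have h1 := hδf (ph m) x (mem_ball_self hδ) s hsb
    have h2 := hδf (ph n) s hsb x (mem_ball_self hδ)
    have h3 := hN m hm n hn
    rw [dist_eq_norm] at h3 ⊢
    have h4 : f (ph m) x - f (ph n) x = (f (ph m) x - f (ph m) s) + (f (ph m) s - f (ph n) s) +
        (f (ph n) s - f (ph n) x) := by abel
    rw [h4]
    refine lt_of_le_of_lt (norm_add₃_le) ?_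
    linarith
  choose! g hg using hpt
  have hlu : TendstoLocallyUniformlyOn (fun k => f (ph k)) g atTop D := by
    rw [Metric.tendstoLocallyUniformlyOn_iff]
    intro ε hε x hx
    obtain ⟨δ, hδ, hδD, hδf⟩ := hloc x hx (ε / 4) (by positivity)
    refine ⟨ball x δ, mem_nhdsWithin_of_mem_nhds (ball_mem_nhds x hδ), ?_⟩
    have hgx : ∀ y ∈ ball x δ, ‖g x - g y‖ ≤ ε / 4 := fun y hy =>
      le_of_tendsto ((hg x hx).sub (hg y (hδD hy))).norm
        (Eventually.of_forall fun k => hδf (ph k) x (mem_ball_self hδ) y hy)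
    filter_upwards [(Metric.tendsto_nhds.1 (hg x hx)) (ε / 4) (by positivity)] with k hk y hy
    have h1 := hδf (ph k) x (mem_ball_self hδ) y hy
    have h2 := hgx y hy
    rw [dist_eq_norm] at hk ⊢
    have h4 : g y - f (ph k) y = -(g x - g y) + -(f (ph k) x - g x) +
        (f (ph k) x - f (ph k) y) := by abel
    rw [h4]
    refine lt_of_le_of_lt (norm_add₃_le) ?_
    rw [norm_neg, norm_neg]
    linarith
  exact ⟨g, (analyticOnNhd_of_tendstoLocallyUniformlyOn hD hlu
    (Eventually.of_forall fun k => hf _)).differentiableOn, ph, hph, hlu⟩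

/-- vector valued Montel in the form used for Lemma I -/
theorem montelOn {D : Set E} (hD : IsOpen D) : LemI.MontelOn D G :=
  fun _ _ hf hM => montel hD hf hM

end Crest.Agent.R264
end
end

-- ▼ part R264/LemIFin
section

/-!
Row 264, part D, node D4 (LEMMA I): final forms, no hypotheses left (helper420).
-/

set_option autoImplicit false

open Set Filter Topology Metric Complex

noncomputable section

namespace Crest.Agent.R264.LemI

variable {E : Type*} [NormedAddCommGroup E] [NormedSpace ℂ E] [FiniteDimensional ℂ E]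

/-- **LEMMA I**. -/
theorem lemI {j : ℕ} (hj : 0 < j) {D : Set E} (hDo : IsOpen D) (hDc : IsPreconnected D)
    (hDb : Bornology.IsBounded D) {K0 : Set E} (hK : IsCompact K0) (hKD : K0 ⊆ D)
    (Γ : Set (E → E)) (hΓ : ∀ γ ∈ Γ, DifferentiableOn ℂ γ D ∧ MapsTo γ D D)
    (hcov : ∀ x ∈ D, ∃ γ ∈ Γ, ∃ κ ∈ K0, γ κ = x)
    (s : E → MultilinearMap ℂ (fun _ : Fin j => E →L[ℂ] ℂ) ℂ)
    (hs : ∀ ξ, DifferentiableOn ℂ (fun x => s x ξ) D)
    (hinv : ∀ γ ∈ Γ, ∃ c : ℂ, ‖c‖ = 1 ∧ ∀ x ∈ D, ∀ ξ,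
      s (γ x) ξ = c * s x (fun i => (ξ i).comp (fderiv ℂ γ x))) :
    ∀ x ∈ D, s x = 0 :=
  lemI_of_montel hj hDo hDc hDb hK hKD Γ hΓ hcov (montelOn hDo) s hs hinv




end Crest.Agent.R264.LemI
end
end

-- ▼ part R264/CasSec
section

/-!
Row 264 (S0402), part D8 (a),(b): vanishing of the Casimir sections (helper851).

`ev x : g →ₗ[ℝ] E` is the evaluation at `x`; `LemIProp D Γ` is the conclusion of Lemma I (D4).
-/

set_option autoImplicit false
set_option linter.unusedSectionVars false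

open Set Filter Topology
open scoped TensorProduct
open Module

namespace Crest.Agent.R264.Cas

section

variable {E : Type*} [NormedAddCommGroup E] [NormedSpace ℂ E]

/-- the conclusion of Lemma I (D4) for the domain `D` and the group `Γ` -/
def LemIProp (D : Set E) (Γ : Set (E → E)) : Prop :=
  ∀ (j : ℕ), 0 < j → ∀ s : E → MultilinearMap ℂ (fun _ : Fin j => E →L[ℂ] ℂ) ℂ,
    (∀ ξ, DifferentiableOn ℂ (fun x => s x ξ) D) →
    (∀ γ ∈ Γ, ∃ c : ℂ, ‖c‖ = 1 ∧ ∀ x ∈ D, ∀ ξ,
      s (γ x) ξ = c * s x (fun i => (ξ i).comp (fderiv ℂ γ x))) →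
    ∀ x ∈ D, s x = 0

/-- evaluation of covectors at `u` -/
noncomputable def evAt (u : E) : (E →L[ℂ] ℂ) →ₗ[ℂ] ℂ where
  toFun ξ := ξ u
  map_add' _ _ := rfl
  map_smul' _ _ := rfl

/-- `ξ ↦ ξ₀ u` -/
noncomputable def ten1 (u : E) : MultilinearMap ℂ (fun _ : Fin 1 => E →L[ℂ] ℂ) ℂ :=
  (MultilinearMap.mkPiAlgebra ℂ (Fin 1) ℂ).compLinearMap (fun _ => evAt u)

/-- `ξ ↦ ξ₀ u * ξ₁ v` -/
noncomputable def ten2 (u v : E) : MultilinearMap ℂ (fun _ : Fin 2 => E →L[ℂ] ℂ) ℂ :=
  (MultilinearMap.mkPiAlgebra ℂ (Fin 2) ℂ).compLinearMap (fun k => evAt (![u, v] k))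

lemma ten1_apply (u : E) (ξ : Fin 1 → E →L[ℂ] ℂ) : ten1 u ξ = ξ 0 u := by
  simp [ten1, evAt]

lemma ten2_apply (u v : E) (ξ : Fin 2 → E →L[ℂ] ℂ) : ten2 u v ξ = ξ 0 u * ξ 1 v := by
  simp [ten2, evAt, Fin.prod_univ_two]

end

variable {g : Type*} [LieRing g] [LieAlgebra ℝ g] [FiniteDimensional ℝ g]
  [LieAlgebra.IsKilling ℝ g]
variable {E : Type*} [NormedAddCommGroup E] [NormedSpace ℂ E]

/-- Data of this file: the evaluation maps, and a set `Γ` of automorphisms acting on `g`. -/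
structure CasData (D : Set E) (Γ : Set (E → E)) (ev : E → (g →ₗ[ℝ] E)) : Prop where
  op : IsOpen D
  hol : ∀ X : g, DifferentiableOn ℂ (fun x => ev x X) D
  grp : ∀ γ ∈ Γ, DifferentiableOn ℂ γ D ∧ MapsTo γ D D ∧
    (∃ h : E → E, DifferentiableOn ℂ h D ∧ ∀ x ∈ D, h (γ x) = x) ∧
    ∃ φ : g ≃ₗ⁅ℝ⁆ g, ∀ x ∈ D, ∀ X, ev (γ x) (φ X) = fderiv ℂ γ x (ev x X)
  lemI : LemIProp D Γ

variable {D : Set E} {Γ : Set (E → E)} {ev : E → (g →ₗ[ℝ] E)}

/-- the bilinear map `(X, Y) ↦ l X • m Y`, `l : g → ℂ`, `m : g → M` real linear -/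
noncomputable def bil {M : Type*} [AddCommGroup M] [Module ℂ M] (l : g →ₗ[ℝ] ℂ)
    (m : g →ₗ[ℝ] M) : g →ₗ[ℝ] g →ₗ[ℝ] M :=
  LinearMap.mk₂ ℝ (fun X Y => l X • m Y) (fun X X' Y => by simp [add_smul])
    (fun c X Y => by simp only [map_smul]; rw [smul_assoc])
    (fun X Y Y' => by simp) (fun c X Y => by simp only [map_smul]; rw [smul_comm])

lemma bil_apply {M : Type*} [AddCommGroup M] [Module ℂ M] (l : g →ₗ[ℝ] ℂ)
    (m : g →ₗ[ℝ] M) (X Y : g) : bil l m X Y = l X • m Y := rfl

/-- the covector `ξ` composed with evaluation -/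
noncomputable def cov (ev : E → (g →ₗ[ℝ] E)) (x : E) (ξ : E →L[ℂ] ℂ) : g →ₗ[ℝ] ℂ :=
  ((ξ : E →ₗ[ℂ] ℂ).restrictScalars ℝ) ∘ₗ ev x

lemma cov_apply (x : E) (ξ : E →L[ℂ] ℂ) (X : g) : cov ev x ξ X = ξ (ev x X) := rfl

/-- **the Casimir tensor vanishes**: `∑ ξ(b_i(x)) η(b'_i(x)) = 0`. -/
theorem casimir_zero (H : CasData D Γ ev) {x : E} (hx : x ∈ D) (ξ η : E →L[ℂ] ℂ) :
    ∑ i, ξ (ev x (kb g i)) * η (ev x (kd g i)) = 0 := by
  have h := H.lemI 2 (by norm_num) (fun x => ∑ i, ten2 (ev x (kb g i)) (ev x (kd g i))) ?_ ?_ x hx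
  · have h2 := congrArg (fun T => T ![ξ, η]) h
    simpa [_root_.sum_apply, ten2_apply] using h2
  · intro ζ
    simp only [_root_.sum_apply, ten2_apply]
    refine DifferentiableOn.fun_sum fun i _ => ?_
    exact ((ζ 0).differentiable.comp_differentiableOn (H.hol _)).mul
      ((ζ 1).differentiable.comp_differentiableOn (H.hol _))
  · intro γ hγ
    obtain ⟨hd, hm, -, φ, hφ⟩ := H.grp γ hγ
    refine ⟨1, by simp, fun y hy ζ => ?_⟩
    simp only [_root_.sum_apply, ten2_apply, one_mul]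
    have h3 := sum_equiv φ (bil (cov ev (γ y) (ζ 0)) (cov ev (γ y) (ζ 1)))
    simp only [bil_apply, cov_apply, smul_eq_mul, hφ y hy] at h3
    rw [← h3]
    rfl

variable [FiniteDimensional ℂ E]

/-- the divergence as a linear functional on `g` -/
noncomputable def dvL (H : CasData D Γ ev) (x : E) : g →ₗ[ℝ] ℂ := by
  classical exact
  if hx : x ∈ D then
    { toFun := fun X => divv (fun y => ev y X) x
      map_add' := fun X Y => by
        simp only [map_add]
        exact divv_add ((H.hol X).differentiableAt (H.op.mem_nhds hx))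
          ((H.hol Y).differentiableAt (H.op.mem_nhds hx))
      map_smul' := fun c X => by
        simp only [map_smul, RingHom.id_apply]
        have h := divv_const_smul (c : ℂ) ((H.hol X).differentiableAt (H.op.mem_nhds hx))
        simp only [Complex.coe_smul] at h
        rw [h, Complex.real_smul] }
  else 0

lemma dvL_apply (H : CasData D Γ ev) {x : E} (hx : x ∈ D) (X : g) :
    dvL H x X = divv (fun y => ev y X) x := by
  simp [dvL, hx]

/-- `s₁(x) = ∑ div(b_i)(x) b'_i(x)` -/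
noncomputable def sone (ev : E → (g →ₗ[ℝ] E)) (x : E) : E :=
  ∑ i, divv (fun y => ev y (kb g i)) x • ev x (kd g i)

theorem sone_zero (H : CasData D Γ ev) {x : E} (hx : x ∈ D) : sone ev x = 0 := by
  have hsep : ∀ v : E, (∀ ξ : E →L[ℂ] ℂ, ξ v = 0) → v = 0 := by
    intro v hv
    by_contra hne
    obtain ⟨f, hf⟩ := SeparatingDual.exists_ne_zero (R := ℂ) hne
    exact hf (hv f)
  have h := H.lemI 1 (by norm_num) (fun x => ten1 (sone ev x)) ?_ ?_ x hx
  · refine hsep _ fun ξ => ?_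
    have h2 := congrArg (fun T => T ![ξ]) h
    simpa [ten1_apply] using h2
  · intro ζ
    simp only [ten1_apply, sone, map_sum, map_smul, smul_eq_mul]
    refine DifferentiableOn.fun_sum fun i _ => ?_
    exact (divv_diff H.op (H.hol _)).mul ((ζ 0).differentiable.comp_differentiableOn (H.hol _))
  · intro γ hγ
    obtain ⟨hd, hm, ⟨h', hh, hid⟩, φ, hφ⟩ := H.grp γ hγ
    refine ⟨1, by simp, fun y hy ζ => ?_⟩
    simp only [ten1_apply, one_mul]
    have hgy := hm hy
    have h3 : sone ev (γ y) = fderiv ℂ γ y (sone ev y) := by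
      have h4 := sum_equiv φ (bil (dvL H (γ y)) (ev (γ y)))
      simp only [bil_apply, dvL_apply H hgy, hφ y hy] at h4
      rw [sone, ← h4]
      have h5 : ∀ i, divv (fun z => ev z (φ (kb g i))) (γ y)
          = divv (fun z => ev z (kb g i)) y + lamL γ h' y (ev y (kb g i)) := fun i =>
        divv_push H.op hd hh hm hid (H.hol _) (H.hol _) (fun z hz => hφ z hz _) hy
      simp only [h5, add_smul, Finset.sum_add_distrib]
      have h6 : ∑ i, lamL γ h' y (ev y (kb g i)) • fderiv ℂ γ y (ev y (kd g i)) = 0 := by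
        refine hsep _ fun η => ?_
        have h7 := casimir_zero H hy (lamL γ h' y) (η.comp (fderiv ℂ γ y))
        simpa [map_sum] using h7
      rw [h6, add_zero, sone, map_sum]
      refine Finset.sum_congr rfl fun i _ => ?_
      rw [map_smul]
    rw [h3]
    rfl

/-! ### the complexified statements -/

/-- complexified evaluation -/
noncomputable def evC (ev : E → (g →ₗ[ℝ] E)) (x : E) : CX g →ₗ[ℂ] E := CX.lift (ev x)

/-- complexified divergence -/
noncomputable def dvC (H : CasData D Γ ev) (x : E) : CX g →ₗ[ℂ] ℂ := CX.lift (dvL H x)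

lemma exists_cov {x : E} {Y : CX g}
    (hY : ∀ X, evC ev x X = 0 → killingForm ℂ (CX g) Y X = 0) :
    ∃ ξ : E →L[ℂ] ℂ, ∀ X, killingForm ℂ (CX g) Y X = ξ (evC ev x X) := by
  have h1 : (killingForm ℂ (CX g) Y : Module.Dual ℂ (CX g)) ∈
      (LinearMap.ker (evC ev x)).dualAnnihilator := by
    rw [Submodule.mem_dualAnnihilator]
    intro X hX
    exact hY X (LinearMap.mem_ker.1 hX)
  rw [← LinearMap.range_dualMap_eq_dualAnnihilator_ker] at h1
  obtain ⟨ξ, hξ⟩ := h1
  refine ⟨LinearMap.toContinuousLinearMap ξ, fun X => ?_⟩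
  have := congrArg (fun T => T X) hξ
  simpa using this.symm

/-- **D8 (a)**: a vector Killing-orthogonal to the isotropy algebra lies in it. -/
theorem perp_mem (H : CasData D Γ ev) {x : E} (hx : x ∈ D) {Y : CX g}
    (hY : ∀ X, evC ev x X = 0 → killingForm ℂ (CX g) Y X = 0) : evC ev x Y = 0 := by
  obtain ⟨ξ, hξ⟩ := exists_cov hY
  have hsep : ∀ v : E, (∀ ξ : E →L[ℂ] ℂ, ξ v = 0) → v = 0 := by
    intro v hv
    by_contra hne
    obtain ⟨f, hf⟩ := SeparatingDual.exists_ne_zero (R := ℂ) hne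
    exact hf (hv f)
  refine hsep _ fun η => ?_
  rw [← sum_kbC Y, map_sum, map_sum]
  have h2 := casimir_zero H hx η ξ
  rw [← h2]
  refine Finset.sum_congr rfl fun i _ => ?_
  rw [hξ, map_smul, map_smul, smul_eq_mul, evC, CX.lift_of, CX.lift_of, mul_comm]

/-- **D8 (b)**. -/
theorem perp_div (H : CasData D Γ ev) {x : E} (hx : x ∈ D) {Y : CX g}
    (hY : ∀ X, evC ev x X = 0 → killingForm ℂ (CX g) Y X = 0) : dvC H x Y = 0 := by
  obtain ⟨ξ, hξ⟩ := exists_cov hY
  have h1 := congrArg ξ (sone_zero H hx)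
  rw [sone, map_sum, map_zero] at h1
  rw [← sum_kbC Y, map_sum, ← h1]
  refine Finset.sum_congr rfl fun i _ => ?_
  rw [hξ, map_smul, map_smul, smul_eq_mul, smul_eq_mul, evC, dvC, CX.lift_of, CX.lift_of,
    dvL_apply H hx, mul_comm]

end Crest.Agent.R264.Cas
end

-- ▼ part R264/CasFin

/-!
Row 264 (S0402), part D8 (a),(b): final statements against `Pack` (helper851).

* `perp_stab` : `DA.Perp (P.stab hD hx) Y → Y ∈ P.stab hD hx`
* `perp_dv`   : `DA.Perp (P.stab hD hx) Y → P.div x Y = 0`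
* `div_Ad`    : divergence of a push-forward.
-/

set_option autoImplicit false
set_option linter.unusedSectionVars false

open Set Filter Topology
open Module

namespace Crest.Agent.R264.Cas

variable {n : ℕ} {g : Type*} [LieRing g] [LieAlgebra ℝ g]

local notation "E" => (Fin n → ℂ)

/-- evaluation at `x` as a linear map -/
noncomputable def evx {D : Set E} (P : Pack D g) (x : E) : g →ₗ[ℝ] E :=
  (LinearMap.proj x : (E → E) →ₗ[ℝ] E) ∘ₗ P.ev

lemma evx_apply {D : Set E} (P : Pack D g) (x : E) (X : g) : evx P x X = P.ev X x := rfl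


/-- Lemma I for the group `Γ`. -/
theorem lemIProp {D : Set E} (hD : IsOpen D) (hc : IsConnected D) (hb : Bornology.IsBounded D)
    {Γ : Set (E → E)} (hG : Grp D Γ) : LemIProp D Γ := by
  intro j hj s hs hinv
  obtain ⟨K, hKD, hK, hcov⟩ := hG.cocpt
  refine LemI.lemI hj hD hc.isPreconnected hb hK hKD Γ (fun γ hγ => ?_) hcov s hs hinv
  obtain ⟨h, -, hp⟩ := hG.inv γ hγ
  exact ⟨hp.hF, hp.mapsF⟩

theorem casData [FiniteDimensional ℝ g] [LieAlgebra.IsKilling ℝ g] {D : Set E} (hD : IsOpen D)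
    (hc : IsConnected D) (hb : Bornology.IsBounded D)
    {Γ : Set (E → E)} (hG : Grp D Γ) (P : Pack D g) : CasData D Γ (evx P) where
  op := hD
  hol X := P.hol X
  grp γ hγ := by
    obtain ⟨h, -, hp⟩ := hG.inv γ hγ
    exact ⟨hp.hF, hp.mapsF, ⟨h, hp.hG, hp.left⟩, P.Ad hp, fun x hx X => P.ev_Ad hp X x hx⟩
  lemI := lemIProp hD hc hb hG

variable [FiniteDimensional ℝ g] [LieAlgebra.IsKilling ℝ g]

/-- **D8 (a)**. -/
theorem perp_stab {D : Set E} (hD : IsOpen D) (hc : IsConnected D) (hb : Bornology.IsBounded D)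
    {Γ : Set (E → E)} (hG : Grp D Γ) (P : Pack D g) {x : E} (hx : x ∈ D) (Y : CX g)
    (hY : DA.Perp (P.stab hD hx) Y) : Y ∈ P.stab hD hx := by
  rw [P.mem_stab hD hx]
  have h := perp_mem (casData hD hc hb hG P) hx (Y := Y) fun X hX => hY X (by
    rw [P.mem_stab hD hx]
    exact hX)
  exact h

/-- **D8 (b)**. -/
theorem perp_dv {D : Set E} (hD : IsOpen D) (hc : IsConnected D) (hb : Bornology.IsBounded D)
    {Γ : Set (E → E)} (hG : Grp D Γ) (P : Pack D g) {x : E} (hx : x ∈ D) (Y : CX g)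
    (hY : DA.Perp (P.stab hD hx) Y) : P.div x Y = 0 := by
  have h := perp_div (casData hD hc hb hG P) hx (Y := Y) fun X hX => hY X (by
    rw [P.mem_stab hD hx]
    exact hX)
  rw [dvC, CX.lift_apply, dvL_apply _ hx, dvL_apply _ hx] at h
  rw [Pack.div, P.fderiv_evC hD Y hx, ← h]
  simp only [divv, evx_apply]
  have e : ((fderiv ℂ (P.ev Y.re) x + Complex.I • fderiv ℂ (P.ev Y.im) x : E →L[ℂ] E) :
      E →ₗ[ℂ] E) = (fderiv ℂ (P.ev Y.re) x : E →ₗ[ℂ] E)
        + Complex.I • (fderiv ℂ (P.ev Y.im) x : E →ₗ[ℂ] E) := rfl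
  rw [e, map_add, map_smul]


end Crest.Agent.R264.Cas
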