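import Crest.Agent.R264.EntB
import Crest.Agent.R266.Osgood
import Crest.Agent.R264.DIface
import Mathlib
import Crest.Agent.R264.Berg1
import Crest.Agent.R264.BergCov
import Crest.Agent.R264.AutLem
import Crest.Agent.R264.CartanU
import Crest.Agent.R264.CasFin
import Crest.Agent.R264.D8dDet

-- ▼ part R264/EntC
section

/-!
Row 264, node D8(f)-analysis (helper551), part C: final statement.
-/

set_option autoImplicit false

open Set Filter Topology Metric
open scoped NNReal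

noncomputable section

namespace Crest.Agent.R264.Ent

variable {E : Type*} [NormedAddCommGroup E] [NormedSpace ℂ E]

/-- a one-parameter family of holomorphic self-maps of `D` integrating the field `A` -/
def HasFlow (D : Set E) (A : E → E) : Prop :=
  ∃ φ : ℝ → E → E, (∀ t, DifferentiableOn ℂ (φ t) D) ∧ (∀ t, MapsTo (φ t) D D) ∧
    (∀ z ∈ D, φ 0 z = z) ∧ ∀ z ∈ D, ∀ t, HasDerivAt (fun t => φ t z) (A (φ t z)) t

/-- an automorphism acting on the local curve `c` by a Moebius map -/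
theorem exists_mob [CompleteSpace E] {D : Set E} (hD : IsOpen D) {y ys : E → E}
    (hy : ContDiffOn ℂ 1 y D) (hys : ContDiffOn ℂ 1 ys D) {s : ℝ} (hs : 0 < s)
    {ρ : ℝ} (hρ : 0 < ρ) {c : ℂ → E}
    (hc : ∀ ζ ∈ ball (0 : ℂ) ρ, c ζ ∈ D ∧ HasDerivAt c (y (c ζ)) ζ)
    (hrel : ∀ ζ ∈ ball (0 : ℂ) ρ, ys (c ζ) = ((s : ℂ) ^ 2 * ζ ^ 2) • y (c ζ))
    {r : ℝ} (hr0 : 0 < r) (hr : r < ρ) {ω : ℂ} (hω : ‖ω‖ = 1)
    (hfl : HasFlow D (fun z => ω • y z + (starRingEnd ℂ ω) • ys z)) :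
    ∃ g : E → E, DifferentiableOn ℂ g D ∧ MapsTo g D D ∧ ∀ᶠ η in 𝓝 (0 : ℂ),
      g (c η) = c ((η + ω * r) / (1 - s ^ 2 * (starRingEnd ℂ ω) * r * η)) := by
  obtain ⟨φ, hφd, hφm, hφ0, hφ⟩ := hfl
  have hω' : ω * (starRingEnd ℂ ω) = 1 := by
    rw [Complex.mul_conj, Complex.normSq_eq_norm_sq, hω]; simp
  set T : ℝ := Real.arctan (s * r) / s with hT
  have hsT : s * T = Real.arctan (s * r) := by rw [hT]; field_simp
  have hsr : 0 < s * r := by positivity
  have hT0 : 0 ≤ T := div_nonneg (Real.arctan_nonneg.2 hsr.le) hs.le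
  set C0 : ℝ := Real.cos (Real.arctan (s * r)) with hC0d
  have hC0 : 0 < C0 := Real.cos_arctan_pos _
  have hAlt : Real.arctan (s * r) < Real.pi / 2 := Real.arctan_lt_pi_div_two _
  -- trigonometric bounds
  have htr : ∀ t ∈ Icc 0 T, C0 ≤ Real.cos (s * t) ∧ 0 ≤ Real.sin (s * t) ∧
      Real.sin (s * t) ≤ s * r * Real.cos (s * t) := by
    intro t ht
    have h0 : 0 ≤ s * t := mul_nonneg hs.le ht.1
    have h1 : s * t ≤ Real.arctan (s * r) := by
      rw [← hsT]; exact mul_le_mul_of_nonneg_left ht.2 hs.le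
    have hcosp : 0 < Real.cos (s * t) :=
      Real.cos_pos_of_mem_Ioo ⟨by linarith [Real.pi_pos], by linarith⟩
    refine ⟨Real.cos_le_cos_of_nonneg_of_le_pi h0 (by linarith [Real.pi_pos]) h1,
      Real.sin_nonneg_of_nonneg_of_le_pi h0 (by linarith [Real.pi_pos]), ?_⟩
    have h2 : Real.tan (s * t) ≤ s * r := by
      rw [← Real.tan_arctan (s * r)]
      exact Real.strictMonoOn_tan.monotoneOn ⟨by linarith [Real.pi_pos], by linarith⟩
        ⟨by linarith [Real.pi_pos], hAlt⟩ h1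
    rw [Real.tan_eq_sin_div_cos, div_le_iff₀ hcosp] at h2
    exact h2
  refine ⟨φ T, hφd T, hφm T, ?_⟩
  have hδ : 0 < C0 * (ρ - r) / (1 + ρ * s) := by
    have : 0 < ρ - r := by linarith
    positivity
  have hA : ContDiffOn ℝ 1 (fun z => ω • y z + (starRingEnd ℂ ω) • ys z) D :=
    ((hy.const_smul ω).add (hys.const_smul (starRingEnd ℂ ω))).restrict_scalars ℝ
  filter_upwards [Metric.ball_mem_nhds (0 : ℂ) (lt_min hδ hρ)] with η hη
  rw [mem_ball, dist_zero_right, lt_min_iff] at hη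
  have hηρ : η ∈ ball (0 : ℂ) ρ := by simpa using hη.2
  have hmob : ∀ t ∈ Icc 0 T, mobD s ω η t ≠ 0 ∧
      mobN s ω η t / mobD s ω η t ∈ ball (0 : ℂ) ρ := by
    intro t ht
    obtain ⟨h1, h2, h3⟩ := htr t ht
    have := mob_lt hs hr hρ hω (C0 := C0) hC0 h1 h2 h3 hη.1
    exact ⟨this.1, by simpa using this.2⟩
  have key := ode_unique hD hA (γ₁ := fun t => φ t (c η))
    (γ₂ := fun t => c (mobN s ω η t / mobD s ω η t)) (T := T)
    (fun t _ => ⟨hφm t (hc η hηρ).1, hφ _ (hc η hηρ).1 t⟩)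
    (fun t ht => by
      obtain ⟨hQ, hm⟩ := hmob t ht
      refine ⟨(hc _ hm).1, ?_⟩
      have h1 := mob_hasDerivAt hs.ne' hω hQ
      have h2 := (hc _ hm).2.scomp t h1
      refine HasDerivAt.congr_deriv h2 ?_
      rw [hrel _ hm, smul_smul, ← add_smul]
      congr 1; ring)
    (by
      have : mobN s ω η 0 / mobD s ω η 0 = η := by simp [mobN, mobD]
      simp only [this]
      exact hφ0 _ (hc η hηρ).1)
  have hkey := key (right_mem_Icc.2 hT0)
  simp only at hkey
  rw [hkey]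
  congr 1
  have hcosC : (Real.cos (s * T) : ℂ) ≠ 0 := by
    rw [hsT]; exact_mod_cast hC0.ne'
  have hsin : Real.sin (s * T) = s * r * Real.cos (s * T) := by
    rw [hsT]
    have := Real.tan_arctan (s * r)
    rw [Real.tan_eq_sin_div_cos, div_eq_iff hC0.ne'] at this
    exact this
  have hsc : (s : ℂ) ≠ 0 := Complex.ofReal_ne_zero.2 hs.ne'
  have hN : mobN s ω η T = Real.cos (s * T) * (η + ω * r) := by
    unfold mobN
    rw [hsin]; push_cast; field_simp
  have hDd : mobD s ω η T = Real.cos (s * T) * (1 - s ^ 2 * (starRingEnd ℂ ω) * r * η) := by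
    unfold mobD
    rw [hsin]; push_cast; ring
  rw [hN, hDd, mul_div_mul_left _ _ hcosC]

/-- **Curve lemma** (D8(f)): -/
theorem main [CompleteSpace E] {D : Set E} (hD : IsOpen D) (hb : Bornology.IsBounded D)
    {y ys h : E → E} (hy : ContDiffOn ℂ 1 y D) (hys : ContDiffOn ℂ 1 ys D)
    (hh : DifferentiableOn ℂ h D)
    (hdef : ∀ z ∈ D, h z = fderiv ℂ ys z (y z) - fderiv ℂ y z (ys z)) {lam : ℝ} (hlam : lam < 0)
    (hlie : ∀ z ∈ D, fderiv ℂ y z (h z) - fderiv ℂ h z (y z) = (lam : ℂ) • y z)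
    {x : E} (hx : x ∈ D) (h1 : ys x = 0) (h2 : h x = 0)
    (hfl : ∀ ω : ℂ, ‖ω‖ = 1 → HasFlow D (fun z => ω • y z + (starRingEnd ℂ ω) • ys z)) :
    y x = 0 := by
  obtain ⟨ρ, hρ, c, hc0, hc⟩ := exists_curve hD hy hx
  set s : ℝ := Real.sqrt (-lam / 2) with hsd
  have hs : 0 < s := Real.sqrt_pos.2 (by linarith)
  have hs2 : s ^ 2 = -lam / 2 := Real.sq_sqrt (by linarith)
  have hrel : ∀ ζ ∈ ball (0 : ℂ) ρ, ys (c ζ) = ((s : ℂ) ^ 2 * ζ ^ 2) • y (c ζ) := by
    intro ζ hζ
    rw [curve_rel hD hy (hys.differentiableOn (by norm_num)) hh hdef hlie h1 h2 hc0 hc hζ,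
      ← hs2]
    push_cast; rfl
  set r : ℝ := ρ / 2 with hrd
  have hr0 : 0 < r := by positivity
  have hr : r < ρ := by rw [hrd]; linarith
  -- the class of test functions
  let 𝓕 : Set (E → ℂ) := {F | DifferentiableOn ℂ F D ∧ ∀ z ∈ D, ‖F z‖ ≤ 1}
  have hcd : DifferentiableOn ℂ c (ball 0 ρ) := fun z hz =>
    (hc z hz).2.differentiableAt.differentiableWithinAt
  have hcm : MapsTo c (ball 0 ρ) D := fun z hz => (hc z hz).1
  have hFc : ∀ F ∈ 𝓕, DifferentiableOn ℂ (fun z => F (c z)) (ball 0 ρ) := fun F hF =>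
    hF.1.comp hcd hcm
  let S : Set ℝ := (fun F : E → ℂ => ‖deriv (fun z => F (c z)) 0‖) '' 𝓕
  have hSb : BddAbove S := by
    refine ⟨1 / r, ?_⟩
    rintro _ ⟨F, hF, rfl⟩
    refine Complex.norm_deriv_le_of_forall_mem_sphere_norm_le hr0 ?_ ?_
    · refine (DifferentiableOn.diffContOnCl_ball (hFc F hF) ?_)
      exact closedBall_subset_ball hr
    · intro z hz
      exact hF.2 _ (hcm (sphere_subset_closedBall.trans (closedBall_subset_ball hr) hz))
  set N : ℝ := sSup S with hN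
  have hle : ∀ F ∈ 𝓕, ‖deriv (fun z => F (c z)) 0‖ ≤ N := fun F hF =>
    le_csSup hSb ⟨F, hF, rfl⟩
  have hSne : S.Nonempty := ⟨_, ⟨fun _ => 0, ⟨differentiableOn_const _, by simp⟩, rfl⟩⟩
  set q : ℝ := 1 + s ^ 2 * r ^ 2 with hq
  have hq1 : 1 < q := by
    have : 0 < s ^ 2 * r ^ 2 := by positivity
    linarith
  -- bound on the circle of radius `r`
  have hcirc : ∀ F ∈ 𝓕, ∀ ω : ℂ, ‖ω‖ = 1 → ‖deriv (fun z => F (c z)) (ω * r)‖ ≤ N / q := by
    intro F hF ω hω
    have hω' : ω * (starRingEnd ℂ ω) = 1 := by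
      rw [Complex.mul_conj, Complex.normSq_eq_norm_sq, hω]; simp
    obtain ⟨g, hgd, hgm, hg⟩ := exists_mob hD hy hys hs hρ hc hrel hr0 hr hω (hfl ω hω)
    have hmem : (fun z => F (g z)) ∈ 𝓕 := ⟨hF.1.comp hgd hgm, fun z hz => hF.2 _ (hgm hz)⟩
    have hωr : ω * r ∈ ball (0 : ℂ) ρ := by
      rw [mem_ball, dist_zero_right, norm_mul, hω, one_mul, Complex.norm_real,
        Real.norm_of_nonneg hr0.le]
      exact hr
    have hdM : HasDerivAt (fun η : ℂ => (η + ω * r) / (1 - s ^ 2 * (starRingEnd ℂ ω) * r * η))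
        (q : ℂ) 0 := by
      have hn : HasDerivAt (fun η : ℂ => η + ω * r) 1 0 := (hasDerivAt_id _).add_const _
      have hd : HasDerivAt (fun η : ℂ => 1 - s ^ 2 * (starRingEnd ℂ ω) * r * η)
          (-(s ^ 2 * (starRingEnd ℂ ω) * r)) 0 := by
        have := ((hasDerivAt_id (0 : ℂ)).const_mul ((s : ℂ) ^ 2 * (starRingEnd ℂ ω) * r)).const_sub 1
        simpa using this
      have := hn.div hd (by simp)
      refine HasDerivAt.congr_deriv this ?_
      rw [hq]; push_cast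
      simp only [zero_add, mul_zero, sub_zero, one_mul, one_pow, div_one]
      linear_combination ((s : ℂ) ^ 2 * (r : ℂ) ^ 2) * hω'
    have hdF : HasDerivAt (fun z => F (c z)) (deriv (fun z => F (c z)) (ω * r))
        ((fun η : ℂ => (η + ω * r) / (1 - s ^ 2 * (starRingEnd ℂ ω) * r * η)) 0) := by
      have : ((fun η : ℂ => (η + ω * r) / (1 - s ^ 2 * (starRingEnd ℂ ω) * r * η)) 0) = ω * r := by
        simp
      rw [this]
      exact ((hFc F hF).differentiableAt (isOpen_ball.mem_nhds hωr)).hasDerivAt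
    have hcomp := hdF.comp 0 hdM
    have heq : deriv (fun z => F (g (c z))) 0 = deriv (fun z => F (c z)) (ω * r) * q := by
      have h3 : (fun z => F (g (c z))) =ᶠ[𝓝 0] ((fun z => F (c z)) ∘
          fun η : ℂ => (η + ω * r) / (1 - s ^ 2 * (starRingEnd ℂ ω) * r * η)) := by
        filter_upwards [hg] with η hη
        simp only [Function.comp, hη]
      rw [h3.deriv_eq]
      exact hcomp.deriv
    have h4 := hle _ hmem
    rw [heq, norm_mul, Complex.norm_real, Real.norm_of_nonneg (by linarith)] at h4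
    rw [le_div_iff₀ (by linarith)]
    exact h4
  -- maximum modulus
  have hmax : ∀ F ∈ 𝓕, ‖deriv (fun z => F (c z)) 0‖ ≤ N / q := by
    intro F hF
    have hdd : DifferentiableOn ℂ (deriv (fun z => F (c z))) (ball 0 ρ) :=
      (hFc F hF).deriv isOpen_ball
    have hcl : DiffContOnCl ℂ (deriv (fun z => F (c z))) (ball 0 r) :=
      DifferentiableOn.diffContOnCl_ball hdd (closedBall_subset_ball hr)
    refine Complex.norm_le_of_forall_mem_frontier_norm_le isBounded_ball hcl (C := N / q) ?_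
      (subset_closure (mem_ball_self hr0))
    intro z hz
    rw [frontier_ball _ hr0.ne'] at hz
    have hzr : ‖z‖ = r := by simpa using hz
    have hrc : (r : ℂ) ≠ 0 := Complex.ofReal_ne_zero.2 hr0.ne'
    have hz1 : ‖z / r‖ = 1 := by
      rw [norm_div, hzr, Complex.norm_real, Real.norm_of_nonneg hr0.le, div_self hr0.ne']
    have := hcirc F hF (z / r) hz1
    rwa [div_mul_cancel₀ _ hrc] at this
  have hN0 : N ≤ 0 := by
    have h5 : N ≤ N / q := csSup_le hSne (by rintro _ ⟨F, hF, rfl⟩; exact hmax F hF)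
    by_contra hpos
    push Not at hpos
    have : N / q < N := div_lt_self hpos hq1
    linarith
  -- conclusion
  obtain ⟨B, hB⟩ := hb.exists_norm_le
  have hB0 : 0 ≤ B := (norm_nonneg _).trans (hB x hx)
  refine (SeparatingDual.eq_zero_iff_forall_dual_eq_zero (R := ℂ) _).2 (fun l => ?_)
  set K : ℝ := ‖l‖ * B + 1 with hK
  have hKp : 0 < K := by positivity
  have hmem : (fun z => (K : ℂ)⁻¹ * l z) ∈ 𝓕 := by
    refine ⟨(l.differentiable.differentiableOn).const_mul _, fun z hz => ?_⟩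
    rw [norm_mul, norm_inv, Complex.norm_real, Real.norm_of_nonneg hKp.le,
      inv_mul_le_iff₀ hKp, mul_one]
    calc ‖l z‖ ≤ ‖l‖ * ‖z‖ := l.le_opNorm z
      _ ≤ ‖l‖ * B := mul_le_mul_of_nonneg_left (hB z hz) (norm_nonneg _)
      _ ≤ K := by rw [hK]; linarith
  have h6 := (hle _ hmem).trans hN0
  have h7 : deriv (fun z => (K : ℂ)⁻¹ * l (c z)) 0 = (K : ℂ)⁻¹ * l (y x) := by
    have h8 : HasDerivAt (fun z => l (c z)) (l (y (c 0))) 0 :=
      l.hasFDerivAt.comp_hasDerivAt 0 (hc 0 (mem_ball_self hρ)).2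
    rw [hc0] at h8
    exact (h8.const_mul _).deriv
  rw [h7] at h6
  have h9 : (K : ℂ)⁻¹ * l (y x) = 0 := norm_le_zero_iff.1 h6
  have hKc : (K : ℂ)⁻¹ ≠ 0 := inv_ne_zero (Complex.ofReal_ne_zero.2 hKp.ne')
  exact (mul_eq_zero.1 h9).resolve_left hKc

/-- finite-dimensional version: the fields are just assumed holomorphic -/
theorem main_fin [FiniteDimensional ℂ E] {D : Set E} (hD : IsOpen D)
    (hb : Bornology.IsBounded D) {y ys h : E → E} (hy : DifferentiableOn ℂ y D)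
    (hys : DifferentiableOn ℂ ys D)
    (hdef : ∀ z ∈ D, h z = fderiv ℂ ys z (y z) - fderiv ℂ y z (ys z)) {lam : ℝ} (hlam : lam < 0)
    (hlie : ∀ z ∈ D, fderiv ℂ y z (h z) - fderiv ℂ h z (y z) = (lam : ℂ) • y z)
    {x : E} (hx : x ∈ D) (h1 : ys x = 0) (h2 : h x = 0)
    (hfl : ∀ ω : ℂ, ‖ω‖ = 1 → HasFlow D (fun z => ω • y z + (starRingEnd ℂ ω) • ys z)) :
    y x = 0 := by
  have : CompleteSpace E := FiniteDimensional.complete ℂ E
  have hy' : ContDiffOn ℂ 2 y D :=
    (R266.SCV.contDiffOn_omega_of_differentiableOn hD hy).of_le le_top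
  have hys' : ContDiffOn ℂ 2 ys D :=
    (R266.SCV.contDiffOn_omega_of_differentiableOn hD hys).of_le le_top
  have hfy : DifferentiableOn ℂ (fderiv ℂ y) D :=
    (hy'.fderiv_of_isOpen hD (m := 1) (by norm_num)).differentiableOn (by norm_num)
  have hfys : DifferentiableOn ℂ (fderiv ℂ ys) D :=
    (hys'.fderiv_of_isOpen hD (m := 1) (by norm_num)).differentiableOn (by norm_num)
  have hh : DifferentiableOn ℂ h D := by
    refine ((hfys.clm_apply hy).sub (hfy.clm_apply hys)).congr hdef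
  exact main hD hb (hy'.of_le (by norm_num)) (hys'.of_le (by norm_num)) hh hdef hlam hlie hx h1 h2
    hfl

end Crest.Agent.R264.Ent
end
end

-- ▼ part R264/EntP
section

/-!
Row 264, node D8(f) (helper551): the field `nocurve` of `DA.Hyp` for `Pack.stab`.
-/

set_option autoImplicit false

open Set Filter Topology Metric

noncomputable section

namespace Crest.Agent.R264.Ent

variable {E : Type*} [NormedAddCommGroup E] [NormedSpace ℂ E] [FiniteDimensional ℂ E]

theorem nocurve' {D : Set E} {g : Type*} [LieRing g] [LieAlgebra ℝ g] (P : Pack D g)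
    (hD : IsOpen D) (hb : Bornology.IsBounded D) {x : E} (hx : x ∈ D) (y : CX g) (l : ℝ)
    (hσ : (CX.cc g).σ y ∈ P.stab hD hx) (hy : y ∉ P.stab hD hx) (hl : l < 0)
    (hbr : ⁅y, (CX.cc g).σ y⁆ ∈ P.stab hD hx)
    (heq : ⁅⁅y, (CX.cc g).σ y⁆, y⁆ = (l : ℂ) • y) : False := by
  refine hy ?_
  rw [P.mem_stab] at hσ hbr ⊢
  refine main_fin hD hb (y := P.evC y) (ys := P.evC ((CX.cc g).σ y))
    (h := P.evC ⁅y, (CX.cc g).σ y⁆) (P.evC_hol _) (P.evC_hol _)
    (fun z hz => P.evC_lie hD _ _ hz) hl ?_ hx hσ hbr ?_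
  · intro z hz
    rw [← P.evC_lie hD _ _ hz, heq, map_smul]
    rfl
  · intro ω hω
    have hfix : (CX.cc g).σ (ω • y + (starRingEnd ℂ ω) • (CX.cc g).σ y)
        = ω • y + (starRingEnd ℂ ω) • (CX.cc g).σ y := by
      rw [(CX.cc g).add, (CX.cc g).smul, (CX.cc g).smul, (CX.cc g).inv, Complex.conj_conj,
        add_comm]
    set A : g := (ω • y + (starRingEnd ℂ ω) • (CX.cc g).σ y).re with hA
    have h1 : P.ev A = fun z => ω • P.evC y z + (starRingEnd ℂ ω) • P.evC ((CX.cc g).σ y) z := by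
      rw [← P.evC_of A, hA, ← CX.eq_of_fixed hfix, map_add, map_smul, map_smul]
      rfl
    rw [← h1]
    exact ⟨P.flow A, (P.isFlow A).hol, (P.isFlow A).maps, (P.isFlow A).zero,
      fun z hz t => P.flow_deriv A z hz t⟩

/-- the field `nocurve` of `DA.Hyp` -/
theorem nocurve {D : Set E} {g : Type*} [LieRing g] [LieAlgebra ℝ g] (P : Pack D g)
    (hD : IsOpen D) (hb : Bornology.IsBounded D) {x : E} (hx : x ∈ D)
    (hperp : ∀ Y, DA.Perp (P.stab hD hx) Y → Y ∈ P.stab hD hx) :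
    ∀ (y : CX g) (l : ℝ), DA.Perp (P.stab hD hx) ((CX.cc g).σ y) → y ∉ P.stab hD hx → l < 0 →
      ⁅y, (CX.cc g).σ y⁆ ∈ P.stab hD hx → ⁅⁅y, (CX.cc g).σ y⁆, y⁆ = (l : ℂ) • y → False :=
  fun y l h1 h2 h3 h4 h5 => nocurve' P hD hb hx y l (hperp _ h1) h2 h3 h4 h5

end Crest.Agent.R264.Ent
end
end

-- ▼ part R264/DABound
section

/-!
Row 264, Part D, field `ss` of `DA.Hyp`: if `A ∈ g` vanishes at a point of `D`, then `ad A` is
diagonalisable on `CX g` with purely imaginary eigenvalues.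
-/

set_option autoImplicit false

open scoped ComplexConjugate

namespace Crest.Agent.R264.DA

variable {g : Type*} [LieRing g] [LieAlgebra ℝ g]

/-- uniqueness for `u' = - μ u` -/
lemma exp_of_deriv {u : ℝ → ℂ} {μ : ℂ} (h : ∀ t, HasDerivAt u (-(μ * u t)) t) (t : ℝ) :
    u t * Complex.exp (μ * t) = u 0 := by
  have hd : ∀ t : ℝ, HasDerivAt (fun t : ℝ => u t * Complex.exp (μ * t)) 0 t := by
    intro t
    have h1 : HasDerivAt (fun t : ℝ => Complex.exp (μ * t)) (Complex.exp (μ * t) * μ) t := by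
      have h2 : HasDerivAt (fun t : ℝ => μ * (t : ℂ)) μ t := by
        simpa using (Complex.ofRealCLM.hasDerivAt (x := t)).const_mul μ
      exact h2.cexp
    exact ((h t).mul h1).congr_deriv (by ring)
  have := is_const_of_deriv_eq_zero (f := fun t : ℝ => u t * Complex.exp (μ * t))
    (fun t => (hd t).differentiableAt) (fun t => (hd t).deriv) t 0
  simpa using this

lemma re_zero_of_bounded {u : ℝ → ℂ} {μ : ℂ} (h : ∀ t, HasDerivAt u (-(μ * u t)) t)
    {C : ℝ} (hb : ∀ t, ‖u t‖ ≤ C) (h0 : u 0 ≠ 0) : μ.re = 0 := by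
  have key : ∀ t : ℝ, ‖u 0‖ ≤ C * Real.exp (μ.re * t) := by
    intro t
    have h1 := exp_of_deriv h t
    have h2 : ‖u 0‖ = ‖u t‖ * Real.exp (μ.re * t) := by
      rw [← h1, norm_mul, Complex.norm_exp]
      simp
    rw [h2]
    exact mul_le_mul_of_nonneg_right (hb t) (Real.exp_pos _).le
  have hpos : 0 < ‖u 0‖ := norm_pos_iff.mpr h0
  have hC : 0 < C := lt_of_lt_of_le hpos (hb 0)
  by_contra hre
  have hlim : Filter.Tendsto (fun n : ℕ => C * Real.exp (-(n : ℝ))) Filter.atTop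
      (nhds (C * 0)) := by
    refine Filter.Tendsto.const_mul _ ?_
    exact Real.tendsto_exp_neg_atTop_nhds_zero.comp tendsto_natCast_atTop_atTop
  have hle : ∀ n : ℕ, ‖u 0‖ ≤ C * Real.exp (-(n : ℝ)) := by
    intro n
    have := key (-(n : ℝ) / μ.re)
    rwa [mul_div_cancel₀ _ hre] at this
  have := ge_of_tendsto' hlim hle
  linarith

/-- `ImDiag` from a bounded one-parameter family. -/
theorem imDiag_of_bounded (A : g) (T : ℝ → (g →ₗ[ℝ] g)) (h0 : ∀ Y, T 0 Y = Y)
    (hb : ∀ (Y : g) (l : g →ₗ[ℝ] ℝ), ∃ C : ℝ, ∀ t, |l (T t Y)| ≤ C)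
    (hd : ∀ (Y : g) (l : g →ₗ[ℝ] ℝ) (t : ℝ),
      HasDerivAt (fun s => l (T s Y)) (-(l (T t ⁅A, Y⁆))) t) :
    ImDiag (CX.of A) := by
  -- complexified functionals
  set F : (g →ₗ[ℝ] ℝ) → ℝ → CX g → ℂ := fun l t X =>
    ((l (T t X.re) : ℝ) : ℂ) + Complex.I * ((l (T t X.im) : ℝ) : ℂ) with hF
  have Fadd : ∀ l t X Y, F l t (X + Y) = F l t X + F l t Y := by
    intro l t X Y
    simp only [hF, CX.add_re, CX.add_im, map_add]
    push_cast
    ring
  have Fsmul : ∀ l t (c : ℂ) X, F l t (c • X) = c * F l t X := by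
    intro l t c X
    simp only [hF, CX.smul_re, CX.smul_im, map_add, map_sub, map_smul, smul_eq_mul]
    push_cast
    conv_rhs => rw [← Complex.re_add_im c]
    have hI : Complex.I * Complex.I = -1 := Complex.I_mul_I
    linear_combination (-(c.im : ℂ) * ((l (T t X.im) : ℝ) : ℂ)) * hI
  have Fderiv : ∀ l t X, HasDerivAt (fun s => F l s X) (-(F l t ⁅CX.of A, X⁆)) t := by
    intro l t X
    have h1 := (hd X.re l t).ofReal_comp
    have h2 := ((hd X.im l t).ofReal_comp).const_mul Complex.I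
    refine (h1.add h2).congr_deriv ?_
    simp only [hF, CX.lie_re, CX.lie_im, CX.of_re, CX.of_im, zero_lie, sub_zero, add_zero]
    push_cast
    ring
  have Fbd : ∀ l X, ∃ C : ℝ, ∀ t, ‖F l t X‖ ≤ C := by
    intro l X
    obtain ⟨C1, hC1⟩ := hb X.re l
    obtain ⟨C2, hC2⟩ := hb X.im l
    refine ⟨C1 + C2, fun t => ?_⟩
    refine (norm_add_le _ _).trans (add_le_add ?_ ?_)
    · rw [Complex.norm_real]; exact hC1 t
    · rw [norm_mul, Complex.norm_I, one_mul, Complex.norm_real]; exact hC2 t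
  have Fsep : ∀ X, (∀ l, F l 0 X = 0) → X = 0 := by
    intro X hX
    have hre : ∀ l : g →ₗ[ℝ] ℝ, l X.re = 0 ∧ l X.im = 0 := by
      intro l
      have := hX l
      simp only [hF, h0] at this
      constructor
      · simpa using congrArg Complex.re this
      · simpa using congrArg Complex.im this
    ext
    · exact (Module.forall_dual_apply_eq_zero_iff ℝ _).mp fun l => (hre l).1
    · exact (Module.forall_dual_apply_eq_zero_iff ℝ _).mp fun l => (hre l).2
  have Fneg : ∀ l t X Y, F l t (X - Y) = F l t X - F l t Y := by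
    intro l t X Y
    have := Fadd l t (X - Y) Y
    rw [sub_add_cancel] at this
    rw [this]; ring
  -- eigenvectors have imaginary eigenvalues
  have eig : ∀ (μ : ℂ) (w : CX g), ⁅CX.of A, w⁆ = μ • w → w ≠ 0 → μ.re = 0 := by
    intro μ w hw hne
    by_contra hre
    apply hne
    apply Fsep
    intro l
    by_contra hl
    obtain ⟨C, hC⟩ := Fbd l w
    apply hre
    refine re_zero_of_bounded (u := fun t => F l t w) (fun t => ?_) hC hl
    have := Fderiv l t w
    rwa [hw, Fsmul] at this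
  intro μ v hv
  have hmain : ⁅CX.of A, v⁆ = μ • v := by
    rw [← sub_eq_zero]
    set w := ⁅CX.of A, v⁆ - μ • v with hw
    have hAw : ⁅CX.of A, w⁆ = μ • w := by
      rw [← sub_eq_zero, ← hv, hw, lie_sub, lie_smul, smul_sub, smul_smul, two_mul, add_smul]
      abel
    by_contra hne
    have hre := eig μ w hAw hne
    apply hne
    apply Fsep
    intro l
    by_contra hl
    obtain ⟨C, hC⟩ := Fbd l v
    -- s(t) e^{μ t} = s(0) - u(0) t
    have hu : ∀ t, F l t w * Complex.exp (μ * t) = F l 0 w := fun t =>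
      exp_of_deriv (u := fun t => F l t w) (fun t => by
        have := Fderiv l t w
        rwa [hAw, Fsmul] at this) t
    have hs : ∀ t : ℝ, HasDerivAt
        (fun t : ℝ => F l t v * Complex.exp (μ * t) + F l 0 w * (t : ℂ)) 0 t := by
      intro t
      have h1 : HasDerivAt (fun t : ℝ => Complex.exp (μ * t)) (Complex.exp (μ * t) * μ) t := by
        have h2 : HasDerivAt (fun t : ℝ => μ * (t : ℂ)) μ t := by
          simpa using (Complex.ofRealCLM.hasDerivAt (x := t)).const_mul μ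
        exact h2.cexp
      have h2 : HasDerivAt (fun t : ℝ => F l 0 w * (t : ℂ)) (F l 0 w) t := by
        simpa using (Complex.ofRealCLM.hasDerivAt (x := t)).const_mul (F l 0 w)
      refine (((Fderiv l t v).mul h1).add h2).congr_deriv ?_
      have e : F l t ⁅CX.of A, v⁆ = F l t w + μ * F l t v := by
        rw [hw, Fneg, Fsmul]; ring
      rw [e, ← hu t]
      ring
    have hconst : ∀ t : ℝ, F l t v * Complex.exp (μ * t) + F l 0 w * (t : ℂ) = F l 0 v := by
      intro t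
      have := is_const_of_deriv_eq_zero
        (f := fun t : ℝ => F l t v * Complex.exp (μ * t) + F l 0 w * (t : ℂ))
        (fun t => (hs t).differentiableAt) (fun t => (hs t).deriv) t 0
      simpa using this
    have hbd : ∀ n : ℕ, ‖F l 0 w‖ * (n : ℝ) ≤ 2 * C := by
      intro n
      have h1 := hconst (n : ℝ)
      have h2 : F l 0 w * ((n : ℝ) : ℂ) = F l 0 v - F l (n : ℝ) v * Complex.exp (μ * ((n : ℝ) : ℂ)) := by
        rw [← h1]; ring
      have h3 : ‖F l 0 w * ((n : ℝ) : ℂ)‖ = ‖F l 0 w‖ * (n : ℝ) := by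
        rw [norm_mul, Complex.norm_real, Real.norm_natCast]
      have h4 : ‖Complex.exp (μ * ((n : ℝ) : ℂ))‖ = 1 := by
        rw [Complex.norm_exp]; simp [hre]
      rw [← h3, h2]
      refine (norm_sub_le _ _).trans ?_
      rw [norm_mul, h4, mul_one, two_mul]
      exact add_le_add (hC 0) (hC _)
    have hpos : 0 < ‖F l 0 w‖ := norm_pos_iff.mpr hl
    obtain ⟨n, hn⟩ := exists_nat_gt (2 * C / ‖F l 0 w‖)
    rw [div_lt_iff₀ hpos] at hn
    have := hbd n
    linarith [mul_comm (n : ℝ) ‖F l 0 w‖]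
  exact ⟨hmain, fun hne => eig μ v hmain hne⟩

/-- Field `ss` of `DA.Hyp` for a `Pack`. -/
theorem pack_ss {E : Type*} [NormedAddCommGroup E] [NormedSpace ℂ E] {D : Set E}
    (P : Pack D g) (hD : IsOpen D) {x : E} (hx : x ∈ D) :
    ∀ A ∈ P.stab hD hx, (CX.cc g).σ A = A → ImDiag A := by
  intro A hA hfix
  have hA2 := CX.eq_of_fixed hfix
  have hz : P.ev A.re x = 0 := by
    have : P.evC A x = 0 := hA
    rw [hA2, P.evC_of] at this
    exact this
  rw [hA2]
  refine imDiag_of_bounded A.re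
    (fun t => ((P.Ad (P.flow_pair A.re t) : g ≃ₗ⁅ℝ⁆ g) : g →ₗ[ℝ] g)) ?_ ?_ ?_
  · intro Y
    -- `Ad (φ_0) = id`
    change P.Ad (P.flow_pair A.re 0) Y = Y
    rw [← sub_eq_zero]
    refine P.inj hD hx (fun y hy => ?_)
    have h1 := P.ev_Ad (P.flow_pair A.re 0) Y y hy
    rw [(P.isFlow A.re).zero y hy] at h1
    have h2 : fderiv ℂ (P.flow A.re 0) y = ContinuousLinearMap.id ℂ E := by
      have : P.flow A.re 0 =ᶠ[nhds y] id :=
        Filter.eventually_of_mem (hD.mem_nhds hy) fun z hz => (P.isFlow A.re).zero z hz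
      rw [this.fderiv_eq]; exact fderiv_id
    rw [h2] at h1
    rw [map_sub, Pi.sub_apply, h1]
    simp
  · intro Y l
    exact P.Ad_bdd A.re x hx hz (P.flow_pair A.re) Y l
  · intro Y l t
    exact P.Ad_deriv A.re Y l (P.flow_pair A.re) t

end Crest.Agent.R264.DA
end

-- ▼ part R264/Berg2
section

/-!
Row 264, D5 (helper587): square integrable holomorphic functions and their evaluations.
-/

set_option autoImplicit false

open MeasureTheory Set Metric Filter
open scoped Real ContDiff Topology ENNReal InnerProductSpace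

noncomputable section

namespace Crest.Agent.R264.Berg

variable {n : ℕ}

/-- `L²(D)` -/
abbrev L2D (D : Set (Fin n → ℂ)) := Lp ℂ 2 (volume.restrict D)

/-- `f` is a holomorphic representative of `F` -/
def Rep (D : Set (Fin n → ℂ)) (F : L2D D) (f : (Fin n → ℂ) → ℂ) : Prop :=
  DifferentiableOn ℂ f D ∧ (F : (Fin n → ℂ) → ℂ) =ᵐ[volume.restrict D] f

/-- square integrable holomorphic functions -/
def A2 (D : Set (Fin n → ℂ)) : Submodule ℂ (L2D D) where
  carrier := {F | ∃ f, Rep D F f}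
  add_mem' := by
    rintro F G ⟨f, hf, hf'⟩ ⟨g, hg, hg'⟩
    refine ⟨f + g, hf.add hg, ?_⟩
    filter_upwards [Lp.coeFn_add F G, hf', hg'] with x h1 h2 h3
    rw [h1, Pi.add_apply, h2, h3, Pi.add_apply]
  zero_mem' := ⟨0, differentiableOn_const 0, Lp.coeFn_zero _ _ _⟩
  smul_mem' := by
    rintro c F ⟨f, hf, hf'⟩
    refine ⟨c • f, hf.const_smul c, ?_⟩
    filter_upwards [Lp.coeFn_smul c F, hf'] with x h1 h2
    rw [h1, Pi.smul_apply, h2, Pi.smul_apply]

/-- the closure -/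
def VV (D : Set (Fin n → ℂ)) : Submodule ℂ (L2D D) := (A2 D).topologicalClosure

lemma A2_le (D : Set (Fin n → ℂ)) : A2 D ≤ VV D := Submodule.le_topologicalClosure _

/-- the Hilbert space (the closure of the space of square integrable holomorphic functions) -/
def W (D : Set (Fin n → ℂ)) : Type := ↥(VV D)

instance (D : Set (Fin n → ℂ)) : NormedAddCommGroup (W D) :=
  inferInstanceAs (NormedAddCommGroup (VV D))

instance (D : Set (Fin n → ℂ)) : InnerProductSpace ℂ (W D) :=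
  inferInstanceAs (InnerProductSpace ℂ (VV D))

instance (D : Set (Fin n → ℂ)) : CompleteSpace (W D) :=
  (Submodule.isClosed_topologicalClosure (A2 D)).completeSpace_coe

/-- the inclusion in `L²` -/
def toL (D : Set (Fin n → ℂ)) : W D →ₗᵢ[ℂ] L2D D := (VV D).subtypeₗᵢ

/-- elements of `W` from elements of `A²` -/
def ofA2 {D : Set (Fin n → ℂ)} (F : L2D D) (h : F ∈ A2 D) : W D := ⟨F, A2_le D h⟩

lemma toL_ofA2 {D : Set (Fin n → ℂ)} (F : L2D D) (h : F ∈ A2 D) : toL D (ofA2 F h) = F := rfl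

/-- a property that is closed and holds on `A²` holds on `VV` -/
lemma VV_ind {D : Set (Fin n → ℂ)} {P : W D → Prop} (hc : IsClosed {F | P F})
    (h : ∀ F : W D, toL D F ∈ A2 D → P F) (F : W D) : P F := by
  have hd : Dense {F : W D | toL D F ∈ A2 D} := by
    rw [dense_iff_closure_eq, eq_univ_iff_forall]
    intro G
    rw [(toL D).isometry.isEmbedding.isInducing.closure_eq_preimage_closure_image]
    have h1 : toL D G ∈ closure ((A2 D : Submodule ℂ (L2D D)) : Set (L2D D)) := G.2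
    refine closure_mono ?_ h1
    intro y hy
    exact ⟨ofA2 y hy, hy, rfl⟩
  have : closure {F : W D | toL D F ∈ A2 D} ⊆ {F | P F} := hc.closure_subset_iff.2 h
  rw [hd.closure_eq] at this
  exact this (mem_univ F)

lemma ext_A2 {D : Set (Fin n → ℂ)} {φ ψ : W D →L[ℂ] ℂ}
    (h : ∀ F : W D, toL D F ∈ A2 D → φ F = ψ F) : φ = ψ := by
  ext F
  exact VV_ind (P := fun F => φ F = ψ F) (isClosed_eq φ.continuous ψ.continuous) h F

lemma norm_le_of_A2 {D : Set (Fin n → ℂ)} {φ : W D →L[ℂ] ℂ} {C : ℝ} (hC : 0 ≤ C)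
    (h : ∀ F : W D, toL D F ∈ A2 D → ‖φ F‖ ≤ C * ‖F‖) : ‖φ‖ ≤ C := by
  refine φ.opNorm_le_bound hC (fun F => ?_)
  exact VV_ind (P := fun F => ‖φ F‖ ≤ C * ‖F‖)
    (isClosed_le φ.continuous.norm (continuous_const.mul continuous_norm)) h F


/-- volume of balls -/
def vb (n : ℕ) (r : ℝ) : ℝ := volume.real (closedBall (0 : Fin n → ℂ) r)

lemma vb_pos {r : ℝ} (hr : 0 < r) : 0 < vb n r := by
  rw [vb, Measure.real]
  refine ENNReal.toReal_pos ?_ (measure_closedBall_lt_top).ne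
  exact (measure_closedBall_pos volume _ hr).ne'

lemma vb_eq (x : Fin n → ℂ) (r : ℝ) : volume.real (closedBall x r) = vb n r := by
  rw [vb, Measure.real, Measure.real, Measure.addHaar_closedBall_center volume x r]

lemma restrict_cb {D : Set (Fin n → ℂ)} {x : Fin n → ℂ} {r : ℝ} (hB : closedBall x r ⊆ D) :
    (volume.restrict D).restrict (closedBall x r) = volume.restrict (closedBall x r) :=
  Measure.restrict_restrict_of_subset hB

lemma meas_cb (D : Set (Fin n → ℂ)) (x : Fin n → ℂ) (r : ℝ) :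
    (volume.restrict D) (closedBall x r) ≠ (⊤ : ℝ≥0∞) :=
  ((Measure.restrict_apply_le _ _).trans_lt measure_closedBall_lt_top).ne

/-- the averaging vector -/
def bb (D : Set (Fin n → ℂ)) (x : Fin n → ℂ) (r : ℝ) : L2D D :=
  (((vb n r)⁻¹ : ℝ) : ℂ) • indicatorConstLp 2 (measurableSet_closedBall (x := x) (ε := r))
    (meas_cb D x r) (1 : ℂ)

lemma inner_bb {D : Set (Fin n → ℂ)} (hD : IsOpen D) {x : Fin n → ℂ} {r : ℝ} (hr : 0 < r)
    (hB : closedBall x r ⊆ D) {F : L2D D} {f : (Fin n → ℂ) → ℂ} (hf : Rep D F f) :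
    ⟪bb D x r, F⟫_ℂ = f x := by
  rw [bb, inner_smul_left, L2.inner_indicatorConstLp_one, restrict_cb hB]
  have h1 : ∫ y in closedBall x r, (F : (Fin n → ℂ) → ℂ) y = ∫ y in closedBall x r, f y := by
    refine integral_congr_ae ?_
    have := ae_restrict_of_ae_restrict_of_subset hB hf.2
    exact this
  rw [h1, mv_closedBall hD hf.1 hB, vb_eq, Complex.conj_ofReal, Complex.real_smul, ← mul_assoc,
    ← Complex.ofReal_mul, inv_mul_cancel₀ (vb_pos hr).ne', Complex.ofReal_one, one_mul]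

/-- the constant of the `L²` bound -/
def cb (n : ℕ) (r : ℝ) : ℝ := (vb n r)⁻¹ * (vb n r) ^ ((1 : ℝ) / 2)

lemma cb_nonneg (n : ℕ) (r : ℝ) : 0 ≤ cb n r := by
  have h : 0 ≤ vb n r := measureReal_nonneg
  unfold cb
  positivity

lemma norm_bb {D : Set (Fin n → ℂ)} {x : Fin n → ℂ} {r : ℝ} (hB : closedBall x r ⊆ D) :
    ‖bb D x r‖ = cb n r := by
  have h0 : 0 ≤ vb n r := measureReal_nonneg
  rw [bb, norm_smul, norm_indicatorConstLp (by norm_num) (by norm_num), norm_one, one_mul,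
    Complex.norm_real, Real.norm_of_nonneg (inv_nonneg.2 h0), cb]
  congr 2
  rw [Measure.real, Measure.restrict_apply measurableSet_closedBall,
    inter_eq_self_of_subset_left hB, ← Measure.real, vb_eq]

/-- evaluation through the averaging vector -/
def ev0 (D : Set (Fin n → ℂ)) (x : Fin n → ℂ) (r : ℝ) : W D →L[ℂ] ℂ :=
  (innerSL ℂ (bb D x r)).comp (toL D).toContinuousLinearMap

lemma ev0_apply {D : Set (Fin n → ℂ)} (hD : IsOpen D) {x : Fin n → ℂ} {r : ℝ} (hr : 0 < r)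
    (hB : closedBall x r ⊆ D) {F : W D} {f : (Fin n → ℂ) → ℂ} (hf : Rep D (toL D F) f) :
    ev0 D x r F = f x :=
  inner_bb hD hr hB hf

lemma norm_ev0_le {D : Set (Fin n → ℂ)} {x : Fin n → ℂ} {r : ℝ}
    (hB : closedBall x r ⊆ D) : ‖ev0 D x r‖ ≤ cb n r := by
  refine ContinuousLinearMap.opNorm_le_bound _ (cb_nonneg n r) (fun F => ?_)
  calc ‖ev0 D x r F‖ = ‖⟪bb D x r, toL D F⟫_ℂ‖ := rfl
    _ ≤ ‖bb D x r‖ * ‖toL D F‖ := norm_inner_le_norm _ _
    _ = cb n r * ‖F‖ := by rw [norm_bb hB, (toL D).norm_map]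

lemma exists_cb {D : Set (Fin n → ℂ)} (hD : IsOpen D) {x : Fin n → ℂ} (hx : x ∈ D) :
    ∃ r, 0 < r ∧ closedBall x r ⊆ D :=
  nhds_basis_closedBall.mem_iff.1 (hD.mem_nhds hx)

open Classical in
/-- evaluation at a point of `D` -/
def ev (D : Set (Fin n → ℂ)) (x : Fin n → ℂ) : W D →L[ℂ] ℂ :=
  if h : ∃ r, 0 < r ∧ closedBall x r ⊆ D then ev0 D x h.choose else 0

lemma ev_apply {D : Set (Fin n → ℂ)} (hD : IsOpen D) {x : Fin n → ℂ} (hx : x ∈ D)
    {F : W D} {f : (Fin n → ℂ) → ℂ} (hf : Rep D (toL D F) f) : ev D x F = f x := by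
  rw [ev, dif_pos (exists_cb hD hx)]
  exact ev0_apply hD (exists_cb hD hx).choose_spec.1 (exists_cb hD hx).choose_spec.2 hf

lemma ev_eq_ev0 {D : Set (Fin n → ℂ)} (hD : IsOpen D) {x : Fin n → ℂ} {r : ℝ} (hr : 0 < r)
    (hB : closedBall x r ⊆ D) : ev D x = ev0 D x r := by
  refine ext_A2 (fun F hF => ?_)
  obtain ⟨f, hf⟩ := hF
  rw [ev_apply hD (hB (mem_closedBall_self hr.le)) hf, ev0_apply hD hr hB hf]

lemma norm_ev_le {D : Set (Fin n → ℂ)} (hD : IsOpen D) {x : Fin n → ℂ} {r : ℝ} (hr : 0 < r)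
    (hB : closedBall x r ⊆ D) : ‖ev D x‖ ≤ cb n r := by
  rw [ev_eq_ev0 hD hr hB]
  exact norm_ev0_le hB

/-- local Lipschitz bound -/
lemma ev_lip {D : Set (Fin n → ℂ)} (hD : IsOpen D) {x₀ : Fin n → ℂ} {r : ℝ} (hr : 0 < r)
    (hB : closedBall x₀ (3 * r) ⊆ D) {y z : Fin n → ℂ} (hy : y ∈ ball x₀ r) (hz : z ∈ ball x₀ r) :
    ‖ev D y - ev D z‖ ≤ cb n r / r * ‖y - z‖ := by
  refine norm_le_of_A2 (by have := cb_nonneg n r; positivity) (fun F hF => ?_)
  obtain ⟨f, hf⟩ := hF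
  have hin : ∀ w ∈ ball x₀ (2 * r), w ∈ D ∧ closedBall w r ⊆ D := by
    intro w hw
    have h1 : closedBall w r ⊆ D := by
      refine (closedBall_subset_closedBall' ?_).trans hB
      rw [mem_ball] at hw
      linarith
    exact ⟨h1 (mem_closedBall_self hr.le), h1⟩
  have hsub : ball x₀ r ⊆ ball x₀ (2 * r) := ball_subset_ball (by linarith)
  have hbd : ∀ w ∈ ball x₀ (2 * r), ‖f w‖ ≤ cb n r * ‖F‖ := by
    intro w hw
    rw [← ev_apply hD (hin w hw).1 hf]
    exact ((ev D w).le_opNorm F).trans (by gcongr; exact norm_ev_le hD hr (hin w hw).2)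
  have hder : ∀ w ∈ ball x₀ r, ‖fderiv ℂ f w‖ ≤ (cb n r * ‖F‖) / r := by
    intro w hw
    have hs : ball w r ⊆ ball x₀ (2 * r) := by
      refine ball_subset_ball' ?_
      rw [mem_ball] at hw
      linarith
    exact Crest.Agent.R266.SCV.norm_fderiv_le_of_ball hr
      (hf.1.mono (fun v hv => (hin v (hs hv)).1)) (fun v hv => hbd v (hs hv))
  have hmv := (convex_ball x₀ r).norm_image_sub_le_of_norm_fderiv_le (𝕜 := ℂ)
    (fun w hw => hf.1.differentiableAt (hD.mem_nhds (hin w (hsub hw)).1)) hder hz hy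
  rw [_root_.sub_apply, ev_apply hD (hin y (hsub hy)).1 hf,
    ev_apply hD (hin z (hsub hz)).1 hf]
  calc ‖f y - f z‖ ≤ cb n r * ‖F‖ / r * ‖y - z‖ := hmv
    _ = cb n r / r * ‖y - z‖ * ‖F‖ := by ring

lemma exists_3r {D : Set (Fin n → ℂ)} (hD : IsOpen D) {x : Fin n → ℂ} (hx : x ∈ D) :
    ∃ r, 0 < r ∧ closedBall x (3 * r) ⊆ D := by
  obtain ⟨r, hr, h⟩ := exists_cb hD hx
  exact ⟨r / 3, by positivity, by rwa [mul_div_cancel₀ _ (by norm_num : (3 : ℝ) ≠ 0)]⟩

lemma continuousOn_ev {D : Set (Fin n → ℂ)} (hD : IsOpen D) : ContinuousOn (ev D) D := by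
  intro x hx
  obtain ⟨r, hr, hB⟩ := exists_3r hD hx
  refine ContinuousAt.continuousWithinAt ?_
  have hc := cb_nonneg n r
  rw [Metric.continuousAt_iff]
  intro ε hε
  refine ⟨min r (ε / (cb n r / r + 1)), by positivity, fun {y} hy => ?_⟩
  rw [lt_min_iff] at hy
  rw [dist_eq_norm]
  have h1 := ev_lip hD hr hB (mem_ball.2 hy.1) (mem_ball_self hr : x ∈ ball x r)
  rw [← dist_eq_norm y x] at h1
  have h2 := (lt_div_iff₀ (by positivity : 0 < cb n r / r + 1)).1 hy.2
  have h3 : 0 ≤ dist y x := dist_nonneg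
  nlinarith [h1, h2, h3, div_nonneg hc hr.le]

/-- `x ↦ ev_x` is holomorphic (analytic). -/
theorem analyticOnNhd_ev {D : Set (Fin n → ℂ)} (hD : IsOpen D) :
    AnalyticOnNhd ℂ (ev D) D := by
  refine Crest.Agent.R266.SCV.analyticOnNhd_of_gateaux hD (continuousOn_ev hD) (fun x hx v => ?_)
  -- small disc
  have hcont : Continuous (fun z : ℂ => x + z • v) := by fun_prop
  have hopen : IsOpen ((fun z : ℂ => x + z • v) ⁻¹' D) := hD.preimage hcont
  have h0 : (0 : ℂ) ∈ (fun z : ℂ => x + z • v) ⁻¹' D := by simpa using hx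
  obtain ⟨R, hR, hRs⟩ := nhds_basis_closedBall.mem_iff.1 (hopen.mem_nhds h0)
  have hmem : ∀ z ∈ closedBall (0 : ℂ) R, x + z • v ∈ D := fun z hz => hRs hz
  have key := Crest.Agent.R266.SCV.differentiableOn_of_separating
    (G := W D →L[ℂ] ℂ) (F := ℂ)
    (ι := {F : W D // toL D F ∈ A2 D})
    (fun F => ContinuousLinearMap.apply ℂ ℂ (F : W D))
    (fun φ ψ h => ext_A2 (fun F hF => h ⟨F, hF⟩))
    (g := fun z : ℂ => ev D (x + z • v)) (c := 0) (R := R)
    ((continuousOn_ev hD).comp hcont.continuousOn hmem)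
    (by
      rintro ⟨F, f, hf⟩ z hz
      have hz' := hmem z (ball_subset_closedBall hz)
      have h1 : DifferentiableAt ℂ (fun t : ℂ => f (x + t • v)) z :=
        (hf.1.differentiableAt (hD.mem_nhds hz')).comp z (f := fun z : ℂ => x + z • v)
          (by fun_prop)
      refine h1.congr_of_eventuallyEq ?_
      filter_upwards [hopen.mem_nhds hz'] with t ht
      exact ev_apply hD ht hf)
  exact key.differentiableAt (ball_mem_nhds _ hR)

end Crest.Agent.R264.Berg
end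
end

-- ▼ part R264/Berg3
section

/-!
Row 264, D5 (helper587): bounded functions are in `A²`, derivative of the evaluation,
behaviour under automorphisms (modulo the change of variables formula).
-/

set_option autoImplicit false

open MeasureTheory Set Metric Filter
open scoped Real ContDiff Topology ENNReal InnerProductSpace

noncomputable section

namespace Crest.Agent.R264.Berg

variable {n : ℕ}

lemma mem_A2 {D : Set (Fin n → ℂ)} {F : L2D D} : F ∈ A2 D ↔ ∃ f, Rep D F f := Iff.rfl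

/-- element of `VV` with a given square integrable holomorphic representative -/
def mkV {D : Set (Fin n → ℂ)} (g : (Fin n → ℂ) → ℂ) (hg : DifferentiableOn ℂ g D)
    (hm : MemLp g 2 (volume.restrict D)) : W D :=
  ofA2 (hm.toLp g) (mem_A2.2 ⟨g, hg, hm.coeFn_toLp⟩)

lemma rep_mkV {D : Set (Fin n → ℂ)} (g : (Fin n → ℂ) → ℂ) (hg : DifferentiableOn ℂ g D)
    (hm : MemLp g 2 (volume.restrict D)) : Rep D (toL D (mkV g hg hm)) g :=
  ⟨hg, hm.coeFn_toLp⟩

lemma norm_mkV {D : Set (Fin n → ℂ)} (g : (Fin n → ℂ) → ℂ) (hg : DifferentiableOn ℂ g D)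
    (hm : MemLp g 2 (volume.restrict D)) :
    ‖mkV g hg hm‖ = (eLpNorm g 2 (volume.restrict D)).toReal := by
  rw [← (toL D).norm_map, mkV, toL_ofA2, Lp.norm_toLp]

lemma memLp_of_bdd {D : Set (Fin n → ℂ)} (hD : IsOpen D) (hb : Bornology.IsBounded D)
    {g : (Fin n → ℂ) → ℂ} (hg : ContinuousOn g D) {C : ℝ} (hC : ∀ x ∈ D, ‖g x‖ ≤ C) :
    MemLp g 2 (volume.restrict D) := by
  have : IsFiniteMeasure (volume.restrict D) :=
    ⟨by rw [Measure.restrict_apply_univ]; exact hb.measure_lt_top⟩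
  refine MemLp.of_bound (hg.aestronglyMeasurable hD.measurableSet) C ?_
  exact (ae_restrict_iff' hD.measurableSet).2 (Eventually.of_forall hC)

lemma memLp_coord {D : Set (Fin n → ℂ)} (hD : IsOpen D) (hb : Bornology.IsBounded D)
    (j : Fin n) : MemLp (fun x : Fin n → ℂ => x j) 2 (volume.restrict D) := by
  obtain ⟨C, hC⟩ := hb.exists_norm_le
  exact memLp_of_bdd hD hb (by fun_prop) (fun x hx => (norm_le_pi_norm x j).trans (hC x hx))

lemma memLp_one {D : Set (Fin n → ℂ)} (hD : IsOpen D) (hb : Bornology.IsBounded D) :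
    MemLp (fun _ : Fin n → ℂ => (1 : ℂ)) 2 (volume.restrict D) :=
  memLp_of_bdd hD hb (by fun_prop) (C := 1) (fun x hx => by simp)

lemma ev_ne_zero {D : Set (Fin n → ℂ)} (hD : IsOpen D) (hb : Bornology.IsBounded D)
    {x : Fin n → ℂ} (hx : x ∈ D) : ev D x ≠ 0 := by
  intro h
  have h1 := ev_apply hD hx (rep_mkV _ (differentiableOn_const 1) (memLp_one hD hb))
  rw [h] at h1
  simp at h1

lemma fderiv_ev_apply {D : Set (Fin n → ℂ)} (hD : IsOpen D) {x : Fin n → ℂ} (hx : x ∈ D)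
    {F : W D} {f : (Fin n → ℂ) → ℂ} (hf : Rep D (toL D F) f) (ξ : Fin n → ℂ) :
    fderiv ℂ (ev D) x ξ F = fderiv ℂ f x ξ := by
  have h1 : HasFDerivAt (ev D) (fderiv ℂ (ev D) x) x :=
    (analyticOnNhd_ev hD x hx).differentiableAt.hasFDerivAt
  have h2 : HasFDerivAt (fun y => ev D y F)
      ((ContinuousLinearMap.apply ℂ ℂ F).comp (fderiv ℂ (ev D) x)) x :=
    ((ContinuousLinearMap.apply ℂ ℂ F).hasFDerivAt (x := ev D x)).comp x h1
  have h3 : (fun y => ev D y F) =ᶠ[𝓝 x] f := by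
    filter_upwards [hD.mem_nhds hx] with y hy
    exact ev_apply hD hy hf
  rw [← h3.fderiv_eq, h2.fderiv]
  rfl

/-- the derivative of the evaluation is never proportional to the evaluation -/
lemma fderiv_ev_ne {D : Set (Fin n → ℂ)} (hD : IsOpen D) (hb : Bornology.IsBounded D)
    {x : Fin n → ℂ} (hx : x ∈ D) {ξ : Fin n → ℂ} (hξ : ξ ≠ 0) :
    ¬ ∃ c : ℂ, fderiv ℂ (ev D) x ξ = c • ev D x := by
  rintro ⟨c, hc⟩
  have hone := rep_mkV _ (differentiableOn_const (c := (1 : ℂ))) (memLp_one hD hb)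
  have h1 := fderiv_ev_apply hD hx hone ξ
  rw [hc, _root_.smul_apply, ev_apply hD hx hone] at h1
  have hc0 : c = 0 := by simpa using h1
  have hc' : fderiv ℂ (ev D) x ξ = 0 := by
    rw [hc, hc0]
    exact zero_smul ℂ (ev D x)
  apply hξ
  ext j
  have hj := rep_mkV (D := D) (fun x : Fin n → ℂ => x j)
    (by fun_prop) (memLp_coord hD hb j)
  have h2 := fderiv_ev_apply hD hx hj ξ
  rw [hc', _root_.zero_apply] at h2
  have h3 : fderiv ℂ (fun x : Fin n → ℂ => x j) x ξ = ξ j := by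
    have : HasFDerivAt (fun x : Fin n → ℂ => x j) (ContinuousLinearMap.proj (R := ℂ) j) x :=
      (ContinuousLinearMap.proj (R := ℂ) (φ := fun _ : Fin n => ℂ) j).hasFDerivAt
    rw [this.fderiv]
    rfl
  rw [h3] at h2
  simpa using h2.symm

lemma det_eq_matrix (A : (Fin n → ℂ) →L[ℂ] (Fin n → ℂ)) :
    A.det = Matrix.det (Matrix.of fun i j => A (Pi.single j 1) i) := by
  rw [ContinuousLinearMap.det, ← LinearMap.det_toMatrix']
  congr 1

lemma differentiableOn_det {D : Set (Fin n → ℂ)} (hD : IsOpen D)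
    {f : (Fin n → ℂ) → (Fin n → ℂ)} (hf : DifferentiableOn ℂ f D) :
    DifferentiableOn ℂ (fun x => (fderiv ℂ f x).det) D := by
  have h1 : DifferentiableOn ℂ (fderiv ℂ f) D :=
    (Crest.Agent.R266.SCV.analyticOnNhd_of_differentiableOn hD hf).fderiv.differentiableOn
  have h2 : ∀ i j, DifferentiableOn ℂ (fun x => fderiv ℂ f x (Pi.single j 1) i) D := by
    intro i j
    have h3 : DifferentiableOn ℂ (fun x => fderiv ℂ f x (Pi.single j 1)) D :=
      h1.clm_apply (differentiableOn_const _)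
    exact (differentiableOn_pi.1 h3) i
  have h4 : (fun x => (fderiv ℂ f x).det) = fun x => ∑ σ : Equiv.Perm (Fin n),
      ((Equiv.Perm.sign σ : ℤ) : ℂ) * ∏ i, fderiv ℂ f x (Pi.single i 1) (σ i) := by
    ext x
    rw [det_eq_matrix, Matrix.det_apply']
    rfl
  rw [h4]
  refine DifferentiableOn.fun_sum (fun σ _ => ?_)
  refine (differentiableOn_const _).mul ?_
  intro x hx
  exact (HasFDerivWithinAt.finsetProd (u := Finset.univ)
    (g := fun i x => fderiv ℂ f x (Pi.single i 1) (σ i))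
    (fun i _ => (h2 (σ i) i x hx).hasFDerivWithinAt)).differentiableWithinAt

/-- the change of variables statement used below -/
def CoV (D : Set (Fin n → ℂ)) (f : (Fin n → ℂ) → (Fin n → ℂ)) : Prop :=
  ∀ g : (Fin n → ℂ) → ℂ, DifferentiableOn ℂ g D →
    eLpNorm (fun x => (fderiv ℂ f x).det * g (f x)) 2 (volume.restrict D)
      = eLpNorm g 2 (volume.restrict D)

lemma ev_aut_le {D : Set (Fin n → ℂ)} (hD : IsOpen D) {f h : (Fin n → ℂ) → (Fin n → ℂ)}
    (hfh : IsAutPair D f h) (hT : CoV D f) {x : Fin n → ℂ} (hx : x ∈ D) :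
    ‖(fderiv ℂ f x).det‖ * ‖ev D (f x)‖ ≤ ‖ev D x‖ := by
  rw [← norm_smul]
  refine norm_le_of_A2 (norm_nonneg _) (fun G hG => ?_)
  obtain ⟨g, hg⟩ := hG
  have hgm : MemLp g 2 (volume.restrict D) := (memLp_congr_ae hg.2).1 (Lp.memLp _)
  have hdiff : DifferentiableOn ℂ (fun x => (fderiv ℂ f x).det * g (f x)) D :=
    (differentiableOn_det hD hfh.df).mul (hg.1.comp hfh.df hfh.mf)
  have hm : MemLp (fun x => (fderiv ℂ f x).det * g (f x)) 2 (volume.restrict D) := by
    refine ⟨hdiff.continuousOn.aestronglyMeasurable hD.measurableSet, ?_⟩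
    rw [hT g hg.1]
    exact hgm.2
  have h1 := ev_apply hD hx (rep_mkV _ hdiff hm)
  have h2 : ‖mkV _ hdiff hm‖ = ‖G‖ := by
    rw [norm_mkV, hT g hg.1]
    rw [← (toL D).norm_map, Lp.norm_def, eLpNorm_congr_ae hg.2]
  calc ‖((fderiv ℂ f x).det • ev D (f x)) G‖
      = ‖(fderiv ℂ f x).det * g (f x)‖ := by
        rw [_root_.smul_apply, ev_apply hD (hfh.mf hx) hg, smul_eq_mul]
    _ = ‖ev D x (mkV _ hdiff hm)‖ := by rw [h1]
    _ ≤ ‖ev D x‖ * ‖mkV _ hdiff hm‖ := (ev D x).le_opNorm _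
    _ = ‖ev D x‖ * ‖G‖ := by rw [h2]

lemma IsAutPair.symm {D : Set (Fin n → ℂ)} {f h : (Fin n → ℂ) → (Fin n → ℂ)}
    (hfh : IsAutPair D f h) : IsAutPair D h f :=
  ⟨hfh.dh, hfh.df, hfh.mh, hfh.mf, hfh.fh, hfh.hf⟩

lemma IsAutPair.det_mul {D : Set (Fin n → ℂ)} (hD : IsOpen D)
    {f h : (Fin n → ℂ) → (Fin n → ℂ)} (hfh : IsAutPair D f h) {x : Fin n → ℂ} (hx : x ∈ D) :
    (fderiv ℂ h (f x)).det * (fderiv ℂ f x).det = 1 := by
  have h1 : HasFDerivAt f (fderiv ℂ f x) x :=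
    (hfh.df.differentiableAt (hD.mem_nhds hx)).hasFDerivAt
  have h2 : HasFDerivAt h (fderiv ℂ h (f x)) (f x) :=
    (hfh.dh.differentiableAt (hD.mem_nhds (hfh.mf hx))).hasFDerivAt
  have h3 := h2.comp x h1
  have h4 : (h ∘ f) =ᶠ[𝓝 x] id := by
    filter_upwards [hD.mem_nhds hx] with y hy
    exact hfh.hf y hy
  have h5 : (fderiv ℂ h (f x)).comp (fderiv ℂ f x) = ContinuousLinearMap.id ℂ _ := by
    rw [← h3.fderiv, h4.fderiv_eq]
    exact fderiv_id
  have h6 : ((fderiv ℂ h (f x)).comp (fderiv ℂ f x)).det = 1 := by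
    rw [h5]
    exact LinearMap.det_id
  rw [← h6]
  exact (LinearMap.det_comp _ _).symm

lemma norm_ev_aut {D : Set (Fin n → ℂ)} (hD : IsOpen D) {f h : (Fin n → ℂ) → (Fin n → ℂ)}
    (hfh : IsAutPair D f h) (hT : CoV D f) (hT' : CoV D h) {x : Fin n → ℂ} (hx : x ∈ D) :
    ‖(fderiv ℂ f x).det‖ * ‖ev D (f x)‖ = ‖ev D x‖ := by
  refine le_antisymm (ev_aut_le hD hfh hT hx) ?_
  have h1 := ev_aut_le hD hfh.symm hT' (hfh.mf hx)
  rw [hfh.hf x hx] at h1
  have h2 := congrArg norm (hfh.det_mul hD hx)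
  rw [norm_mul, norm_one] at h2
  calc ‖ev D x‖ = (‖(fderiv ℂ h (f x)).det‖ * ‖(fderiv ℂ f x).det‖) * ‖ev D x‖ := by
        rw [h2, one_mul]
    _ = ‖(fderiv ℂ f x).det‖ * (‖(fderiv ℂ h (f x)).det‖ * ‖ev D x‖) := by ring
    _ ≤ ‖(fderiv ℂ f x).det‖ * ‖ev D (f x)‖ := by gcongr

/-- the Bergman potential -/
def uB (D : Set (Fin n → ℂ)) (x : Fin n → ℂ) : ℝ := Real.log (‖ev D x‖ ^ 2)

lemma uB_trans {D : Set (Fin n → ℂ)} (hD : IsOpen D) (hb : Bornology.IsBounded D)
    {f h : (Fin n → ℂ) → (Fin n → ℂ)}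
    (hfh : IsAutPair D f h) (hT : CoV D f) (hT' : CoV D h) {x : Fin n → ℂ} (hx : x ∈ D) :
    uB D (f x) = uB D x - 2 * Real.log ‖(fderiv ℂ f x).det‖ := by
  have h1 := norm_ev_aut hD hfh hT hT' hx
  have h2 : ‖(fderiv ℂ f x).det‖ ≠ 0 := by
    intro h0
    have := hfh.det_mul hD hx
    rw [norm_eq_zero] at h0
    rw [h0, mul_zero] at this
    exact zero_ne_one this
  have h3 : ‖ev D (f x)‖ ≠ 0 := norm_ne_zero_iff.2 (ev_ne_zero hD hb (hfh.mf hx))
  rw [uB, uB, ← h1, mul_pow, Real.log_mul (by positivity) (by positivity), Real.log_pow,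
    Real.log_pow]
  push_cast
  ring

end Crest.Agent.R264.Berg
end
end

-- ▼ part R264/Berg4
section

/-!
Row 264, D5 (helper587): assembly, `berg : Berg.Stmt`.
-/

set_option autoImplicit false

open MeasureTheory Set Metric Filter
open scoped Real ContDiff Topology ENNReal InnerProductSpace

noncomputable section

namespace Crest.Agent.R264.Berg

variable {n : ℕ}

lemma cov_of_pair {D : Set (Fin n → ℂ)} (hD : IsOpen D) {f h : (Fin n → ℂ) → (Fin n → ℂ)}
    (H : IsAutPair D f h) : CoV D f := by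
  intro g _
  rw [← BergTrans.eLpNorm_aut hD H g]
  congr 1
  ext x
  ring

/-- D5: the Bergman potential of a bounded open set -/
theorem isBerg {D : Set (Fin n → ℂ)} (hD : IsOpen D) (hb : Bornology.IsBounded D) :
    IsBerg D (uB D) := by
  have hF : DifferentiableOn ℂ (ev D) D := (analyticOnNhd_ev hD).differentiableOn
  have h0 : ∀ x ∈ D, ev D x ≠ 0 := fun x hx => ev_ne_zero hD hb hx
  have hs : ContDiffOn ℝ ∞ (uB D) D := BergLevi.contDiffOn_logNorm hD hF h0
  have htr : ∀ f h, IsAutPair D f h → ∀ x ∈ D,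
      uB D (f x) = uB D x - 2 * Real.log ‖(fderiv ℂ f x).det‖ := fun f h H x hx =>
    uB_trans hD hb H (cov_of_pair hD H) (cov_of_pair hD H.symm) hx
  refine ⟨hs, fun x hx ξ hξ => ?_, htr, fun f h H x hx ξ => ?_⟩
  · exact BergLevi.Lev_log_normSq_pos hD hF h0 hx ξ
      (fun c hc => fderiv_ev_ne hD hb hx hξ ⟨c, hc⟩)
  · exact BergTrans.Lev_trans hD hs H (htr f h H) hx ξ

theorem berg : Stmt := fun _ D hD hb => ⟨uB D, isBerg hD hb⟩

end Crest.Agent.R264.Berg
end
end

-- ▼ part R264/SymMain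
section

/-!
Row 264 (S0402), part D8 (h) and the assembly of Theorem D (helper469).
-/

set_option autoImplicit false

open Set Filter Topology Complex
open scoped ComplexConjugate

namespace Crest.Agent.R264

open Crest.AlgGeometry.Semialg

namespace Sym

section Flow

variable {E : Type*} [NormedAddCommGroup E] [NormedSpace ℂ E]
variable {D : Set E} {g : Type*} [LieRing g] [LieAlgebra ℝ g] (P : Pack D g)

include P in
/-- a zero of the field is a fixed point of the flow -/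
lemma flow_fix (hD : IsOpen D) {A : g} {x : E} (hx : x ∈ D) (h0 : P.ev A x = 0) (t : ℝ) :
    P.flow A t x = x := by
  have hder : ∀ s : ℝ, HasDerivAt (fun r => P.flow A r x) 0 s := by
    intro s
    have h1 : HasDerivAt (fun r => P.flow A r x) (P.ev A x) 0 := by
      have := P.flow_deriv A x hx 0
      rwa [(P.isFlow A).zero x hx] at this
    rw [h0] at h1
    -- flow (s + r) x = flow s (flow r x)
    have h2 : HasFDerivAt (P.flow A s) (fderiv ℂ (P.flow A s) x) x :=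
      (((P.isFlow A).hol s).differentiableAt (hD.mem_nhds hx)).hasFDerivAt
    have h2' : HasFDerivAt (P.flow A s) (fderiv ℂ (P.flow A s) x) (P.flow A 0 x) := by
      rwa [(P.isFlow A).zero x hx]
    have h3 : HasDerivAt (fun r => P.flow A s (P.flow A r x)) (fderiv ℂ (P.flow A s) x 0) 0 := by
      have h2r : HasFDerivAt (P.flow A s) ((fderiv ℂ (P.flow A s) x).restrictScalars ℝ)
        (P.flow A 0 x) := h2'.restrictScalars ℝ
      exact h2r.comp_hasDerivAt (0 : ℝ) h1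
    have h4 : (fun r => P.flow A (s + r) x) = fun r => P.flow A s (P.flow A r x) := by
      funext r; exact (P.isFlow A).add s r x hx
    rw [← h4, map_zero] at h3
    have h5 := P.flow_deriv A x hx s
    have h6 : HasDerivAt (fun r => P.flow A (s + r) x) (P.ev A (P.flow A s x)) 0 := by
      have h7 : HasDerivAt (fun r : ℝ => P.flow A r x) (P.ev A (P.flow A s x)) (s + 0) := by
        simpa using h5
      exact h7.comp_const_add s 0
    have h8 := h6.unique h3
    rwa [h8] at h5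
  have hc := is_const_of_deriv_eq_zero (f := fun r => P.flow A r x)
    (fun s => (hder s).differentiableAt) (fun s => (hder s).deriv) t 0
  simpa [(P.isFlow A).zero x hx] using hc

include P in
/-- the linearised flow at a zero with `DA(x) = i`. -/
lemma fderiv_flow_I (hD : IsOpen D) {A : g} {x : E} (hx : x ∈ D) (h0 : P.ev A x = 0)
    (h1 : fderiv ℂ (P.ev A) x = Complex.I • ContinuousLinearMap.id ℂ E) (t : ℝ) :
    fderiv ℂ (P.flow A t) x = Complex.exp (t * Complex.I) • ContinuousLinearMap.id ℂ E := by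
  set M : ℝ → E →L[ℂ] E := fun t => fderiv ℂ (P.flow A t) x with hM
  have hfix := flow_fix P hD hx h0
  have hadd : ∀ s r : ℝ, M (s + r) = (M s).comp (M r) := by
    intro s r
    have hdr : HasFDerivAt (P.flow A r) (M r) x :=
      (((P.isFlow A).hol r).differentiableAt (hD.mem_nhds hx)).hasFDerivAt
    have hds : HasFDerivAt (P.flow A s) (M s) (P.flow A r x) := by
      rw [hfix r]
      exact (((P.isFlow A).hol s).differentiableAt (hD.mem_nhds hx)).hasFDerivAt
    have h2 : HasFDerivAt (P.flow A s ∘ P.flow A r) ((M s).comp (M r)) x := hds.comp x hdr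
    have h3 : P.flow A (s + r) =ᶠ[𝓝 x] P.flow A s ∘ P.flow A r := by
      filter_upwards [hD.mem_nhds hx] with y hy
      exact (P.isFlow A).add s r y hy
    exact (h2.congr_of_eventuallyEq h3).fderiv
  have hM0 : M 0 = ContinuousLinearMap.id ℂ E := by
    have h3 : P.flow A 0 =ᶠ[𝓝 x] id := by
      filter_upwards [hD.mem_nhds hx] with y hy
      exact (P.isFlow A).zero y hy
    rw [hM]
    simp only
    rw [h3.fderiv_eq, fderiv_id]
  have hd0 : HasDerivAt M (Complex.I • ContinuousLinearMap.id ℂ E) 0 := by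
    rw [← h1]; exact P.flow_fderiv A x hx
  have hd : ∀ s : ℝ, HasDerivAt M (Complex.I • M s) s := by
    intro s
    have h2 : HasDerivAt (fun r => (M s).comp (M r)) ((M s).comp
        (Complex.I • ContinuousLinearMap.id ℂ E)) 0 := by
      exact ((ContinuousLinearMap.compL ℂ E E E (M s)).restrictScalars ℝ).hasFDerivAt.comp_hasDerivAt
        (0 : ℝ) hd0
    have h3 : (fun r => (M s).comp (M r)) = fun r => M (s + r) := by
      funext r; rw [hadd]
    rw [h3] at h2
    have h4 : HasDerivAt (fun r => M r) ((M s).comp (Complex.I • ContinuousLinearMap.id ℂ E))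
        (s + 0) := by
      have h5 : HasDerivAt (fun r => M (s + r)) ((M s).comp
        (Complex.I • ContinuousLinearMap.id ℂ E)) (s - s) := by simpa using h2
      have h6 := h5.comp_sub_const s s
      simpa using h6
    have h7 : (M s).comp (Complex.I • ContinuousLinearMap.id ℂ E) = Complex.I • M s := by
      ext v; simp
    rw [h7] at h4
    simpa using h4
  -- `exp(-i s) M s` is constant
  have hc : ∀ s : ℝ, HasDerivAt (fun r : ℝ => Complex.exp (-(r * Complex.I)) • M r) 0 s := by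
    intro s
    have he : HasDerivAt (fun r : ℝ => Complex.exp (-(r * Complex.I)))
        (Complex.exp (-(s * Complex.I)) * (-Complex.I)) s := by
      have h2 : HasDerivAt (fun r : ℝ => (r : ℂ)) 1 s := Complex.ofRealCLM.hasDerivAt
      have h3 : HasDerivAt (fun r : ℝ => -((r : ℂ) * Complex.I)) (-(1 * Complex.I)) s :=
        (h2.mul_const Complex.I).neg
      have h4 := h3.cexp
      simpa using h4
    have h5 := he.smul (hd s)
    have h6 : Complex.exp (-(s * Complex.I)) • (Complex.I • M s) +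
        (Complex.exp (-(s * Complex.I)) * (-Complex.I)) • M s = 0 := by
      rw [smul_smul, ← add_smul]
      ring_nf
      simp
    rwa [h6] at h5
  have h9 := is_const_of_deriv_eq_zero (f := fun r : ℝ => Complex.exp (-(r * Complex.I)) • M r)
    (fun s => (hc s).differentiableAt) (fun s => (hc s).deriv) t 0
  simp only [Complex.ofReal_zero, zero_mul, neg_zero, Complex.exp_zero, one_smul, hM0] at h9
  have h10 := congrArg (fun L => Complex.exp (t * Complex.I) • L) h9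
  simp only [smul_smul, ← Complex.exp_add] at h10
  rw [add_neg_cancel, Complex.exp_zero, one_smul] at h10
  exact h10

end Flow

end Sym

/-- the symmetry at a point from a field `Z` with `Z(x) = 0`, `DZ(x) = i`. -/
theorem exists_symmetry {n : ℕ} {D : Set (Fin n → ℂ)} (hDo : IsOpen D) (hDc : IsPreconnected D)
    (hDb : Bornology.IsBounded D) {g : Type} [LieRing g] [LieAlgebra ℝ g] (P : Pack D g)
    {A : g} {x : Fin n → ℂ} (hx : x ∈ D) (h0 : P.ev A x = 0)
    (h1 : fderiv ℂ (P.ev A) x = Complex.I • ContinuousLinearMap.id ℂ (Fin n → ℂ)) :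
    ∃ s : (Fin n → ℂ) → (Fin n → ℂ), DifferentiableOn ℂ s D ∧ Set.MapsTo s D D ∧
      (∀ z ∈ D, s (s z) = z) ∧ s x = x ∧ ∀ᶠ z in 𝓝[≠] x, s z ≠ z := by
  have hfix := Sym.flow_fix P hDo hx h0
  have hfd := Sym.fderiv_flow_I P hDo hx h0 h1
  refine ⟨P.flow A Real.pi, (P.isFlow A).hol _, (P.isFlow A).maps _, ?_, hfix _, ?_⟩
  · intro z hz
    rw [← (P.isFlow A).add Real.pi Real.pi z hz]
    refine cartan_unique hDo hDc hDb ((P.isFlow A).hol _) ((P.isFlow A).maps _) hx (hfix _) ?_ z hz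
    rw [hfd]
    have : Complex.exp (((Real.pi + Real.pi : ℝ) : ℂ) * Complex.I) = 1 := by
      push_cast
      rw [show ((Real.pi : ℂ) + Real.pi) * Complex.I = 2 * Real.pi * Complex.I by ring]
      exact Complex.exp_two_pi_mul_I
    rw [this, one_smul]
  · have hd : HasFDerivAt (P.flow A Real.pi) (-(ContinuousLinearMap.id ℂ (Fin n → ℂ))) x := by
      have h2 := (((P.isFlow A).hol Real.pi).differentiableAt (hDo.mem_nhds hx)).hasFDerivAt
      rw [hfd, Complex.exp_pi_mul_I, neg_smul, one_smul] at h2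
      exact h2
    have hd2 : HasFDerivAt (fun z => P.flow A Real.pi z - z)
        (-(ContinuousLinearMap.id ℂ (Fin n → ℂ)) - ContinuousLinearMap.id ℂ (Fin n → ℂ)) x :=
      hd.sub (hasFDerivAt_id x)
    have h3 := hd2.eventually_ne (c := 0) ⟨1, ContinuousLinearMap.antilipschitz_of_bound _ fun z => by
      have : (-(ContinuousLinearMap.id ℂ (Fin n → ℂ)) - ContinuousLinearMap.id ℂ (Fin n → ℂ)) z
          = -((2 : ℂ) • z) := by
        simp [two_smul]; abel
      rw [this, norm_neg, norm_smul]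
      simp only [Complex.norm_ofNat, NNReal.coe_one, one_mul]
      nlinarith [norm_nonneg z]⟩
    filter_upwards [h3] with z hz
    exact fun h => hz (by rw [h, sub_self])

/-- assembly of Theorem D from its nodes. -/
theorem thmD_of (h3 : D3Stmt) (h7 : D7Stmt) (h8 : D8Stmt) (ha : DAlgStmt) : ThmD := by
  intro n D Γ hn hDo hDc hDb hΓ hS
  obtain ⟨g, i1, i2, hfin, ⟨P⟩⟩ := h3 n D hDo hDc hDb
  have hspan : P.Span := by
    intro x hx
    rw [eq_top_iff, ← hS x hx]
    refine Submodule.span_mono ?_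
    rintro v ⟨X, hX, rfl⟩
    obtain ⟨Y, hY⟩ := P.surj X hX
    exact ⟨Y, hY x hx⟩
  have hK := h7 n D Γ hn hDo hDc hDb hΓ g i1 i2 hfin P hspan
  refine ⟨hDo, hDc, hDb, fun x hx => ?_⟩
  obtain ⟨δ, hyp⟩ := h8 n D Γ hn hDo hDc hDb hΓ g i1 i2 hfin hK P hspan x hx
  obtain ⟨⟨Z, hZh, hZσ, hZ⟩, hdec⟩ := ha g i1 i2 hfin hK _ δ hyp
  have hZof := CX.eq_of_fixed hZσ
  set A : g := Z.re with hA
  have h0 : P.ev A x = 0 := by
    have := (P.mem_stab hDo hx Z).1 hZh
    rwa [hZof, P.evC_of] at this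
  -- surjectivity of the evaluation
  have hsur : ∀ v : Fin n → ℂ, ∃ X : CX g, P.evC X x = v := by
    intro v
    have hv : v ∈ Submodule.span ℂ (Set.range fun X : g => P.ev X x) := by
      rw [hspan x hx]; trivial
    induction hv using Submodule.span_induction with
    | mem y hy =>
      obtain ⟨X, rfl⟩ := hy
      exact ⟨CX.of X, by rw [P.evC_of]⟩
    | zero => exact ⟨0, by simp⟩
    | add y z _ _ hy hz =>
      obtain ⟨X, rfl⟩ := hy
      obtain ⟨Y, rfl⟩ := hz
      exact ⟨X + Y, by simp⟩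
    | smul c y _ hy =>
      obtain ⟨X, rfl⟩ := hy
      exact ⟨c • X, by simp⟩
  have h1 : fderiv ℂ (P.ev A) x = Complex.I • ContinuousLinearMap.id ℂ (Fin n → ℂ) := by
    ext1 v
    obtain ⟨X, rfl⟩ := hsur v
    obtain ⟨Y, hY, W, hW, rfl⟩ := hdec X
    have hY0 := (P.mem_stab hDo hx Y).1 hY
    have hXW : P.evC (Y + W) x = P.evC W x := by
      rw [map_add, Pi.add_apply, hY0, zero_add]
    rw [hXW]
    have h5 := P.evC_lie hDo Z W hx
    rw [hZ W hW, hZof, P.evC_of, h0] at h5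
    rw [map_zero, zero_sub, map_smul, Pi.smul_apply, neg_smul, neg_inj] at h5
    rw [← h5]
    simp
  exact exists_symmetry hDo hDc.isPreconnected hDb P hx h0 h1

end Crest.Agent.R264
end

-- ▼ part R264/D8dMain
section

/-!
Row 264 (S0402), part D8(d): the functional `δ`, identity (*), its (0,1)-derivative (helper868).

`u` is the function of D5 (`u = log K`).
* `pU u x ξ = (1/2) (Du(x) ξ - i Du(x)(i ξ))`
* `delta P hD hx Y = P.div x Y + pU u x (Y x)`
-/

set_option autoImplicit false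

open Filter Topology Set Complex
open scoped ComplexConjugate ContDiff

noncomputable section

namespace Crest.Agent.R264.D8d

variable {E : Type*} [NormedAddCommGroup E] [NormedSpace ℂ E]

/-- the complex linear part of the real differential (times 1): `(1/2)(Du ξ - i Du(iξ))`. -/
def pU (u : E → ℝ) (x : E) : E →ₗ[ℂ] ℂ where
  toFun ξ := (1 / 2 : ℂ) * ((fderiv ℝ u x ξ : ℂ) - I * (fderiv ℝ u x (I • ξ) : ℂ))
  map_add' ξ η := by
    simp only [smul_add, map_add]; push_cast; ring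
  map_smul' c ξ := by
    have hc : c • ξ = c.re • ξ + c.im • (I • ξ) := by
      conv_lhs => rw [← Complex.re_add_im c]
      rw [add_smul, mul_smul]
      simp only [Complex.coe_smul]
    have hc2 : I • (c • ξ) = c.re • (I • ξ) - c.im • ξ := by
      rw [hc, smul_add, smul_comm I c.re ξ, smul_comm I c.im (I • ξ), smul_smul I I ξ, I_mul_I,
        neg_one_smul, smul_neg, sub_eq_add_neg]
    rw [hc2, hc]
    simp only [map_add, map_sub, map_smul, smul_eq_mul, RingHom.id_apply]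
    push_cast
    conv_rhs => rw [← Complex.re_add_im c]
    ring_nf
    simp only [I_sq]
    ring

lemma pU_apply (u : E → ℝ) (x ξ : E) :
    pU u x ξ = (1 / 2 : ℂ) * ((fderiv ℝ u x ξ : ℂ) - I * (fderiv ℝ u x (I • ξ) : ℂ)) := rfl

lemma pU_re (u : E → ℝ) (x ξ : E) : (pU u x ξ).re = (1 / 2) * fderiv ℝ u x ξ := by
  rw [pU_apply]; simp

/-- divergence of a field -/
def dvF (b : E → E) (x : E) : ℂ := LinearMap.trace ℂ E ((fderiv ℂ b x : E →L[ℂ] E) : E →ₗ[ℂ] E)

section Calc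

variable [FiniteDimensional ℂ E]

/-- the trace as a continuous linear map -/
def trL : (E →L[ℂ] E) →L[ℂ] ℂ :=
  LinearMap.toContinuousLinearMap
    ((LinearMap.trace ℂ E).comp (ContinuousLinearMap.coeLM ℂ : (E →L[ℂ] E) →ₗ[ℂ] (E →ₗ[ℂ] E)))

lemma trL_apply (s : E →L[ℂ] E) : trL s = LinearMap.trace ℂ E (s : E →ₗ[ℂ] E) := rfl

lemma dvF_eq (b : E → E) (x : E) : dvF b x = trL (fderiv ℂ b x) := rfl

lemma trL_comm (s t : E →L[ℂ] E) : trL (s.comp t) = trL (t.comp s) := by
  rw [trL_apply, trL_apply]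
  exact LinearMap.trace_mul_comm ℂ (s : E →ₗ[ℂ] E) (t : E →ₗ[ℂ] E)

variable {D : Set E} (hD : IsOpen D)
include hD

lemma analyticAt_of_hol {b : E → E} (hb : DifferentiableOn ℂ b D) {x : E} (hx : x ∈ D) :
    AnalyticAt ℂ b x := by
  have : CompleteSpace E := FiniteDimensional.complete ℂ E
  exact Crest.Agent.R266.SCV.analyticOnNhd_of_differentiableOn hD hb x hx

lemma hasFDerivAt_fderiv {b : E → E} (hb : DifferentiableOn ℂ b D) {x : E} (hx : x ∈ D) :
    HasFDerivAt (fderiv ℂ b) (fderiv ℂ (fderiv ℂ b) x) x := by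
  have : CompleteSpace E := FiniteDimensional.complete ℂ E
  exact ((analyticAt_of_hol hD hb hx).fderiv).differentiableAt.hasFDerivAt

lemma hasFDerivAt_dvF {b : E → E} (hb : DifferentiableOn ℂ b D) {x : E} (hx : x ∈ D) :
    HasFDerivAt (dvF b) (trL.comp (fderiv ℂ (fderiv ℂ b) x)) x :=
  (trL (E := E)).hasFDerivAt.comp x (hasFDerivAt_fderiv hD hb hx)

lemma fderiv_dvF {b : E → E} (hb : DifferentiableOn ℂ b D) {x : E} (hx : x ∈ D) (ξ : E) :
    fderiv ℂ (dvF b) x ξ = trL (fderiv ℂ (fderiv ℂ b) x ξ) := by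
  rw [(hasFDerivAt_dvF hD hb hx).fderiv]; rfl

lemma symm2 {b : E → E} (hb : DifferentiableOn ℂ b D) {x : E} (hx : x ∈ D) (ξ η : E) :
    fderiv ℂ (fderiv ℂ b) x ξ η = fderiv ℂ (fderiv ℂ b) x η ξ := by
  have : CompleteSpace E := FiniteDimensional.complete ℂ E
  have h := (analyticAt_of_hol hD hb hx).contDiffAt (n := 2)
  exact (h.isSymmSndFDerivAt (by simp [minSmoothness_of_isRCLikeNormedField])).eq ξ η

/-- divergence of a bracket -/
lemma dvF_bracket {a b : E → E} (ha : DifferentiableOn ℂ a D) (hb : DifferentiableOn ℂ b D)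
    {x : E} (hx : x ∈ D) :
    dvF (fun z => fderiv ℂ b z (a z) - fderiv ℂ a z (b z)) x
      = fderiv ℂ (dvF b) x (a x) - fderiv ℂ (dvF a) x (b x) := by
  have hda := (ha.differentiableAt (hD.mem_nhds hx)).hasFDerivAt
  have hdb := (hb.differentiableAt (hD.mem_nhds hx)).hasFDerivAt
  have h1 := (hasFDerivAt_fderiv hD hb hx).clm_apply hda
  have h2 := (hasFDerivAt_fderiv hD ha hx).clm_apply hdb
  have h3 := h1.sub h2
  have h4 : fderiv ℂ (fun z => fderiv ℂ b z (a z) - fderiv ℂ a z (b z)) x = _ := h3.fderiv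
  rw [dvF_eq, h4, map_sub, map_add, map_add, trL_comm (fderiv ℂ a x),
    fderiv_dvF hD hb hx, fderiv_dvF hD ha hx]
  have e1 : (fderiv ℂ (fderiv ℂ b) x).flip (a x) = fderiv ℂ (fderiv ℂ b) x (a x) := by
    ext η; rw [ContinuousLinearMap.flip_apply]; exact symm2 hD hb hx _ _
  have e2 : (fderiv ℂ (fderiv ℂ a) x).flip (b x) = fderiv ℂ (fderiv ℂ a) x (b x) := by
    ext η; rw [ContinuousLinearMap.flip_apply]; exact symm2 hD ha hx _ _
  rw [e1, e2]
  ring

/-- the function `z ↦ div y z + pU u z (y z)` -/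
def FF (u : E → ℝ) (y : E → E) (z : E) : ℂ := dvF y z + pU u z (y z)

/-- derivative of `FF` along a real line -/
lemma hasDerivAt_FF {u : E → ℝ} (hu : ContDiffOn ℝ 2 u D) {y : E → E}
    (hy : DifferentiableOn ℂ y D) {x : E} (hx : x ∈ D) (η : E) :
    HasDerivAt (fun t : ℝ => FF u y (x + t • η))
      (fderiv ℂ (dvF y) x η +
        (1 / 2 : ℂ) * ((fderiv ℝ (fderiv ℝ u) x η (y x) : ℂ) -
          I * (fderiv ℝ (fderiv ℝ u) x η (I • y x) : ℂ)) +
        pU u x (fderiv ℂ y x η)) 0 := by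
  have hline : HasDerivAt (fun t : ℝ => x + t • η) η 0 := by
    simpa using ((hasDerivAt_id (0 : ℝ)).smul_const η).const_add x
  have hx0 : x + (0 : ℝ) • η = x := by simp
  have hua : ContDiffAt ℝ 2 u x := hu.contDiffAt (hD.mem_nhds hx)
  have hu2 : HasFDerivAt (fderiv ℝ u) (fderiv ℝ (fderiv ℝ u) x) (x + (0 : ℝ) • η) := by
    rw [hx0]
    exact ((hua.fderiv_right (m := 1) (by norm_num)).differentiableAt (by norm_num)).hasFDerivAt
  have hy1 : HasFDerivAt y ((fderiv ℂ y x).restrictScalars ℝ) (x + (0 : ℝ) • η) := by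
    rw [hx0]
    exact (hy.differentiableAt (hD.mem_nhds hx)).hasFDerivAt.restrictScalars ℝ
  have hd1 : HasFDerivAt (dvF y) ((trL.comp (fderiv ℂ (fderiv ℂ y) x)).restrictScalars ℝ)
      (x + (0 : ℝ) • η) := by
    rw [hx0]
    exact (hasFDerivAt_dvF hD hy hx).restrictScalars ℝ
  have h1 := hd1.comp_hasDerivAt (0 : ℝ) hline
  have h2 := hu2.comp_hasDerivAt (0 : ℝ) hline
  have h3 := hy1.comp_hasDerivAt (0 : ℝ) hline
  have h3' : HasDerivAt (fun t : ℝ => I • y (x + t • η)) (I • fderiv ℂ y x η) 0 :=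
    HasDerivAt.const_smul I h3
  have h4 := h2.clm_apply h3
  have h5 := h2.clm_apply h3'
  have h6 : HasDerivAt (fun t : ℝ => ((fderiv ℝ u (x + t • η) (y (x + t • η)) : ℝ) : ℂ)) _ 0 :=
    h4.ofReal_comp
  have h7 : HasDerivAt (fun t : ℝ => ((fderiv ℝ u (x + t • η) (I • y (x + t • η)) : ℝ) : ℂ)) _ 0 :=
    h5.ofReal_comp
  have h8 := h1.add ((h6.sub (h7.const_mul I)).const_mul (1 / 2 : ℂ))
  refine h8.congr_deriv ?_
  rw [fderiv_dvF hD hy hx, pU_apply]
  simp only [Function.comp, hx0]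
  push_cast
  simp only [ContinuousLinearMap.coe_restrictScalars', ContinuousLinearMap.coe_comp, Function.comp]
  ring

/-- The (0,1)-derivative of identity (*). -/
lemma lev_id {u : E → ℝ} (hu : ContDiffOn ℝ 2 u D) {y ys : E → E}
    (hy : DifferentiableOn ℂ y D) (hys : DifferentiableOn ℂ ys D)
    (hG : ∀ z ∈ D, FF u y z + conj (FF u ys z) = 0) {x : E} (hx : x ∈ D) (h0 : ys x = 0) :
    ((Berg.Lev u x (y x) : ℝ) : ℂ)
      = - conj (fderiv ℂ (dvF ys) x (y x) + pU u x (fderiv ℂ ys x (y x))) := by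
  have key : ∀ η : E,
      (fderiv ℂ (dvF y) x η +
        (1 / 2 : ℂ) * ((fderiv ℝ (fderiv ℝ u) x η (y x) : ℂ) -
          I * (fderiv ℝ (fderiv ℝ u) x η (I • y x) : ℂ)) +
        pU u x (fderiv ℂ y x η)) +
      conj (fderiv ℂ (dvF ys) x η + pU u x (fderiv ℂ ys x η)) = 0 := by
    intro η
    have h1 := hasDerivAt_FF hD hu hy hx η
    have h2 := hasDerivAt_FF hD hu hys hx η
    have h3 : HasDerivAt (fun t : ℝ => conj (FF u ys (x + t • η)))
        (conj (fderiv ℂ (dvF ys) x η + pU u x (fderiv ℂ ys x η))) 0 := by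
      have h4 : HasDerivAt (fun t : ℝ => conj (FF u ys (x + t • η))) _ 0 :=
        Complex.conjCLE.hasFDerivAt.comp_hasDerivAt (0 : ℝ) h2
      refine h4.congr_deriv ?_
      rw [h0]
      simp
    have h5 := h1.add h3
    have h6 : (fun t : ℝ => FF u y (x + t • η) + conj (FF u ys (x + t • η))) =ᶠ[𝓝 0]
        fun _ => (0 : ℂ) := by
      have hc : ContinuousAt (fun t : ℝ => x + t • η) 0 := by fun_prop
      have hm : D ∈ 𝓝 (x + (0 : ℝ) • η) := by simpa using hD.mem_nhds hx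
      filter_upwards [hc.preimage_mem_nhds hm] with t ht
      exact hG _ ht
    have h7 : HasDerivAt (fun t : ℝ => FF u y (x + t • η) + conj (FF u ys (x + t • η))) 0 0 :=
      (hasDerivAt_const (0 : ℝ) (0 : ℂ)).congr_of_eventuallyEq h6
    exact h5.unique h7
  have k1 := key (y x)
  have k2 := key (I • y x)
  have hua : ContDiffAt ℝ 2 u x := hu.contDiffAt (hD.mem_nhds hx)
  have hs : fderiv ℝ (fderiv ℝ u) x (I • y x) (y x) = fderiv ℝ (fderiv ℝ u) x (y x) (I • y x) :=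
    (hua.isSymmSndFDerivAt (by simp)).eq _ _
  simp only [map_smul, smul_eq_mul, hs] at k1 k2
  rw [Berg.Lev]
  set s := fderiv ℂ (dvF ys) x (y x) + pU u x (fderiv ℂ ys x (y x)) with hsdef
  have k3 : conj (I * fderiv ℂ (dvF ys) x (y x) + I * pU u x (fderiv ℂ ys x (y x)))
      = - I * conj s := by
    rw [hsdef]; simp only [map_add, map_mul, conj_I]; ring
  rw [k3] at k2
  push_cast
  linear_combination (exp := 1) (1 / 2 : ℂ) * k1 + (1 / 2 * I : ℂ) * k2 +
    (1 / 4 * (fderiv ℝ (fderiv ℝ u) x (I • y x) (I • y x) : ℂ) + 1 / 2 * conj s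
      - 1 / 2 * fderiv ℂ (dvF y) x (y x) - 1 / 2 * pU u x (fderiv ℂ y x (y x))) * I_sq

end Calc

end Crest.Agent.R264.D8d

namespace Crest.Agent.R264.D8d

variable {E : Type*} [NormedAddCommGroup E] [NormedSpace ℂ E] [FiniteDimensional ℂ E]
variable {D : Set E} {g : Type*} [LieRing g] [LieAlgebra ℝ g] (P : Pack D g)

/-- What is used about the Bergman function `u = log K`. -/
structure Pot (D : Set E) (u : E → ℝ) : Prop where
  smooth : ContDiffOn ℝ 2 u D
  lev_pos : ∀ x ∈ D, ∀ ξ, ξ ≠ 0 → 0 < Berg.Lev u x ξ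
  trans : ∀ f h, AutPair D f h → ∀ x ∈ D,
    u (f x) = u x - 2 * Real.log ‖(fderiv ℂ f x).det‖

variable {u : E → ℝ}

/-- real identity: `Du(x)(A x) = - 2 Re div A (x)` -/
lemma real_id (hD : IsOpen D) (hu : Pot D u) (A : g) {x : E} (hx : x ∈ D) :
    fderiv ℝ u x (P.ev A x) = -(2 * (dvF (P.ev A) x).re) := by
  have h0 : P.flow A 0 x = x := (P.isFlow A).zero x hx
  have hud : HasFDerivAt u (fderiv ℝ u x) (P.flow A 0 x) := by
    rw [h0]
    exact ((hu.smooth.contDiffAt (hD.mem_nhds hx)).differentiableAt (by norm_num)).hasFDerivAt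
  have h1 : HasDerivAt (fun t => P.flow A t x) (P.ev A x) 0 := (P.isFlow A).gen x hx
  have h2 := hud.comp_hasDerivAt (0 : ℝ) h1
  have hM : ∀ ξ, HasDerivAt (fun t : ℝ => fderiv ℂ (P.flow A t) x ξ) (fderiv ℂ (P.ev A) x ξ) 0 := by
    intro ξ
    have h3 := ((ContinuousLinearMap.apply ℂ E ξ).restrictScalars ℝ).hasFDerivAt.comp_hasDerivAt
      (0 : ℝ) (P.flow_fderiv A x hx)
    exact h3
  have hM0 : fderiv ℂ (P.flow A 0) x = ContinuousLinearMap.id ℂ E := by
    have : P.flow A 0 =ᶠ[𝓝 x] id :=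
      Filter.eventually_of_mem (hD.mem_nhds hx) fun y hy => (P.isFlow A).zero y hy
    rw [this.fderiv_eq, fderiv_id]
  have h3 := hasDerivAt_log_det hM hM0
  have h4 := (h3.const_mul 2).const_sub (u x)
  have h5 : (u ∘ fun t => P.flow A t x)
      = fun t => u x - 2 * Real.log ‖(fderiv ℂ (P.flow A t) x).det‖ := by
    funext t
    exact hu.trans _ _ (P.flow_pair A t) x hx
  rw [h5] at h2
  exact h2.unique h4

/-- `δ` on real fields -/
def deltaR (u : E → ℝ) (hD : IsOpen D) {x : E} (hx : x ∈ D) : g →ₗ[ℝ] ℂ where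
  toFun A := dvF (P.ev A) x + pU u x (P.ev A x)
  map_add' A B := by
    have h1 := (P.hol A).differentiableAt (hD.mem_nhds hx)
    have h2 := (P.hol B).differentiableAt (hD.mem_nhds hx)
    rw [map_add, dvF_eq, dvF_eq, dvF_eq, fderiv_add h1 h2]
    simp only [Pi.add_apply, map_add]
    ring
  map_smul' c A := by
    have h1 := (P.hol A).differentiableAt (hD.mem_nhds hx)
    have e : P.ev (c • A) = (c : ℂ) • P.ev A := by
      rw [map_smul]; funext z; simp
    rw [e, dvF_eq, dvF_eq, fderiv_const_smul h1]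
    simp only [Pi.smul_apply, map_smul, smul_eq_mul, RingHom.id_apply, Complex.real_smul]
    ring

/-- The functional `δ Y = div Y (x) + (1/2)(Du(x)(Y x) - i Du(x)(i Y x))`. -/
def delta (u : E → ℝ) (hD : IsOpen D) {x : E} (hx : x ∈ D) : CX g →ₗ[ℂ] ℂ :=
  CX.lift (deltaR P u hD hx)

lemma delta_apply (hD : IsOpen D) {x : E} (hx : x ∈ D) (Y : CX g) :
    delta P u hD hx Y = P.div x Y + pU u x (P.evC Y x) := by
  rw [delta, CX.lift_apply, Pack.div, P.fderiv_evC hD Y hx, P.evC_apply]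
  change dvF _ _ + pU u x _ + I • (dvF _ _ + pU u x _) = _
  rw [dvF_eq, dvF_eq, ← trL_apply]
  simp only [map_add, map_smul, smul_eq_mul]
  ring

lemma delta_eq_FF (hD : IsOpen D) {x : E} (hx : x ∈ D) (Y : CX g) :
    delta P u hD hx Y = FF u (P.evC Y) x := delta_apply P hD hx Y

lemma deltaR_re (hD : IsOpen D) (hu : Pot D u) {x : E} (hx : x ∈ D) (A : g) :
    conj (deltaR P u hD hx A) = - deltaR P u hD hx A := by
  have h1 : (deltaR P u hD hx A).re = 0 := by
    change (dvF (P.ev A) x + pU u x (P.ev A x)).re = 0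
    rw [Complex.add_re, pU_re, real_id P hD hu A hx]; ring
  apply Complex.ext
  · simp [h1]
  · simp

/-- hypothesis `dsig` of the algebra unit -/
theorem dsig (hD : IsOpen D) (hu : Pot D u) {x : E} (hx : x ∈ D) (Y : CX g) :
    delta P u hD hx ((CX.cc g).σ Y) = - conj (delta P u hD hx Y) := by
  rw [delta, CX.lift_apply, CX.lift_apply, CX.cc_σ_re, CX.cc_σ_im, map_neg]
  simp only [smul_eq_mul, map_add, map_mul, deltaR_re P hD hu hx, conj_I]
  ring

lemma div_lie (hD : IsOpen D) {x : E} (hx : x ∈ D) (X Y : CX g) :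
    P.div x ⁅X, Y⁆ = fderiv ℂ (dvF (P.evC Y)) x (P.evC X x)
      - fderiv ℂ (dvF (P.evC X)) x (P.evC Y x) := by
  rw [← dvF_bracket hD (P.evC_hol X) (P.evC_hol Y) hx]
  rw [Pack.div, dvF]
  have : P.evC ⁅X, Y⁆ =ᶠ[𝓝 x] fun z => fderiv ℂ (P.evC Y) z (P.evC X z)
      - fderiv ℂ (P.evC X) z (P.evC Y z) :=
    Filter.eventually_of_mem (hD.mem_nhds hx) fun y hy => P.evC_lie hD X Y hy
  rw [this.fderiv_eq]

/-- hypothesis `dh` of the algebra unit -/
theorem dh (hD : IsOpen D) {x : E} (hx : x ∈ D) (Y : CX g) (hY : Y ∈ P.stab hD hx)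
    (W : CX g) (hW : W ∈ P.stab hD hx) : delta P u hD hx ⁅Y, W⁆ = 0 := by
  have h1 : ⁅Y, W⁆ ∈ P.stab hD hx := (P.stab hD hx).lie_mem hY hW
  rw [P.mem_stab] at h1 hY hW
  rw [delta_apply, div_lie P hD hx, h1, hY, hW]
  simp

/-- hypothesis `dperp` of the algebra unit, from (a) and (b) -/
theorem dperp (hD : IsOpen D) {x : E} (hx : x ∈ D) (Y : CX g)
    (ha : Y ∈ P.stab hD hx) (hb : P.div x Y = 0) : delta P u hD hx Y = 0 := by
  rw [P.mem_stab] at ha
  rw [delta_apply, ha, hb]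
  simp

/-- Levi identity: `-δ [Y, σ Y] = Lev u x (Y x)` if `σ Y` vanishes at `x` -/
theorem lev_eq (hD : IsOpen D) (hu : Pot D u) {x : E} (hx : x ∈ D) (Y : CX g)
    (hY : (CX.cc g).σ Y ∈ P.stab hD hx) :
    -(delta P u hD hx ⁅Y, (CX.cc g).σ Y⁆) = ((Berg.Lev u x (P.evC Y x) : ℝ) : ℂ) := by
  rw [P.mem_stab] at hY
  have hG : ∀ z ∈ D, FF u (P.evC Y) z + conj (FF u (P.evC ((CX.cc g).σ Y)) z) = 0 := by
    intro z hz
    rw [← delta_eq_FF P hD hz, ← delta_eq_FF P hD hz, dsig P hD hu hz]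
    simp
  have h1 := lev_id hD hu.smooth (P.evC_hol Y) (P.evC_hol ((CX.cc g).σ Y)) hG hx hY
  have h2 : delta P u hD hx ⁅Y, (CX.cc g).σ Y⁆ =
      fderiv ℂ (dvF (P.evC ((CX.cc g).σ Y))) x (P.evC Y x)
        + pU u x (fderiv ℂ (P.evC ((CX.cc g).σ Y)) x (P.evC Y x)) := by
    rw [delta_apply, div_lie P hD hx, P.evC_lie hD _ _ hx, hY]
    simp
  rw [← h2] at h1
  have h3 := congrArg conj h1
  rw [map_neg, Complex.conj_conj, Complex.conj_ofReal] at h3
  exact h3.symm

/-- hypothesis `lev` of the algebra unit -/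
theorem lev (hD : IsOpen D) (hu : Pot D u) {x : E} (hx : x ∈ D) (Y : CX g)
    (hY : (CX.cc g).σ Y ∈ P.stab hD hx) (hY2 : Y ∉ P.stab hD hx) :
    0 < (-(delta P u hD hx ⁅Y, (CX.cc g).σ Y⁆)).re := by
  rw [lev_eq P hD hu hx Y hY, Complex.ofReal_re]
  exact hu.lev_pos x hx _ (fun h => hY2 ((P.mem_stab hD hx Y).2 h))

end Crest.Agent.R264.D8d

namespace Crest.Agent.R264.D8d

/-- the Bergman function satisfies `Pot` -/
theorem pot_of_isBerg {n : ℕ} {D : Set (Fin n → ℂ)} {u : (Fin n → ℂ) → ℝ} (h : Berg.IsBerg D u) :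
    Pot D u where
  smooth := h.smooth.of_le ENat.LEInfty.out
  lev_pos := h.lev_pos
  trans := fun f k hf x hx =>
    h.trans f k ⟨hf.hF, hf.hG, hf.mapsF, hf.mapsG, hf.left, hf.right⟩ x hx

/-- Glue for `D8Stmt`: all fields of `DA.Hyp` from D5 (`IsBerg`), D8(a),(b) (`hperp`, `hdiv`),
D3 (`hss`) and D8(f) (`hnc`). -/
theorem hyp_of {n : ℕ} {D : Set (Fin n → ℂ)} {g : Type*} [LieRing g] [LieAlgebra ℝ g]
    (P : Pack D g) (hD : IsOpen D) {u : (Fin n → ℂ) → ℝ} (hu : Berg.IsBerg D u)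
    {x : Fin n → ℂ} (hx : x ∈ D)
    (hperp : ∀ Y, DA.Perp (P.stab hD hx) Y → Y ∈ P.stab hD hx)
    (hdiv : ∀ Y, DA.Perp (P.stab hD hx) Y → P.div x Y = 0)
    (hss : ∀ A ∈ P.stab hD hx, (CX.cc g).σ A = A → DA.ImDiag A)
    (hnc : ∀ (y : CX g) (l : ℝ), DA.Perp (P.stab hD hx) ((CX.cc g).σ y) → y ∉ P.stab hD hx →
      l < 0 → ⁅y, (CX.cc g).σ y⁆ ∈ P.stab hD hx →
      ⁅⁅y, (CX.cc g).σ y⁆, y⁆ = (l : ℂ) • y → False) :
    DA.Hyp (CX.cc g) (P.stab hD hx) (delta P u hD hx) where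
  perp := hperp
  ss := hss
  dsig := dsig P hD (pot_of_isBerg hu) hx
  dperp Y hY := dperp P hD hx Y (hperp Y hY) (hdiv Y hY)
  dh := dh P hD hx
  lev Y hY hY2 := lev P hD (pot_of_isBerg hu) hx Y (hperp _ hY) hY2
  nocurve := hnc

end Crest.Agent.R264.D8d
end
end

-- ▼ part R264/D8Fin

/-!
Row 264 (S0402), part D8: `D8Stmt` holds (helper469).
-/

set_option autoImplicit false

open Set Filter Topology

namespace Crest.Agent.R264

/-- **NODE D8**. -/
theorem d8Stmt : D8Stmt := by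
  intro n D Γ hn hD hDc hDb hG g i1 i2 hfin hK P hspan x hx
  have hperp : ∀ Y, DA.Perp (P.stab hD hx) Y → Y ∈ P.stab hD hx := fun Y hY =>
    Cas.perp_stab hD hDc hDb hG P hx Y hY
  exact ⟨_, D8d.hyp_of P hD (Berg.isBerg hD hDb) hx hperp
    (fun Y hY => Cas.perp_dv hD hDc hDb hG P hx Y hY) (DA.pack_ss P hD hx)
    (Ent.nocurve P hD hDb hx hperp)⟩

/-- Theorem D from the remaining nodes. -/
theorem thmD_of' (h3 : D3Stmt) (h7 : D7Stmt) (ha : DAlgStmt) : ThmD :=
  thmD_of h3 h7 d8Stmt ha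

end Crest.Agent.R264
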