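import Mathlib
import Crest.Agent.R264.AbI3
import Crest.Agent.R266.HolFlow
import Crest.Agent.R264.DIface
import Crest.Agent.R266.Osgood
import Crest.Agent.R264.KDefs
import Crest.Agent.R264.DADefs
import Crest.Agent.R264.CX

-- ▼ part R264/AbI4
section

/-!
Row 264, node D7 (abelian ideals), part 4: rigidity of the extremal function (helper792).

If `log P` has the mean value property then there is an `F` extremal at every point of `D`, and the
Schwarz-Pick trick gives a contradiction.  Also: transformation of `P` under automorphisms.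
-/

set_option autoImplicit false
set_option maxHeartbeats 400000
set_option linter.unusedSectionVars false

open Set Filter Topology Metric
open scoped ComplexConjugate

noncomputable section

namespace Crest.Agent.R264.AbI

open Crest.Agent.R266.SCV

variable {E : Type*} [NormedAddCommGroup E] [NormedSpace ℂ E] [FiniteDimensional ℂ E]
variable {ι : Type*} [Fintype ι] [DecidableEq ι]
variable {D : Set E} {X : ι → E → E}

/-- an extremal map at one point is extremal everywhere -/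
theorem extremal_everywhere (hD : IsOpen D) (hDc : IsPreconnected D)
    (hX : ∀ l, DifferentiableOn ℂ (X l) D) (hpos : ∀ x ∈ D, 0 < P D X x)
    (hmean : ∀ x ξ, (∀ ζ : ℂ, ‖ζ‖ ≤ 1 → x + ζ • ξ ∈ D) →
      Real.log (P D X x) = Real.circleAverage (fun ζ : ℂ => Real.log (P D X (x + ζ • ξ))) 0 1)
    {F : E → (ι → ℂ)} (hF : Adm D F) {x₀ : E} (hx₀ : x₀ ∈ D) (hFx : ‖J X F x₀‖ = P D X x₀) :
    ∀ x ∈ D, ‖J X F x‖ = P D X x := by
  have hXc : ∀ l, ContinuousOn (X l) D := fun l => (hX l).continuousOn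
  have hJc : ContinuousOn (fun x => ‖J X F x‖) D := (continuousOn_J hD hX hF.1).norm
  have hPc := continuousOn_P (X := X) hD hX
  set S : Set E := {x ∈ D | ‖J X F x‖ = P D X x} with hS
  -- `S` is open
  have hSo : IsOpen S := by
    rw [Metric.isOpen_iff]
    rintro x ⟨hx, hxe⟩
    -- a ball in `D` where `J F` does not vanish
    have hJx : J X F x ≠ 0 := by
      intro h0
      rw [h0, norm_zero] at hxe
      exact (hpos x hx).ne hxe
    have hev : ∀ᶠ y in 𝓝 x, y ∈ D ∧ J X F y ≠ 0 := by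
      filter_upwards [hD.mem_nhds hx,
        ((continuousOn_J hD hX hF.1).continuousAt (hD.mem_nhds hx)).eventually_ne hJx] with y h1 h2
      exact ⟨h1, h2⟩
    obtain ⟨r, hr, hrD⟩ := Metric.eventually_nhds_iff_ball.1 hev
    refine ⟨r, hr, fun y hy => ?_⟩
    set ξ := y - x with hξ
    have hmem : ∀ ζ : ℂ, ‖ζ‖ ≤ 1 → x + ζ • ξ ∈ ball x r := by
      intro ζ hζ
      rw [mem_ball, dist_eq_norm, add_sub_cancel_left, norm_smul]
      have h1 : ‖ξ‖ < r := by rwa [mem_ball, dist_eq_norm] at hy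
      calc ‖ζ‖ * ‖ξ‖ ≤ 1 * ‖ξ‖ := by gcongr
        _ < r := by rwa [one_mul]
    have hdisc : ∀ ζ : ℂ, ‖ζ‖ ≤ 1 → x + ζ • ξ ∈ D := fun ζ hζ => (hrD _ (hmem ζ hζ)).1
    have hne : ∀ ζ : ℂ, ‖ζ‖ ≤ 1 → J X F (x + ζ • ξ) ≠ 0 := fun ζ hζ => (hrD _ (hmem ζ hζ)).2
    have hcont : Continuous (fun ζ : ℂ => x + ζ • ξ) := by fun_prop
    have han : AnalyticOnNhd ℂ (fun ζ : ℂ => J X F (x + ζ • ξ)) (closedBall 0 1) := by
      have h1 : DifferentiableOn ℂ (fun ζ : ℂ => J X F (x + ζ • ξ))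
          ((fun ζ : ℂ => x + ζ • ξ) ⁻¹' D) :=
        (differentiableOn_J hD hX hF.1).comp (by fun_prop) (fun ζ hζ => hζ)
      have h2 := h1.analyticOnNhd (hD.preimage hcont)
      exact h2.mono (fun ζ hζ => hdisc ζ (by simpa using hζ))
    have h3 := log_norm_eq_circleAverage han (fun z hz => hne z (by simpa using hz))
    simp only [zero_smul, add_zero] at h3
    have h4 := hmean x ξ hdisc
    have hsph : ∀ ζ ∈ sphere (0 : ℂ) 1, ‖ζ‖ ≤ 1 := fun ζ hζ => by
      rw [mem_sphere_zero_iff_norm] at hζ; exact hζ.le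
    have h5 := eq_of_circleAverage_le (u := fun ζ : ℂ => Real.log ‖J X F (x + ζ • ξ)‖)
      (v := fun ζ : ℂ => Real.log (P D X (x + ζ • ξ)))
      (ContinuousOn.log (hJc.comp hcont.continuousOn (fun ζ hζ => hdisc ζ (hsph ζ hζ)))
        (fun ζ hζ => norm_ne_zero_iff.2 (hne ζ (hsph ζ hζ))))
      (ContinuousOn.log (hPc.comp hcont.continuousOn (fun ζ hζ => hdisc ζ (hsph ζ hζ)))
        (fun ζ hζ => (hpos _ (hdisc ζ (hsph ζ hζ))).ne'))
      (fun ζ hζ => Real.log_le_log (norm_pos_iff.2 (hne ζ (hsph ζ hζ)))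
        (norm_J_le_P hD hXc (hdisc ζ (hsph ζ hζ)) hF))
      (by rw [h3, ← h4, hxe])
    have h6 : x + (1 : ℂ) • ξ = y := by rw [one_smul, hξ]; abel
    simp only [h6] at h5
    have hyD : y ∈ D := (hrD y hy).1
    refine ⟨hyD, ?_⟩
    exact Real.log_injOn_pos (norm_pos_iff.2 (hrD y hy).2) (hpos y hyD) h5
  -- `S` is closed in `D`
  have hsub : D ⊆ S := by
    by_contra hcon
    have h1 : (D ∩ {x ∈ D | ‖J X F x‖ ≠ P D X x}).Nonempty := by
      rw [not_subset] at hcon
      obtain ⟨y, hy, hyS⟩ := hcon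
      exact ⟨y, hy, hy, fun h => hyS ⟨hy, h⟩⟩
    have hTo : IsOpen {x ∈ D | ‖J X F x‖ ≠ P D X x} := by
      rw [isOpen_iff_mem_nhds]
      rintro y ⟨hy, hne⟩
      have hc1 := hJc.continuousAt (hD.mem_nhds hy)
      have hc2 := hPc.continuousAt (hD.mem_nhds hy)
      filter_upwards [hD.mem_nhds hy, hc1.ne_iff_eventually_ne hc2 |>.1 hne] with z hz hz'
      exact ⟨hz, hz'⟩
    obtain ⟨z, -, hz1, hz2⟩ := hDc S _ hSo hTo (fun z hz => by
      by_cases h : ‖J X F z‖ = P D X z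
      · exact Or.inl ⟨hz, h⟩
      · exact Or.inr ⟨hz, h⟩) ⟨x₀, hx₀, hx₀, hFx⟩ h1
    exact hz2.2 hz1.2
  exact fun x hx => (hsub hx).2

/-- the Schwarz-Pick trick: a map extremal at every point does not exist -/
theorem schwarz_pick (hD : IsOpen D) [Nonempty ι]
    (hX : ∀ l, DifferentiableOn ℂ (X l) D) (hpos : ∀ x ∈ D, 0 < P D X x)
    {F : E → (ι → ℂ)} (hF : Adm D F) (hext : ∀ x ∈ D, ‖J X F x‖ = P D X x) (hne : D.Nonempty) :
    False := by
  have hXc : ∀ l, ContinuousOn (X l) D := fun l => (hX l).continuousOn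
  obtain ⟨i₀⟩ := ‹Nonempty ι›
  have hJ0 : ∀ x ∈ D, J X F x ≠ 0 := by
    intro x hx h0
    have h1 := hext x hx
    rw [h0, norm_zero] at h1
    exact (hpos x hx).ne h1
  have hFi : ∀ x ∈ D, ‖F x i₀‖ ≤ 1 := fun x hx => (norm_le_pi_norm (F x) i₀).trans (hF.2 x hx)
  have hFid : DifferentiableOn ℂ (fun x => F x i₀) D := differentiableOn_pi.1 hF.1 i₀
  -- the row `i₀` of the Jacobian matrix vanishes if the derivative of `F_{i₀}` vanishes
  have hrow : ∀ x ∈ D, fderiv ℂ (fun x => F x i₀) x ≠ 0 := by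
    intro x hx h0
    apply hJ0 x hx
    apply Matrix.det_eq_zero_of_row_eq_zero i₀
    intro l
    rw [Matrix.of_apply]
    have h1 : HasFDerivAt (fun x => F x i₀)
        ((ContinuousLinearMap.proj i₀).comp (fderiv ℂ F x)) x :=
      (ContinuousLinearMap.proj (R := ℂ) (φ := fun _ : ι => ℂ) i₀).hasFDerivAt.comp x
        (hF.1.differentiableAt (hD.mem_nhds hx)).hasFDerivAt
    have h2 := h1.fderiv
    rw [h0] at h2
    have h3 := congrArg (fun L : E →L[ℂ] ℂ => L (X l x)) h2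
    simpa using h3.symm
  -- main claim
  have hzero : ∀ x ∈ D, F x i₀ = 0 := by
    intro x hx
    set a := F x i₀ with ha
    have ha1 : ‖a‖ ≤ 1 := hFi x hx
    rcases ha1.lt_or_eq with hlt | heq
    · -- the modified map
      have hden : ∀ w : ℂ, ‖w‖ ≤ 1 → 1 - conj a * w ≠ 0 := by
        intro w hw h0
        have h1 : conj a * w = 1 := (sub_eq_zero.1 h0).symm
        have h2 : ‖conj a * w‖ = 1 := by rw [h1]; simp
        rw [norm_mul, RCLike.norm_conj] at h2
        have h3 : ‖a‖ * ‖w‖ ≤ ‖a‖ * 1 := by gcongr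
        linarith
      set φ : ℂ → ℂ := fun w => (w - a) / (1 - conj a * w) with hφ
      have hφle : ∀ w : ℂ, ‖w‖ ≤ 1 → ‖φ w‖ ≤ 1 := by
        intro w hw
        rw [hφ]
        simp only [norm_div]
        rw [div_le_one (norm_pos_iff.2 (hden w hw))]
        have h1 : Complex.normSq (w - a) ≤ Complex.normSq (1 - conj a * w) := by
          have h2 : Complex.normSq (1 - conj a * w) - Complex.normSq (w - a)
              = (1 - Complex.normSq a) * (1 - Complex.normSq w) := by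
            simp only [Complex.normSq_apply, Complex.sub_re, Complex.sub_im, Complex.mul_re,
              Complex.mul_im, Complex.conj_re, Complex.conj_im, Complex.one_re, Complex.one_im]
            ring
          have h3 : 0 ≤ 1 - Complex.normSq a := by
            rw [Complex.normSq_eq_norm_sq]
            nlinarith [norm_nonneg a]
          have h4 : 0 ≤ 1 - Complex.normSq w := by
            rw [Complex.normSq_eq_norm_sq]
            nlinarith [norm_nonneg w]
          nlinarith [mul_nonneg h3 h4]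
        rw [Complex.normSq_eq_norm_sq, Complex.normSq_eq_norm_sq] at h1
        exact (sq_le_sq₀ (norm_nonneg _) (norm_nonneg _)).1 h1
      have hφd : ∀ w : ℂ, ‖w‖ ≤ 1 → DifferentiableAt ℂ φ w := by
        intro w hw
        exact DifferentiableAt.div (by fun_prop) (by fun_prop) (hden w hw)
      have hφ' : HasDerivAt φ (1 / (1 - conj a * a)) a := by
        have h1 : HasDerivAt φ ((1 * (1 - conj a * a) - (a - a) * (0 - conj a * 1))
            / (1 - conj a * a) ^ 2) a :=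
          ((hasDerivAt_id a).sub_const a).div
            ((hasDerivAt_const a (1 : ℂ)).sub ((hasDerivAt_id a).const_mul (conj a))) (hden a ha1)
        convert h1 using 1
        have := hden a ha1
        field_simp
        ring
      set G : E → (ι → ℂ) := fun y => Function.update (F y) i₀ (φ (F y i₀)) with hG
      have hGi : ∀ y i, G y i = if i = i₀ then φ (F y i₀) else F y i := by
        intro y i
        rw [hG]
        simp only [Function.update_apply]
      have hGadm : Adm D G := by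
        refine ⟨?_, fun y hy => ?_⟩
        · rw [differentiableOn_pi]
          intro i
          by_cases hi : i = i₀
          · have : (fun y => G y i) = fun y => φ (F y i₀) := by
              funext y; rw [hGi, if_pos hi]
            rw [this]
            intro y hy
            exact DifferentiableAt.comp_differentiableWithinAt y
              (hφd _ (hFi y hy)) (hFid y hy)
          · have : (fun y => G y i) = fun y => F y i := by
              funext y; rw [hGi, if_neg hi]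
            rw [this]
            exact differentiableOn_pi.1 hF.1 i
        · rw [pi_norm_le_iff_of_nonneg zero_le_one]
          intro i
          rw [hGi]
          split_ifs with hi
          · exact hφle _ (hFi y hy)
          · exact (norm_le_pi_norm (F y) i).trans (hF.2 y hy)
      have hFx : DifferentiableAt ℂ F x := hF.1.differentiableAt (hD.mem_nhds hx)
      have hGx : DifferentiableAt ℂ G x := hGadm.1.differentiableAt (hD.mem_nhds hx)
      set c : ℂ := 1 / (1 - conj a * a) with hc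
      -- the Jacobian of `G`
      have hder : ∀ v i, fderiv ℂ G x v i = (if i = i₀ then c else 1) * fderiv ℂ F x v i := by
        intro v i
        have hpr : ∀ {H : E → (ι → ℂ)}, DifferentiableAt ℂ H x → ∀ i,
            HasFDerivAt (fun y => H y i)
              ((ContinuousLinearMap.proj i).comp (fderiv ℂ H x)) x := fun {H} hH i =>
          (ContinuousLinearMap.proj (R := ℂ) (φ := fun _ : ι => ℂ) i).hasFDerivAt.comp x
            hH.hasFDerivAt
        have h1 := hpr hGx i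
        split_ifs with hi
        · have h2 : HasFDerivAt (fun y => φ (F y i₀))
              (c • ((ContinuousLinearMap.proj i₀).comp (fderiv ℂ F x))) x := by
            have h3 := hpr hFx i₀
            exact hφ'.comp_hasFDerivAt x h3
          have h4 : (fun y => G y i) = fun y => φ (F y i₀) := by
            funext y; rw [hGi, if_pos hi]
          rw [h4] at h1
          have h5 := h1.unique h2
          have h6 := congrArg (fun L : E →L[ℂ] ℂ => L v) h5
          subst hi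
          simpa using h6
        · have h4 : (fun y => G y i) = fun y => F y i := by
            funext y; rw [hGi, if_neg hi]
          rw [h4] at h1
          have h5 := h1.unique (hpr hFx i)
          have h6 := congrArg (fun L : E →L[ℂ] ℂ => L v) h5
          simpa using h6
      have hJG : J X G x = c * J X F x := by
        rw [J, J]
        have h1 : (Matrix.of fun i l => fderiv ℂ G x (X l x) i)
            = Matrix.updateRow (Matrix.of fun i l => fderiv ℂ F x (X l x) i) i₀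
              (c • (fun l => fderiv ℂ F x (X l x) i₀)) := by
          ext i l
          rw [Matrix.of_apply, hder, Matrix.updateRow_apply]
          split_ifs with hi
          · subst hi; simp
          · simp
        rw [h1, Matrix.det_updateRow_smul]
        congr 1
        have h2 : (fun l => fderiv ℂ F x (X l x) i₀)
            = (Matrix.of fun i l => fderiv ℂ F x (X l x) i) i₀ := by
          ext l; simp
        rw [h2, Matrix.updateRow_eq_self]
      have hle := norm_J_le_P hD hXc hx hGadm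
      rw [hJG, norm_mul, ← hext x hx] at hle
      have hJpos : 0 < ‖J X F x‖ := norm_pos_iff.2 (hJ0 x hx)
      have hc1 : ‖c‖ ≤ 1 := by
        by_contra h
        push Not at h
        nlinarith
      have h7 : ‖(1 : ℂ) - conj a * a‖ = 1 - ‖a‖ ^ 2 := by
        have h8 : (1 : ℂ) - conj a * a = ((1 - ‖a‖ ^ 2 : ℝ) : ℂ) := by
          rw [← Complex.normSq_eq_conj_mul_self, Complex.normSq_eq_norm_sq]
          push_cast
          ring
        rw [h8, Complex.norm_real, Real.norm_eq_abs, abs_of_nonneg]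
        nlinarith [norm_nonneg a]
      rw [hc, norm_div, norm_one, h7, div_le_one (by nlinarith [norm_nonneg a])] at hc1
      have h9 : ‖a‖ ^ 2 ≤ 0 := by linarith
      have h10 : ‖a‖ = 0 := by nlinarith [norm_nonneg a]
      exact norm_eq_zero.1 h10
    · -- `‖a‖ = 1`: the maximum principle
      exfalso
      have h1 : ∀ᶠ z in 𝓝 x, DifferentiableAt ℂ (fun x => F x i₀) z := by
        filter_upwards [hD.mem_nhds hx] with z hz
        exact hFid.differentiableAt (hD.mem_nhds hz)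
      have h2 : IsLocalMax (norm ∘ fun x => F x i₀) x := by
        filter_upwards [hD.mem_nhds hx] with z hz
        simp only [Function.comp_apply]
        rw [← ha, heq]
        exact hFi z hz
      have h3 := Complex.eventually_eq_of_isLocalMax_norm h1 h2
      apply hrow x hx
      have h4 : (fun x => F x i₀) =ᶠ[𝓝 x] fun _ => F x i₀ := h3
      rw [h4.fderiv_eq]
      simp
  obtain ⟨x, hx⟩ := hne
  apply hrow x hx
  have h4 : (fun x => F x i₀) =ᶠ[𝓝 x] fun _ => 0 := by
    filter_upwards [hD.mem_nhds hx] with z hz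
    exact hzero z hz
  rw [h4.fderiv_eq]
  simp

/-- **no pluriharmonic extremal function** -/
theorem no_mean (hD : IsOpen D) (hDc : IsPreconnected D) (hDb : Bornology.IsBounded D)
    (hne : D.Nonempty) [Nonempty ι] (hX : ∀ l, DifferentiableOn ℂ (X l) D)
    (hli : ∀ x ∈ D, LinearIndependent ℂ (fun l => X l x))
    (hmean : ∀ x ξ, (∀ ζ : ℂ, ‖ζ‖ ≤ 1 → x + ζ • ξ ∈ D) →
      Real.log (P D X x) = Real.circleAverage (fun ζ : ℂ => Real.log (P D X (x + ζ • ξ))) 0 1) :
    False := by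
  have hXc : ∀ l, ContinuousOn (X l) D := fun l => (hX l).continuousOn
  have hpos : ∀ x ∈ D, 0 < P D X x := fun x hx => P_pos hD hDb hXc hx (hli x hx)
  obtain ⟨x₀, hx₀⟩ := hne
  obtain ⟨F, hF, hFx⟩ := exists_extremal (X := X) hD hXc hx₀
  exact schwarz_pick hD hX hpos hF
    (extremal_everywhere hD hDc hX hpos hmean hF hx₀ hFx) ⟨x₀, hx₀⟩

/-- `P` increases under maps transforming the frame by a matrix. -/
lemma P_comp_le (hD : IsOpen D) (hX : ∀ l, ContinuousOn (X l) D) {f : E → E}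
    (hf : DifferentiableOn ℂ f D) (hm : MapsTo f D D) {R : Matrix ι ι ℂ} {x : E} (hx : x ∈ D)
    (hR : ∀ l, fderiv ℂ f x (X l x) = ∑ m, R m l • X m (f x)) :
    ‖R.det‖ * P D X (f x) ≤ P D X x := by
  obtain ⟨F, hF, hFx⟩ := exists_extremal (X := X) hD hX (hm hx)
  have hadm : Adm D (F ∘ f) := ⟨hF.1.comp hf hm, fun y hy => hF.2 _ (hm hy)⟩
  have h1 : fderiv ℂ (F ∘ f) x = (fderiv ℂ F (f x)).comp (fderiv ℂ f x) :=
    fderiv_comp x (hF.1.differentiableAt (hD.mem_nhds (hm hx)))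
      (hf.differentiableAt (hD.mem_nhds hx))
  have h2 : J X (F ∘ f) x = J X F (f x) * R.det := by
    rw [J, J, ← Matrix.det_mul]
    congr 1
    ext i l
    rw [Matrix.of_apply, h1, Matrix.mul_apply]
    simp only [ContinuousLinearMap.comp_apply, hR, map_sum, map_smul, Matrix.of_apply,
      Finset.sum_apply, Pi.smul_apply, smul_eq_mul]
    exact Finset.sum_congr rfl (fun m _ => mul_comm _ _)
  have h3 := norm_J_le_P hD hX hx hadm
  rw [h2, norm_mul, hFx] at h3
  linarith [mul_comm ‖R.det‖ (P D X (f x))]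

/-- transformation of `log P` -/
theorem log_P_comp (hD : IsOpen D) (hX : ∀ l, ContinuousOn (X l) D)
    (hpos : ∀ x ∈ D, 0 < P D X x) {f g : E → E}
    (hf : DifferentiableOn ℂ f D) (hm : MapsTo f D D) (hg : DifferentiableOn ℂ g D)
    (hmg : MapsTo g D D) (hgf : ∀ x ∈ D, g (f x) = x)
    {R S : Matrix ι ι ℂ} (hRS : R * S = 1)
    (hR : ∀ x ∈ D, ∀ l, fderiv ℂ f x (X l x) = ∑ m, R m l • X m (f x))
    (hS : ∀ x ∈ D, ∀ l, fderiv ℂ g x (X l x) = ∑ m, S m l • X m (g x)) :
    ∀ x ∈ D, Real.log (P D X (f x)) = Real.log (P D X x) + -Real.log ‖R.det‖ := by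
  intro x hx
  have hdet : R.det * S.det = 1 := by rw [← Matrix.det_mul, hRS, Matrix.det_one]
  have hdn : ‖R.det‖ * ‖S.det‖ = 1 := by rw [← norm_mul, hdet, norm_one]
  have hR0 : 0 < ‖R.det‖ := by
    rw [norm_pos_iff]
    intro h0
    rw [h0, zero_mul] at hdet
    exact zero_ne_one hdet
  have h1 := P_comp_le (X := X) hD hX hf hm hx (hR x hx)
  have h2 := P_comp_le (X := X) hD hX hg hmg (hm hx) (hS _ (hm hx))
  rw [hgf x hx] at h2
  have h3 : P D X x = ‖R.det‖ * P D X (f x) := by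
    refine le_antisymm ?_ h1
    calc P D X x = ‖R.det‖ * (‖S.det‖ * P D X x) := by rw [← mul_assoc, hdn, one_mul]
      _ ≤ ‖R.det‖ * P D X (f x) := by gcongr
  rw [h3, Real.log_mul hR0.ne' (hpos _ (hm hx)).ne']
  ring

end Crest.Agent.R264.AbI
end
end

-- ▼ part R264/AbI1
section

/-!
Row 264, node D7 (abelian ideals), part 1: the entire curve lemma (helper792).

If at `x` there are integral curves of `a B - b A` (`a b : ℝ`) inside the bounded open set `D`, along
which `A + i B = 0`, then `B x = 0`.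
-/

set_option autoImplicit false
set_option maxHeartbeats 400000
set_option linter.unusedSectionVars false

open Set Filter Topology Metric

noncomputable section

namespace Crest.Agent.R264.AbI

open Crest.Agent.R266

variable {E : Type*} [NormedAddCommGroup E] [NormedSpace ℂ E] [CompleteSpace E]

/-- the holomorphic one-form valued field `W y s = s • B y` -/
def Wof (B : E → E) (y : E) : ℂ →L[ℂ] E := ContinuousLinearMap.smulRight (1 : ℂ →L[ℂ] ℂ) (B y)

@[simp] lemma Wof_apply (B : E → E) (y : E) (s : ℂ) : Wof B y s = s • B y := by simp [Wof]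

lemma analyticOnNhd_Wof {B : E → E} {D : Set E} (hB : AnalyticOnNhd ℂ B D) :
    AnalyticOnNhd ℂ (Wof B) D := by
  intro y hy
  exact ((ContinuousLinearMap.smulRightL ℂ ℂ E (1 : ℂ →L[ℂ] ℂ)).analyticAt (B y)).comp (hB y hy)

lemma fderiv_Wof {B : E → E} {y : E} (hB : DifferentiableAt ℂ B y) (w : E) (s : ℂ) :
    fderiv ℂ (Wof B) y w s = s • fderiv ℂ B y w := by
  have h : HasFDerivAt (Wof B)
      ((ContinuousLinearMap.smulRightL ℂ ℂ E (1 : ℂ →L[ℂ] ℂ)).comp (fderiv ℂ B y)) y :=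
    (ContinuousLinearMap.smulRightL ℂ ℂ E (1 : ℂ →L[ℂ] ℂ)).hasFDerivAt.comp y hB.hasFDerivAt
  rw [h.fderiv]
  simp

/-- ENTIRE CURVE LEMMA. -/
theorem entire_curve {D : Set E} (hDo : IsOpen D) (hDb : Bornology.IsBounded D) {A B : E → E}
    (hB : AnalyticOnNhd ℂ B D) {x : E} (hx : x ∈ D)
    (hcurve : ∀ a b : ℝ, ∃ c : ℝ → E, c 0 = x ∧ (∀ t, c t ∈ D) ∧
      (∀ t, HasDerivAt c (a • B (c t) - b • A (c t)) t) ∧
      ∀ t, A (c t) + Complex.I • B (c t) = 0) :
    B x = 0 := by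
  have hW := analyticOnNhd_Wof hB
  have hcomm : ∀ y ∈ D, ∀ u v : ℂ, fderiv ℂ (Wof B) y (Wof B y u) v
      = fderiv ℂ (Wof B) y (Wof B y v) u := by
    intro y hy u v
    rw [fderiv_Wof (hB y hy).differentiableAt, fderiv_Wof (hB y hy).differentiableAt]
    simp only [Wof_apply, map_smul, smul_smul]
    rw [mul_comm]
  have hdom : ∀ s : ℂ, (s, x) ∈ domW (Wof B) D := by
    intro s
    rcases eq_or_ne s 0 with rfl | hs
    · exact (zero_mem_domW hDo hW hx).1
    obtain ⟨c, hc0, hcD, hcd, hcA⟩ := hcurve s.re s.im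
    have h1 : ∀ t : ℝ, ((t • s) / s).re = t := by
      intro t
      rw [Complex.real_smul, mul_div_assoc, div_self hs]
      simp
    have h2 := eq_PhiW_of_segment (W := Wof B) (U := D) hDo hW (c := fun z : ℂ => c (z / s).re)
      (s := s) (fun t _ => hcD _) (fun t ht => by
        simp only [h1]
        have h3 := hcd t
        have h4 : (s.re : ℝ) • B (c t) - s.im • A (c t) = Wof B (c t) s := by
          have h5 : A (c t) = - (Complex.I • B (c t)) := by
            rw [eq_neg_iff_add_eq_zero]; exact hcA t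
          rw [h5, Wof_apply]
          have h6 : s • B (c t) = ((s.re : ℂ) + s.im * Complex.I) • B (c t) := by
            rw [Complex.re_add_im]
          rw [h6, smul_neg, sub_neg_eq_add, add_smul, mul_smul]
          rfl
        rw [← h4]
        exact h3)
    simpa [hc0] using h2.1
  have hder : ∀ s : ℂ, HasFDerivAt (fun s => PhiW (Wof B) D (s, x))
      (Wof B (PhiW (Wof B) D (s, x))) s := fun s => hasFDerivAt_PhiW hDo hW hcomm (hdom s)
  have hdiff : Differentiable ℂ (fun s : ℂ => PhiW (Wof B) D (s, x)) :=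
    fun s => (hder s).differentiableAt
  have hbd : Bornology.IsBounded (range (fun s : ℂ => PhiW (Wof B) D (s, x))) := by
    refine hDb.subset ?_
    rintro _ ⟨s, rfl⟩
    exact PhiW_mem hDo hW (hdom s)
  have hconst : ∀ s : ℂ, PhiW (Wof B) D (s, x) = PhiW (Wof B) D (0, x) := fun s =>
    hdiff.apply_eq_apply_of_bounded hbd s 0
  have h7 := hder 0
  have h8 : HasFDerivAt (fun s : ℂ => PhiW (Wof B) D (s, x)) (0 : ℂ →L[ℂ] E) 0 := by
    have : (fun s : ℂ => PhiW (Wof B) D (s, x)) = fun _ => PhiW (Wof B) D (0, x) :=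
      funext hconst
    rw [this]
    exact hasFDerivAt_const _ _
  have h9 := h7.unique h8
  rw [(zero_mem_domW hDo hW hx).2] at h9
  have h10 := congrArg (fun L : ℂ →L[ℂ] E => L 1) h9
  simpa using h10

end Crest.Agent.R264.AbI
end
end

-- ▼ part R264/AbI5
section

/-!
Row 264, node D7 (abelian ideals), part 5: characteristic ideals; abelian ideals of complete fields
act with linearly independent values (helper792).
-/

set_option autoImplicit false
set_option maxHeartbeats 400000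
set_option linter.unusedSectionVars false

open Set Filter Topology Metric

noncomputable section

namespace Crest.Agent.R264.AbI

section Algebra

variable {g : Type*} [LieRing g] [LieAlgebra ℝ g]

/-- an ideal invariant under all Lie automorphisms -/
def IsChar (I : LieIdeal ℝ g) : Prop := ∀ e : g ≃ₗ⁅ℝ⁆ g, ∀ X ∈ I, e X ∈ I

lemma isChar_lie {I J : LieIdeal ℝ g} (hI : IsChar I) (hJ : IsChar J) : IsChar ⁅I, J⁆ := by
  intro e X hX
  have h1 : ⁅I, J⁆ ≤ ⁅I.comap (e : g →ₗ⁅ℝ⁆ g), J.comap (e : g →ₗ⁅ℝ⁆ g)⁆ :=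
    LieSubmodule.mono_lie (fun Y hY => by
      rw [LieIdeal.mem_comap]; exact hI e Y hY) (fun Y hY => by
      rw [LieIdeal.mem_comap]; exact hJ e Y hY)
  have h2 := LieIdeal.comap_bracket_le (f := (e : g →ₗ⁅ℝ⁆ g)) (J₁ := I) (J₂ := J)
  have h3 := h2 (h1 hX)
  rw [LieIdeal.mem_comap] at h3
  exact h3

lemma isChar_derivedSeries {I : LieIdeal ℝ g} (hI : IsChar I) (k : ℕ) :
    IsChar (LieAlgebra.derivedSeriesOfIdeal ℝ g k I) := by
  induction k with
  | zero => simpa using hI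
  | succ k ih =>
    rw [LieAlgebra.derivedSeriesOfIdeal_succ]
    exact isChar_lie ih ih

lemma isChar_derivedAbelianOfIdeal {I : LieIdeal ℝ g} (hI : IsChar I) :
    IsChar (LieAlgebra.derivedAbelianOfIdeal I) := by
  unfold LieAlgebra.derivedAbelianOfIdeal
  split
  · intro e X hX
    rw [LieSubmodule.mem_bot] at hX ⊢
    rw [hX, map_zero]
  · exact isChar_derivedSeries hI _

lemma isChar_radical [IsNoetherian ℝ g] : IsChar (LieAlgebra.radical ℝ g) := by
  intro e X hX
  set J : LieIdeal ℝ g := (LieAlgebra.radical ℝ g).comap (e.symm : g →ₗ⁅ℝ⁆ g) with hJ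
  have hmem : ∀ Y : g, Y ∈ J ↔ e.symm Y ∈ LieAlgebra.radical ℝ g := fun Y => by
    rw [hJ, LieIdeal.mem_comap]; rfl
  let f : J →ₗ⁅ℝ⁆ (LieAlgebra.radical ℝ g) :=
    { toFun := fun x => ⟨e.symm x.1, (hmem _).1 x.2⟩
      map_add' := fun x y => by ext; simp
      map_smul' := fun c x => by ext; simp
      map_lie' := fun {x y} => by ext; exact e.symm.map_lie _ _ }
  have hf : Function.Injective f := by
    intro x y hxy
    have h1 : e.symm x.1 = e.symm y.1 := congrArg Subtype.val hxy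
    exact Subtype.ext (e.symm.injective h1)
  have hsol : LieAlgebra.IsSolvable J := hf.lieAlgebra_isSolvable
  have h1 : J ≤ LieAlgebra.radical ℝ g := (LieAlgebra.LieIdeal.solvable_iff_le_radical ℝ g J).1 hsol
  exact h1 ((hmem _).2 (by simpa using hX))

/-- If there is no non-zero characteristic abelian ideal then the Killing form is non-degenerate -/
theorem isKilling_of [Module.Finite ℝ g]
    (h : ∀ I : LieIdeal ℝ g, IsLieAbelian I → IsChar I → I = ⊥) : LieAlgebra.IsKilling ℝ g := by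
  have h1 : LieAlgebra.HasTrivialRadical ℝ g := by
    constructor
    rw [← LieAlgebra.abelian_of_solvable_ideal_eq_bot_iff]
    exact h _ (LieAlgebra.abelian_derivedAbelianOfIdeal _)
      (isChar_derivedAbelianOfIdeal isChar_radical)
  infer_instance

end Algebra

section Inj

variable {E : Type*} [NormedAddCommGroup E] [NormedSpace ℂ E] [FiniteDimensional ℂ E]
variable {D : Set E} {g : Type*} [LieRing g] [LieAlgebra ℝ g] (Q : Pack D g)

include Q in
lemma ev_ext (hD : IsOpen D) {x : E} (hx : x ∈ D) {Y Z : g}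
    (h : ∀ y ∈ D, Q.ev Y y = Q.ev Z y) : Y = Z := by
  have h1 : Y - Z = 0 := Q.inj hD hx (fun y hy => by
    rw [map_sub, Pi.sub_apply, h y hy, sub_self])
  exact sub_eq_zero.1 h1

lemma eq_of_functionals {Y Z : g} (h : ∀ l : g →ₗ[ℝ] ℝ, l Y = l Z) : Y = Z := by
  have h1 : ∀ l : Module.Dual ℝ g, l (Y - Z) = 0 := fun l => by rw [map_sub, h l, sub_self]
  exact sub_eq_zero.1 ((Module.forall_dual_apply_eq_zero_iff ℝ _).1 h1)

/-- `Ad` of the flow at time `0` -/
lemma Ad_zero (hD : IsOpen D) {x : E} (hx : x ∈ D) (A Y : g)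
    (p : ∀ t : ℝ, AutPair D (Q.flow A t) (Q.flow A (-t))) : Q.Ad (p 0) Y = Y := by
  refine ev_ext Q hD hx (fun y hy => ?_)
  have h1 := Q.ev_Ad (p 0) Y y hy
  have h2 : (Q.flow A 0) =ᶠ[𝓝 y] id := by
    filter_upwards [hD.mem_nhds hy] with z hz
    exact (Q.isFlow A).zero z hz
  rw [h2.fderiv_eq, (Q.isFlow A).zero y hy] at h1
  simpa using h1

/-- `[A,[A,Y]] = 0` implies `Ad(φ_t) Y = Y - t [A,Y]` -/
lemma Ad_of_lie_lie (hD : IsOpen D) {x : E} (hx : x ∈ D) {A Y : g} (hAY : ⁅A, ⁅A, Y⁆⁆ = 0)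
    (p : ∀ t : ℝ, AutPair D (Q.flow A t) (Q.flow A (-t))) (t : ℝ) :
    Q.Ad (p t) Y = Y - t • ⁅A, Y⁆ := by
  -- first `Ad(φ_t) [A,Y] = [A,Y]`
  have h1 : ∀ t, Q.Ad (p t) ⁅A, Y⁆ = ⁅A, Y⁆ := by
    intro t
    apply eq_of_functionals
    intro l
    have h2 : ∀ s, HasDerivAt (fun s => l (Q.Ad (p s) ⁅A, Y⁆)) 0 s := by
      intro s
      have h3 := Q.Ad_deriv A ⁅A, Y⁆ l p s
      rw [hAY, map_zero, map_zero, neg_zero] at h3
      exact h3
    have h4 := is_const_of_deriv_eq_zero (fun s => (h2 s).differentiableAt)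
      (fun s => (h2 s).deriv) t 0
    rw [h4, Ad_zero Q hD hx]
  apply eq_of_functionals
  intro l
  have h2 : ∀ s, HasDerivAt (fun s => l (Q.Ad (p s) Y) + s * l ⁅A, Y⁆) 0 s := by
    intro s
    have h3 := (Q.Ad_deriv A Y l p s).add ((hasDerivAt_id s).mul_const (l ⁅A, Y⁆))
    rw [h1 s] at h3
    have h5 : -(l ⁅A, Y⁆) + 1 * l ⁅A, Y⁆ = 0 := by ring
    rw [h5] at h3
    exact h3
  have h4 := is_const_of_deriv_eq_zero (fun s => (h2 s).differentiableAt)
    (fun s => (h2 s).deriv) t 0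
  simp only [zero_mul, add_zero] at h4
  rw [Ad_zero Q hD hx] at h4
  rw [map_sub, map_smul, smul_eq_mul]
  linarith

/-- commuting fields: `Y` is invariant under the flow of `A` -/
lemma ev_flow_of_lie (hD : IsOpen D) {A Y : g} (hAY : ⁅A, Y⁆ = 0) {x : E} (hx : x ∈ D) (t : ℝ) :
    Q.ev Y (Q.flow A t x) = fderiv ℂ (Q.flow A t) x (Q.ev Y x) := by
  have h1 := Q.ev_Ad (Q.flow_pair A t) Y x hx
  have h2 := Ad_of_lie_lie Q hD hx (A := A) (Y := Y) (by rw [hAY, lie_zero]) (Q.flow_pair A) t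
  rw [h2, hAY, smul_zero, sub_zero] at h1
  exact h1

/-- (b): an element `A` with `[A,[A,Y]] = 0` for all `Y` that vanishes at a point is `0`. -/
lemma eq_zero_of_ev_eq_zero (hD : IsOpen D) (hspan : Q.Span) {A : g}
    (hA : ∀ Y : g, ⁅A, ⁅A, Y⁆⁆ = 0) {x : E} (hx : x ∈ D) (hAx : Q.ev A x = 0) : A = 0 := by
  have h1 : ∀ Y : g, ⁅A, Y⁆ = 0 := by
    intro Y
    apply eq_of_functionals
    intro l
    obtain ⟨C, hC⟩ := Q.Ad_bdd A x hx hAx (Q.flow_pair A) Y l
    have h2 : ∀ t : ℝ, |l Y - t * l ⁅A, Y⁆| ≤ C := by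
      intro t
      have h3 := hC t
      rw [Ad_of_lie_lie Q hD hx (hA Y) (Q.flow_pair A) t, map_sub, map_smul, smul_eq_mul] at h3
      exact h3
    rw [map_zero]
    by_contra hne
    have h4 := h2 ((l Y - (C + 1)) / l ⁅A, Y⁆)
    rw [div_mul_cancel₀ _ hne] at h4
    have h5 : l Y - (l Y - (C + 1)) = C + 1 := by ring
    rw [h5] at h4
    have h6 := le_abs_self (C + 1)
    linarith
  refine Q.jet A x hx hAx ?_
  have h2 : ∀ Y : g, fderiv ℂ (Q.ev A) x (Q.ev Y x) = 0 := by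
    intro Y
    have h3 := Q.lie A Y x hx
    rw [h1 Y, hAx] at h3
    simp only [map_zero, Pi.zero_apply, zero_sub] at h3
    exact neg_eq_zero.1 h3.symm
  have h3 : (⊤ : Submodule ℂ E) ≤ LinearMap.ker ((fderiv ℂ (Q.ev A) x : E →L[ℂ] E) : E →ₗ[ℂ] E) := by
    rw [← hspan x hx, Submodule.span_le]
    rintro _ ⟨Y, rfl⟩
    exact h2 Y
  ext v
  exact h3 (Submodule.mem_top (x := v))

/-- (a): commuting `A, B` with `A(x) + i B(x) = 0` vanish at `x`. -/
lemma ev_eq_zero_of_commute (hD : IsOpen D) (hDb : Bornology.IsBounded D) {A B : g}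
    (hAB : ⁅A, B⁆ = 0) {x : E} (hx : x ∈ D) (h : Q.ev A x + Complex.I • Q.ev B x = 0) :
    Q.ev B x = 0 := by
  have : CompleteSpace E := FiniteDimensional.complete ℂ E
  have hBA : ⁅B, A⁆ = 0 := by rw [← lie_skew, hAB, neg_zero]
  refine entire_curve hD hDb (A := Q.ev A) (B := Q.ev B)
    (Crest.Agent.R266.SCV.analyticOnNhd_of_differentiableOn hD (Q.hol B)) hx (fun a b => ?_)
  set X : g := a • B - b • A with hX
  have hXA : ⁅X, A⁆ = 0 := by
    rw [hX, sub_lie, smul_lie, smul_lie, hBA, lie_self, smul_zero, smul_zero, sub_zero]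
  have hXB : ⁅X, B⁆ = 0 := by
    rw [hX, sub_lie, smul_lie, smul_lie, hAB, lie_self, smul_zero, smul_zero, sub_zero]
  have hev : ∀ y, Q.ev X y = a • Q.ev B y - b • Q.ev A y := by
    intro y
    rw [hX, map_sub, map_smul, map_smul]
    rfl
  refine ⟨fun t => Q.flow X t x, (Q.isFlow X).zero x hx, fun t => (Q.isFlow X).maps t hx,
    fun t => ?_, fun t => ?_⟩
  · have h1 := Q.flow_deriv X x hx t
    rw [hev] at h1
    exact h1
  · rw [ev_flow_of_lie Q hD hXA hx t, ev_flow_of_lie Q hD hXB hx t, ← map_smul, ← map_add, h,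
      map_zero]

/-- INJ: a basis of an abelian ideal has `ℂ`-linearly independent values at every point. -/
theorem linearIndependent_ev (hD : IsOpen D) (hDb : Bornology.IsBounded D) (hspan : Q.Span)
    {I : LieIdeal ℝ g} (hI : IsLieAbelian I) {ι : Type*} [Fintype ι] {b : ι → g}
    (hbI : ∀ i, b i ∈ I) (hb : LinearIndependent ℝ b) {x : E} (hx : x ∈ D) :
    LinearIndependent ℂ (fun i => Q.ev (b i) x) := by
  have hcomm : ∀ Y ∈ I, ∀ Z ∈ I, ⁅Y, Z⁆ = 0 := by
    intro Y hY Z hZ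
    have h1 : ⁅(⟨Y, hY⟩ : I), (⟨Z, hZ⟩ : I)⁆ = 0 := trivial_lie_zero I I _ _
    have h2 := congrArg Subtype.val h1
    simpa using h2
  have hzero : ∀ Y ∈ I, Q.ev Y x = 0 → Y = 0 := fun Y hY h =>
    eq_zero_of_ev_eq_zero Q hD hspan (fun Z => hcomm Y hY _ (lie_mem_left ℝ g I Y Z hY)) hx h
  rw [Fintype.linearIndependent_iff]
  intro c hc
  set A : g := ∑ i, (c i).re • b i with hA
  set B : g := ∑ i, (c i).im • b i with hB
  have hAI : A ∈ I := sum_mem (fun i _ => I.smul_mem _ (hbI i))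
  have hBI : B ∈ I := sum_mem (fun i _ => I.smul_mem _ (hbI i))
  have hsum : Q.ev A x + Complex.I • Q.ev B x = 0 := by
    rw [← hc, hA, hB, map_sum, map_sum, Finset.sum_apply, Finset.sum_apply, Finset.smul_sum,
      ← Finset.sum_add_distrib]
    refine Finset.sum_congr rfl (fun i _ => ?_)
    rw [map_smul, map_smul, Pi.smul_apply, Pi.smul_apply]
    conv_rhs => rw [← Complex.re_add_im (c i), add_smul, mul_comm, mul_smul]
    rfl
  have hB0 : Q.ev B x = 0 := ev_eq_zero_of_commute Q hD hDb (hcomm A hAI B hBI) hx hsum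
  have hA0 : Q.ev A x = 0 := by simpa [hB0] using hsum
  have hAz := hzero A hAI hA0
  have hBz := hzero B hBI hB0
  rw [Fintype.linearIndependent_iff] at hb
  intro i
  apply Complex.ext
  · exact hb _ hAz i
  · exact hb _ hBz i

end Inj

end Crest.Agent.R264.AbI
end
end

-- ▼ part R264/AbI6
section

/-!
Row 264, node D7 (abelian ideals), part 6: assembly (helper792).
-/

set_option autoImplicit false
set_option maxHeartbeats 400000
set_option linter.unusedSectionVars false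

open Set Filter Topology Metric

noncomputable section

namespace Crest.Agent.R264.AbI

variable {n : ℕ}

/-- NODE D7 from D5 and D6. -/
theorem d7_of (hB : Berg.Stmt) (hK : ∀ n, K.LemmaK n) : D7Stmt := by
  intro n D Γ hn hDo hDc hDb hΓ g _ _ _ Q hspan
  apply isKilling_of
  intro I hI hchar
  by_contra hne
  obtain ⟨x₀, hx₀⟩ := hDc.nonempty
  set V : Submodule ℝ g := I.toSubmodule with hV
  have hVI : ∀ Y, Y ∈ V ↔ Y ∈ I := fun Y => Iff.rfl
  set b := Module.finBasis ℝ V with hb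
  set X : Fin (Module.finrank ℝ V) → (Fin n → ℂ) → (Fin n → ℂ) := fun i => Q.ev (b i : g) with hX
  have hne' : Nonempty (Fin (Module.finrank ℝ V)) := by
    by_contra hcon
    rw [not_nonempty_iff] at hcon
    apply hne
    rw [LieSubmodule.eq_bot_iff]
    intro Y hY
    have h1 := b.sum_repr ⟨Y, hY⟩
    have h2 := congrArg Subtype.val h1
    simp only [Finset.univ_eq_empty, Finset.sum_empty] at h2
    exact h2.symm
  have hXd : ∀ l, DifferentiableOn ℂ (X l) D := fun l => Q.hol _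
  have hXc : ∀ l, ContinuousOn (X l) D := fun l => (hXd l).continuousOn
  have hbli : LinearIndependent ℝ (fun i => (b i : g)) := by
    have h1 := b.linearIndependent
    exact h1.map' V.subtype (Submodule.ker_subtype V)
  have hli : ∀ x ∈ D, LinearIndependent ℂ (fun l => X l x) := fun x hx =>
    linearIndependent_ev Q hDo hDb hspan hI (b := fun i => (b i : g))
      (fun i => (b i).2) hbli hx
  have hpos : ∀ x ∈ D, 0 < P D X x := fun x hx => P_pos hDo hDb hXc hx (hli x hx)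
  -- the matrix of `Ad`
  have hmat : ∀ (f h : (Fin n → ℂ) → (Fin n → ℂ)) (p : AutPair D f h),
      ∃ T : V →ₗ[ℝ] V, ∀ Y : V, (T Y : g) = Q.Ad p (Y : g) := by
    intro f h p
    refine ⟨LinearMap.restrict ((Q.Ad p : g →ₗ⁅ℝ⁆ g) : g →ₗ[ℝ] g) (p := V) (q := V)
      (fun Y hY => hchar (Q.Ad p) Y hY), fun Y => rfl⟩
  have hrel : ∀ (f h : (Fin n → ℂ) → (Fin n → ℂ)) (p : AutPair D f h) (T : V →ₗ[ℝ] V),
      (∀ Y : V, (T Y : g) = Q.Ad p (Y : g)) → ∀ x ∈ D, ∀ l, fderiv ℂ f x (X l x)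
        = ∑ m, ((LinearMap.toMatrix b b T).map (fun r : ℝ => (r : ℂ))) m l • X m (f x) := by
    intro f h p T hT x hx l
    have h1 := Q.ev_Ad p (b l : g) x hx
    have h2 : T (b l) = ∑ m, LinearMap.toMatrix b b T m l • b m := by
      simp only [LinearMap.toMatrix_apply]
      exact (b.sum_repr _).symm
    have h3 : Q.Ad p (b l : g) = ∑ m, LinearMap.toMatrix b b T m l • (b m : g) := by
      rw [← hT, h2]
      push_cast
      rfl
    rw [h3, map_sum, Finset.sum_apply] at h1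
    rw [hX]
    simp only
    rw [← h1]
    refine Finset.sum_congr rfl (fun m _ => ?_)
    rw [map_smul, Pi.smul_apply]
    rfl
  -- transformation law
  have htrans : ∀ f ∈ Γ, ∃ c : ℝ, ∀ x ∈ D, Real.log (P D X (f x)) = Real.log (P D X x) + c := by
    intro f hf
    obtain ⟨h, hhΓ, p⟩ := hΓ.inv f hf
    have p' : AutPair D h f := ⟨p.hG, p.hF, p.mapsG, p.mapsF, p.right, p.left⟩
    obtain ⟨T, hT⟩ := hmat f h p
    obtain ⟨T', hT'⟩ := hmat h f p'
    have hTT : T ∘ₗ T' = LinearMap.id := by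
      ext Y
      simp only [LinearMap.comp_apply, LinearMap.id_apply]
      rw [hT, hT']
      refine ev_ext Q hDo hx₀ (fun y hy => ?_)
      -- evaluate at `y = f (h y)`
      have hhy : h y ∈ D := p.mapsG hy
      have h1 := Q.ev_Ad p (Q.Ad p' (Y : g)) (h y) hhy
      have h2 := Q.ev_Ad p' (Y : g) y hy
      rw [p.right y hy, h2] at h1
      rw [h1]
      have h3 : HasFDerivAt (fun z => f (h z)) ((fderiv ℂ f (h y)).comp (fderiv ℂ h y)) y :=
        HasFDerivAt.comp y (p.hF.differentiableAt (hDo.mem_nhds hhy)).hasFDerivAt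
          (p.hG.differentiableAt (hDo.mem_nhds hy)).hasFDerivAt
      have h4 : (fun z => f (h z)) =ᶠ[𝓝 y] id := by
        filter_upwards [hDo.mem_nhds hy] with z hz
        exact p.right z hz
      have h5 : HasFDerivAt (fun z => f (h z)) (ContinuousLinearMap.id ℂ (Fin n → ℂ)) y :=
        (hasFDerivAt_id y).congr_of_eventuallyEq h4
      have h6 := congrArg (fun L => L (Q.ev (Y : g) y)) (h3.unique h5)
      simpa using h6
    have hRS : (LinearMap.toMatrix b b T).map (fun r : ℝ => (r : ℂ))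
        * (LinearMap.toMatrix b b T').map (fun r : ℝ => (r : ℂ)) = 1 := by
      have h1 : LinearMap.toMatrix b b T * LinearMap.toMatrix b b T' = 1 := by
        rw [← LinearMap.toMatrix_comp, hTT, LinearMap.toMatrix_id]
      have h2 := congrArg (fun M => M.map (Complex.ofRealHom)) h1
      rw [Matrix.map_mul, Matrix.map_one _ (map_zero _) (map_one _)] at h2
      exact h2
    refine ⟨_, log_P_comp hDo hXc hpos p.hF p.mapsF p.hG p.mapsG p.left hRS
      (hrel f h p T hT) (hrel h f p' T' hT')⟩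
  obtain ⟨u, hu⟩ := hB n D hDo hDb
  have hplh := hK n D Γ hDo ⟨x₀, hx₀⟩ hΓ u hu.smooth hu.lev_pos
    (fun f hf x hx ξ => by
      obtain ⟨h, -, p⟩ := hΓ.inv f hf
      exact hu.lev_trans f h ⟨p.hF, p.hG, p.mapsF, p.mapsG, p.left, p.right⟩ x hx ξ)
    (fun x => Real.log (P D X x))
    ((continuousOn_P hDo hXd).log (fun x hx => (hpos x hx).ne'))
    (fun x ξ hdisc => log_P_le hDo hXd hpos hdisc) htrans
  exact no_mean hDo hDc.isPreconnected hDb ⟨x₀, hx₀⟩ hXd hli (fun x ξ hdisc => hplh x ξ hdisc)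

end Crest.Agent.R264.AbI
end
end

-- ▼ part R264/DAMax
section

/-!
Row 264, Part D, node D8alg, piece DAMax (helper415): existence of a "critical" vector
`y ∈ V` with `[[y, σ y], y] = l y` on a space on which the hermitian form `B(y, σ y)` is definite.
-/

set_option autoImplicit false

open scoped ComplexConjugate
open Set Filter Topology

namespace Crest.Agent.R264.DA

namespace MaxAux

/-- a real quartic which is nonnegative and vanishes at `0` has no linear term -/
lemma linear_coeff_zero {a b c d : ℝ}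
    (h : ∀ t : ℝ, 0 ≤ a * t + b * t ^ 2 + c * t ^ 3 + d * t ^ 4) : a = 0 := by
  have h1 : HasDerivAt (fun t : ℝ => a * t + b * t ^ 2 + c * t ^ 3 + d * t ^ 4) a 0 := by
    have h0 := ((((hasDerivAt_id' (0 : ℝ)).const_mul a).fun_add
      (((hasDerivAt_pow 2 (0 : ℝ))).const_mul b)).fun_add
      (((hasDerivAt_pow 3 (0 : ℝ))).const_mul c)).fun_add
      (((hasDerivAt_pow 4 (0 : ℝ))).const_mul d)
    refine h0.congr_deriv ?_
    norm_num
  have h2 : IsLocalMin (fun t : ℝ => a * t + b * t ^ 2 + c * t ^ 3 + d * t ^ 4) 0 := by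
    refine Filter.Eventually.of_forall (fun t => ?_)
    simpa using h t
  exact h2.hasDerivAt_eq_zero h1

variable {L : Type*} [LieRing L] [LieAlgebra ℂ L]

lemma σ_zero (S : Conj L) : S.σ 0 = 0 := by
  have h := S.add 0 0
  simpa using h

lemma σ_sum (S : Conj L) {ι : Type*} (s : Finset ι) (f : ι → L) :
    S.σ (∑ i ∈ s, f i) = ∑ i ∈ s, S.σ (f i) := by
  classical
  induction s using Finset.induction_on with
  | empty => simp [σ_zero]
  | insert a s ha ih => rw [Finset.sum_insert ha, Finset.sum_insert ha, S.add, ih]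


lemma σ_smul_real (S : Conj L) (r : ℝ) (x : L) : S.σ ((r : ℂ) • x) = (r : ℂ) • S.σ x := by
  rw [S.smul, Complex.conj_ofReal]

lemma B_smul_smul (B : LinearMap.BilinForm ℂ L) (a b : ℂ) (x y : L) :
    B (a • x) (b • y) = a * (b * B x y) := by
  simp [mul_left_comm]

lemma B_sum_sum (B : LinearMap.BilinForm ℂ L) {ι κ : Type*} [Fintype ι] [Fintype κ]
    (a : ι → ℂ) (b : κ → ℂ) (x : ι → L) (y : κ → L) :
    B (∑ i, a i • x i) (∑ j, b j • y j) = ∑ i, ∑ j, a i * (b j * B (x i) (y j)) := by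
  simp only [map_sum, LinearMap.sum_apply, B_smul_smul]
  rw [Finset.sum_comm]

lemma lie_sum_sum {ι κ : Type*} [Fintype ι] [Fintype κ]
    (a : ι → ℂ) (b : κ → ℂ) (x : ι → L) (y : κ → L) :
    ⁅∑ i, a i • x i, ∑ j, b j • y j⁆ = ∑ p : ι × κ, (a p.1 * b p.2) • ⁅x p.1, y p.2⁆ := by
  rw [Fintype.sum_prod_type]
  simp only [sum_lie, lie_sum, smul_lie, lie_smul]
  rw [Finset.sum_congr rfl (fun j _ => Finset.smul_sum), Finset.sum_comm]
  refine Finset.sum_congr rfl (fun i _ => Finset.sum_congr rfl (fun j _ => ?_))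
  rw [smul_smul, mul_comm]

end MaxAux

open MaxAux

variable {L : Type*} [LieRing L] [LieAlgebra ℂ L]

theorem exists_max_ratio [FiniteDimensional ℂ L] (S : Conj L) (B : LinearMap.BilinForm ℂ L)
    (s : ℝ) (V : Submodule ℂ L) (hV : V ≠ ⊥)
    (hpos : ∀ y ∈ V, y ≠ 0 → 0 < s * (B y (S.σ y)).re) :
    ∃ y ∈ V, y ≠ 0 ∧ ∀ w ∈ V, (B ⁅w, S.σ w⁆ ⁅w, S.σ w⁆).re * (s * (B y (S.σ y)).re) ^ 2 ≤
      (B ⁅y, S.σ y⁆ ⁅y, S.σ y⁆).re * (s * (B w (S.σ w)).re) ^ 2 := by
  classical
  set q : L → ℝ := fun y => s * (B y (S.σ y)).re with hq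
  set f : L → ℝ := fun y => (B ⁅y, S.σ y⁆ ⁅y, S.σ y⁆).re with hf
  have hqsmul : ∀ (r : ℝ) (y : L), q ((r : ℂ) • y) = r ^ 2 * q y := by
    intro r y
    simp only [hq]
    rw [σ_smul_real, B_smul_smul]
    simp
    ring
  have hfsmul : ∀ (r : ℝ) (y : L), f ((r : ℂ) • y) = r ^ 4 * f y := by
    intro r y
    simp only [hf]
    rw [σ_smul_real, smul_lie, lie_smul, smul_smul, B_smul_smul]
    have h : ((r : ℂ) * r * ((r : ℂ) * r * (B ⁅y, S.σ y⁆) ⁅y, S.σ y⁆)) =
        ((r ^ 4 : ℝ) : ℂ) * (B ⁅y, S.σ y⁆) ⁅y, S.σ y⁆ := by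
      push_cast; ring
    rw [h, Complex.re_ofReal_mul]
  set b := Module.finBasis ℂ V with hb
  set d := Module.finrank ℂ V with hd
  have hd0 : 0 < d := by
    have : Nontrivial V := Submodule.nontrivial_iff_ne_bot.2 hV
    exact Module.finrank_pos
  set Y : (Fin d → ℂ) → L := fun x => ∑ i, x i • (b i : L) with hY
  have hYV : ∀ x, Y x ∈ V := fun x => V.sum_mem (fun i _ => V.smul_mem _ (b i).2)
  have hYcoe : ∀ x : Fin d → ℂ, Y x = ((∑ i, x i • b i : V) : L) := by
    intro x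
    simp [hY]
  have hYsmul : ∀ (c : ℂ) (x : Fin d → ℂ), Y (c • x) = c • Y x := by
    intro c x
    simp [hY, Finset.smul_sum, smul_smul]
  have hYrep : ∀ w : V, Y (b.repr w) = w := by
    intro w
    rw [hYcoe, b.sum_repr w]
  have hYne : ∀ x, x ≠ 0 → Y x ≠ 0 := by
    intro x hx h
    apply hx
    rw [hYcoe] at h
    have h1 : (∑ i, x i • b i) = 0 := by
      apply Subtype.ext
      simpa using h
    have h2 := (Fintype.linearIndependent_iff.1 b.linearIndependent) x h1
    ext i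
    exact h2 i
  have hσY : ∀ x, S.σ (Y x) = ∑ i, conj (x i) • S.σ (b i) := by
    intro x
    rw [hY]
    simp only
    rw [σ_sum]
    simp [S.smul]
  have hqc : Continuous (fun x => q (Y x)) := by
    have h1 : (fun x => q (Y x)) = fun x : Fin d → ℂ =>
        s * (∑ i, ∑ j, x i * (conj (x j) * B (b i) (S.σ (b j)))).re := by
      ext x
      simp only [hq]
      rw [hσY, hY, B_sum_sum]
    rw [h1]
    refine continuous_const.mul (Complex.continuous_re.comp ?_)
    refine continuous_finsetSum _ (fun i _ => continuous_finsetSum _ (fun j _ => ?_))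
    exact (continuous_apply i).mul
      ((Complex.continuous_conj.comp (continuous_apply j)).mul continuous_const)
  have hfc : Continuous (fun x => f (Y x)) := by
    have h1 : (fun x => f (Y x)) = fun x : Fin d → ℂ =>
        (∑ p : Fin d × Fin d, ∑ p' : Fin d × Fin d, (x p.1 * conj (x p.2)) *
          ((x p'.1 * conj (x p'.2)) *
          B ⁅(b p.1 : L), S.σ (b p.2)⁆ ⁅(b p'.1 : L), S.σ (b p'.2)⁆)).re := by
      ext x
      simp only [hf]
      rw [hσY, hY]
      simp only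
      rw [lie_sum_sum, B_sum_sum]
    rw [h1]
    refine Complex.continuous_re.comp ?_
    refine continuous_finsetSum _ (fun p _ => continuous_finsetSum _ (fun p' _ => ?_))
    exact ((continuous_apply p.1).mul (Complex.continuous_conj.comp (continuous_apply p.2))).mul
      (((continuous_apply p'.1).mul
        (Complex.continuous_conj.comp (continuous_apply p'.2))).mul continuous_const)
  have hqpos : ∀ x, x ≠ 0 → 0 < q (Y x) := fun x hx => hpos _ (hYV x) (hYne x hx)
  have hcomp : IsCompact (Metric.sphere (0 : Fin d → ℂ) 1) := isCompact_sphere _ _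
  have hne : (Metric.sphere (0 : Fin d → ℂ) 1).Nonempty := by
    refine ⟨fun _ => 1, ?_⟩
    have : Nonempty (Fin d) := ⟨⟨0, hd0⟩⟩
    rw [mem_sphere_zero_iff_norm]
    rw [pi_norm_const]
    simp
  have hs0 : ∀ x ∈ Metric.sphere (0 : Fin d → ℂ) 1, x ≠ 0 := by
    intro x hx h
    rw [h, mem_sphere_zero_iff_norm, norm_zero] at hx
    norm_num at hx
  obtain ⟨x₀, hx₀, hx₀max⟩ := hcomp.exists_isMaxOn hne
    (f := fun x => f (Y x) / (q (Y x)) ^ 2)
    ((hfc.continuousOn).div ((hqc.pow 2).continuousOn)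
      (fun x hx => (pow_pos (hqpos x (hs0 x hx)) 2).ne'))
  refine ⟨Y x₀, hYV _, hYne _ (hs0 _ hx₀), ?_⟩
  intro w hw
  change f w * (q (Y x₀)) ^ 2 ≤ f (Y x₀) * (q w) ^ 2
  set x : Fin d → ℂ := ⇑(b.repr ⟨w, hw⟩) with hx
  have hYx : Y x = w := hYrep ⟨w, hw⟩
  rw [← hYx]
  rcases eq_or_ne x 0 with h0 | h0
  · rw [h0]
    have hY0 : Y 0 = 0 := by simp [hY]
    have hf0 : f (Y 0) = 0 := by simp [hf, hY0]
    have hq0 : q (Y 0) = 0 := by simp [hq, hY0]
    rw [hf0, hq0]
    simp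
  · have hn : 0 < ‖x‖ := norm_pos_iff.2 h0
    set x' : Fin d → ℂ := ((‖x‖⁻¹ : ℝ) : ℂ) • x with hx'
    have hx's : x' ∈ Metric.sphere (0 : Fin d → ℂ) 1 := by
      rw [mem_sphere_zero_iff_norm, hx', norm_smul]
      simp [hn.ne']
    have hxx' : Y x = ((‖x‖ : ℝ) : ℂ) • Y x' := by
      rw [← hYsmul, hx', smul_smul]
      have : ((‖x‖ : ℝ) : ℂ) * ((‖x‖⁻¹ : ℝ) : ℂ) = 1 := by
        rw [← Complex.ofReal_mul, mul_inv_cancel₀ hn.ne', Complex.ofReal_one]
      rw [this, one_smul]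
    have h1 : f (Y x') / (q (Y x')) ^ 2 ≤ f (Y x₀) / (q (Y x₀)) ^ 2 := hx₀max hx's
    have h2 : 0 < q (Y x') ^ 2 := pow_pos (hqpos x' (hs0 x' hx's)) 2
    have h3 : 0 < q (Y x₀) ^ 2 := pow_pos (hqpos x₀ (hs0 x₀ hx₀)) 2
    rw [div_le_div_iff₀ h2 h3] at h1
    rw [hxx', hfsmul, hqsmul]
    have h4 : 0 ≤ ‖x‖ ^ 4 := by positivity
    calc ‖x‖ ^ 4 * f (Y x') * q (Y x₀) ^ 2 = ‖x‖ ^ 4 * (f (Y x') * q (Y x₀) ^ 2) := by ring
      _ ≤ ‖x‖ ^ 4 * (f (Y x₀) * q (Y x') ^ 2) := by gcongr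
      _ = f (Y x₀) * (‖x‖ ^ 2 * q (Y x')) ^ 2 := by ring


theorem exists_maximizer [FiniteDimensional ℂ L] (S : Conj L)
    (hB : ∀ x y, killingForm ℂ L (S.σ x) (S.σ y) = conj (killingForm ℂ L x y))
    (s : ℝ) (hs : s = 1 ∨ s = -1) (V : Submodule ℂ L) (hV : V ≠ ⊥)
    (hpos : ∀ y ∈ V, y ≠ 0 → 0 < s * (killingForm ℂ L y (S.σ y)).re)
    (hst : ∀ y ∈ V, ∀ w ∈ V, ⁅⁅y, S.σ y⁆, w⁆ ∈ V) :
    ∃ y ∈ V, y ≠ 0 ∧ ∃ l : ℝ, ⁅⁅y, S.σ y⁆, y⁆ = (l : ℂ) • y ∧
      l * (killingForm ℂ L y (S.σ y)).re = (killingForm ℂ L ⁅y, S.σ y⁆ ⁅y, S.σ y⁆).re := by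
  classical
  obtain ⟨y, hyV, hy0, hmax⟩ := exists_max_ratio S (killingForm ℂ L) s V hV hpos
  have hcomm : ∀ x z : L, killingForm ℂ L x z = killingForm ℂ L z x := fun x z =>
    LieModule.traceForm_comm ℂ L L x z
  have hinv : ∀ x z w : L, killingForm ℂ L ⁅x, z⁆ w = killingForm ℂ L x ⁅z, w⁆ := fun x z w =>
    LieModule.traceForm_apply_lie_apply ℂ L L x z w
  set B := killingForm ℂ L with hBdef
  have hs2 : s * s = 1 := by rcases hs with h | h <;> rw [h] <;> norm_num
  have hs0 : s ≠ 0 := by rintro rfl; norm_num at hs2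
  set h := ⁅y, S.σ y⁆ with hh
  have hσh : S.σ h = -h := by
    rw [hh, S.lie, S.inv, ← lie_skew]
  -- `B w (σ w)` is real
  have hreal : ∀ w, (B w (S.σ w)).im = 0 := by
    intro w
    have h1 := hB w (S.σ w)
    rw [S.inv, hcomm] at h1
    have h2 := congrArg Complex.im h1
    simp only [Complex.conj_im] at h2
    linarith
  set q0 : ℝ := (B y (S.σ y)).re with hq0
  have hq0' : B y (S.σ y) = (q0 : ℂ) := Complex.ext (by simp [hq0]) (by simp [hreal])
  have hq0ne : q0 ≠ 0 := by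
    intro h0
    have := hpos y hyV hy0
    rw [← hq0, h0] at this
    simp at this
  -- first variation
  have key : ∀ w ∈ V, B w (S.σ y) = 0 → (B ⁅h, y⁆ (S.σ w)).re = 0 := by
    intro w hw hwy
    have hyw : B y (S.σ w) = 0 := by
      have h1 := hB w (S.σ y)
      rw [S.inv, hwy, map_zero, hcomm] at h1
      exact h1
    -- expansion
    set c := ⁅w, S.σ y⁆ + ⁅y, S.σ w⁆ with hc
    set e := ⁅w, S.σ w⁆ with he
    have hexp : ∀ t : ℝ, ⁅y + (t : ℂ) • w, S.σ (y + (t : ℂ) • w)⁆ =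
        h + (t : ℂ) • c + ((t : ℂ) ^ 2) • e := by
      intro t
      rw [S.add, σ_smul_real]
      simp only [add_lie, lie_add, smul_lie, lie_smul, hc, he, hh, smul_add, smul_smul]
      rw [pow_two]
      abel
    have hlin : (B h c).re = 2 * (B ⁅h, y⁆ (S.σ w)).re := by
      have h1 : B h ⁅y, S.σ w⁆ = B ⁅h, y⁆ (S.σ w) := (hinv _ _ _).symm
      have h2 : B h ⁅w, S.σ y⁆ = conj (B ⁅h, y⁆ (S.σ w)) := by
        have e1 : B (S.σ ⁅h, y⁆) (S.σ (S.σ w)) = - B ⁅h, S.σ y⁆ w := by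
          rw [S.lie, S.inv, hσh, neg_lie, map_neg, LinearMap.neg_apply]
        have e2 : B h ⁅w, S.σ y⁆ = - B ⁅h, S.σ y⁆ w := by
          rw [hcomm, hinv, ← lie_skew, map_neg, hcomm]
        rw [← hB, e1, e2]
      rw [hc, map_add, h1, h2, Complex.add_re, Complex.conj_re]
      ring
    have hquart : ∀ t : ℝ, 0 ≤ (-(2 * (B h c).re) * (s * q0) ^ 2) * t +
        ((2 * (B h h).re * q0 * (B w (S.σ w)).re - (2 * (B h e).re + (B c c).re) * q0 ^ 2)) *
          t ^ 2 + (-(2 * (B c e).re) * q0 ^ 2) * t ^ 3 +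
        ((B h h).re * (B w (S.σ w)).re ^ 2 - (B e e).re * q0 ^ 2) * t ^ 4 := by
      intro t
      have hm := hmax (y + (t : ℂ) • w) (V.add_mem hyV (V.smul_mem _ hw))
      rw [hexp t] at hm
      have hqt : (B (y + (t : ℂ) • w) (S.σ (y + (t : ℂ) • w))).re =
          q0 + t ^ 2 * (B w (S.σ w)).re := by
        rw [S.add, σ_smul_real]
        simp only [map_add, LinearMap.add_apply, map_smul, LinearMap.smul_apply, smul_eq_mul,
          hwy, hyw, mul_zero, add_zero, zero_add]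
        rw [Complex.add_re, ← hq0]
        congr 1
        rw [← mul_assoc, ← Complex.ofReal_mul, Complex.re_ofReal_mul, pow_two]
      rw [hqt] at hm
      have hft : (B (h + (t : ℂ) • c + ((t : ℂ) ^ 2) • e)
          (h + (t : ℂ) • c + ((t : ℂ) ^ 2) • e)).re =
          (B h h).re + 2 * t * (B h c).re + t ^ 2 * (2 * (B h e).re + (B c c).re) +
            2 * t ^ 3 * (B c e).re + t ^ 4 * (B e e).re := by
        simp only [map_add, LinearMap.add_apply, map_smul, LinearMap.smul_apply, smul_eq_mul]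
        rw [hcomm c h, hcomm e h, hcomm e c]
        simp only [← Complex.ofReal_pow, Complex.add_re, Complex.re_ofReal_mul]
        ring
      rw [hft] at hm
      have hsq : ∀ z : ℝ, (s * z) ^ 2 = z ^ 2 := by
        intro z
        rw [mul_pow, pow_two, hs2, one_mul]
      rw [hsq, hsq] at hm
      rw [hsq]
      nlinarith [hm]
    have h0 := linear_coeff_zero hquart
    have h1 : (s * q0) ^ 2 ≠ 0 := pow_ne_zero _ (mul_ne_zero hs0 hq0ne)
    have h2 : (B h c).re = 0 := by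
      rcases mul_eq_zero.1 h0 with h3 | h3
      · linarith
      · exact absurd h3 h1
    rw [hlin] at h2
    linarith
  have key' : ∀ w ∈ V, B w (S.σ y) = 0 → B ⁅h, y⁆ (S.σ w) = 0 := by
    intro w hw hwy
    have h1 := key w hw hwy
    have h2 := key (Complex.I • w) (V.smul_mem _ hw) (by
      rw [map_smul, LinearMap.smul_apply, hwy, smul_zero])
    rw [S.smul, map_smul, smul_eq_mul, Complex.conj_I] at h2
    apply Complex.ext
    · exact h1
    · simpa using h2
  -- decomposition of `[h, y]`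
  have hhyV : ⁅h, y⁆ ∈ V := hst y hyV y hyV
  set a : ℂ := B ⁅h, y⁆ (S.σ y) / B y (S.σ y) with ha
  have hne : B y (S.σ y) ≠ 0 := by
    rw [hq0']
    exact_mod_cast hq0ne
  set w := ⁅h, y⁆ - a • y with hw
  have hwV : w ∈ V := V.sub_mem hhyV (V.smul_mem _ hyV)
  have hwy : B w (S.σ y) = 0 := by
    rw [hw, map_sub, LinearMap.sub_apply, map_smul, LinearMap.smul_apply, smul_eq_mul, ha,
      div_mul_cancel₀ _ hne, sub_self]
  have hyw : B y (S.σ w) = 0 := by
    have h1 := hB w (S.σ y)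
    rw [S.inv, hwy, map_zero, hcomm] at h1
    exact h1
  have hww : B w (S.σ w) = 0 := by
    have h1 := key' w hwV hwy
    have h2 : ⁅h, y⁆ = w + a • y := by rw [hw]; abel
    rw [h2, map_add, LinearMap.add_apply, map_smul, LinearMap.smul_apply, hyw, smul_zero,
      add_zero] at h1
    exact h1
  have hw0 : w = 0 := by
    by_contra hne0
    have := hpos w hwV hne0
    rw [hww] at this
    simp at this
  have hhy : ⁅h, y⁆ = a • y := by
    rw [hw, sub_eq_zero] at hw0
    exact hw0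
  -- `a` is real
  have hhh : B ⁅h, y⁆ (S.σ y) = B h h := hinv _ _ _
  have hhhim : (B h h).im = 0 := by
    have h1 := hB h h
    have e1 : B (-h) (-h) = B h h := by simp
    rw [hσh, e1] at h1
    have h2 := congrArg Complex.im h1
    simp only [Complex.conj_im] at h2
    linarith
  have ha' : a = (((B h h).re / q0 : ℝ) : ℂ) := by
    rw [ha, hhh, hq0', Complex.ofReal_div]
    congr 1
    exact Complex.ext (by simp) (by simp [hhhim])
  refine ⟨y, hyV, hy0, (B h h).re / q0, ?_, ?_⟩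
  · rw [← ha']
    exact hhy
  · rw [← hq0, div_mul_cancel₀ _ hq0ne]

end Crest.Agent.R264.DA
end

-- ▼ part R264/DAKill
section

/-!
Row 264, Part D, D8alg, first file: Killing form and conjugation, negativity of the Killing form,
`CX g` is Killing, `ImDiag` from bounded one-parameter groups.
-/

set_option autoImplicit false
set_option linter.unusedSectionVars false

open scoped ComplexConjugate
open Module

namespace Crest.Agent.R264.DA

section Conj

variable {L : Type*} [LieRing L] [LieAlgebra ℂ L]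

lemma Conj.zero (S : Conj L) : S.σ 0 = 0 := by
  have := S.smul 0 0
  simpa using this

lemma Conj.neg (S : Conj L) (x : L) : S.σ (-x) = - S.σ x := by
  have := S.smul (-1) x
  simpa using this

lemma Conj.sub (S : Conj L) (x y : L) : S.σ (x - y) = S.σ x - S.σ y := by
  rw [sub_eq_add_neg, S.add, S.neg, sub_eq_add_neg]


lemma Conj.eq_zero (S : Conj L) {x : L} (h : S.σ x = 0) : x = 0 := by
  rw [← S.inv x, h, S.zero]

/-- the conjugate of a basis, as coordinates -/
noncomputable def conjEquiv (S : Conj L) {ι : Type*} [Fintype ι] (b : Basis ι ℂ L) :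
    L ≃ₗ[ℂ] (ι → ℂ) where
  toFun x := fun i => conj (b.equivFun (S.σ x) i)
  map_add' x y := by funext i; simp [S.add]
  map_smul' c x := by funext i; simp [S.smul]
  invFun f := S.σ (b.equivFun.symm fun i => conj (f i))
  left_inv x := by simp [S.inv]
  right_inv f := by
    funext i
    beta_reduce
    rw [S.inv, LinearEquiv.apply_symm_apply, Complex.conj_conj]

lemma conjEquiv_apply (S : Conj L) {ι : Type*} [Fintype ι] (b : Basis ι ℂ L) (x : L) (i : ι) :
    conjEquiv S b x i = conj (b.equivFun (S.σ x) i) := rfl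

lemma conjEquiv_symm_apply (S : Conj L) {ι : Type*} [Fintype ι] (b : Basis ι ℂ L) (f : ι → ℂ) :
    (conjEquiv S b).symm f = S.σ (b.equivFun.symm fun i => conj (f i)) := rfl

lemma trace_conj (S : Conj L) [FiniteDimensional ℂ L] (T T' : L →ₗ[ℂ] L)
    (h : ∀ x, T' x = S.σ (T (S.σ x))) :
    LinearMap.trace ℂ L T' = conj (LinearMap.trace ℂ L T) := by
  classical
  have hbi : ∀ i, Basis.ofEquivFun (conjEquiv S (Module.finBasis ℂ L)) i
      = S.σ (Module.finBasis ℂ L i) := by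
    intro i
    rw [Basis.coe_ofEquivFun]
    beta_reduce
    rw [conjEquiv_symm_apply]
    congr 1
    have : (fun j => conj ((Pi.single i (1 : ℂ) : Fin _ → ℂ) j)) = Pi.single i (1 : ℂ) := by
      funext j
      by_cases hj : j = i
      · subst hj; simp
      · simp [Pi.single_eq_of_ne hj]
    rw [this]
    exact Basis.equivFun_symm_single _ _
  generalize Module.finBasis ℂ L = b at hbi
  set b' := Basis.ofEquivFun (conjEquiv S b) with hb'
  rw [LinearMap.trace_eq_matrix_trace ℂ b' T', LinearMap.trace_eq_matrix_trace ℂ b T,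
    Matrix.trace, Matrix.trace, map_sum]
  refine Finset.sum_congr rfl fun i _ => ?_
  simp only [Matrix.diag_apply, LinearMap.toMatrix_apply]
  have h1 : ∀ x, b'.repr x i = conjEquiv S b x i := fun x => by
    rw [hb', ← Basis.equivFun_apply, Basis.equivFun_ofEquivFun]
  rw [hbi, h, S.inv, h1, conjEquiv_apply, S.inv, Basis.equivFun_apply]

lemma killing_conj (S : Conj L) [FiniteDimensional ℂ L] (x y : L) :
    killingForm ℂ L (S.σ x) (S.σ y) = conj (killingForm ℂ L x y) := by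
  rw [killingForm_apply_apply, killingForm_apply_apply]
  refine trace_conj S _ _ fun z => ?_
  simp only [LinearMap.comp_apply, LieAlgebra.ad_apply]
  rw [S.lie, S.lie, S.inv]

end Conj

section Diag

variable {V : Type*} [AddCommGroup V] [Module ℂ V] [FiniteDimensional ℂ V]

/-- semisimplicity in the `(T - μ)² v = 0 → (T - μ) v = 0` form -/
def SS (T : End ℂ V) : Prop :=
  ∀ (μ : ℂ) (v : V), T (T v) - (2 * μ) • T v + (μ * μ) • v = 0 → T v = μ • v

omit [FiniteDimensional ℂ V] in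
lemma SS.pow {T : End ℂ V} (hT : SS T) (μ : ℂ) (k : ℕ) (v : V)
    (h : ((T - μ • (1 : End ℂ V)) ^ (k + 1)) v = 0) : T v = μ • v := by
  induction k with
  | zero =>
    simpa [sub_eq_zero] using h
  | succ k ih =>
    apply ih
    set w := ((T - μ • (1 : End ℂ V)) ^ k) v with hw
    have h2 : (T - μ • (1 : End ℂ V)) ((T - μ • (1 : End ℂ V)) w) = 0 := by
      have e : (T - μ • (1 : End ℂ V)) ^ (k + 1 + 1)
          = (T - μ • 1) * ((T - μ • 1) * (T - μ • 1) ^ k) := by
        rw [pow_succ', pow_succ']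
      rw [e] at h
      exact h
    have h3 : T w = μ • w := by
      apply hT
      rw [← h2]
      simp only [LinearMap.sub_apply, LinearMap.smul_apply, Module.End.one_apply, map_sub,
        map_smul, smul_sub, smul_smul, two_mul, add_smul]
      abel
    rw [pow_succ', Module.End.mul_apply, ← hw]
    simp [h3]

lemma SS.iSup_eq_top {T : End ℂ V} (hT : SS T) : (⨆ μ : ℂ, T.eigenspace μ) = ⊤ := by
  rw [eq_top_iff, ← Module.End.iSup_maxGenEigenspace_eq_top T]
  refine iSup_mono fun μ => ?_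
  intro v hv
  rw [Module.End.mem_maxGenEigenspace] at hv
  obtain ⟨k, hk⟩ := hv
  rw [Module.End.mem_eigenspace_iff]
  refine hT.pow μ k v ?_
  rw [pow_succ', Module.End.mul_apply, hk, map_zero]

lemma SS.exists_basis {T : End ℂ V} (hT : SS T) :
    ∃ (ι : Type) (_ : Fintype ι) (b : Basis ι ℂ V) (μ : ι → ℂ), ∀ i, T (b i) = μ i • b i := by
  classical
  have hint : DirectSum.IsInternal fun μ : ℂ => T.eigenspace μ :=
    (DirectSum.isInternal_submodule_iff_iSupIndep_and_iSup_eq_top _).mpr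
      ⟨T.eigenspaces_iSupIndep, hT.iSup_eq_top⟩
  set b := hint.collectedBasis fun μ => Module.finBasis ℂ (T.eigenspace μ) with hb
  refine ⟨_, FiniteDimensional.fintypeBasisIndex b, b, fun i => i.1, fun i => ?_⟩
  exact Module.End.mem_eigenspace_iff.mp (hint.collectedBasis_mem _ i)

end Diag

section Neg

variable {L : Type*} [LieRing L] [LieAlgebra ℂ L] [FiniteDimensional ℂ L]

lemma ImDiag.ss {A : L} (h : ImDiag A) : SS (LieAlgebra.ad ℂ L A : End ℂ L) :=
  fun μ v hv => (h μ v hv).1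

lemma ImDiag.exists_basis {A : L} (h : ImDiag A) :
    ∃ (ι : Type) (_ : Fintype ι) (b : Basis ι ℂ L) (τ : ι → ℝ),
      ∀ i, ⁅A, b i⁆ = ((τ i : ℂ) * Complex.I) • b i := by
  obtain ⟨ι, hι, b, μ, hb⟩ := h.ss.exists_basis
  refine ⟨ι, hι, b, fun i => (μ i).im, fun i => ?_⟩
  have h1 : ⁅A, b i⁆ = μ i • b i := hb i
  have h2 : (μ i).re = 0 := by
    refine (h (μ i) (b i) ?_).2 (b.ne_zero i)
    rw [h1, lie_smul, h1, smul_smul, smul_smul, two_mul, add_mul, add_smul]
    abel
  rw [h1]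
  congr 1
  apply Complex.ext <;> simp [h2]

lemma trace_sq {A : L} {ι : Type} [Fintype ι] (b : Basis ι ℂ L) (τ : ι → ℝ)
    (hb : ∀ i, ⁅A, b i⁆ = ((τ i : ℂ) * Complex.I) • b i) :
    killingForm ℂ L A A = ((-∑ i, (τ i) ^ 2 : ℝ) : ℂ) := by
  classical
  rw [killingForm_apply_apply, LinearMap.trace_eq_matrix_trace ℂ b, Matrix.trace]
  push_cast
  rw [← Finset.sum_neg_distrib]
  refine Finset.sum_congr rfl fun i _ => ?_
  simp only [Matrix.diag_apply, LinearMap.toMatrix_apply, LinearMap.comp_apply,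
    LieAlgebra.ad_apply, hb, map_smul, Finsupp.smul_apply, Basis.repr_self,
    Finsupp.single_eq_same, smul_eq_mul, mul_one]
  have : ((τ i : ℂ) * Complex.I) * ((τ i : ℂ) * Complex.I) = -(τ i : ℂ) ^ 2 := by
    have hI : Complex.I * Complex.I = -1 := Complex.I_mul_I
    linear_combination ((τ i : ℂ) ^ 2) * hI
  exact this


lemma eq_zero_of_lie [LieAlgebra.IsKilling ℂ L] {A : L} (h : ∀ v : L, ⁅A, v⁆ = 0) : A = 0 :=
  (LieDerivation.IsKilling.ad_apply_eq_zero_iff ℂ L A).mp
    (LieDerivation.ext fun v => by simpa using h v)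

lemma killing_neg [LieAlgebra.IsKilling ℂ L] {A : L} (h : ImDiag A) (hA : A ≠ 0) :
    (killingForm ℂ L A A).re < 0 := by
  obtain ⟨ι, _, b, τ, hb⟩ := h.exists_basis
  rw [trace_sq b τ hb, Complex.ofReal_re, neg_lt_zero]
  by_contra hle
  push Not at hle
  have h0 : ∑ i, (τ i) ^ 2 = 0 := le_antisymm hle (Finset.sum_nonneg fun i _ => sq_nonneg _)
  rw [Finset.sum_eq_zero_iff_of_nonneg (fun i _ => sq_nonneg _)] at h0
  apply hA
  apply eq_zero_of_lie
  have : (LieAlgebra.ad ℂ L A : L →ₗ[ℂ] L) = 0 := by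
    refine b.ext fun i => ?_
    have := h0 i (Finset.mem_univ i)
    rw [LieAlgebra.ad_apply, hb, pow_eq_zero_iff two_ne_zero |>.mp this]
    simp
  intro v
  exact LinearMap.congr_fun this v

lemma killing_nondeg [LieAlgebra.IsKilling ℂ L] {x : L}
    (h : ∀ y, killingForm ℂ L x y = 0) : x = 0 := by
  have : x ∈ LinearMap.ker (killingForm ℂ L) := by
    rw [LinearMap.mem_ker]; ext y; exact h y
  rwa [LieAlgebra.IsKilling.ker_killingForm_eq_bot] at this

end Neg

section CXK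

variable {g : Type*} [LieRing g] [LieAlgebra ℝ g]

lemma CX_basis_apply {ι : Type*} [Fintype ι] (b : Basis ι ℝ g) (i : ι) :
    CX.basis b i = CX.of (b i) := by
  classical
  rw [CX.basis, Basis.coe_ofEquivFun]
  change (⟨∑ j, ((Pi.single i (1 : ℂ) : ι → ℂ) j).re • b j,
    ∑ j, ((Pi.single i (1 : ℂ) : ι → ℂ) j).im • b j⟩ : CX g) = _
  ext
  · simp only [CX.of_re]
    rw [Finset.sum_eq_single i]
    · simp
    · intro j _ hj; simp [Pi.single_eq_of_ne hj]
    · simp
  · simp only [CX.of_im]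
    refine Finset.sum_eq_zero fun j _ => ?_
    by_cases hj : j = i
    · subst hj; simp
    · simp [Pi.single_eq_of_ne hj]

lemma CX_repr_of {ι : Type*} [Fintype ι] (b : Basis ι ℝ g) (v : g) (i : ι) :
    (CX.basis b).repr (CX.of v) i = ((b.repr v i : ℝ) : ℂ) := by
  change (⟨b.repr v i, b.repr (0 : g) i⟩ : ℂ) = _
  apply Complex.ext <;> simp

variable [Module.Finite ℝ g]

lemma killing_of (x y : g) :
    killingForm ℂ (CX g) (CX.of x) (CX.of y) = ((killingForm ℝ g x y : ℝ) : ℂ) := by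
  classical
  set b := Module.finBasis ℝ g
  rw [killingForm_apply_apply, killingForm_apply_apply,
    LinearMap.trace_eq_matrix_trace ℂ (CX.basis b), LinearMap.trace_eq_matrix_trace ℝ b,
    Matrix.trace, Matrix.trace]
  push_cast
  refine Finset.sum_congr rfl fun i _ => ?_
  simp only [Matrix.diag_apply, LinearMap.toMatrix_apply, LinearMap.comp_apply,
    LieAlgebra.ad_apply, CX_basis_apply, ← CX.of_lie, CX_repr_of]

instance CX_isKilling [LieAlgebra.IsKilling ℝ g] : LieAlgebra.IsKilling ℂ (CX g) := by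
  constructor
  rw [eq_bot_iff]
  intro x hx
  rw [LieIdeal.mem_killingCompl] at hx
  rw [LieSubmodule.mem_bot]
  have key : ∀ c : g, killingForm ℝ g c x.re = 0 ∧ killingForm ℝ g c x.im = 0 := by
    intro c
    have h1 := hx (CX.of c) trivial
    rw [CX.eq_of_add x, map_add, map_smul, killing_of, killing_of] at h1
    constructor
    · simpa using congrArg Complex.re h1
    · simpa using congrArg Complex.im h1
  have hz : ∀ a : g, (∀ c, killingForm ℝ g c a = 0) → a = 0 := by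
    intro a ha
    have : a ∈ LinearMap.ker (killingForm ℝ g) := by
      rw [LinearMap.mem_ker]; ext y
      rw [LieModule.traceForm_comm]; exact ha y
    rwa [LieAlgebra.IsKilling.ker_killingForm_eq_bot] at this
  ext
  · exact hz _ fun c => (key c).1
  · exact hz _ fun c => (key c).2

end CXK

end Crest.Agent.R264.DA
end

-- ▼ part R264/DAMain
section

/-!
Row 264, Part D, D8alg: the main argument ((c), (e), (f)), given the maximiser lemma and the
graded unit.
-/

set_option autoImplicit false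
set_option linter.unusedSectionVars false

open scoped ComplexConjugate
open Module

namespace Crest.Agent.R264.DA

variable {L : Type*} [LieRing L] [LieAlgebra ℂ L]

local notation "κ" => killingForm ℂ L

/-- statement of the maximiser lemma for `(L, S)` -/
def MaxProp (S : Conj L) : Prop :=
  ∀ (s : ℝ), (s = 1 ∨ s = -1) → ∀ V : Submodule ℂ L, V ≠ ⊥ →
    (∀ y ∈ V, y ≠ 0 → 0 < s * (killingForm ℂ L y (S.σ y)).re) →
    (∀ y ∈ V, ∀ w ∈ V, ⁅⁅y, S.σ y⁆, w⁆ ∈ V) →
    ∃ y ∈ V, y ≠ 0 ∧ ∃ l : ℝ, ⁅⁅y, S.σ y⁆, y⁆ = (l : ℂ) • y ∧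
      l * (killingForm ℂ L y (S.σ y)).re = (killingForm ℂ L ⁅y, S.σ y⁆ ⁅y, S.σ y⁆).re

/-- statement of the graded unit for `(L, S)` -/
def GrProp (S : Conj L) : Prop :=
  ∀ M : L, S.σ M = -M →
    (⨆ r : ℝ, Module.End.eigenspace (LieAlgebra.ad ℂ L M) (r : ℂ)) = ⊤ →
    (∀ r : ℝ, r ≠ 0 → ∀ Y : L, ⁅M, Y⁆ = (r : ℂ) • Y → Y ≠ 0 → 0 < (killingForm ℂ L Y (S.σ Y)).re) →
    (∀ Y : L, ⁅M, Y⁆ = 0 → Y ≠ 0 → (killingForm ℂ L Y (S.σ Y)).re < 0) →
    (∀ A : L, ⁅M, A⁆ = 0 → S.σ A = A → ImDiag A) →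
    ∃ Z : L, S.σ Z = Z ∧ ⁅M, Z⁆ = 0 ∧
      ∀ r : ℝ, 0 < r → ∀ Y : L, ⁅M, Y⁆ = (r : ℂ) • Y → ⁅Z, Y⁆ = (-Complex.I) • Y

lemma B_comm (x y : L) : κ x y = κ y x := LieModule.traceForm_comm ℂ L L x y

lemma B_inv (x y z : L) : κ ⁅x, y⁆ z = κ x ⁅y, z⁆ := LieModule.traceForm_apply_lie_apply ℂ L L x y z

lemma B_inv' (x y z : L) : κ ⁅x, y⁆ z = - κ y ⁅x, z⁆ :=
  LieModule.traceForm_apply_lie_apply' ℂ L L x y z

section

variable (S : Conj L) (h : LieSubalgebra ℂ L)

/-- `n = h^⊥` -/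
def nS : Submodule ℂ L where
  carrier := {Y | Perp h Y}
  zero_mem' := fun X _ => by simp
  add_mem' {a b} ha hb := fun X hX => by rw [map_add, LinearMap.add_apply, ha X hX, hb X hX, add_zero]
  smul_mem' c a ha := fun X hX => by rw [map_smul, LinearMap.smul_apply, ha X hX, smul_zero]

/-- `nb = σ n` -/
def nbS : Submodule ℂ L where
  carrier := {Y | Perp h (S.σ Y)}
  zero_mem' := fun X _ => by rw [S.zero]; simp
  add_mem' {a b} ha hb := fun X hX => by
    rw [S.add, map_add, LinearMap.add_apply, ha X hX, hb X hX, add_zero]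
  smul_mem' c a ha := fun X hX => by
    rw [S.smul, map_smul, LinearMap.smul_apply, ha X hX, smul_zero]

/-- `k_C = h ∩ σ h` -/
def kS : Submodule ℂ L where
  carrier := {Y | Y ∈ h ∧ S.σ Y ∈ h}
  zero_mem' := ⟨zero_mem _, by rw [S.zero]; exact zero_mem _⟩
  add_mem' {a b} ha hb := ⟨add_mem ha.1 hb.1, by rw [S.add]; exact add_mem ha.2 hb.2⟩
  smul_mem' c a ha := ⟨h.smul_mem c ha.1, by rw [S.smul]; exact h.smul_mem _ ha.2⟩


lemma σ_kS {Y : L} (hY : Y ∈ kS S h) : S.σ Y ∈ kS S h := ⟨hY.2, by rw [S.inv]; exact hY.1⟩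

lemma lie_k_n {X Y : L} (hX : X ∈ h) (hY : Perp h Y) : Perp h ⁅X, Y⁆ := fun Z hZ => by
  rw [B_inv', hY _ (h.lie_mem hX hZ), neg_zero]

lemma lie_k_nb {X Y : L} (hX : S.σ X ∈ h) (hY : Perp h (S.σ Y)) : Perp h (S.σ ⁅X, Y⁆) := by
  rw [S.lie]; exact lie_k_n h hX hY

end

section Main

variable [FiniteDimensional ℂ L] [LieAlgebra.IsKilling ℂ L]
variable {S : Conj L} {h : LieSubalgebra ℂ L} {δ : L →ₗ[ℂ] ℂ} (H : Hyp S h δ)

include H

/-- `B(Y, σ Y) < 0` on `k_C`. -/
lemma Hyp.neg {Y : L} (hY : Y ∈ kS S h) (h0 : Y ≠ 0) : (κ Y (S.σ Y)).re < 0 := by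
  set A := Y + S.σ Y with hA
  set A' := (-Complex.I) • (Y - S.σ Y) with hA'
  have hσA : S.σ A = A := by rw [hA, S.add, S.inv, add_comm]
  have hσA' : S.σ A' = A' := by
    rw [hA', S.smul, S.sub, S.inv, map_neg, Complex.conj_I, neg_neg, neg_smul, ← smul_neg, neg_sub]
  have hAm : A ∈ h := add_mem hY.1 hY.2
  have hAm' : A' ∈ h := h.smul_mem _ (sub_mem hY.1 hY.2)
  have e : 4 * κ Y (S.σ Y) = κ A A + κ A' A' := by
    have hI : Complex.I * Complex.I = -1 := Complex.I_mul_I
    simp only [hA, hA', map_add, map_sub, map_smul, LinearMap.add_apply, LinearMap.sub_apply,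
      LinearMap.smul_apply, smul_eq_mul]
    rw [B_comm (S.σ Y) Y]
    linear_combination (-(κ Y Y - κ Y (S.σ Y) - (κ Y (S.σ Y) - κ (S.σ Y) (S.σ Y)))) * hI
  have hle : ∀ C ∈ h, S.σ C = C → (κ C C).re ≤ 0 := by
    intro C hC hσC
    by_cases hC0 : C = 0
    · rw [hC0]; simp
    · exact (killing_neg (H.ss C hC hσC) hC0).le
  have h1 := hle A hAm hσA
  have h2 := hle A' hAm' hσA'
  have hor : A ≠ 0 ∨ A' ≠ 0 := by
    by_contra hcon
    push Not at hcon
    apply h0
    have h3 : Y - S.σ Y = 0 := by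
      have := hcon.2
      rw [hA', smul_eq_zero] at this
      rcases this with h4 | h4
      · exact absurd h4 (by simp)
      · exact h4
    have h4 : (2 : ℂ) • Y = 0 := by
      have : (2 : ℂ) • Y = A + (Y - S.σ Y) := by rw [hA, two_smul]; abel
      rw [this, hcon.1, h3, add_zero]
    simpa using h4
  have e2 : 4 * (κ Y (S.σ Y)).re = (κ A A).re + (κ A' A').re := by
    have := congrArg Complex.re e
    simpa using this
  rcases hor with h3 | h3
  · have := killing_neg (H.ss A hAm hσA) h3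
    linarith
  · have := killing_neg (H.ss A' hAm' hσA') h3
    linarith

lemma Hyp.nb_h {Y : L} (hY : Perp h (S.σ Y)) (hh : Y ∈ h) : Y = 0 := by
  by_contra h0
  have hk : Y ∈ kS S h := ⟨hh, H.perp _ hY⟩
  have h1 := H.neg hk h0
  have h2 : κ Y (S.σ Y) = 0 := by rw [B_comm]; exact hY Y hh
  rw [h2] at h1
  simp at h1


/-- independence of `nb`, `k_C`, `n` -/
lemma Hyp.indep {a b c : L} (ha : Perp h (S.σ a)) (hb : b ∈ kS S h) (hc : Perp h c)
    (e : a + b + c = 0) : a = 0 ∧ b = 0 ∧ c = 0 := by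
  have hb0 : b = 0 := by
    by_contra h0
    have h1 := H.neg hb h0
    have h2 : κ b (S.σ b) = 0 := by
      have e2 : b = -(a + c) := by
        have : b = (a + b + c) - (a + c) := by abel
        rw [this, e, zero_sub]
      have h3 : κ a (S.σ b) = 0 := by
        have h4 := killing_conj S (S.σ a) b
        rw [S.inv, ha b hb.1, map_zero] at h4
        exact h4
      have h5 : κ c (S.σ b) = 0 := hc _ hb.2
      nth_rw 1 [e2]
      rw [map_neg, map_add, LinearMap.neg_apply, LinearMap.add_apply, h3, h5]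
      simp
    rw [h2] at h1
    simp at h1
  have hac : a + c = 0 := by rw [hb0, add_zero] at e; exact e
  have ha0 : a = 0 := H.nb_h ha (by
    have : a = -c := eq_neg_of_add_eq_zero_left hac
    rw [this]; exact neg_mem (H.perp c hc))
  refine ⟨ha0, hb0, ?_⟩
  rw [ha0, zero_add] at hac
  exact hac

/-- `(n + nb)^⊥ ⊆ k_C` -/
lemma Hyp.perp_mem_k {Y : L} (h1 : ∀ X, Perp h X → κ X Y = 0)
    (h2 : ∀ X, Perp h (S.σ X) → κ X Y = 0) : Y ∈ kS S h := by
  have hnd := LieAlgebra.IsKilling.killingForm_nondegenerate ℂ L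
  have hrefl := (LieModule.traceForm_isSymm ℂ L L).isRefl
  have key : ∀ W : L, (∀ X, Perp h X → κ X W = 0) → W ∈ h := by
    intro W hW
    have h3 := LinearMap.BilinForm.orthogonal_orthogonal hnd hrefl h.toSubmodule
    have h4 : W ∈ (killingForm ℂ L).orthogonal ((killingForm ℂ L).orthogonal h.toSubmodule) := by
      rw [LinearMap.BilinForm.mem_orthogonal_iff]
      intro X hX
      rw [LinearMap.BilinForm.mem_orthogonal_iff] at hX
      exact hW X fun Z hZ => by rw [B_comm]; exact hX Z hZ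
    rw [h3] at h4
    exact h4
  refine ⟨key Y h1, key _ fun X hX => ?_⟩
  have h3 := killing_conj S (S.σ X) Y
  rw [S.inv] at h3
  rw [h3, h2 (S.σ X) (by rwa [S.inv]), map_zero]

lemma Hyp.decomp (X : L) : ∃ a b c, Perp h (S.σ a) ∧ b ∈ kS S h ∧ Perp h c ∧ X = a + b + c := by
  have hnd := LieAlgebra.IsKilling.killingForm_nondegenerate ℂ L
  have hrefl := (LieModule.traceForm_isSymm ℂ L L).isRefl
  set K := kS S h with hK
  set N := nS h ⊔ nbS S h with hN
  have h1 : (killingForm ℂ L).orthogonal N ≤ K := by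
    intro Y hY
    rw [LinearMap.BilinForm.mem_orthogonal_iff] at hY
    exact H.perp_mem_k (fun Z hZ => hY Z (Submodule.mem_sup_left hZ))
      (fun Z hZ => hY Z (Submodule.mem_sup_right hZ))
  have h2 : (killingForm ℂ L).orthogonal K ≤ N := by
    have := LinearMap.BilinForm.orthogonal_le (B := killingForm ℂ L) h1
    rwa [LinearMap.BilinForm.orthogonal_orthogonal hnd hrefl] at this
  have h3 : Disjoint K ((killingForm ℂ L).orthogonal K) := by
    rw [Submodule.disjoint_def]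
    intro Y hY hY'
    by_contra h0
    have h4 := H.neg hY h0
    rw [LinearMap.BilinForm.mem_orthogonal_iff] at hY'
    have h5 : κ (S.σ Y) Y = 0 := hY' _ (σ_kS S h hY)
    rw [B_comm, h5] at h4
    simp at h4
  have h6 : IsCompl K ((killingForm ℂ L).orthogonal K) :=
    (LinearMap.BilinForm.isCompl_orthogonal_iff_disjoint hrefl).mpr h3
  have h7 : X ∈ K ⊔ (killingForm ℂ L).orthogonal K := by rw [h6.sup_eq_top]; trivial
  obtain ⟨b, hb, w, hw, rfl⟩ := Submodule.mem_sup.mp h7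
  obtain ⟨c, hc, a, ha, rfl⟩ := Submodule.mem_sup.mp (h2 hw)
  exact ⟨a, b, c, ha, hb, hc, by abel⟩

/-- the Koszul element -/
lemma Hyp.exists_M : ∃ M : L, (∀ Y, δ Y = - κ M Y) ∧ S.σ M = -M ∧ M ∈ kS S h ∧
    ∀ Y ∈ kS S h, ⁅M, Y⁆ = 0 := by
  have hnd := LieAlgebra.IsKilling.killingForm_nondegenerate ℂ L
  set M := -((killingForm ℂ L).toDual hnd).symm δ with hM
  have h1 : ∀ Y, δ Y = - κ M Y := by
    intro Y
    rw [hM, map_neg, LinearMap.neg_apply, neg_neg]
    exact (LinearMap.BilinForm.apply_toDual_symm_apply (hB := hnd) δ Y).symm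
  have hδnb : ∀ Y, Perp h (S.σ Y) → δ Y = 0 := by
    intro Y hY
    have h2 := H.dsig (S.σ Y)
    rw [S.inv, H.dperp _ hY, map_zero, neg_zero] at h2
    exact h2
  have hMk : M ∈ kS S h := by
    refine H.perp_mem_k (fun X hX => ?_) (fun X hX => ?_)
    · have := h1 X
      rw [H.dperp X hX] at this
      rw [B_comm]; simpa using this.symm
    · have := h1 X
      rw [hδnb X hX] at this
      rw [B_comm]; simpa using this.symm
  have hσM : S.σ M = -M := by
    rw [← sub_eq_zero, sub_neg_eq_add]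
    apply killing_nondeg
    intro Y
    have h2 : κ (S.σ M) Y = conj (κ M (S.σ Y)) := by
      have := killing_conj S M (S.σ Y)
      rwa [S.inv] at this
    have h3 : κ M (S.σ Y) = - δ (S.σ Y) := by rw [h1]; ring
    rw [map_add, LinearMap.add_apply, h2, h3, H.dsig, neg_neg, Complex.conj_conj, h1]
    ring
  refine ⟨M, h1, hσM, hMk, fun Y hY => ?_⟩
  apply killing_nondeg
  intro W
  obtain ⟨a, b, c, ha, hb, hc, rfl⟩ := H.decomp W
  have h2 : κ ⁅M, Y⁆ (a + b + c) = - δ ⁅Y, a + b + c⁆ := by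
    rw [B_inv, h1]; ring
  have h3 : δ ⁅Y, b + c⁆ = 0 := H.dh Y hY.1 _ (add_mem hb.1 (H.perp c hc))
  have h4 : δ ⁅Y, a⁆ = 0 := hδnb _ (lie_k_nb S h hY.2 ha)
  rw [h2, add_assoc, lie_add, map_add, h3, h4]
  simp

/-- `I • M` is a fixed element of `h`, so `ad M` is diagonalisable with real eigenvalues -/
lemma Hyp.M_real {M : L} (hσ : S.σ M = -M) (hM : M ∈ kS S h) (μ : ℂ) (v : L)
    (hv : ⁅M, ⁅M, v⁆⁆ - (2 * μ) • ⁅M, v⁆ + (μ * μ) • v = 0) :
    ⁅M, v⁆ = μ • v ∧ (v ≠ 0 → μ.im = 0) := by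
  have hA : (Complex.I • M) ∈ h := h.smul_mem _ hM.1
  have hσA : S.σ (Complex.I • M) = Complex.I • M := by
    rw [S.smul, Complex.conj_I, hσ, neg_smul, smul_neg, neg_neg]
  have hI : Complex.I * Complex.I = -1 := Complex.I_mul_I
  have h1 := H.ss _ hA hσA (Complex.I * μ) v (by
    rw [smul_lie, smul_lie, lie_smul, smul_smul, smul_smul, hI]
    have e1 : 2 * (Complex.I * μ) * Complex.I = -(2 * μ) := by linear_combination (2 * μ) * hI
    have e2 : Complex.I * μ * (Complex.I * μ) = -(μ * μ) := by linear_combination (μ * μ) * hI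
    rw [e1, e2]
    have : (-1 : ℂ) • ⁅M, ⁅M, v⁆⁆ - (-(2 * μ)) • ⁅M, v⁆ + (-(μ * μ)) • v
        = -(⁅M, ⁅M, v⁆⁆ - (2 * μ) • ⁅M, v⁆ + (μ * μ) • v) := by
      rw [neg_one_smul, neg_smul, neg_smul]; abel
    rw [this, hv, neg_zero])
  constructor
  · have h2 := h1.1
    rw [smul_lie, mul_smul] at h2
    exact smul_right_injective L Complex.I_ne_zero h2
  · intro hne
    have := h1.2 hne
    simpa using this

lemma Hyp.M_top {M : L} (hσ : S.σ M = -M) (hM : M ∈ kS S h) :
    (⨆ r : ℝ, Module.End.eigenspace (LieAlgebra.ad ℂ L M) (r : ℂ)) = ⊤ := by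
  have hss : SS (LieAlgebra.ad ℂ L M : End ℂ L) := fun μ v hv => (H.M_real hσ hM μ v hv).1
  rw [eq_top_iff, ← hss.iSup_eq_top]
  refine iSup_le fun μ => ?_
  intro v hv
  by_cases h0 : v = 0
  · rw [h0]; exact zero_mem _
  have hv1 : ⁅M, v⁆ = μ • v := Module.End.mem_eigenspace_iff.mp hv
  have him : μ.im = 0 := (H.M_real hσ hM μ v (by
    rw [hv1, lie_smul, hv1, smul_smul, smul_smul, two_mul, add_mul, add_smul]; abel)).2 h0
  have hμ : μ = ((μ.re : ℝ) : ℂ) := by apply Complex.ext <;> simp [him]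
  rw [hμ] at hv
  exact Submodule.mem_iSup_of_mem μ.re hv

lemma Hyp.sign {M : L} (hδ : ∀ Y, δ Y = - κ M Y) {r : ℝ} {Y : L} (hY : Perp h (S.σ Y))
    (hMY : ⁅M, Y⁆ = (r : ℂ) • Y) (h0 : Y ≠ 0) : 0 < r * (κ Y (S.σ Y)).re := by
  have h1 := H.lev Y hY (fun hh => h0 (H.nb_h hY hh))
  rw [hδ, neg_neg, ← B_inv, hMY, map_smul, LinearMap.smul_apply, smul_eq_mul,
    Complex.re_ofReal_mul] at h1
  exact h1

/-- splitting of an eigenvector -/
lemma Hyp.split {M : L} (hM : M ∈ kS S h) (hk : ∀ Y ∈ kS S h, ⁅M, Y⁆ = 0)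
    {r : ℝ} {X : L} (hX : ⁅M, X⁆ = (r : ℂ) • X) :
    ∃ a b c, Perp h (S.σ a) ∧ b ∈ kS S h ∧ Perp h c ∧ X = a + b + c ∧
      ⁅M, a⁆ = (r : ℂ) • a ∧ (r : ℂ) • b = 0 ∧ ⁅M, c⁆ = (r : ℂ) • c := by
  obtain ⟨a, b, c, ha, hb, hc, rfl⟩ := H.decomp X
  have ha' : Perp h (S.σ (⁅M, a⁆ - (r : ℂ) • a)) :=
    (nbS S h).sub_mem (lie_k_nb S h hM.2 ha) ((nbS S h).smul_mem _ ha)
  have hc' : Perp h (⁅M, c⁆ - (r : ℂ) • c) :=
    (nS h).sub_mem (lie_k_n h hM.1 hc) ((nS h).smul_mem _ hc)
  have hb' : (-((r : ℂ) • b)) ∈ kS S h := (kS S h).neg_mem ((kS S h).smul_mem _ hb)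
  obtain ⟨h1, h2, h3⟩ := H.indep ha' hb' hc' (by
    rw [lie_add, lie_add, hk b hb, smul_add, smul_add] at hX
    have : ⁅M, a⁆ - (r : ℂ) • a + -((r : ℂ) • b) + (⁅M, c⁆ - (r : ℂ) • c)
        = (⁅M, a⁆ + 0 + ⁅M, c⁆) - ((r : ℂ) • a + (r : ℂ) • b + (r : ℂ) • c) := by abel
    rw [this, hX, sub_self])
  exact ⟨a, b, c, ha, hb, hc, rfl, sub_eq_zero.mp h1, neg_eq_zero.mp h2, sub_eq_zero.mp h3⟩

theorem main_of (hmax : MaxProp S) (hgr : GrProp S) : Concl S h := by
  obtain ⟨M, hδ, hσM, hMk, hk⟩ := H.exists_M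
  have hσlie : ∀ (r : ℝ) (Y : L), ⁅M, Y⁆ = (r : ℂ) • Y → ⁅M, S.σ Y⁆ = ((-r : ℝ) : ℂ) • S.σ Y := by
    intro r Y hY
    have h1 := congrArg S.σ hY
    rw [S.lie, hσM, S.smul, Complex.conj_ofReal, neg_lie] at h1
    rw [neg_eq_iff_eq_neg.mp h1]
    push_cast
    rw [neg_smul]
  -- `L_0 = k`
  have hL0 : ∀ X : L, ⁅M, X⁆ = 0 → X ∈ kS S h := by
    intro X hX
    obtain ⟨a, b, c, ha, hb, hc, rfl, h1, -, h3⟩ := H.split hMk hk (r := 0) (X := X) (by
      rw [hX]; simp)
    have ha0 : a = 0 := by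
      by_contra h0
      have := H.sign hδ ha h1 h0
      simp at this
    have hc0 : c = 0 := by
      by_contra h0
      have h4 := hσlie 0 c h3
      have h5 : Perp h (S.σ (S.σ c)) := by rwa [S.inv]
      have := H.sign hδ (r := -0) h5 h4 (fun h6 => h0 (S.eq_zero h6))
      simp at this
    rw [ha0, hc0, zero_add, add_zero]
    exact hb
  -- (f) no negative eigenvalue on `nb`
  have hf : ∀ r : ℝ, r < 0 → ∀ Y : L, Perp h (S.σ Y) → ⁅M, Y⁆ = (r : ℂ) • Y → Y = 0 := by
    intro r hr Y hY hMY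
    by_contra h0
    set V : Submodule ℂ L := nbS S h ⊓ Module.End.eigenspace (LieAlgebra.ad ℂ L M) (r : ℂ) with hV
    have hVm : ∀ y, y ∈ V ↔ Perp h (S.σ y) ∧ ⁅M, y⁆ = (r : ℂ) • y := by
      intro y
      rw [hV, Submodule.mem_inf, Module.End.mem_eigenspace_iff]
      rfl
    have hVne : V ≠ ⊥ := by
      intro hbot
      apply h0
      have : Y ∈ V := (hVm Y).mpr ⟨hY, hMY⟩
      rw [hbot] at this
      simpa using this
    have hneg : ∀ y ∈ V, y ≠ 0 → (κ y (S.σ y)).re < 0 := by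
      intro y hy hy0
      have h1 := H.sign hδ ((hVm y).mp hy).1 ((hVm y).mp hy).2 hy0
      nlinarith
    have hh0 : ∀ y ∈ V, ⁅y, S.σ y⁆ ∈ kS S h := by
      intro y hy
      apply hL0
      have h1 := ((hVm y).mp hy).2
      have h2 := hσlie r y h1
      rw [leibniz_lie, h1, h2, smul_lie, lie_smul, ← add_smul]
      simp
    obtain ⟨y, hy, hy0, l, hl1, hl2⟩ := hmax (-1) (Or.inr rfl) V hVne
      (fun y hy hy0 => by have := hneg y hy hy0; linarith)
      (fun y hy w hw => by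
        have h1 := hh0 y hy
        refine (hVm _).mpr ⟨lie_k_nb S h h1.2 ((hVm w).mp hw).1, ?_⟩
        rw [leibniz_lie, hk _ h1, zero_lie, zero_add, ((hVm w).mp hw).2, lie_smul])
    have h1 := hh0 y hy
    have h2 : ⁅y, S.σ y⁆ ≠ 0 := by
      intro h3
      have h4 : κ M ⁅y, S.σ y⁆ = (r : ℂ) * κ y (S.σ y) := by
        rw [← B_inv, ((hVm y).mp hy).2, map_smul, LinearMap.smul_apply, smul_eq_mul]
      rw [h3, map_zero] at h4
      have h5 := congrArg Complex.re h4
      rw [Complex.re_ofReal_mul] at h5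
      have h6 := hneg y hy hy0
      simp only [Complex.zero_re] at h5
      nlinarith
    have h3 := H.neg h1 h2
    have h4 : S.σ ⁅y, S.σ y⁆ = -⁅y, S.σ y⁆ := by rw [S.lie, S.inv, ← lie_skew]
    rw [h4, map_neg, Complex.neg_re] at h3
    have h5 := hneg y hy hy0
    have hl : l < 0 := by
      by_contra hcon
      push Not at hcon
      nlinarith
    exact H.nocurve y l ((hVm y).mp hy).1
      (fun hh => hy0 (H.nb_h ((hVm y).mp hy).1 hh)) hl h1.1 hl1
  -- location of the eigenspaces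
  have hpos' : ∀ r : ℝ, 0 < r → ∀ Y : L, ⁅M, Y⁆ = (r : ℂ) • Y → Perp h (S.σ Y) := by
    intro r hr Y hY
    obtain ⟨a, b, c, ha, hb, hc, rfl, h1, h2, h3⟩ := H.split hMk hk hY
    have hb0 : b = 0 := by
      rcases smul_eq_zero.mp h2 with h4 | h4
      · exact absurd (by exact_mod_cast h4) hr.ne'
      · exact h4
    have hc0 : c = 0 := S.eq_zero (hf (-r) (by linarith) (S.σ c) (by rwa [S.inv]) (hσlie r c h3))
    rw [hb0, hc0, add_zero, add_zero]
    exact ha
  have hneg' : ∀ r : ℝ, r < 0 → ∀ Y : L, ⁅M, Y⁆ = (r : ℂ) • Y → Perp h Y := by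
    intro r hr Y hY
    have := hpos' (-r) (by linarith) (S.σ Y) (hσlie r Y hY)
    rwa [S.inv] at this
  have hP : ∀ r : ℝ, r ≠ 0 → ∀ Y : L, ⁅M, Y⁆ = (r : ℂ) • Y → Y ≠ 0 → 0 < (κ Y (S.σ Y)).re := by
    intro r hr Y hY h0
    rcases lt_or_gt_of_ne hr with h1 | h1
    · have h2 := hσlie r Y hY
      have h3 := hpos' (-r) (by linarith) (S.σ Y) h2
      have h4 := H.sign hδ h3 h2 (fun h6 => h0 (S.eq_zero h6))
      rw [S.inv, B_comm] at h4
      by_contra h5
      push Not at h5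
      nlinarith
    · have h4 := H.sign hδ (hpos' r h1 Y hY) hY h0
      by_contra h5
      push Not at h5
      nlinarith
  obtain ⟨Z, hσZ, hMZ, hZ⟩ := hgr M hσM (H.M_top hσM hMk) hP
    (fun Y hY h0 => H.neg (hL0 Y hY) h0)
    (fun A hA hσA => H.ss A (hL0 A hA).1 hσA)
  refine ⟨⟨Z, (hL0 Z hMZ).1, hσZ, fun Y hY => ?_⟩, fun X => ?_⟩
  · -- `nb` is spanned by its eigenvectors
    have hst : ∀ x ∈ nbS S h, (LieAlgebra.ad ℂ L M) x ∈ nbS S h := fun x hx =>
      lie_k_nb S h hMk.2 hx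
    have hss : SS (LieAlgebra.ad ℂ L M : End ℂ L) := fun μ v hv => (H.M_real hσM hMk μ v hv).1
    have h1 := Submodule.inf_iSup_genEigenspace hst 1
    have h2 : (⨆ μ, Module.End.genEigenspace (LieAlgebra.ad ℂ L M) μ 1) = ⊤ := hss.iSup_eq_top
    rw [h2, inf_top_eq] at h1
    have h3 : Y ∈ ⨆ μ, nbS S h ⊓ Module.End.genEigenspace (LieAlgebra.ad ℂ L M) μ 1 := by
      rw [← h1]; exact hY
    clear hY h1
    induction h3 using Submodule.iSup_induction' with
    | mem μ v hv =>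
      by_cases h0 : v = 0
      · rw [h0]; simp
      have hv1 : ⁅M, v⁆ = μ • v := Module.End.mem_eigenspace_iff.mp hv.2
      have him : μ.im = 0 := (H.M_real hσM hMk μ v (by
        rw [hv1, lie_smul, hv1, smul_smul, smul_smul, two_mul, add_mul, add_smul]; abel)).2 h0
      have hμ : μ = ((μ.re : ℝ) : ℂ) := by apply Complex.ext <;> simp [him]
      rw [hμ] at hv1
      have hr : 0 < μ.re := by
        rcases lt_trichotomy μ.re 0 with h4 | h4 | h4
        · exact absurd (hf _ h4 v hv.1 hv1) h0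
        · exfalso
          have := H.sign hδ hv.1 hv1 h0
          rw [h4, zero_mul] at this
          exact lt_irrefl _ this
        · exact h4
      exact hZ _ hr v hv1
    | zero => simp
    | add x y _ _ hx hy => rw [lie_add, hx, hy, smul_add]
  · obtain ⟨a, b, c, ha, hb, hc, rfl⟩ := H.decomp X
    exact ⟨b + c, add_mem hb.1 (H.perp c hc), a, ha, by abel⟩

end Main

end Crest.Agent.R264.DA
end

-- ▼ part R264/DAGr
section

/-!
Row 264, Part D, D8alg: the graded unit ((g), (h)): `nb` is abelian and the complex structure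
element `Z` exists.
-/

set_option autoImplicit false
set_option linter.unusedSectionVars false

open scoped ComplexConjugate
open Module

namespace Crest.Agent.R264.DA

variable {L : Type*} [LieRing L] [LieAlgebra ℂ L]

local notation "κ" => killingForm ℂ L

section

variable [FiniteDimensional ℂ L] [LieAlgebra.IsKilling ℂ L]
variable {S : Conj L} {M : L}

lemma gr_lie {a b : L} {r s : ℝ} (ha : ⁅M, a⁆ = (r : ℂ) • a) (hb : ⁅M, b⁆ = (s : ℂ) • b) :
    ⁅M, ⁅a, b⁆⁆ = ((r + s : ℝ) : ℂ) • ⁅a, b⁆ := by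
  rw [leibniz_lie, ha, hb, smul_lie, lie_smul, ← add_smul]; push_cast; rfl

lemma gr_σ (hσ : S.σ M = -M) {a : L} {r : ℝ} (ha : ⁅M, a⁆ = (r : ℂ) • a) :
    ⁅M, S.σ a⁆ = ((-r : ℝ) : ℂ) • S.σ a := by
  have h1 := congrArg S.σ ha
  rw [S.lie, hσ, S.smul, Complex.conj_ofReal, neg_lie] at h1
  rw [neg_eq_iff_eq_neg.mp h1]
  push_cast
  rw [neg_smul]

lemma gr_orth {a b : L} {r s : ℝ} (ha : ⁅M, a⁆ = (r : ℂ) • a) (hb : ⁅M, b⁆ = (s : ℂ) • b)
    (hrs : r + s ≠ 0) : κ a b = 0 := by
  have h1 : κ ⁅M, a⁆ b = - κ a ⁅M, b⁆ := B_inv' M a b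
  rw [ha, hb, map_smul, map_smul, LinearMap.smul_apply, smul_eq_mul, smul_eq_mul] at h1
  have h2 : (((r + s : ℝ)) : ℂ) * κ a b = 0 := by push_cast; linear_combination h1
  rcases mul_eq_zero.mp h2 with h3 | h3
  · exact absurd (by exact_mod_cast h3) hrs
  · exact h3

/-- induction over the eigenspace decomposition -/
lemma gr_ind (hdiag : (⨆ r : ℝ, Module.End.eigenspace (LieAlgebra.ad ℂ L M) (r : ℂ)) = ⊤)
    {P : L → Prop} (h0 : P 0) (hadd : ∀ x y, P x → P y → P (x + y))
    (h : ∀ (r : ℝ) (v : L), ⁅M, v⁆ = (r : ℂ) • v → P v) (v : L) : P v := by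
  have hv : v ∈ ⨆ r : ℝ, Module.End.eigenspace (LieAlgebra.ad ℂ L M) (r : ℂ) := by
    rw [hdiag]; trivial
  induction hv using Submodule.iSup_induction' with
  | mem r v hv => exact h r v (Module.End.mem_eigenspace_iff.mp hv)
  | zero => exact h0
  | add x y _ _ hx hy => exact hadd x y hx hy

/-- (g): `nb` is abelian -/
theorem gr_abelian (hmax : MaxProp S) (hσ : S.σ M = -M)
    (hpos : ∀ r : ℝ, r ≠ 0 → ∀ Y : L, ⁅M, Y⁆ = (r : ℂ) • Y → Y ≠ 0 → 0 < (κ Y (S.σ Y)).re)
    (hneg : ∀ Y : L, ⁅M, Y⁆ = 0 → Y ≠ 0 → (κ Y (S.σ Y)).re < 0)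
    (him : ∀ A : L, ⁅M, A⁆ = 0 → S.σ A = A → ImDiag A) :
    ∀ (r s : ℝ), 0 < r → 0 < s → ∀ a b : L, ⁅M, a⁆ = (r : ℂ) • a → ⁅M, b⁆ = (s : ℂ) • b →
      ⁅a, b⁆ = 0 := by
  by_contra hcon
  push Not at hcon
  set T : Set ℝ := {μ | ∃ r s : ℝ, 0 < r ∧ 0 < s ∧ r + s = μ ∧ ∃ a b : L,
    ⁅M, a⁆ = (r : ℂ) • a ∧ ⁅M, b⁆ = (s : ℂ) • b ∧ ⁅a, b⁆ ≠ 0} with hT
  have hTne : T.Nonempty := by
    obtain ⟨r, s, hr, hs, a, b, ha, hb, hab⟩ := hcon
    exact ⟨r + s, r, s, hr, hs, rfl, a, b, ha, hb, hab⟩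
  have hTfin : T.Finite := by
    have h1 : (fun μ : ℝ => (μ : ℂ)) '' T ⊆
        {μ : ℂ | (LieAlgebra.ad ℂ L M : End ℂ L).HasEigenvalue μ} := by
      rintro _ ⟨μ, ⟨r, s, hr, hs, rfl, a, b, ha, hb, hab⟩, rfl⟩
      exact Module.End.hasEigenvalue_of_hasEigenvector (x := ⁅a, b⁆)
        ⟨Module.End.mem_eigenspace_iff.mpr (gr_lie ha hb), hab⟩
    have h2 : {μ : ℂ | (LieAlgebra.ad ℂ L M : End ℂ L).HasEigenvalue μ}.Finite :=
      Module.End.finite_hasEigenvalue _
    exact (h2.subset h1).of_finite_image (Complex.ofReal_injective.injOn)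
  obtain ⟨μ1, hμ1, hmaxT⟩ := hTfin.exists_maximal hTne
  have hmaxT' : ∀ ν ∈ T, ν ≤ μ1 := fun ν hν => by
    by_contra hlt
    push Not at hlt
    exact absurd (hmaxT hν hlt.le) (not_le.mpr hlt)
  obtain ⟨r0, s0, hr0, hs0, hrs0, a0, b0, ha0, hb0, hab0⟩ := hμ1
  have hμpos : 0 < μ1 := by linarith
  set V : Submodule ℂ L := Submodule.span ℂ {v | ∃ r s : ℝ, 0 < r ∧ 0 < s ∧ r + s = μ1 ∧
    ∃ a b : L, ⁅M, a⁆ = (r : ℂ) • a ∧ ⁅M, b⁆ = (s : ℂ) • b ∧ ⁅a, b⁆ = v} with hV
  have hVne : V ≠ ⊥ := by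
    intro hbot
    have : ⁅a0, b0⁆ ∈ V := Submodule.subset_span ⟨r0, s0, hr0, hs0, hrs0, a0, b0, ha0, hb0, rfl⟩
    rw [hbot] at this
    exact hab0 (by simpa using this)
  have hVeig : ∀ v ∈ V, ⁅M, v⁆ = (μ1 : ℂ) • v := by
    intro v hv
    induction hv using Submodule.span_induction with
    | mem v hv =>
      obtain ⟨r, s, hr, hs, hrs, a, b, ha, hb, rfl⟩ := hv
      rw [← hrs]; exact gr_lie ha hb
    | zero => simp
    | add x y _ _ hx hy => rw [lie_add, hx, hy, smul_add]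
    | smul c x _ hx => rw [lie_smul, hx, smul_comm]
  -- `[V, E ν] = 0`, `ν > 0`
  have hVcomm : ∀ v ∈ V, ∀ (ν : ℝ) (w : L), 0 < ν → ⁅M, w⁆ = (ν : ℂ) • w → ⁅v, w⁆ = 0 := by
    intro v hv ν w hν hw
    by_contra h0
    have := hmaxT' (μ1 + ν) ⟨μ1, ν, hμpos, hν, rfl, v, w, hVeig v hv, hw, h0⟩
    linarith
  -- `V` is stable under `E 0`
  have hVst : ∀ x : L, ⁅M, x⁆ = 0 → ∀ v ∈ V, ⁅x, v⁆ ∈ V := by
    intro x hx v hv
    have hx' : ⁅M, x⁆ = ((0 : ℝ) : ℂ) • x := by rw [hx]; simp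
    induction hv using Submodule.span_induction with
    | mem v hv =>
      obtain ⟨r, s, hr, hs, hrs, a, b, ha, hb, rfl⟩ := hv
      rw [leibniz_lie]
      refine Submodule.add_mem _ (Submodule.subset_span ?_) (Submodule.subset_span ?_)
      · refine ⟨r, s, hr, hs, hrs, ⁅x, a⁆, b, ?_, hb, rfl⟩
        have := gr_lie hx' ha
        rwa [zero_add] at this
      · refine ⟨r, s, hr, hs, hrs, a, ⁅x, b⁆, ha, ?_, rfl⟩
        have := gr_lie hx' hb
        rwa [zero_add] at this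
    | zero => simp
    | add a b _ _ ha hb => rw [lie_add]; exact Submodule.add_mem _ ha hb
    | smul c a _ ha => rw [lie_smul]; exact Submodule.smul_mem _ _ ha
  have hh0 : ∀ y ∈ V, ⁅M, ⁅y, S.σ y⁆⁆ = 0 := by
    intro y hy
    have := gr_lie (hVeig y hy) (gr_σ hσ (hVeig y hy))
    simpa using this
  obtain ⟨y, hy, hy0, l, hl1, hl2⟩ := hmax 1 (Or.inl rfl) V hVne
    (fun y hy hy0 => by rw [one_mul]; exact hpos μ1 hμpos.ne' y (hVeig y hy) hy0)
    (fun y hy w hw => hVst _ (hh0 y hy) w hw)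
  set hh := ⁅y, S.σ y⁆ with hhh
  have hMy := hVeig y hy
  have hMσy := gr_σ hσ hMy
  have hMh : ⁅M, hh⁆ = 0 := hh0 y hy
  have hβ := hpos μ1 hμpos.ne' y hMy hy0
  have hhne : hh ≠ 0 := by
    intro h3
    have h4 : κ M hh = (μ1 : ℂ) * κ y (S.σ y) := by
      rw [hhh, ← B_inv, hMy, map_smul, LinearMap.smul_apply, smul_eq_mul]
    rw [h3, map_zero] at h4
    have h5 := congrArg Complex.re h4
    rw [Complex.re_ofReal_mul] at h5
    simp only [Complex.zero_re] at h5
    nlinarith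
  have hσh : S.σ hh = -hh := by rw [hhh, S.lie, S.inv, ← lie_skew]
  have hl : 0 < l := by
    have h3 := hneg hh hMh hhne
    rw [hσh, map_neg, Complex.neg_re] at h3
    by_contra hcon
    push Not at hcon
    nlinarith
  have hlc : (l : ℂ) ≠ 0 := by exact_mod_cast hl.ne'
  have hhσy : ⁅hh, S.σ y⁆ = -((l : ℂ) • S.σ y) := by
    have h1 := congrArg S.σ hl1
    rw [S.lie, hσh, S.smul, Complex.conj_ofReal, neg_lie] at h1
    exact neg_eq_iff_eq_neg.mp h1
  have hsl : IsSl2Triple ((2 / (l : ℂ)) • hh) y ((2 / (l : ℂ)) • S.σ y) := by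
    refine ⟨?_, ?_, ?_, ?_⟩
    · exact smul_ne_zero (div_ne_zero two_ne_zero hlc) hhne
    · rw [lie_smul]
    · rw [smul_lie, hl1, smul_smul, div_mul_cancel₀ _ hlc, ← Nat.cast_smul_eq_nsmul ℂ 2 y]
      norm_num
    · rw [smul_lie, lie_smul, hhσy, smul_neg, smul_neg, ← Nat.cast_smul_eq_nsmul ℂ 2, smul_smul,
        smul_smul, smul_smul]
      congr 2
      field_simp
      norm_num
  -- ad hh is diagonalisable
  have hss : SS (LieAlgebra.ad ℂ L hh : End ℂ L) := by
    have hA : S.σ (Complex.I • hh) = Complex.I • hh := by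
      rw [S.smul, Complex.conj_I, hσh, neg_smul, smul_neg, neg_neg]
    have hMA : ⁅M, Complex.I • hh⁆ = 0 := by rw [lie_smul, hMh, smul_zero]
    have hI : Complex.I * Complex.I = -1 := Complex.I_mul_I
    intro μ v hv
    have hv' : ⁅hh, ⁅hh, v⁆⁆ - (2 * μ) • ⁅hh, v⁆ + (μ * μ) • v = 0 := hv
    have h1 := (him _ hMA hA (Complex.I * μ) v (by
      rw [smul_lie, smul_lie, lie_smul, smul_smul, smul_smul, hI]
      have e1 : 2 * (Complex.I * μ) * Complex.I = -(2 * μ) := by linear_combination (2 * μ) * hI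
      have e2 : Complex.I * μ * (Complex.I * μ) = -(μ * μ) := by linear_combination (μ * μ) * hI
      rw [e1, e2]
      have : (-1 : ℂ) • ⁅hh, ⁅hh, v⁆⁆ - (-(2 * μ)) • ⁅hh, v⁆ + (-(μ * μ)) • v
          = -(⁅hh, ⁅hh, v⁆⁆ - (2 * μ) • ⁅hh, v⁆ + (μ * μ) • v) := by
        rw [neg_one_smul, neg_smul, neg_smul]; abel
      rw [this, hv', neg_zero])).1
    rw [smul_lie, mul_smul] at h1
    exact smul_right_injective L Complex.I_ne_zero h1
  -- `[σ y, E ν] = 0` for `ν > 0`, `ν ≠ μ1`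
  have hkill : ∀ (ν : ℝ) (w : L), 0 < ν → ν ≠ μ1 → ⁅M, w⁆ = (ν : ℂ) • w → ⁅S.σ y, w⁆ = 0 := by
    intro ν w hν hνμ hw
    set W : Submodule ℂ L := Module.End.eigenspace (LieAlgebra.ad ℂ L M) (ν : ℂ) with hW
    have hst : ∀ x ∈ W, (LieAlgebra.ad ℂ L hh) x ∈ W := by
      intro x hx
      rw [hW, Module.End.mem_eigenspace_iff] at hx ⊢
      have hx' : ⁅M, x⁆ = (ν : ℂ) • x := hx
      change ⁅M, ⁅hh, x⁆⁆ = (ν : ℂ) • ⁅hh, x⁆
      rw [leibniz_lie, hMh, zero_lie, zero_add, hx', lie_smul]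
    have h1 := Submodule.inf_iSup_genEigenspace hst 1
    have h2 : (⨆ μ, Module.End.genEigenspace (LieAlgebra.ad ℂ L hh) μ 1) = ⊤ := hss.iSup_eq_top
    rw [h2, inf_top_eq] at h1
    have h3 : w ∈ ⨆ μ, W ⊓ Module.End.genEigenspace (LieAlgebra.ad ℂ L hh) μ 1 := by
      rw [← h1]; exact Module.End.mem_eigenspace_iff.mpr hw
    clear hw h1
    induction h3 using Submodule.iSup_induction' with
    | mem c v hv =>
      have hv1 : ⁅M, v⁆ = (ν : ℂ) • v := Module.End.mem_eigenspace_iff.mp hv.1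
      have hv2 : ⁅hh, v⁆ = c • v := Module.End.mem_eigenspace_iff.mp hv.2
      by_contra h0
      have hv0 : v ≠ 0 := by rintro rfl; simp at h0
      have hyv : ⁅y, v⁆ = 0 := hVcomm y hy ν v hν hv1
      have hprim : hsl.HasPrimitiveVectorWith v ((2 / (l : ℂ)) * c) :=
        ⟨hv0, by rw [smul_lie, hv2, smul_smul], hyv⟩
      obtain ⟨n, hn⟩ := hprim.exists_nat
      have hc : c = ((l * n / 2 : ℝ) : ℂ) := by
        push_cast
        rw [← hn]
        field_simp
      have hM2 : ⁅M, ⁅S.σ y, v⁆⁆ = ((-μ1 + ν : ℝ) : ℂ) • ⁅S.σ y, v⁆ := gr_lie hMσy hv1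
      have h5 := hpos (-μ1 + ν) (fun h6 => hνμ (by linarith)) _ hM2 h0
      have h6 : κ ⁅S.σ y, v⁆ (S.σ ⁅S.σ y, v⁆) = -(c * κ v (S.σ v)) := by
        rw [S.lie, S.inv, ← B_inv, ← lie_skew ⁅S.σ y, v⁆ y, leibniz_lie, hyv, lie_zero, add_zero,
          ← hhh, hv2, map_neg, LinearMap.neg_apply, map_smul, LinearMap.smul_apply, smul_eq_mul]
      rw [h6, hc, Complex.neg_re, Complex.re_ofReal_mul] at h5
      have h7 := hpos ν hν.ne' v hv1 hv0
      have h8 : 0 ≤ l * n / 2 := by positivity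
      nlinarith
    | zero => simp
    | add x z _ _ hx hz => rw [lie_add, hx, hz, add_zero]
  -- contradiction
  have hzero : ∀ v ∈ V, κ v (S.σ y) = 0 := by
    intro v hv
    induction hv using Submodule.span_induction with
    | mem v hv =>
      obtain ⟨r, s, hr, hs, hrs, a, b, ha, hb, rfl⟩ := hv
      rw [B_inv, ← lie_skew, hkill s b hs (by linarith) hb, neg_zero, map_zero]
    | zero => simp
    | add a b _ _ ha hb => rw [map_add, LinearMap.add_apply, ha, hb, add_zero]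
    | smul c a _ ha => rw [map_smul, LinearMap.smul_apply, ha, smul_zero]
  rw [hzero y hy] at hβ
  simp at hβ

/-- `ε(r) = - i sgn r` -/
noncomputable def eps (z : ℂ) : ℂ := if 0 < z.re then -Complex.I else if z.re < 0 then Complex.I else 0

lemma eps_pos {r : ℝ} (h : 0 < r) : eps (r : ℂ) = -Complex.I := by simp [eps, h]
lemma eps_neg {r : ℝ} (h : r < 0) : eps (r : ℂ) = Complex.I := by
  simp [eps, h, not_lt.mpr h.le]
lemma eps_zero : eps ((0 : ℝ) : ℂ) = 0 := by simp [eps]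

lemma eps_conj (r : ℝ) : conj (eps ((-r : ℝ) : ℂ)) = eps (r : ℂ) := by
  rcases lt_trichotomy r 0 with h | h | h
  · rw [eps_neg h, eps_pos (by linarith)]; simp
  · subst h; simp [eps]
  · rw [eps_pos h, eps_neg (by linarith)]; simp

theorem gr_main (hmax : MaxProp S) : GrProp S := by
  intro M hσ hdiag hpos hneg him
  have hab := gr_abelian hmax hσ hpos hneg him
  have hab' : ∀ (r s : ℝ), r < 0 → s < 0 → ∀ a b : L, ⁅M, a⁆ = (r : ℂ) • a →
      ⁅M, b⁆ = (s : ℂ) • b → ⁅a, b⁆ = 0 := by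
    intro r s hr hs a b ha hb
    apply S.eq_zero
    rw [S.lie]
    exact hab (-r) (-s) (by linarith) (by linarith) _ _ (gr_σ hσ ha) (gr_σ hσ hb)
  -- mixed brackets live in degree zero
  have hmix : ∀ (r s : ℝ), 0 < r → s < 0 → r + s ≠ 0 → ∀ a b : L, ⁅M, a⁆ = (r : ℂ) • a →
      ⁅M, b⁆ = (s : ℂ) • b → ⁅a, b⁆ = 0 := by
    intro r s hr hs hrs a b ha hb
    apply killing_nondeg
    intro x
    refine gr_ind (M := M) hdiag (P := fun x => κ ⁅a, b⁆ x = 0) (by simp)
      (fun x y hx hy => by rw [map_add, hx, hy, add_zero]) (fun t x hx => ?_) x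
    rcases lt_trichotomy t 0 with ht | ht | ht
    · rw [B_inv, hab' s t hs ht b x hb hx, map_zero]
    · refine gr_orth (gr_lie ha hb) hx ?_
      rw [ht, add_zero]; exact hrs
    · have h1 : κ ⁅b, a⁆ x = 0 := by rw [B_inv, hab r t hr ht a x ha hx, map_zero]
      rw [← lie_skew, map_neg, LinearMap.neg_apply, h1, neg_zero]
  -- the derivation
  set f : End ℂ L := LieAlgebra.ad ℂ L M with hf
  have hfin : {μ : ℂ | f.HasEigenvalue μ}.Finite := Module.End.finite_hasEigenvalue f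
  set p : Polynomial ℂ := Lagrange.interpolate hfin.toFinset id eps with hp
  set D : End ℂ L := Polynomial.aeval f p with hD
  have hDv : ∀ (r : ℝ) (v : L), ⁅M, v⁆ = (r : ℂ) • v → D v = eps (r : ℂ) • v := by
    intro r v hv
    by_cases h0 : v = 0
    · rw [h0]; simp
    have hev : f.HasEigenvector (r : ℂ) v := ⟨Module.End.mem_eigenspace_iff.mpr hv, h0⟩
    have h1 : (r : ℂ) ∈ hfin.toFinset := by
      rw [Set.Finite.mem_toFinset]
      exact Module.End.hasEigenvalue_of_hasEigenvector hev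
    have h2 : p.eval (r : ℂ) = eps (r : ℂ) := by
      have := Lagrange.eval_interpolate_at_node (v := id) (r := eps)
        (Function.injective_id.injOn) h1
      exact this
    rw [hD, Module.End.aeval_apply_of_hasEigenvector hev, h2]
  have hleib : ∀ a b : L, D ⁅a, b⁆ = ⁅a, D b⁆ - ⁅b, D a⁆ := by
    intro a
    refine gr_ind (M := M) hdiag (P := fun b => D ⁅a, b⁆ = ⁅a, D b⁆ - ⁅b, D a⁆) (by simp)
      (fun x y hx hy => by rw [lie_add, map_add, hx, hy, map_add, lie_add, add_lie]; abel) ?_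
    intro s b hb
    refine gr_ind (M := M) hdiag (P := fun a => D ⁅a, b⁆ = ⁅a, D b⁆ - ⁅b, D a⁆) (by simp)
      (fun x y hx hy => by rw [add_lie, map_add, hx, hy, map_add, lie_add, add_lie]; abel) ?_ a
    intro r a ha
    rw [hDv _ _ (gr_lie ha hb), hDv s b hb, hDv r a ha, lie_smul, lie_smul, ← lie_skew b a,
      smul_neg, sub_neg_eq_add, ← add_smul]
    rcases lt_trichotomy r 0 with hr | hr | hr
    · rcases lt_trichotomy s 0 with hs | hs | hs
      · rw [hab' r s hr hs a b ha hb]; simp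
      · subst hs; rw [add_zero, eps_zero, zero_add]
      · by_cases hrs : r + s = 0
        · rw [hrs, eps_neg hr, eps_pos hs, eps_zero]; simp
        · have : ⁅b, a⁆ = 0 := hmix s r hs hr (by rwa [add_comm]) b a hb ha
          rw [← lie_skew, this]; simp
    · subst hr
      rw [zero_add, eps_zero, add_zero]
    · rcases lt_trichotomy s 0 with hs | hs | hs
      · by_cases hrs : r + s = 0
        · rw [hrs, eps_pos hr, eps_neg hs, eps_zero]; simp
        · rw [hmix r s hr hs hrs a b ha hb]; simp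
      · subst hs; rw [add_zero, eps_zero, zero_add]
      · rw [hab r s hr hs a b ha hb]; simp
  let DD : LieDerivation ℂ L L := ⟨D, hleib⟩
  obtain ⟨Z, hZ⟩ := LieDerivation.IsKilling.exists_eq_ad DD
  have hZv : ∀ v : L, ⁅Z, v⁆ = D v := by
    intro v
    have := congrArg (fun d : LieDerivation ℂ L L => d v) hZ
    have h2 : ⁅Z, v⁆ = DD v := by simpa using this
    exact h2
  refine ⟨Z, ?_, ?_, ?_⟩
  · rw [← sub_eq_zero]
    apply eq_zero_of_lie
    refine gr_ind (M := M) hdiag (by simp) (fun x y hx hy => by rw [lie_add, hx, hy, add_zero]) ?_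
    intro r v hv
    have h1 : ⁅S.σ Z, v⁆ = S.σ ⁅Z, S.σ v⁆ := by rw [S.lie, S.inv]
    rw [sub_lie, h1, hZv, hZv, hDv _ _ (gr_σ hσ hv), hDv r v hv, S.smul, S.inv, eps_conj, sub_self]
  · rw [← lie_skew, hZv, hDv 0 M (by simp), eps_zero]; simp
  · intro r hr Y hY
    rw [hZv, hDv r Y hY, eps_pos hr]

end

end Crest.Agent.R264.DA
end

-- ▼ part R264/DAFin

/-!
Row 264, Part D: node D8alg, final statement.
-/

set_option autoImplicit false

namespace Crest.Agent.R264

namespace DA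

theorem maxProp {L : Type*} [LieRing L] [LieAlgebra ℂ L] [FiniteDimensional ℂ L] (S : Conj L) :
    MaxProp S := fun s hs V hV hpos hst =>
  exists_maximizer S (killing_conj S) s hs V hV hpos hst

/-- **The algebra unit.** -/
theorem main {L : Type*} [LieRing L] [LieAlgebra ℂ L] [FiniteDimensional ℂ L]
    [LieAlgebra.IsKilling ℂ L] (S : Conj L) (h : LieSubalgebra ℂ L) (δ : L →ₗ[ℂ] ℂ)
    (H : Hyp S h δ) : Concl S h :=
  main_of H (maxProp S) (gr_main (maxProp S))

end DA

theorem dAlg : DAlgStmt := by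
  intro g _ _ _ _ h δ H
  exact DA.main (CX.cc g) h δ H

end Crest.Agent.R264
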