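import Mathlib
import Crest.Agent.R264.TopDefs
import Crest.Agent.R266.SCV
import Crest.Agent.R264.AutLem
import Crest.Agent.R264.MontelU
import Crest.Agent.R264.CartanU
import Crest.Agent.R264.DIface

-- ▼ part R264/AutDefs
section

/-!
Row 264 (S0402), part D3: definitions around complete holomorphic vector fields (helper938).
`AutPair`, `IsAut`, `IsFlow` (pointwise generator), `IsComplete` are those of `TopDefs`.
-/

set_option autoImplicit false

open Set Filter Topology

namespace Crest.Agent.R264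

variable {E : Type*} [NormedAddCommGroup E] [NormedSpace ℂ E]

/-- locally uniform version of `IsFlow` (equivalent to it for holomorphic `X`). -/
structure LFlow (D : Set E) (X : E → E) (φ : ℝ → E → E) : Prop where
  hol : ∀ t, DifferentiableOn ℂ (φ t) D
  maps : ∀ t, MapsTo (φ t) D D
  zero : ∀ x ∈ D, φ 0 x = x
  add : ∀ s t, ∀ x ∈ D, φ (s + t) x = φ s (φ t x)
  lgen : TendstoLocallyUniformlyOn (fun (t : ℝ) x => t⁻¹ • (φ t x - x)) X (𝓝[≠] (0 : ℝ)) D

/-- the set of complete holomorphic vector fields on `D`, normalised to vanish outside `D`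
(it will be a real Lie algebra of finite dimension) -/
def gSet (D : Set E) : Set (E → E) := {X | IsComplete D X ∧ ∀ x ∉ D, X x = 0}

/-- the bracket `[X,Y] = DY.X - DX.Y` on `D`, extended by zero -/
noncomputable def brk (D : Set E) (X Y : E → E) : E → E := by
  classical exact fun x => if x ∈ D then fderiv ℂ Y x (X x) - fderiv ℂ X x (Y x) else 0

/-- push-forward of a vector field by an automorphism `f` of `D` with inverse `h`
(extended by zero) -/
noncomputable def push (D : Set E) (f h : E → E) (X : E → E) : E → E := by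
  classical exact fun y => if y ∈ D then fderiv ℂ f (h y) (X (h y)) else 0

lemma brk_of_mem {D : Set E} {X Y : E → E} {x : E} (hx : x ∈ D) :
    brk D X Y x = fderiv ℂ Y x (X x) - fderiv ℂ X x (Y x) := by simp [brk, hx]

lemma brk_of_notMem {D : Set E} {X Y : E → E} {x : E} (hx : x ∉ D) :
    brk D X Y x = 0 := by simp [brk, hx]

lemma push_of_mem {D : Set E} {f h X : E → E} {y : E} (hy : y ∈ D) :
    push D f h X y = fderiv ℂ f (h y) (X (h y)) := by simp [push, hy]

lemma push_of_notMem {D : Set E} {f h X : E → E} {y : E} (hy : y ∉ D) :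
    push D f h X y = 0 := by simp [push, hy]

end Crest.Agent.R264
end

-- ▼ part R264/FlowLoc
section

/-!
Row 264, part D3 (helper938): local estimates for flows of holomorphic vector fields.
-/

set_option autoImplicit false

open Set Filter Topology Metric

namespace Crest.Agent.R264

variable {E : Type*} [NormedAddCommGroup E] [NormedSpace ℂ E]

/-- local data: a closed ball inside `D` on which `X` is bounded and Lipschitz -/
lemma exists_good [FiniteDimensional ℂ E] {D : Set E} (hD : IsOpen D) {X : E → E}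
    (hX : DifferentiableOn ℂ X D) {x₀ : E} (hx₀ : x₀ ∈ D) :
    ∃ r M : ℝ, ∃ K : NNReal, 0 < r ∧ 0 < M ∧ closedBall x₀ (2 * r) ⊆ D ∧
      (∀ y ∈ closedBall x₀ (2 * r), ‖X y‖ ≤ M) ∧ LipschitzOnWith K X (closedBall x₀ (2 * r)) := by
  have hA : AnalyticOnNhd ℂ X D := R266.SCV.analyticOnNhd_of_differentiableOn hD hX
  have h1 : ContDiffAt ℂ 1 X x₀ := (hA x₀ hx₀).contDiffAt
  obtain ⟨K, t, ht, hK⟩ := h1.exists_lipschitzOnWith
  have h2 : ∀ᶠ y in 𝓝 x₀, ‖X y‖ < ‖X x₀‖ + 1 :=
    h1.continuousAt.norm.eventually (gt_mem_nhds (lt_add_one _))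
  have h3 : ∀ᶠ y in 𝓝 x₀, y ∈ t ∧ y ∈ D ∧ ‖X y‖ < ‖X x₀‖ + 1 := by
    filter_upwards [ht, hD.mem_nhds hx₀, h2] with y h4 h5 h6 using ⟨h4, h5, h6⟩
  obtain ⟨ρ, hρ, hsub⟩ := Metric.nhds_basis_closedBall.mem_iff.1 h3
  refine ⟨ρ / 2, ‖X x₀‖ + 1, K, by positivity, by positivity, ?_, ?_, ?_⟩
  · intro y hy
    rw [mul_div_cancel₀ _ two_ne_zero] at hy
    exact (hsub hy).2.1
  · intro y hy
    rw [mul_div_cancel₀ _ two_ne_zero] at hy
    exact (hsub hy).2.2.le
  · refine hK.mono (fun y hy => ?_)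
    rw [mul_div_cancel₀ _ two_ne_zero] at hy
    exact (hsub hy).1

section Flow

variable {D : Set E} {X : E → E} {φ : ℝ → E → E}

lemma IsFlow.hasDerivAt' (h : IsFlow D X φ) {x : E} (hx : x ∈ D) (t : ℝ) :
    HasDerivAt (fun s => φ s x) (X (φ t x)) t := by
  have h1 := h.gen (φ t x) (h.maps t hx)
  have h2 : HasDerivAt (fun s : ℝ => φ (s - t) (φ t x)) (X (φ t x)) t := by
    have h3 : HasDerivAt (fun s => φ s (φ t x)) (X (φ t x)) (t - t) := by simpa using h1
    have h4 : HasDerivAt (fun s : ℝ => s - t) 1 t := (hasDerivAt_id t).sub_const t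
    simpa [Function.comp_def] using HasDerivAt.scomp (h := fun s : ℝ => s - t) t h3 h4
  refine h2.congr_of_eventuallyEq (Filter.Eventually.of_forall (fun s => ?_))
  change φ s x = φ (s - t) (φ t x)
  rw [← h.add _ _ x hx]
  congr 1
  ring

/-- reversed flow -/
lemma IsFlow.rev (h : IsFlow D X φ) : IsFlow D (fun x => - X x) (fun t => φ (-t)) where
  hol t := h.hol _
  maps t := h.maps _
  zero x hx := by simpa using h.zero x hx
  add s t x hx := by
    rw [neg_add, h.add _ _ x hx]
  gen x hx := by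
    have h1 : HasDerivAt (fun s => φ s x) (X x) (-(0 : ℝ)) := by simpa using h.gen x hx
    simpa [Function.comp_def] using h1.scomp (0 : ℝ) (hasDerivAt_neg (0 : ℝ))

/-- rescaled flow -/
lemma IsFlow.smul (h : IsFlow D X φ) (c : ℝ) :
    IsFlow D (fun x => c • X x) (fun t => φ (c * t)) where
  hol t := h.hol _
  maps t := h.maps _
  zero x hx := by simpa using h.zero x hx
  add s t x hx := by
    rw [mul_add, h.add _ _ x hx]
  gen x hx := by
    have h1 : HasDerivAt (fun s => φ s x) (X x) (c * 0) := by simpa using h.gen x hx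
    have h2 : HasDerivAt (fun t : ℝ => c * t) c 0 := by
      simpa using (hasDerivAt_id (0 : ℝ)).const_mul c
    exact h1.scomp (0 : ℝ) h2

/-- forward speed bound -/
lemma IsFlow.norm_sub_le_pos (h : IsFlow D X φ) {x₀ : E} {r M : ℝ}
    (hsub : closedBall x₀ (2 * r) ⊆ D) (hM : ∀ y ∈ closedBall x₀ (2 * r), ‖X y‖ ≤ M)
    (hr : 0 < r) {M' : ℝ} (hM' : M < M') (hM'0 : 0 < M') {x : E} (hx : x ∈ closedBall x₀ r)
    {t : ℝ} (ht : 0 ≤ t) (htr : t * M' ≤ r) : ‖φ t x - x‖ ≤ M' * t := by
  have hxD : x ∈ D := hsub (closedBall_subset_closedBall (by linarith) hx)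
  have hd : ∀ s : ℝ, HasDerivAt (fun s => φ s x - x) (X (φ s x)) s := fun s =>
    (h.hasDerivAt' hxD s).sub_const x
  have key := image_norm_le_of_norm_deriv_right_lt_deriv_boundary (a := 0) (b := t)
    (f := fun s => φ s x - x) (f' := fun s => X (φ s x)) (B := fun s => M' * s)
    (B' := fun _ => M')
    (fun s _ => (hd s).continuousAt.continuousWithinAt)
    (fun s _ => (hd s).hasDerivWithinAt) (by simp [h.zero x hxD])
    (fun s => by simpa using (hasDerivAt_id s).const_mul M') ?_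
  · exact key ⟨ht, le_rfl⟩
  · intro s hs heq
    refine lt_of_le_of_lt (hM _ ?_) hM'
    rw [mem_closedBall] at hx ⊢
    calc dist (φ s x) x₀ ≤ dist (φ s x) x + dist x x₀ := dist_triangle _ _ _
      _ ≤ r + r := by
        refine add_le_add ?_ hx
        rw [dist_eq_norm, heq]
        calc M' * s ≤ M' * t := by
              exact mul_le_mul_of_nonneg_left hs.2.le hM'0.le
          _ = t * M' := mul_comm _ _
          _ ≤ r := htr
      _ = 2 * r := by ring

/-- forward second order estimate -/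
lemma IsFlow.taylor_pos (h : IsFlow D X φ) {x₀ : E} {r M : ℝ} {K : NNReal}
    (hsub : closedBall x₀ (2 * r) ⊆ D) (hM : ∀ y ∈ closedBall x₀ (2 * r), ‖X y‖ ≤ M)
    (hK : LipschitzOnWith K X (closedBall x₀ (2 * r)))
    (hr : 0 < r) {M' : ℝ} (hM' : M < M') (hM'0 : 0 < M') {x : E} (hx : x ∈ closedBall x₀ r)
    {t : ℝ} (ht : 0 ≤ t) (htr : t * M' ≤ r) : ‖φ t x - x - t • X x‖ ≤ K * M' * t ^ 2 := by
  have hxD : x ∈ D := hsub (closedBall_subset_closedBall (by linarith) hx)
  have hd : ∀ s : ℝ, HasDerivAt (fun s : ℝ => φ s x - s • X x) (X (φ s x) - X x) s := fun s => by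
    have h1 : HasDerivAt (fun s : ℝ => s • X x) ((1 : ℝ) • X x) s :=
      (hasDerivAt_id s).smul_const _
    have h2 := (h.hasDerivAt' hxD s).sub h1
    rw [one_smul] at h2
    exact h2
  have hbd : ∀ s ∈ Ico (0 : ℝ) t, ‖X (φ s x) - X x‖ ≤ K * (M' * t) := by
    intro s hs
    have hsr : s * M' ≤ r := (mul_le_mul_of_nonneg_right hs.2.le hM'0.le).trans htr
    have h1 := h.norm_sub_le_pos hsub hM hr hM' hM'0 hx hs.1 hsr
    have h2 : φ s x ∈ closedBall x₀ (2 * r) := by
      rw [mem_closedBall] at hx ⊢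
      calc dist (φ s x) x₀ ≤ dist (φ s x) x + dist x x₀ := dist_triangle _ _ _
        _ ≤ r + r := by
          refine add_le_add ?_ hx
          rw [dist_eq_norm]
          linarith
        _ = 2 * r := by ring
    have h3 : x ∈ closedBall x₀ (2 * r) := closedBall_subset_closedBall (by linarith) hx
    calc ‖X (φ s x) - X x‖ ≤ K * ‖φ s x - x‖ := by
          simpa [dist_eq_norm] using hK.dist_le_mul _ h2 _ h3
      _ ≤ K * (M' * t) := by
          refine mul_le_mul_of_nonneg_left ?_ K.2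
          exact h1.trans (mul_le_mul_of_nonneg_left hs.2.le hM'0.le)
  have key := norm_image_sub_le_of_norm_deriv_le_segment' (a := 0) (b := t)
    (f := fun s : ℝ => φ s x - s • X x) (f' := fun s => X (φ s x) - X x) (C := K * (M' * t))
    (fun s _ => (hd s).hasDerivWithinAt) hbd t ⟨ht, le_rfl⟩
  simp only [zero_smul, sub_zero, h.zero x hxD] at key
  have e1 : φ t x - x - t • X x = φ t x - t • X x - x := by abel
  rw [e1]
  refine key.trans (le_of_eq ?_)
  ring

/-- a uniform second order estimate near a point, both directions of time -/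
lemma IsFlow.taylor [FiniteDimensional ℂ E] (h : IsFlow D X φ) (hD : IsOpen D)
    (hX : DifferentiableOn ℂ X D) {x₀ : E} (hx₀ : x₀ ∈ D) :
    ∃ r δ C : ℝ, 0 < r ∧ 0 < δ ∧ 0 ≤ C ∧ closedBall x₀ (2 * r) ⊆ D ∧
      ∀ x ∈ closedBall x₀ r, ∀ t : ℝ, |t| ≤ δ →
        ‖φ t x - x‖ ≤ C * |t| ∧ φ t x ∈ closedBall x₀ (2 * r) ∧
        ‖φ t x - x - t • X x‖ ≤ C * t ^ 2 := by
  obtain ⟨r, M, K, hr, hM0, hsub, hM, hK⟩ := exists_good hD hX hx₀
  have hM1 : M < M + 1 := lt_add_one M
  have hM10 : 0 < M + 1 := by linarith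
  have hXn : ∀ y ∈ closedBall x₀ (2 * r), ‖(fun x => - X x) y‖ ≤ M := by
    intro y hy; simpa using hM y hy
  have hKn : LipschitzOnWith K (fun x => - X x) (closedBall x₀ (2 * r)) := by
    intro a ha b hb
    simpa using hK ha hb
  refine ⟨r, r / (M + 1), max (M + 1) (K * (M + 1)), hr, by positivity, by positivity, hsub, ?_⟩
  intro x hx t ht
  have hball : ∀ y, ‖y - x‖ ≤ (M + 1) * |t| → y ∈ closedBall x₀ (2 * r) := by
    intro y hy
    rw [mem_closedBall] at hx ⊢
    have h1 : (M + 1) * |t| ≤ r := by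
      rw [le_div_iff₀ hM10] at ht
      linarith
    calc dist y x₀ ≤ dist y x + dist x x₀ := dist_triangle _ _ _
      _ ≤ r + r := add_le_add (by rw [dist_eq_norm]; linarith) hx
      _ = 2 * r := by ring
  rcases le_total 0 t with h0 | h0
  · rw [abs_of_nonneg h0] at ht hball ⊢
    have htr : t * (M + 1) ≤ r := by rwa [le_div_iff₀ hM10] at ht
    have h1 := h.norm_sub_le_pos hsub hM hr hM1 hM10 hx h0 htr
    have h2 := h.taylor_pos hsub hM hK hr hM1 hM10 hx h0 htr
    refine ⟨h1.trans (mul_le_mul_of_nonneg_right (le_max_left _ _) h0), hball _ h1,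
      h2.trans (mul_le_mul_of_nonneg_right (le_max_right _ _) (sq_nonneg t))⟩
  · rw [abs_of_nonpos h0] at ht hball ⊢
    have h0' : 0 ≤ -t := by linarith
    have htr : (-t) * (M + 1) ≤ r := by rwa [le_div_iff₀ hM10] at ht
    have h1 := h.rev.norm_sub_le_pos hsub hXn hr hM1 hM10 hx h0' htr
    have h2 := h.rev.taylor_pos hsub hXn hKn hr hM1 hM10 hx h0' htr
    simp only [neg_neg, smul_neg, neg_smul] at h1 h2
    refine ⟨h1.trans (mul_le_mul_of_nonneg_right (le_max_left _ _) h0'), hball _ h1, ?_⟩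
    have h3 : (-t) ^ 2 = t ^ 2 := by ring
    rw [h3] at h2
    exact h2.trans (mul_le_mul_of_nonneg_right (le_max_right _ _) (sq_nonneg t))

/-- pointwise generator + holomorphy => locally uniform generator -/
theorem IsFlow.lflow [FiniteDimensional ℂ E] (h : IsFlow D X φ) (hD : IsOpen D)
    (hX : DifferentiableOn ℂ X D) : LFlow D X φ where
  hol := h.hol
  maps := h.maps
  zero := h.zero
  add := h.add
  lgen := by
    rw [Metric.tendstoLocallyUniformlyOn_iff]
    intro ε hε x₀ hx₀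
    obtain ⟨r, δ, C, hr, hδ, hC, hsub, hest⟩ := h.taylor hD hX hx₀
    refine ⟨closedBall x₀ r, mem_nhdsWithin_of_mem_nhds (closedBall_mem_nhds _ hr), ?_⟩
    have h1 : ∀ᶠ t in 𝓝[≠] (0 : ℝ), |t| ≤ δ ∧ C * |t| < ε := by
      have h2 : ∀ᶠ t in 𝓝 (0 : ℝ), |t| < δ ∧ C * |t| < ε := by
        have hc : ContinuousAt (fun t : ℝ => |t|) 0 := by fun_prop
        have hc2 : ContinuousAt (fun t : ℝ => C * |t|) 0 := by fun_prop
        refine (hc.eventually (gt_mem_nhds (by simpa using hδ))).and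
          (hc2.eventually (gt_mem_nhds (by simpa using hε)))
      exact (h2.mono (fun t ht => ⟨ht.1.le, ht.2⟩)).filter_mono nhdsWithin_le_nhds
    filter_upwards [h1, self_mem_nhdsWithin] with t ht ht0 x hx
    have ht0' : t ≠ 0 := ht0
    have h3 := (hest x hx t ht.1).2.2
    rw [dist_eq_norm]
    have h4 : X x - t⁻¹ • (φ t x - x) = -(t⁻¹ • (φ t x - x - t • X x)) := by
      rw [smul_sub t⁻¹ (φ t x - x), smul_smul, inv_mul_cancel₀ ht0', one_smul]
      abel
    rw [h4, norm_neg, norm_smul, norm_inv, Real.norm_eq_abs]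
    have htp : 0 < |t| := abs_pos.2 ht0'
    calc |t|⁻¹ * ‖φ t x - x - t • X x‖ ≤ |t|⁻¹ * (C * t ^ 2) := by gcongr
      _ = C * |t| := by
        rw [← sq_abs t]
        field_simp
      _ < ε := ht.2

theorem LFlow.isFlow (h : LFlow D X φ) : IsFlow D X φ where
  hol := h.hol
  maps := h.maps
  zero := h.zero
  add := h.add
  gen x hx := by
    rw [hasDerivAt_iff_tendsto_slope]
    have h1 := h.lgen.tendsto_at hx
    refine h1.congr' ?_
    filter_upwards [self_mem_nhdsWithin] with t ht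
    simp [slope_def_module, h.zero x hx]

theorem LFlow.differentiableOn [FiniteDimensional ℂ E] (h : LFlow D X φ) (hD : IsOpen D) :
    DifferentiableOn ℂ X D := by
  refine (R266.SCV.analyticOnNhd_of_tendstoLocallyUniformlyOn hD h.lgen
    (Filter.Eventually.of_forall (fun t => ?_))).differentiableOn
  exact ((h.hol t).sub differentiableOn_id).const_smul (t⁻¹ : ℝ)


end Flow

end Crest.Agent.R264
end

-- ▼ part R264/EulerLim
section

/-!
Row 264, part D3 (helper938): the Euler limit lemma (CV).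
-/

set_option autoImplicit false

open Set Filter Topology Metric

namespace Crest.Agent.R264

variable {E : Type*} [NormedAddCommGroup E] [NormedSpace ℂ E]

/-- Montel along an ultrafilter, for self maps of `D` -/
def MontelU (D : Set E) : Prop :=
  ∀ (U : Ultrafilter ℕ) (f : ℕ → E → E), (∀ k, DifferentiableOn ℂ (f k) D) →
    (∀ k, MapsTo (f k) D D) → ∃ F : E → E, TendstoLocallyUniformlyOn f F (U : Filter ℕ) D

/-- Cartan's theorem on limits of automorphisms, along any filter -/
def AutLimU (D : Set E) : Prop :=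
  ∀ (U : Filter ℕ) [U.NeBot] (f g : ℕ → E → E) (F : E → E) (p : E),
    (∀ k, AutPair D (f k) (g k)) → TendstoLocallyUniformlyOn f F U D → p ∈ D → F p ∈ D →
    ∃ G : E → E, AutPair D F G ∧ TendstoLocallyUniformlyOn g G U D

section comp

variable {ι : Type*} {α β γ : Type*} [TopologicalSpace α] [PseudoMetricSpace β]
  [PseudoMetricSpace γ]

/-- locally uniform convergence of compositions -/
theorem tlu_comp {F : ι → β → γ} {f : β → γ} {G : ι → α → β} {g : α → β} {l : Filter ι}
    {s : Set α} {t : Set β} (ht : IsOpen t) (hF : TendstoLocallyUniformlyOn F f l t)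
    (hf : ContinuousOn f t) (hG : TendstoLocallyUniformlyOn G g l s) (hg : ContinuousOn g s)
    (hst : MapsTo g s t) : TendstoLocallyUniformlyOn (fun k x => F k (G k x)) (fun x => f (g x))
      l s := by
  rw [Metric.tendstoLocallyUniformlyOn_iff] at *
  intro ε hε x hx
  obtain ⟨V, hV, hFV⟩ := hF (ε / 2) (half_pos hε) (g x) (hst hx)
  rw [ht.nhdsWithin_eq (hst hx)] at hV
  have hfc : ContinuousAt f (g x) := hf.continuousAt (ht.mem_nhds (hst hx))
  have hV2 : ∀ᶠ y in 𝓝 (g x), y ∈ V ∧ dist (f y) (f (g x)) < ε / 4 := by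
    filter_upwards [hV, Metric.tendsto_nhds.1 hfc (ε / 4) (by positivity)] with y h1 h2
      using ⟨h1, h2⟩
  obtain ⟨δ, hδ, hδV⟩ := Metric.nhds_basis_ball.mem_iff.1 hV2
  obtain ⟨W, hW, hGW⟩ := hG (δ / 2) (half_pos hδ) x hx
  have hgc : ∀ᶠ y in 𝓝[s] x, dist (g y) (g x) < δ / 2 :=
    Metric.tendsto_nhds.1 (hg x hx) (δ / 2) (half_pos hδ)
  refine ⟨W ∩ {y | dist (g y) (g x) < δ / 2}, inter_mem hW hgc, ?_⟩
  filter_upwards [hFV, hGW] with k h1 h2 y hy
  have h3 : dist (g y) (G k y) < δ / 2 := h2 y hy.1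
  have h4 : G k y ∈ ball (g x) δ := by
    rw [mem_ball]
    calc dist (G k y) (g x) ≤ dist (G k y) (g y) + dist (g y) (g x) := dist_triangle _ _ _
      _ < δ / 2 + δ / 2 := add_lt_add (by rwa [dist_comm]) hy.2
      _ = δ := add_halves δ
  have h5 : g y ∈ ball (g x) δ := by
    rw [mem_ball]
    exact hy.2.trans (half_lt_self hδ)
  have h6 := hδV h4
  have h7 := hδV h5
  calc dist (f (g y)) (F k (G k y))
      ≤ dist (f (g y)) (f (g x)) + dist (f (g x)) (f (G k y)) + dist (f (G k y)) (F k (G k y)) :=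
        dist_triangle4 _ _ _ _
    _ < ε / 4 + ε / 4 + ε / 2 := by
        refine add_lt_add (add_lt_add h7.2 ?_) (h1 _ h6.1)
        rw [dist_comm]; exact h6.2
    _ = ε := by ring

end comp

section Euler

variable {D : Set E} {X : E → E}

/-- discrete Euler estimate -/
lemma euler_est {x₀ : E} {r M ε m : ℝ} {K : NNReal} {f : E → E}
    (hM : ∀ y ∈ closedBall x₀ (2 * r), ‖X y‖ ≤ M)
    (hK : LipschitzOnWith K X (closedBall x₀ (2 * r))) (hM0 : 0 ≤ M) (hr : 0 < r)
    (hε : 0 ≤ ε) (hε1 : ε ≤ 1) (hm : 0 < m)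
    (hf : ∀ y ∈ closedBall x₀ (2 * r), ‖m • (f y - y) - X y‖ ≤ ε)
    {x : E} (hx : x ∈ closedBall x₀ r) (j : ℕ) (hj : j / m * (M + 1) ≤ r) :
    ‖f^[j] x - x‖ ≤ j / m * (M + 1) ∧
      ‖f^[j] x - x - (j / m) • X x‖ ≤ j / m * (ε + K * (j / m * (M + 1))) := by
  have hxx : x ∈ closedBall x₀ (2 * r) := closedBall_subset_closedBall (by linarith) hx
  have hball : ∀ y, ‖y - x‖ ≤ r → y ∈ closedBall x₀ (2 * r) := by
    intro y hy
    rw [mem_closedBall] at hx ⊢
    calc dist y x₀ ≤ dist y x + dist x x₀ := dist_triangle _ _ _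
      _ ≤ r + r := add_le_add (by rwa [dist_eq_norm]) hx
      _ = 2 * r := by ring
  induction j with
  | zero => simp
  | succ j ih =>
    have hj' : (j : ℝ) / m * (M + 1) ≤ r := by
      refine le_trans ?_ hj
      push_cast
      gcongr
      linarith
    obtain ⟨h1, h2⟩ := ih hj'
    set y := f^[j] x with hy
    have hyB : y ∈ closedBall x₀ (2 * r) := hball y (h1.trans hj')
    have hstep : ‖m • (f y - y) - X y‖ ≤ ε := hf y hyB
    have hs1 : ‖f y - y‖ ≤ 1 / m * (M + 1) := by
      have h3 : ‖m • (f y - y)‖ ≤ M + 1 := by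
        calc ‖m • (f y - y)‖ = ‖(m • (f y - y) - X y) + X y‖ := by congr 1; abel
          _ ≤ ‖m • (f y - y) - X y‖ + ‖X y‖ := norm_add_le _ _
          _ ≤ 1 + M := add_le_add (hstep.trans hε1) (hM y hyB)
          _ = M + 1 := by ring
      rw [norm_smul, Real.norm_eq_abs, abs_of_pos hm] at h3
      rw [one_div, ← div_eq_inv_mul, le_div_iff₀ hm]
      linarith
    rw [Function.iterate_succ_apply', ← hy]
    have hjm : ((j + 1 : ℕ) : ℝ) / m = j / m + 1 / m := by push_cast; ring
    rw [hjm]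
    constructor
    · calc ‖f y - x‖ = ‖(f y - y) + (y - x)‖ := by congr 1; abel
        _ ≤ ‖f y - y‖ + ‖y - x‖ := norm_add_le _ _
        _ ≤ 1 / m * (M + 1) + j / m * (M + 1) := add_le_add hs1 h1
        _ = (j / m + 1 / m) * (M + 1) := by ring
    · have hKy : ‖X y - X x‖ ≤ K * (j / m * (M + 1)) := by
        calc ‖X y - X x‖ ≤ K * ‖y - x‖ := by
              simpa [dist_eq_norm] using hK.dist_le_mul _ hyB _ hxx
          _ ≤ K * (j / m * (M + 1)) := by gcongr
      have h4 : ‖f y - y - (1 / m) • X x‖ ≤ 1 / m * (ε + K * (j / m * (M + 1))) := by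
        have h5 : f y - y - (1 / m) • X x
            = (1 / m) • ((m • (f y - y) - X y) + (X y - X x)) := by
          rw [smul_add, smul_sub (1 / m), smul_smul, one_div, inv_mul_cancel₀ hm.ne', one_smul,
            smul_sub m⁻¹]
          abel
        rw [h5, norm_smul, Real.norm_eq_abs, abs_of_pos (by positivity)]
        gcongr
        exact (norm_add_le _ _).trans (add_le_add hstep hKy)
      calc ‖f y - x - (j / m + 1 / m) • X x‖
          = ‖(f y - y - (1 / m) • X x) + (y - x - (j / m) • X x)‖ := by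
            congr 1; rw [add_smul]; abel
        _ ≤ 1 / m * (ε + K * (j / m * (M + 1))) + j / m * (ε + K * (j / m * (M + 1))) :=
            (norm_add_le _ _).trans (add_le_add h4 h2)
        _ = (j / m + 1 / m) * (ε + K * (j / m * (M + 1))) := by ring
        _ ≤ (j / m + 1 / m) * (ε + K * ((j / m + 1 / m) * (M + 1))) := by
            gcongr
            have : 0 ≤ 1 / m := by positivity
            linarith

/-- limit form: if `f_k^{[m_k t]} → Φ` along `U` then `Φ` satisfies the second order estimate -/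
lemma euler_limit_est {x₀ : E} {r M : ℝ} {K : NNReal}
    (hM : ∀ y ∈ closedBall x₀ (2 * r), ‖X y‖ ≤ M)
    (hK : LipschitzOnWith K X (closedBall x₀ (2 * r))) (hM0 : 0 ≤ M) (hr : 0 < r)
    {f : ℕ → E → E} {m : ℕ → ℝ} {l : Filter ℕ} [l.NeBot] (hl : l ≤ atTop)
    (hm : Tendsto m atTop atTop)
    (hf : ∀ ε > 0, ∀ᶠ k in atTop, ∀ y ∈ closedBall x₀ (2 * r), ‖m k • (f k y - y) - X y‖ ≤ ε)
    {x : E} (hx : x ∈ closedBall x₀ r) {t : ℝ} (ht : 0 ≤ t) (htr : t * (M + 1) ≤ r) {y : E}
    (hy : Tendsto (fun k => (f k)^[⌊m k * t⌋₊] x) l (𝓝 y)) :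
    ‖y - x‖ ≤ t * (M + 1) ∧ ‖y - x - t • X x‖ ≤ K * (M + 1) * t ^ 2 := by
  have hmt : Tendsto (fun k => (⌊m k * t⌋₊ : ℝ) / m k) l (𝓝 t) := by
    have h1 : Tendsto (fun k => (⌊t * m k⌋₊ : ℝ) / m k) atTop (𝓝 t) :=
      (tendsto_nat_floor_mul_div_atTop ht).comp hm
    refine (h1.congr (fun k => ?_)).mono_left hl
    rw [mul_comm]
  have hmpos : ∀ᶠ k in l, 0 < m k := hl (hm.eventually (eventually_gt_atTop 0))
  have hle : ∀ᶠ k in l, (⌊m k * t⌋₊ : ℝ) / m k ≤ t := by
    filter_upwards [hmpos] with k hk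
    rw [div_le_iff₀ hk, mul_comm]
    exact Nat.floor_le (by positivity)
  have key : ∀ ε > 0, ε ≤ 1 → ∀ᶠ k in l, ‖(f k)^[⌊m k * t⌋₊] x - x‖ ≤ t * (M + 1) ∧
      ‖(f k)^[⌊m k * t⌋₊] x - x - ((⌊m k * t⌋₊ : ℝ) / m k) • X x‖
        ≤ t * (ε + K * (t * (M + 1))) := by
    intro ε hε hε1
    filter_upwards [hmpos, hle, hl (hf ε hε)] with k h1 h2 h3
    have h4 : (⌊m k * t⌋₊ : ℝ) / m k * (M + 1) ≤ t * (M + 1) := by gcongr
    obtain ⟨h5, h6⟩ := euler_est hM hK hM0 hr hε.le hε1 h1 h3 hx ⌊m k * t⌋₊ (h4.trans htr)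
    have h7 : 0 ≤ (⌊m k * t⌋₊ : ℝ) / m k := by positivity
    refine ⟨h5.trans h4, h6.trans ?_⟩
    gcongr
  constructor
  · refine le_of_tendsto ((hy.sub_const x).norm) ?_
    exact (key 1 one_pos le_rfl).mono (fun k hk => hk.1)
  · have h1 : ∀ ε > 0, ε ≤ 1 → ‖y - x - t • X x‖ ≤ t * (ε + K * (t * (M + 1))) := by
      intro ε hε hε1
      refine le_of_tendsto (((hy.sub_const x).sub (hmt.smul_const (X x))).norm) ?_
      exact (key ε hε hε1).mono (fun k hk => hk.2)
    have h2 : Tendsto (fun ε : ℝ => t * (ε + K * (t * (M + 1)))) (𝓝[>] 0)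
        (𝓝 (t * (0 + K * (t * (M + 1))))) := by
      refine Tendsto.mono_left ?_ nhdsWithin_le_nhds
      exact Continuous.tendsto (by fun_prop) 0
    have h3 : ‖y - x - t • X x‖ ≤ t * (0 + K * (t * (M + 1))) := by
      refine ge_of_tendsto h2 ?_
      have : ∀ᶠ ε in 𝓝[>] (0 : ℝ), ε ∈ Ioo (0 : ℝ) 1 := Ioo_mem_nhdsGT one_pos
      filter_upwards [this] with ε hε
      exact h1 ε hε.1 hε.2.le
    refine h3.trans (le_of_eq ?_)
    ring

/-- extension of an additive one-parameter semigroup in a group to a one-parameter group -/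
lemma exists_group_ext {G : Type*} [Group G] (Φ : ℝ → G)
    (h : ∀ s t, 0 ≤ s → 0 ≤ t → Φ (s + t) = Φ s * Φ t) :
    ∃ φ : ℝ → G, (∀ s t, φ (s + t) = φ s * φ t) ∧ (∀ t, 0 ≤ t → φ t = Φ t) ∧
      ∀ t, 0 ≤ t → φ (-t) = (Φ t)⁻¹ := by
  have h0 : Φ 0 = 1 := by
    have := h 0 0 le_rfl le_rfl
    rw [add_zero] at this
    exact left_eq_mul.1 this
  refine ⟨fun t => if 0 ≤ t then Φ t else (Φ (-t))⁻¹, ?_, ?_, ?_⟩
  · intro s t
    by_cases hs : 0 ≤ s <;> by_cases ht : 0 ≤ t <;> simp only [hs, ht, if_true, if_false]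
    · rw [if_pos (add_nonneg hs ht), h s t hs ht]
    · push Not at ht
      by_cases hst : 0 ≤ s + t
      · rw [if_pos hst, eq_mul_inv_iff_mul_eq, ← h _ _ hst (by linarith)]
        congr 1; ring
      · rw [if_neg hst]
        push Not at hst
        rw [eq_comm, mul_inv_eq_iff_eq_mul, eq_inv_mul_iff_mul_eq, ← h _ _ (by linarith) hs]
        congr 1; ring
    · push Not at hs
      by_cases hst : 0 ≤ s + t
      · rw [if_pos hst, eq_inv_mul_iff_mul_eq, ← h _ _ (by linarith) hst]
        congr 1; ring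
      · rw [if_neg hst]
        push Not at hst
        rw [inv_eq_iff_eq_inv, mul_inv_rev, inv_inv, eq_inv_mul_iff_mul_eq,
          ← h _ _ ht (by linarith)]
        congr 1; ring
    · push Not at hs ht
      rw [if_neg (by linarith), ← mul_inv_rev, ← h _ _ (by linarith) (by linarith)]
      congr 2; ring
  · intro t ht
    simp [ht]
  · intro t ht
    rcases ht.eq_or_lt with rfl | ht'
    · simp [h0]
    · simp [ht'.not_ge]

lemma hasDerivAt_of_sq {c : ℝ → E} {v : E} {δ C : ℝ} (hδ : 0 < δ)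
    (h : ∀ t, |t| ≤ δ → ‖c t - c 0 - t • v‖ ≤ C * t ^ 2) : HasDerivAt c v 0 := by
  rw [hasDerivAt_iff_isLittleO]
  have h1 : (fun t : ℝ => c t - c 0 - (t - 0) • v) =O[𝓝 0] (fun t : ℝ => t ^ 2) := by
    refine Asymptotics.IsBigO.of_bound C ?_
    have : ∀ᶠ t in 𝓝 (0 : ℝ), |t| ≤ δ := by
      have hc : ContinuousAt (fun t : ℝ => |t|) 0 := by fun_prop
      exact (hc.eventually (gt_mem_nhds (by simpa using hδ))).mono (fun t ht => ht.le)
    filter_upwards [this] with t ht
    rw [sub_zero, Real.norm_eq_abs, abs_of_nonneg (sq_nonneg t)]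
    exact h t ht
  refine h1.trans_isLittleO ?_
  have h2 : (fun t : ℝ => t ^ 2) =o[𝓝 0] (fun t : ℝ => t ^ 1) :=
    Asymptotics.isLittleO_pow_pow (by norm_num)
  simpa using h2

lemma AutPair.iter {D : Set E} {f g : E → E} (h : AutPair D f g) (n : ℕ) :
    AutPair D (f^[n]) (g^[n]) := by
  induction n with
  | zero => exact ⟨differentiableOn_id, differentiableOn_id, mapsTo_id _, mapsTo_id _,
      fun x _ => rfl, fun x _ => rfl⟩
  | succ n ih =>
    refine ⟨?_, ?_, ?_, ?_, ?_, ?_⟩
    · rw [Function.iterate_succ]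
      exact ih.hF.comp h.hF h.mapsF
    · rw [Function.iterate_succ]
      exact ih.hG.comp h.hG h.mapsG
    · rw [Function.iterate_succ]
      exact ih.mapsF.comp h.mapsF
    · rw [Function.iterate_succ]
      exact ih.mapsG.comp h.mapsG
    · intro x hx
      rw [Function.iterate_succ' f, Function.iterate_succ g, Function.comp_apply,
        Function.comp_apply, h.left _ (ih.mapsF hx), ih.left x hx]
    · intro x hx
      rw [Function.iterate_succ' g, Function.iterate_succ f, Function.comp_apply,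
        Function.comp_apply, h.right _ (ih.mapsG hx), ih.right x hx]

lemma AutPair.comp' {D : Set E} {f g f' g' : E → E} (h : AutPair D f g) (h' : AutPair D f' g') :
    AutPair D (f ∘ f') (g' ∘ g) where
  hF := h.hF.comp h'.hF h'.mapsF
  hG := h'.hG.comp h.hG h.mapsG
  mapsF := h.mapsF.comp h'.mapsF
  mapsG := h'.mapsG.comp h.mapsG
  left x hx := by
    simp only [Function.comp_apply]
    rw [h.left _ (h'.mapsF hx), h'.left x hx]
  right x hx := by
    simp only [Function.comp_apply]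
    rw [h'.right _ (h.mapsG hx), h.right x hx]

lemma AutPair.congr' {D : Set E} {f g f' g' : E → E} (h : AutPair D f g) (hf : EqOn f' f D)
    (hg : EqOn g' g D) : AutPair D f' g' where
  hF := h.hF.congr hf
  hG := h.hG.congr hg
  mapsF := h.mapsF.congr hf.symm
  mapsG := h.mapsG.congr hg.symm
  left x hx := by rw [hf hx, hg (h.mapsF hx), h.left x hx]
  right x hx := by rw [hg hx, hf (h.mapsG hx), h.right x hx]


/-- an automorphism as a permutation of `D` -/
noncomputable def AutPair.perm {D : Set E} {f g : E → E} (h : AutPair D f g) :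
    Equiv.Perm D where
  toFun x := ⟨f x, h.mapsF x.2⟩
  invFun x := ⟨g x, h.mapsG x.2⟩
  left_inv x := Subtype.ext (h.left x x.2)
  right_inv x := Subtype.ext (h.right x x.2)

/-- convergence of the generators of the inverse maps -/
lemma gen_inv [FiniteDimensional ℂ E] (hD : IsOpen D) (hne : D.Nonempty) (hL : AutLimU D)
    {f g : ℕ → E → E} (h : ∀ k, AutPair D (f k) (g k)) {m : ℕ → ℝ}
    (hm : Tendsto m atTop atTop)
    (hX : TendstoLocallyUniformlyOn (fun k x => m k • (f k x - x)) X atTop D) :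
    TendstoLocallyUniformlyOn f (fun x => x) atTop D ∧
    TendstoLocallyUniformlyOn (fun k x => m k • (g k x - x)) (fun x => - X x) atTop D := by
  have hXc : ContinuousOn X D := hX.continuousOn (Filter.Eventually.of_forall (fun k =>
    (((h k).hF.sub differentiableOn_id).const_smul (m k : ℝ)).continuousOn)).frequently
  have h1 : TendstoLocallyUniformlyOn f (fun x => x) atTop D := by
    rw [Metric.tendstoLocallyUniformlyOn_iff] at hX ⊢
    intro ε hε x hx
    obtain ⟨V, hV, hV2⟩ := hX 1 one_pos x hx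
    have hc : ∀ᶠ y in 𝓝[D] x, ‖X y‖ < ‖X x‖ + 1 :=
      (hXc x hx).norm.eventually (gt_mem_nhds (lt_add_one _))
    refine ⟨V ∩ {y | ‖X y‖ < ‖X x‖ + 1}, inter_mem hV hc, ?_⟩
    have hmbig : ∀ᶠ k in atTop, (‖X x‖ + 2) / ε < m k := hm.eventually (eventually_gt_atTop _)
    have hmpos : ∀ᶠ k in atTop, 0 < m k := hm.eventually (eventually_gt_atTop 0)
    filter_upwards [hV2, hmbig, hmpos] with k h2 h3 h4 y hy
    have h5 := h2 y hy.1
    rw [dist_comm, dist_eq_norm] at h5
    have h6 : ‖m k • (f k y - y)‖ < ‖X x‖ + 2 := by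
      calc ‖m k • (f k y - y)‖ = ‖(m k • (f k y - y) - X y) + X y‖ := by congr 1; abel
        _ ≤ ‖m k • (f k y - y) - X y‖ + ‖X y‖ := norm_add_le _ _
        _ < 1 + (‖X x‖ + 1) := add_lt_add h5 hy.2
        _ = ‖X x‖ + 2 := by ring
    rw [norm_smul, Real.norm_eq_abs, abs_of_pos h4] at h6
    rw [dist_comm, dist_eq_norm]
    rw [div_lt_iff₀ hε] at h3
    by_contra hcon
    push Not at hcon
    have : m k * ε ≤ m k * ‖f k y - y‖ := mul_le_mul_of_nonneg_left hcon h4.le
    linarith
  refine ⟨h1, ?_⟩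
  obtain ⟨p, hp⟩ := hne
  obtain ⟨G, hG, hgG⟩ := hL atTop f g (fun x => x) p h h1 hp hp
  have hGid : ∀ x ∈ D, G x = x := fun x hx => hG.left x hx
  have hG2 : TendstoLocallyUniformlyOn g (fun x => x) atTop D :=
    hgG.congr_right (fun x hx => hGid x hx)
  have h2 := tlu_comp hD hX hXc hG2 continuousOn_id (mapsTo_id D)
  have h3 : TendstoLocallyUniformlyOn (fun k x => - (m k • (f k (g k x) - g k x)))
      (fun x => - X x) atTop D := h2.neg
  refine h3.congr (fun k x hx => ?_)
  simp only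
  rw [(h k).right x hx, ← smul_neg]
  congr 1
  abel

theorem euler_limit [FiniteDimensional ℂ E] (hD : IsOpen D) (hne : D.Nonempty)
    (hMon : MontelU D) (hL : AutLimU D)
    {f g : ℕ → E → E} (h : ∀ k, AutPair D (f k) (g k)) {m : ℕ → ℝ}
    (hm : Tendsto m atTop atTop)
    (hX : TendstoLocallyUniformlyOn (fun k x => m k • (f k x - x)) X atTop D) :
    IsComplete D X := by
  classical
  have hXd : DifferentiableOn ℂ X D :=
    (R266.SCV.analyticOnNhd_of_tendstoLocallyUniformlyOn hD hX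
      (Filter.Eventually.of_forall (fun k =>
        ((h k).hF.sub differentiableOn_id).const_smul (m k : ℝ)))).differentiableOn
  have hXnd : DifferentiableOn ℂ (fun x => - X x) D := hXd.neg
  obtain ⟨hfid, hXn⟩ := gen_inv hD hne hL h hm hX
  set U : Ultrafilter ℕ := hyperfilter ℕ with hU
  have hUle : (U : Filter ℕ) ≤ atTop := Nat.hyperfilter_le_atTop
  -- the limits of the iterates
  have hch : ∀ t : ℝ, ∃ F : E → E, TendstoLocallyUniformlyOn
      (fun k => (f k)^[⌊m k * t⌋₊]) F (U : Filter ℕ) D := fun t =>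
    hMon U _ (fun k => ((h k).iter _).hF) (fun k => ((h k).iter _).mapsF)
  choose Φ hΦ using hch
  have hΦc : ∀ t, ContinuousOn (Φ t) D := fun t => (hΦ t).continuousOn
    (Filter.Eventually.of_forall (fun k => ((h k).iter _).hF.continuousOn)).frequently
  -- uniform closeness on balls
  have hunif : ∀ (F : ℕ → E → E) (Y : E → E),
      TendstoLocallyUniformlyOn (fun k x => m k • (F k x - x)) Y atTop D →
      ∀ (x₀ : E) (r : ℝ), closedBall x₀ (2 * r) ⊆ D → ∀ ε > 0, ∀ᶠ k in atTop,
        ∀ y ∈ closedBall x₀ (2 * r), ‖m k • (F k y - y) - Y y‖ ≤ ε := by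
    intro F Y hFY x₀ r hsub ε hε
    have : ProperSpace E := FiniteDimensional.proper ℂ E
    have h1 := (tendstoLocallyUniformlyOn_iff_forall_isCompact hD).1 hFY _ hsub
      (isCompact_closedBall x₀ (2 * r))
    rw [Metric.tendstoUniformlyOn_iff] at h1
    filter_upwards [h1 ε hε] with k hk y hy
    have := hk y hy
    rw [dist_comm, dist_eq_norm] at this
    exact this.le
  -- semigroup property
  have hsemi : ∀ s t : ℝ, 0 ≤ s → 0 ≤ t → MapsTo (Φ t) D D → ∀ x ∈ D,
      Φ (s + t) x = Φ s (Φ t x) := by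
    intro s t hs ht hmaps x hx
    have hmpos : ∀ᶠ k in atTop, 0 ≤ m k := hm.eventually (eventually_ge_atTop 0)
    set δ : ℕ → ℕ := fun k => ⌊m k * (s + t)⌋₊ - ⌊m k * s⌋₊ - ⌊m k * t⌋₊ with hδ
    have hfl : ∀ᶠ k in (U : Filter ℕ), ⌊m k * (s + t)⌋₊ = ⌊m k * s⌋₊ + (⌊m k * t⌋₊ + δ k) ∧
        δ k ≤ 1 := by
      filter_upwards [hUle hmpos] with k hk
      have ha : 0 ≤ m k * s := by positivity
      have hb : 0 ≤ m k * t := by positivity
      have h1 : ⌊m k * s⌋₊ + ⌊m k * t⌋₊ ≤ ⌊m k * (s + t)⌋₊ := by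
        refine Nat.le_floor ?_
        push_cast
        rw [mul_add]
        exact add_le_add (Nat.floor_le ha) (Nat.floor_le hb)
      have h2 : ⌊m k * (s + t)⌋₊ < ⌊m k * s⌋₊ + ⌊m k * t⌋₊ + 2 := by
        rw [Nat.floor_lt (by positivity)]
        push_cast
        have h3 := Nat.lt_floor_add_one (m k * s)
        have h4 := Nat.lt_floor_add_one (m k * t)
        rw [mul_add]
        linarith
      simp only [hδ]
      omega
    have hxk : Tendsto (fun k => (f k)^[δ k] x) (U : Filter ℕ) (𝓝 x) := by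
      rw [Metric.tendsto_nhds]
      intro ε hε
      have h1 : ∀ᶠ k in atTop, dist (f k x) x < ε :=
        Metric.tendsto_nhds.1 (hfid.tendsto_at hx) ε hε
      filter_upwards [hfl, hUle h1] with k hk h2
      have : δ k = 0 ∨ δ k = 1 := by omega
      rcases this with h3 | h3
      · rw [h3]; simpa using hε
      · rw [h3]; simpa using h2
    have hxkD : ∀ k, (f k)^[δ k] x ∈ D := fun k => ((h k).iter _).mapsF hx
    have h1 : Tendsto (fun k => (f k)^[⌊m k * t⌋₊] ((f k)^[δ k] x)) (U : Filter ℕ)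
        (𝓝 (Φ t x)) :=
      (hΦ t).tendsto_comp (hΦc t x hx) hx
        (tendsto_nhdsWithin_iff.2 ⟨hxk, Filter.Eventually.of_forall hxkD⟩)
    have h2 : Tendsto (fun k => (f k)^[⌊m k * s⌋₊] ((f k)^[⌊m k * t⌋₊] ((f k)^[δ k] x)))
        (U : Filter ℕ) (𝓝 (Φ s (Φ t x))) :=
      (hΦ s).tendsto_comp (hΦc s _ (hmaps hx)) (hmaps hx)
        (tendsto_nhdsWithin_iff.2 ⟨h1, Filter.Eventually.of_forall
          (fun k => ((h k).iter _).mapsF (hxkD k))⟩)
    have h3 : Tendsto (fun k => (f k)^[⌊m k * (s + t)⌋₊] x) (U : Filter ℕ)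
        (𝓝 (Φ (s + t) x)) := (hΦ (s + t)).tendsto_at hx
    refine tendsto_nhds_unique h3 (h2.congr' ?_)
    filter_upwards [hfl] with k hk
    rw [hk.1, Function.iterate_add_apply, Function.iterate_add_apply]
  -- small times
  obtain ⟨p, hp⟩ := hne
  obtain ⟨r, M, K, hr, hM0, hsub, hM, hK⟩ := exists_good hD hXd hp
  have hpball : p ∈ closedBall p r := mem_closedBall_self hr.le
  have hsmall : ∀ t : ℝ, 0 ≤ t → t * (M + 1) ≤ r → ∃ G, AutPair D (Φ t) G := by
    intro t ht htr
    have h1 := euler_limit_est hM hK hM0.le hr hUle hm (hunif f X hX p r hsub) hpball ht htr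
      ((hΦ t).tendsto_at hp)
    have h2 : Φ t p ∈ D := by
      refine hsub ?_
      rw [mem_closedBall, dist_eq_norm]
      linarith [h1.1]
    obtain ⟨G, hG, _⟩ := hL U _ _ (Φ t) p (fun k => (h k).iter _) (hΦ t) hp h2
    exact ⟨G, hG⟩
  have hadd : ∀ s t : ℝ, 0 ≤ s → 0 ≤ t → (∃ G, AutPair D (Φ s) G) →
      (∃ G, AutPair D (Φ t) G) → ∃ G, AutPair D (Φ (s + t)) G := by
    rintro s t hs ht ⟨G, hG⟩ ⟨G', hG'⟩
    exact ⟨G' ∘ G, (hG.comp' hG').congr' (fun x hx => hsemi s t hs ht hG'.mapsF x hx)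
      (fun x _ => rfl)⟩
  have hall : ∀ t : ℝ, 0 ≤ t → ∃ G, AutPair D (Φ t) G := by
    intro t ht
    have hM1 : 0 < M + 1 := by linarith
    obtain ⟨N, hN⟩ := exists_nat_gt (t * (M + 1) / r)
    have hNpos : (0 : ℝ) < N := lt_of_le_of_lt (by positivity) hN
    have h1 : ∀ n : ℕ, ∃ G, AutPair D (Φ (n * (t / N))) G := by
      intro n
      induction n with
      | zero => exact hsmall _ (by simp) (by simpa using hr.le)
      | succ n ih =>
        have h2 : ((n + 1 : ℕ) : ℝ) * (t / N) = n * (t / N) + t / N := by push_cast; ring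
        rw [h2]
        refine hadd _ _ (by positivity) (by positivity) ih (hsmall _ (by positivity) ?_)
        rw [div_lt_iff₀ hr] at hN
        rw [div_mul_eq_mul_div, div_le_iff₀ hNpos]
        linarith
    have h3 := h1 N
    rwa [mul_div_cancel₀ _ hNpos.ne'] at h3
  have hall2 : ∀ t : ℝ, 0 ≤ t → ∃ G, AutPair D (Φ t) G ∧
      TendstoLocallyUniformlyOn (fun k => (g k)^[⌊m k * t⌋₊]) G (U : Filter ℕ) D := by
    intro t ht
    obtain ⟨G, hG⟩ := hall t ht
    exact hL U _ _ (Φ t) p (fun k => (h k).iter _) (hΦ t) hp (hG.mapsF hp)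
  choose! Γ hΓ hΓl using hall2
  -- the group
  set P : ℝ → Equiv.Perm D := fun t => if ht : 0 ≤ t then (hΓ t ht).perm else 1 with hP
  have hPadd : ∀ s t, 0 ≤ s → 0 ≤ t → P (s + t) = P s * P t := by
    intro s t hs ht
    ext x
    simp only [hP, hs, ht, add_nonneg hs ht, dif_pos]
    exact hsemi s t hs ht (hΓ t ht).mapsF x x.2
  obtain ⟨φ', hφadd, hφpos, hφneg⟩ := exists_group_ext P hPadd
  set φ : ℝ → E → E := fun t x => if hx : x ∈ D then (φ' t ⟨x, hx⟩ : E) else x with hφ
  have hφ1 : ∀ t, 0 ≤ t → EqOn (φ t) (Φ t) D := by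
    intro t ht x hx
    simp only [hφ, hx, dif_pos, hφpos t ht]
    simp only [hP, ht, dif_pos]
    rfl
  have hφ2 : ∀ t, 0 ≤ t → EqOn (φ (-t)) (Γ t) D := by
    intro t ht x hx
    simp only [hφ, hx, dif_pos, hφneg t ht]
    simp only [hP, ht, dif_pos]
    rfl
  have hφmaps : ∀ t, MapsTo (φ t) D D := by
    intro t x hx
    simp only [hφ, hx, dif_pos]
    exact (φ' t ⟨x, hx⟩).2
  have hφ'0 : φ' 0 = 1 := by
    have := hφadd 0 0
    rw [add_zero] at this
    exact left_eq_mul.1 this
  refine ⟨hXd, φ, ?_, hφmaps, ?_, ?_, ?_⟩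
  · intro t
    rcases le_total 0 t with ht | ht
    · exact (hΓ t ht).hF.congr (hφ1 t ht)
    · have ht' : 0 ≤ -t := by linarith
      have h1 := (hΓ (-t) ht').hG.congr (hφ2 (-t) ht')
      rwa [neg_neg] at h1
  · intro x hx
    simp [hφ, hx, hφ'0]
  · intro s t x hx
    have h1 : φ t x ∈ D := hφmaps t hx
    have h2 : φ t x = (φ' t ⟨x, hx⟩ : E) := by simp only [hφ, hx, dif_pos]
    have h3 : φ s (φ t x) = (φ' s ⟨φ t x, h1⟩ : E) := by
      simp only [hφ] at h1 ⊢
      rw [dif_pos h1]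
    rw [h3]
    have h4 : (⟨φ t x, h1⟩ : D) = φ' t ⟨x, hx⟩ := Subtype.ext h2
    rw [h4]
    have h5 : φ (s + t) x = (φ' (s + t) ⟨x, hx⟩ : E) := by simp only [hφ, hx, dif_pos]
    rw [h5, hφadd]
    rfl
  · intro x hx
    obtain ⟨r, M, K, hr, hM0, hsub, hM, hK⟩ := exists_good hD hXd hx
    have hxball : x ∈ closedBall x r := mem_closedBall_self hr.le
    have hMn : ∀ y ∈ closedBall x (2 * r), ‖(fun x => - X x) y‖ ≤ M := by
      intro y hy; simpa using hM y hy
    have hKn : LipschitzOnWith K (fun x => - X x) (closedBall x (2 * r)) := by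
      intro a ha b hb
      simpa using hK ha hb
    have hM1 : 0 < M + 1 := by linarith
    have hφ0 : φ 0 x = x := by simp [hφ, hx, hφ'0]
    refine hasDerivAt_of_sq (δ := r / (M + 1)) (C := K * (M + 1)) (by positivity) ?_
    intro t ht
    rw [le_div_iff₀ hM1] at ht
    rw [hφ0]
    rcases le_total 0 t with ht0 | ht0
    · rw [abs_of_nonneg ht0] at ht
      have h1 := euler_limit_est hM hK hM0.le hr hUle hm (hunif f X hX x r hsub) hxball ht0 ht
        ((hΦ t).tendsto_at hx)
      rw [hφ1 t ht0 hx]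
      exact h1.2
    · rw [abs_of_nonpos ht0] at ht
      have ht0' : 0 ≤ -t := by linarith
      have h1 := euler_limit_est hMn hKn hM0.le hr hUle hm (hunif g _ hXn x r hsub) hxball ht0' ht
        ((hΓl (-t) ht0').tendsto_at hx)
      have h2 := hφ2 (-t) ht0' hx
      rw [neg_neg] at h2
      rw [h2]
      have h3 := h1.2
      simp only [smul_neg, neg_smul, neg_neg] at h3
      have h4 : (-t) ^ 2 = t ^ 2 := by ring
      rwa [h4] at h3

end Euler

end Crest.Agent.R264
end

-- ▼ part R264/AutLimit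
section

/-!
Row 264, Part D, node D2: H. Cartan's theorem on limits of automorphisms of a bounded domain
(helper399).
-/

set_option autoImplicit false
set_option linter.unusedSectionVars false

open Set Filter Topology Metric Complex

noncomputable section

namespace Crest.Agent.R264

open Crest.Agent.R266.SCV

variable {E : Type*} [NormedAddCommGroup E] [NormedSpace ℂ E] [FiniteDimensional ℂ E]
variable {ι : Type*}

/-- determinant of the complex derivative, as a holomorphic function -/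
theorem differentiableOn_det_fderiv {D : Set E} (hD : IsOpen D) {f : E → E}
    (hf : DifferentiableOn ℂ f D) : DifferentiableOn ℂ (fun z => (fderiv ℂ f z).det) D := by
  classical
  set b := Module.finBasis ℂ E with hb
  have h1 : DifferentiableOn ℂ (fderiv ℂ f) D := by
    have := (analyticOnNhd_of_differentiableOn hD hf).fderiv
    exact this.differentiableOn
  have h2 : ∀ z, (fderiv ℂ f z).det =
      Matrix.det (LinearMap.toMatrix b b (fderiv ℂ f z : E →ₗ[ℂ] E)) := by
    intro z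
    rw [ContinuousLinearMap.det, LinearMap.det_toMatrix]
  have h3 : ∀ i j, DifferentiableOn ℂ (fun z => LinearMap.toMatrix b b
      (fderiv ℂ f z : E →ₗ[ℂ] E) i j) D := by
    intro i j
    have h4 : (fun z => LinearMap.toMatrix b b (fderiv ℂ f z : E →ₗ[ℂ] E) i j) =
        fun z => (LinearMap.toContinuousLinearMap (b.coord i)) ((fderiv ℂ f z) (b j)) := by
      funext z
      rw [LinearMap.toMatrix_apply]
      rfl
    rw [h4]
    refine (ContinuousLinearMap.differentiable _).comp_differentiableOn ?_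
    exact h1.clm_apply (differentiableOn_const _)
  have h5 : (fun z => (fderiv ℂ f z).det) = fun z => ∑ σ : Equiv.Perm (Fin (Module.finrank ℂ E)),
      ((Equiv.Perm.sign σ : ℤ) : ℂ) * ∏ i, LinearMap.toMatrix b b
        (fderiv ℂ f z : E →ₗ[ℂ] E) (σ i) i := by
    funext z
    rw [h2, Matrix.det_apply']
  rw [h5]
  refine DifferentiableOn.fun_sum (fun σ _ => ?_)
  refine DifferentiableOn.const_mul ?_ _
  intro z hz
  exact (HasFDerivWithinAt.finsetProd (u := Finset.univ)
    (fun i _ => (h3 (σ i) i z hz).hasFDerivWithinAt)).differentiableWithinAt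

theorem continuous_det : Continuous (fun L : E →L[ℂ] E => L.det) := by
  exact ContinuousLinearMap.continuous_det

/-- locally uniform convergence passes to the Jacobian determinants -/
theorem tlu_det_fderiv {l : Filter ι} [l.NeBot] {D : Set E} (hD : IsOpen D)
    {f : ι → E → E} {F : E → E} (h : TendstoLocallyUniformlyOn f F l D)
    (hf : ∀ k, DifferentiableOn ℂ (f k) D) :
    TendstoLocallyUniformlyOn (fun k z => (fderiv ℂ (f k) z).det)
      (fun z => (fderiv ℂ F z).det) l D := by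
  have h1 := tlu_fderiv hD h (Eventually.of_forall hf)
  have hF : AnalyticOnNhd ℂ F D :=
    analyticOnNhd_of_tendstoLocallyUniformlyOn hD h (Eventually.of_forall hf)
  have h2 : ContinuousOn (fderiv ℂ F) D := hF.fderiv.continuousOn
  rw [Metric.tendstoLocallyUniformlyOn_iff]
  intro η hη x hx
  have hc := continuous_det (E := E)
  have h3 : ∀ᶠ L in 𝓝 (fderiv ℂ F x), dist (L : E →L[ℂ] E).det (fderiv ℂ F x).det < η / 2 :=
    (hc.tendsto (fderiv ℂ F x)).eventually (ball_mem_nhds _ (by positivity))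
  obtain ⟨ε, hε, hεs⟩ := Metric.eventually_nhds_iff.1 h3
  rw [Metric.tendstoLocallyUniformlyOn_iff] at h1
  obtain ⟨t, ht, htk⟩ := h1 (ε / 2) (by positivity) x hx
  have h4 : ∀ᶠ y in 𝓝[D] x, dist (fderiv ℂ F y) (fderiv ℂ F x) < ε / 2 :=
    (h2 x hx).eventually (ball_mem_nhds _ (by positivity))
  refine ⟨t ∩ {y | dist (fderiv ℂ F y) (fderiv ℂ F x) < ε / 2}, inter_mem ht h4, ?_⟩
  filter_upwards [htk] with k hk y hy
  have h5 := hk y hy.1
  have h6 : dist (fderiv ℂ F y) (fderiv ℂ F x) < ε / 2 := hy.2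
  have h7 : dist (fderiv ℂ (f k) y) (fderiv ℂ F x) < ε := by
    calc dist (fderiv ℂ (f k) y) (fderiv ℂ F x) ≤ dist (fderiv ℂ (f k) y) (fderiv ℂ F y) +
          dist (fderiv ℂ F y) (fderiv ℂ F x) := dist_triangle _ _ _
      _ < ε := by rw [dist_comm (fderiv ℂ (f k) y)]; linarith
  have h8 := hεs h7
  have h9 := hεs (show dist (fderiv ℂ F y) (fderiv ℂ F x) < ε by linarith)
  calc dist (fderiv ℂ F y).det (fderiv ℂ (f k) y).det
      ≤ dist (fderiv ℂ F y).det (fderiv ℂ F x).det +
        dist (fderiv ℂ F x).det (fderiv ℂ (f k) y).det := dist_triangle _ _ _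
    _ < η := by rw [dist_comm (fderiv ℂ F x).det]; linarith

/-- stability of surjectivity near a point with invertible derivative -/
theorem eventually_mem_image {l : Filter ι} [l.NeBot] {D : Set E} (hD : IsOpen D)
    {f : ι → E → E} {F : E → E} (h : TendstoLocallyUniformlyOn f F l D)
    (hf : ∀ k, DifferentiableOn ℂ (f k) D) {a : E} (ha : a ∈ D)
    (hdet : (fderiv ℂ F a).det ≠ 0) : ∀ᶠ k in l, F a ∈ f k '' D := by
  have : CompleteSpace E := FiniteDimensional.complete ℂ E
  set A : E ≃L[ℂ] E := (fderiv ℂ F a).toContinuousLinearEquivOfDetNeZero hdet with hA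
  have hAc : (A : E →L[ℂ] E) = fderiv ℂ F a := by
    ext v; simp [hA]
  rcases subsingleton_or_nontrivial E with hE | hE
  · refine Eventually.of_forall (fun k => ⟨a, ha, Subsingleton.elim _ _⟩)
  set N : NNReal := ‖(A.symm : E →L[ℂ] E)‖₊ with hN
  have hNpos : 0 < N := by
    rw [hN]
    exact (A.symm).norm_pos
  have h1 := tlu_fderiv hD h (Eventually.of_forall hf)
  have hFa : AnalyticOnNhd ℂ F D :=
    analyticOnNhd_of_tendstoLocallyUniformlyOn hD h (Eventually.of_forall hf)
  have h2 : ContinuousOn (fderiv ℂ F) D := hFa.fderiv.continuousOn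
  set c : NNReal := N⁻¹ / 2 with hc
  have hcpos : 0 < c := by rw [hc]; positivity
  rw [Metric.tendstoLocallyUniformlyOn_iff] at h1
  obtain ⟨t, ht, htk⟩ := h1 (c / 2) (by positivity) a ha
  have h4 : ∀ᶠ y in 𝓝[D] a, dist (fderiv ℂ F y) (fderiv ℂ F a) < c / 2 :=
    (h2 a ha).eventually (ball_mem_nhds _ (by positivity))
  rw [hD.nhdsWithin_eq ha] at ht h4
  obtain ⟨r, hr, hrs⟩ := Metric.mem_nhds_iff.1 (inter_mem (inter_mem ht h4) (hD.mem_nhds ha))
  have hcb : closedBall a (r / 2) ⊆ ball a r := closedBall_subset_ball (by linarith)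
  have hlim : Tendsto (fun k => f k a) l (𝓝 (F a)) := by
    exact h.tendsto_at ha
  have hrad : 0 < ((N : ℝ)⁻¹ - c) * (r / 2) := by
    have : (c : ℝ) = (N : ℝ)⁻¹ / 2 := by rw [hc]; simp
    rw [this]
    have : 0 < (N : ℝ)⁻¹ := by positivity
    have : (N : ℝ)⁻¹ - (N : ℝ)⁻¹ / 2 = (N : ℝ)⁻¹ / 2 := by ring
    rw [this]
    positivity
  filter_upwards [htk, Metric.tendsto_nhds.1 hlim _ hrad] with k hk hk'
  -- `f k` approximates `A` on the closed ball
  have happ : ApproximatesLinearOn (f k) (A : E →L[ℂ] E) (closedBall a (r / 2)) c := by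
    rw [hAc]
    intro x hx y hy
    refine (convex_closedBall a (r / 2)).norm_image_sub_le_of_norm_fderiv_le' (𝕜 := ℂ)
      (f := f k) (φ := fderiv ℂ F a) ?_ ?_ hy hx
    · intro z hz
      exact (hf k).differentiableAt (hD.mem_nhds (hrs (hcb hz)).2)
    · intro z hz
      have h5 := hk z (hrs (hcb hz)).1.1
      have h6 : dist (fderiv ℂ F z) (fderiv ℂ F a) < c / 2 := (hrs (hcb hz)).1.2
      rw [← dist_eq_norm]
      calc dist (fderiv ℂ (f k) z) (fderiv ℂ F a) ≤ dist (fderiv ℂ (f k) z) (fderiv ℂ F z) +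
            dist (fderiv ℂ F z) (fderiv ℂ F a) := dist_triangle _ _ _
        _ ≤ c := by rw [dist_comm (fderiv ℂ (f k) z)]; linarith
  have hsurj := happ.surjOn_closedBall_of_nonlinearRightInverse A.toNonlinearRightInverse
    (b := a) (ε := r / 2) (by positivity) subset_rfl
  have hmem : F a ∈ closedBall (f k a) (((N : ℝ)⁻¹ - c) * (r / 2)) := by
    rw [mem_closedBall, dist_comm]
    exact hk'.le
  obtain ⟨x, hx, hxe⟩ := hsurj hmem
  exact ⟨x, (hrs (hcb hx)).2, hxe⟩

/-- composition of locally uniform limits at a point -/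
theorem tendsto_comp_of_tlu {F : Type*} [NormedAddCommGroup F] [NormedSpace ℂ F]
    {l : Filter ι} [l.NeBot] {D : Set E} (hD : IsOpen D)
    {g : ι → E → F} {G : E → F} (h : TendstoLocallyUniformlyOn g G l D)
    (hG : ContinuousOn G D) {x : ι → E} {y : E} (hy : y ∈ D) (hx : Tendsto x l (𝓝 y)) :
    Tendsto (fun k => g k (x k)) l (𝓝 (G y)) := by
  refine h.tendsto_comp (hG y hy) hy ?_
  rw [hD.nhdsWithin_eq hy]
  exact hx

/-- D2, filter form with both limits given. -/
theorem aut_limit_filter {l : Filter ι} [l.NeBot] {D : Set E} (hDo : IsOpen D)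
    (hDc : IsPreconnected D) {f g : ι → E → E}
    (h : ∀ k, AutPair D (f k) (g k)) {F G : E → E} (hF : TendstoLocallyUniformlyOn f F l D)
    (hG : TendstoLocallyUniformlyOn g G l D) {p : E} (hp : p ∈ D) (hFp : F p ∈ D) :
    AutPair D F G := by
  have hFa : AnalyticOnNhd ℂ F D :=
    analyticOnNhd_of_tendstoLocallyUniformlyOn hDo hF (Eventually.of_forall fun k => (h k).hF)
  have hGa : AnalyticOnNhd ℂ G D :=
    analyticOnNhd_of_tendstoLocallyUniformlyOn hDo hG (Eventually.of_forall fun k => (h k).hG)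
  have hGF : ∀ z ∈ D, F z ∈ D → G (F z) = z := by
    intro z hz hFz
    have h1 : Tendsto (fun k => g k (f k z)) l (𝓝 (G (F z))) :=
      tendsto_comp_of_tlu hDo hG hGa.continuousOn hFz (hF.tendsto_at hz)
    have h2 : (fun k => g k (f k z)) = fun _ => z := by
      funext k; exact (h k).left z hz
    rw [h2] at h1
    exact tendsto_nhds_unique h1 tendsto_const_nhds
  have hFG : ∀ z ∈ D, G z ∈ D → F (G z) = z := by
    intro z hz hGz
    have h1 : Tendsto (fun k => f k (g k z)) l (𝓝 (F (G z))) :=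
      tendsto_comp_of_tlu hDo hF hFa.continuousOn hGz (hG.tendsto_at hz)
    have h2 : (fun k => f k (g k z)) = fun _ => z := by
      funext k; exact (h k).right z hz
    rw [h2] at h1
    exact tendsto_nhds_unique h1 tendsto_const_nhds
  -- the derivative of `F` at `p` is invertible
  have hdet : ∀ (F G : E → E), AnalyticOnNhd ℂ F D → AnalyticOnNhd ℂ G D →
      (∀ z ∈ D, F z ∈ D → G (F z) = z) → ∀ z ∈ D, F z ∈ D → (fderiv ℂ F z).det ≠ 0 := by
    intro F G hFa hGa hGF z hz hFz
    have h1 : (G ∘ F) =ᶠ[𝓝 z] id := by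
      have h2 : ∀ᶠ w in 𝓝 z, F w ∈ D := (hFa z hz).continuousAt (hDo.mem_nhds hFz)
      filter_upwards [h2, hDo.mem_nhds hz] with w hw hw'
      exact hGF w hw' hw
    have h3 : HasFDerivAt (G ∘ F) ((fderiv ℂ G (F z)).comp (fderiv ℂ F z)) z :=
      (hGa _ hFz).differentiableAt.hasFDerivAt.comp z (hFa z hz).differentiableAt.hasFDerivAt
    have h4 : (fderiv ℂ G (F z)).comp (fderiv ℂ F z) = ContinuousLinearMap.id ℂ E :=
      h3.unique ((hasFDerivAt_id z).congr_of_eventuallyEq h1)
    have h5 : ((fderiv ℂ G (F z)).det) * ((fderiv ℂ F z).det) = 1 := by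
      have : (((fderiv ℂ G (F z)).comp (fderiv ℂ F z)) : E →L[ℂ] E).det = 1 := by
        rw [h4]; simp [ContinuousLinearMap.det]
      rw [← this]
      show LinearMap.det _ * LinearMap.det _ = LinearMap.det
        ((fderiv ℂ G (F z) : E →ₗ[ℂ] E) ∘ₗ (fderiv ℂ F z : E →ₗ[ℂ] E))
      rw [LinearMap.det_comp]
    intro h6
    rw [h6, mul_zero] at h5
    exact zero_ne_one h5
  -- `det F'` has no zeros
  have key : ∀ (f g : ι → E → E) (F G : E → E), (∀ k, AutPair D (f k) (g k)) →
      TendstoLocallyUniformlyOn f F l D → AnalyticOnNhd ℂ F D → AnalyticOnNhd ℂ G D →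
      (∀ z ∈ D, F z ∈ D → G (F z) = z) → ∀ p ∈ D, F p ∈ D → ∀ z ∈ D, F z ∈ D := by
    intro f g F G h hF hFa hGa hGF p hp hFp z hz
    have h1 : ∀ k, ∀ z ∈ D, (fderiv ℂ (f k) z).det ≠ 0 := by
      intro k z hz
      exact hdet (f k) (g k) (analyticOnNhd_of_differentiableOn hDo (h k).hF)
        (analyticOnNhd_of_differentiableOn hDo (h k).hG) (fun w hw _ => (h k).left w hw) z hz
        ((h k).mapsF hz)
    have h2 : (fderiv ℂ F z).det ≠ 0 :=
      hurwitz_ne_zero hDo hDc (tlu_det_fderiv hDo hF (fun k => (h k).hF))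
        (Eventually.of_forall fun k => differentiableOn_det_fderiv hDo (h k).hF)
        (Eventually.of_forall fun k => h1 k) hp (hdet F G hFa hGa hGF p hp hFp) z hz
    obtain ⟨k, hk⟩ := (eventually_mem_image hDo hF (fun k => (h k).hF) hz h2).exists
    obtain ⟨x, hx, hxe⟩ := hk
    rw [← hxe]
    exact (h k).mapsF hx
  have hGq : G (F p) ∈ D := by rw [hGF p hp hFp]; exact hp
  have mF : ∀ z ∈ D, F z ∈ D := key f g F G h hF hFa hGa hGF p hp hFp
  have mG : ∀ z ∈ D, G z ∈ D :=
    key g f G F (fun k => (h k).symm) hG hGa hFa hFG (F p) hFp hGq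
  exact ⟨hFa.differentiableOn, hGa.differentiableOn, mF, mG, fun z hz => hGF z hz (mF z hz),
    fun z hz => hFG z hz (mG z hz)⟩

/-- **D2** (H. Cartan). -/
theorem aut_limit_gen {l : Filter ι} [l.NeBot] {D : Set E} (hDo : IsOpen D)
    (hDc : IsPreconnected D) (hDb : Bornology.IsBounded D) {f g : ι → E → E}
    (h : ∀ k, AutPair D (f k) (g k)) {F : E → E} (hF : TendstoLocallyUniformlyOn f F l D)
    {p : E} (hp : p ∈ D) (hFp : F p ∈ D) :
    ∃ G, AutPair D F G ∧ TendstoLocallyUniformlyOn g G l D := by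
  obtain ⟨M, hM⟩ := hDb.exists_norm_le
  have hgM : ∀ k, ∀ z ∈ D, ‖g k z‖ ≤ M := fun k z hz => hM _ ((h k).mapsG hz)
  -- along every ultrafilter
  have hul : ∀ u : Ultrafilter ι, (u : Filter ι) ≤ l → ∃ G, AutPair D F G ∧
      TendstoLocallyUniformlyOn g G u D := by
    intro u hu
    obtain ⟨G, hG, -, -⟩ := montel_ultra u hDo (fun k => (h k).hG) hgM
    have hFu : TendstoLocallyUniformlyOn f F u D := by
      intro v hv x hx
      obtain ⟨t, ht, ht'⟩ := hF v hv x hx
      exact ⟨t, ht, hu ht'⟩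
    exact ⟨G, aut_limit_filter hDo hDc h hFu hG hp hFp, hG⟩
  obtain ⟨G, hG, -⟩ := hul (Ultrafilter.of l) (Ultrafilter.of_le l)
  refine ⟨G, hG, ?_⟩
  refine tlu_of_pointwise hDo (Eventually.of_forall fun k => (h k).hG)
    (Eventually.of_forall hgM) (fun z hz => ?_)
  rw [tendsto_iff_ultrafilter]
  intro u hu
  obtain ⟨G', hG', hG'u⟩ := hul u hu
  have h1 : G' z = G z := by
    have h2 : F (G' z) = F (G z) := by rw [hG'.right z hz, hG.right z hz]
    exact hG.injOn (hG'.mapsG hz) (hG.mapsG hz) h2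
  rw [← h1]
  exact hG'u.tendsto_at hz



end Crest.Agent.R264
end
end

-- ▼ part R264/GD1
section

/-!
Row 264, part D3 (helper938): the finite-dimensional real vector space of complete holomorphic
vector fields on a bounded domain.
-/

set_option autoImplicit false
set_option linter.unusedSectionVars false

open Set Filter Topology Metric

namespace Crest.Agent.R264

variable {E : Type*} [NormedAddCommGroup E] [NormedSpace ℂ E]

/-- bounded domain -/
structure Dm (D : Set E) : Prop where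
  op : IsOpen D
  conn : IsConnected D
  bdd : Bornology.IsBounded D

section

variable [FiniteDimensional ℂ E] {D : Set E}

lemma Dm.montelU (d : Dm D) : MontelU D := by
  intro U f hf hm
  obtain ⟨M, hM⟩ := d.bdd.exists_norm_le
  obtain ⟨g, hg, -, -⟩ := montel_ultra U d.op hf (fun k z hz => hM _ (hm k hz))
  exact ⟨g, hg⟩

lemma Dm.autLimU (d : Dm D) : AutLimU D := by
  intro U _ f g F p h hF hp hFp
  exact aut_limit_gen d.op d.conn.isPreconnected d.bdd h hF hp hFp

/-- **Euler limit lemma** (CV). -/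
theorem Dm.euler (d : Dm D) {X : E → E} {f g : ℕ → E → E} (h : ∀ k, AutPair D (f k) (g k))
    {m : ℕ → ℝ} (hm : Tendsto m atTop atTop)
    (hX : TendstoLocallyUniformlyOn (fun k x => m k • (f k x - x)) X atTop D) :
    IsComplete D X :=
  euler_limit d.op d.conn.nonempty d.montelU d.autLimU h hm hX

lemma tlu_index {ι κ α β : Type*} [TopologicalSpace α] [UniformSpace β] {F : ι → α → β}
    {f : α → β} {p : Filter ι} {s : Set α} (h : TendstoLocallyUniformlyOn F f p s)
    {q : Filter κ} {τ : κ → ι} (hτ : Tendsto τ q p) :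
    TendstoLocallyUniformlyOn (fun k => F (τ k)) f q s := by
  intro u hu x hx
  obtain ⟨t, ht, h2⟩ := h u hu x hx
  exact ⟨t, ht, hτ.eventually h2⟩

lemma IsComplete.congr' {X Y : E → E} (h : IsComplete D X) (hXY : EqOn Y X D) :
    IsComplete D Y := by
  obtain ⟨hd, φ, hφ⟩ := h
  refine ⟨hd.congr hXY, φ, hφ.hol, hφ.maps, hφ.zero, hφ.add, ?_⟩
  intro x hx
  rw [hXY hx]
  exact hφ.gen x hx

lemma isComplete_zero : IsComplete D (0 : E → E) :=
  ⟨differentiableOn_const 0, fun _ x => x, fun _ => differentiableOn_id, fun _ => mapsTo_id _,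
    fun _ _ => rfl, fun _ _ _ _ => rfl, fun x _ => hasDerivAt_const 0 x⟩

lemma IsComplete.smul {X : E → E} (h : IsComplete D X) (c : ℝ) : IsComplete D (c • X) := by
  obtain ⟨hd, φ, hφ⟩ := h
  exact ⟨hd.const_smul c, _, hφ.smul c⟩

theorem IsComplete.add (d : Dm D) {X Y : E → E} (hX : IsComplete D X) (hY : IsComplete D Y) :
    IsComplete D (X + Y) := by
  obtain ⟨hXd, φ, hφ⟩ := hX
  obtain ⟨hYd, ψ, hψ⟩ := hY
  have lφ := hφ.lflow d.op hXd
  have lψ := hψ.lflow d.op hYd
  set τ : ℕ → ℝ := fun k => ((k : ℝ) + 1)⁻¹ with hτ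
  have hτpos : ∀ k, 0 < τ k := fun k => by simp only [hτ]; positivity
  have hτ0 : Tendsto τ atTop (𝓝[≠] (0 : ℝ)) := by
    rw [tendsto_nhdsWithin_iff]
    refine ⟨?_, Filter.Eventually.of_forall (fun k => (hτpos k).ne')⟩
    exact tendsto_inv_atTop_zero.comp
      (tendsto_atTop_add_const_right _ _ tendsto_natCast_atTop_atTop)
  have hτi : Tendsto (fun k => (τ k)⁻¹) atTop atTop := by
    simp only [hτ, inv_inv]
    exact tendsto_atTop_add_const_right _ _ tendsto_natCast_atTop_atTop
  have h1 := tlu_index lφ.lgen hτ0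
  have h2 := tlu_index lψ.lgen hτ0
  have h3 : TendstoLocallyUniformlyOn (fun k => ψ (τ k)) (fun x => x) atTop D :=
    (gen_inv d.op d.conn.nonempty d.autLimU (fun k => hψ.autPair (τ k)) hτi h2).1
  have h4 := tlu_comp d.op h1 hXd.continuousOn h3 continuousOn_id (mapsTo_id D)
  have h5 := h4.add h2
  refine d.euler (f := fun k => φ (τ k) ∘ ψ (τ k)) (g := fun k => ψ (-τ k) ∘ φ (-τ k))
    (m := fun k => (τ k)⁻¹) (fun k => (hφ.autPair (τ k)).comp (hψ.autPair (τ k))) hτi ?_
  refine TendstoLocallyUniformlyOn.congr (h5.congr_right (g := X + Y) (fun x hx => rfl))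
    (fun k x hx => ?_)
  change (τ k)⁻¹ • (φ (τ k) (ψ (τ k) x) - ψ (τ k) x) + (τ k)⁻¹ • (ψ (τ k) x - x)
    = (τ k)⁻¹ • (φ (τ k) (ψ (τ k) x) - x)
  rw [← smul_add]
  congr 1
  abel

/-- the real vector space of complete holomorphic vector fields -/
noncomputable def gD (d : Dm D) : Submodule ℝ (E → E) where
  carrier := gSet D
  zero_mem' := ⟨isComplete_zero, fun _ _ => rfl⟩
  add_mem' := by
    intro X Y hX hY
    refine ⟨hX.1.add d hY.1, fun x hx => ?_⟩
    simp [hX.2 x hx, hY.2 x hx]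
  smul_mem' := by
    intro c X hX
    refine ⟨hX.1.smul c, fun x hx => ?_⟩
    simp [hX.2 x hx]


/-! ### jets -/

/-- derivative at time zero of the space derivative of a flow -/
lemma IsFlow.hasDerivAt_fderiv (hD : IsOpen D) {X : E → E} {φ : ℝ → E → E} (h : IsFlow D X φ)
    (hX : DifferentiableOn ℂ X D) {x : E} (hx : x ∈ D) :
    HasDerivAt (fun t : ℝ => fderiv ℂ (φ t) x) (fderiv ℂ X x) 0 := by
  have hc : CompleteSpace E := FiniteDimensional.complete ℂ E
  have h1 := tlu_fderiv hD (h.lflow hD hX).lgen (Filter.Eventually.of_forall (fun t =>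
    (((h.hol t).sub differentiableOn_id).const_smul (t⁻¹ : ℝ))))
  have h2 := h1.tendsto_at hx
  rw [hasDerivAt_iff_tendsto_slope]
  refine h2.congr' ?_
  filter_upwards [self_mem_nhdsWithin] with t ht
  have h0 : fderiv ℂ (φ 0) x = ContinuousLinearMap.id ℂ E := by
    have : φ 0 =ᶠ[𝓝 x] fun y => y := by
      filter_upwards [hD.mem_nhds hx] with y hy using h.zero y hy
    rw [this.fderiv_eq]
    exact fderiv_id
  have hd : DifferentiableAt ℂ (φ t) x := (h.hol t).differentiableAt (hD.mem_nhds hx)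
  rw [slope_def_module, h0, sub_zero]
  have h3 : HasFDerivAt (fun y => t⁻¹ • (φ t y - y))
      (t⁻¹ • (fderiv ℂ (φ t) x - ContinuousLinearMap.id ℂ E)) x :=
    (hd.hasFDerivAt.sub (hasFDerivAt_id x)).const_smul (t⁻¹ : ℝ)
  exact h3.fderiv

lemma jet_zero (d : Dm D) {X : E → E} (hX : IsComplete D X) {p : E} (hp : p ∈ D)
    (h0 : X p = 0) (h1 : fderiv ℂ X p = 0) : ∀ x ∈ D, X x = 0 := by
  obtain ⟨hXd, φ, hφ⟩ := hX
  -- the point is fixed
  have hfix : ∀ t, φ t p = p := by
    have hder : ∀ t, HasDerivAt (fun s => φ s p) 0 t := by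
      intro t
      have h2 : HasDerivAt (fun s : ℝ => φ t (φ s p)) (fderiv ℂ (φ t) p (X p)) 0 := by
        have h3 : DifferentiableAt ℂ (φ t) (φ 0 p) := by
          rw [hφ.zero p hp]
          exact (hφ.hol t).differentiableAt (d.op.mem_nhds hp)
        have h4 := (h3.hasFDerivAt.restrictScalars ℝ).comp_hasDerivAt (0 : ℝ) (hφ.gen p hp)
        rw [hφ.zero p hp] at h4
        exact h4
      rw [h0, map_zero] at h2
      have h5 : HasDerivAt (fun s : ℝ => φ t (φ (s - t) p)) 0 t := by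
        have h6 : HasDerivAt (fun s : ℝ => φ t (φ s p)) 0 (t - t) := by rwa [sub_self]
        have h7 : HasDerivAt (fun s : ℝ => s - t) 1 t := (hasDerivAt_id t).sub_const t
        simpa [Function.comp_def] using HasDerivAt.scomp (h := fun s : ℝ => s - t) t h6 h7
      refine h5.congr_of_eventuallyEq (Filter.Eventually.of_forall (fun s => ?_))
      simp only
      rw [← hφ.add _ _ p hp]
      congr 1
      ring
    intro t
    have h2 := is_const_of_deriv_eq_zero (f := fun s => φ s p)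
      (fun t => (hder t).differentiableAt) (fun t => (hder t).deriv) t 0
    simpa [hφ.zero p hp] using h2
  -- the derivative at the point is constant
  have hA : ∀ t, fderiv ℂ (φ t) p = ContinuousLinearMap.id ℂ E := by
    have hgrp : ∀ s t, fderiv ℂ (φ (s + t)) p = (fderiv ℂ (φ s) p).comp (fderiv ℂ (φ t) p) := by
      intro s t
      have h2 : φ (s + t) =ᶠ[𝓝 p] φ s ∘ φ t := by
        filter_upwards [d.op.mem_nhds hp] with y hy using hφ.add s t y hy
      rw [h2.fderiv_eq, fderiv_comp p]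
      · rw [hfix t]
      · rw [hfix t]
        exact (hφ.hol s).differentiableAt (d.op.mem_nhds hp)
      · exact (hφ.hol t).differentiableAt (d.op.mem_nhds hp)
    have hder : ∀ t, HasDerivAt (fun s => fderiv ℂ (φ s) p) 0 t := by
      intro t
      have h2 := hφ.hasDerivAt_fderiv d.op hXd hp
      rw [h1] at h2
      have h3 : HasDerivAt (fun s : ℝ => (fderiv ℂ (φ t) p).comp (fderiv ℂ (φ s) p)) 0 0 := by
        have h4 : HasFDerivAt (fun L : E →L[ℂ] E => (fderiv ℂ (φ t) p).comp L)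
            ((ContinuousLinearMap.compL ℂ E E E (fderiv ℂ (φ t) p)).restrictScalars ℝ)
            (fderiv ℂ (φ 0) p) :=
          ((ContinuousLinearMap.compL ℂ E E E (fderiv ℂ (φ t) p)).restrictScalars ℝ).hasFDerivAt
        have h5 := h4.comp_hasDerivAt (0 : ℝ) h2
        rw [map_zero] at h5
        exact h5
      have h5 : HasDerivAt (fun s : ℝ => (fderiv ℂ (φ t) p).comp (fderiv ℂ (φ (s - t)) p)) 0 t := by
        have h6 : HasDerivAt (fun s : ℝ => (fderiv ℂ (φ t) p).comp (fderiv ℂ (φ s) p)) 0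
            (t - t) := by rwa [sub_self]
        have h7 : HasDerivAt (fun s : ℝ => s - t) 1 t := (hasDerivAt_id t).sub_const t
        simpa [Function.comp_def] using HasDerivAt.scomp (h := fun s : ℝ => s - t) t h6 h7
      refine h5.congr_of_eventuallyEq (Filter.Eventually.of_forall (fun s => ?_))
      simp only
      rw [← hgrp]
      congr 2
      ring
    intro t
    have h2 := is_const_of_deriv_eq_zero (f := fun s => fderiv ℂ (φ s) p)
      (fun t => (hder t).differentiableAt) (fun t => (hder t).deriv) t 0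
    rw [h2]
    have : φ 0 =ᶠ[𝓝 p] fun y => y := by
      filter_upwards [d.op.mem_nhds hp] with y hy using hφ.zero y hy
    rw [this.fderiv_eq]
    exact fderiv_id
  intro x hx
  have h2 : ∀ t, φ t x = x := fun t => cartan_unique d.op d.conn.isPreconnected d.bdd
    (hφ.hol t) (hφ.maps t) hp (hfix t) (hA t) x hx
  have h3 := hφ.gen x hx
  have h4 : HasDerivAt (fun t => φ t x) 0 0 := by
    simp only [h2]
    exact hasDerivAt_const 0 x
  exact h3.unique h4

/-- the one-jet at `p` -/
noncomputable def jetMap (d : Dm D) (p : E) (hp : p ∈ D) : gD d →ₗ[ℝ] E × (E →L[ℂ] E) where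
  toFun X := ((X : E → E) p, fderiv ℂ (X : E → E) p)
  map_add' := by
    intro X Y
    have hX : DifferentiableAt ℂ (X : E → E) p := X.2.1.1.differentiableAt (d.op.mem_nhds hp)
    have hY : DifferentiableAt ℂ (Y : E → E) p := Y.2.1.1.differentiableAt (d.op.mem_nhds hp)
    ext1
    · rfl
    · exact fderiv_add hX hY
  map_smul' := by
    intro c X
    have hX : DifferentiableAt ℂ (X : E → E) p := X.2.1.1.differentiableAt (d.op.mem_nhds hp)
    ext1
    · rfl
    · exact fderiv_const_smul hX c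

lemma jetMap_injective (d : Dm D) (p : E) (hp : p ∈ D) : Function.Injective (jetMap d p hp) := by
  rw [injective_iff_map_eq_zero]
  intro X hX
  have h1 : (X : E → E) p = 0 := congrArg Prod.fst hX
  have h2 : fderiv ℂ (X : E → E) p = 0 := congrArg Prod.snd hX
  ext x
  by_cases hx : x ∈ D
  · exact jet_zero d X.2.1 hp h1 h2 x hx
  · exact X.2.2 x hx

instance (d : Dm D) : FiniteDimensional ℝ (gD d) := by
  obtain ⟨p, hp⟩ := d.conn.nonempty
  have : FiniteDimensional ℝ E := FiniteDimensional.complexToReal E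
  have : FiniteDimensional ℝ (E →L[ℂ] E) := FiniteDimensional.complexToReal _
  exact Module.Finite.of_injective _ (jetMap_injective d p hp)

end

end Crest.Agent.R264
end

-- ▼ part R264/GD2
section

/-!
Row 264, part D3 (helper938): push-forward, bracket, Lie algebra structure.
-/

set_option autoImplicit false
set_option linter.unusedSectionVars false

open Set Filter Topology Metric

namespace Crest.Agent.R264

variable {E : Type*} [NormedAddCommGroup E] [NormedSpace ℂ E]

section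

variable [FiniteDimensional ℂ E] {D : Set E}

lemma differentiableOn_fderiv (hD : IsOpen D) {F : Type*} [NormedAddCommGroup F]
    [NormedSpace ℂ F] [CompleteSpace F] {f : E → F}
    (hf : DifferentiableOn ℂ f D) : DifferentiableOn ℂ (fderiv ℂ f) D :=
  (R266.SCV.analyticOnNhd_of_differentiableOn hD hf).fderiv.differentiableOn

lemma push_differentiableOn (hD : IsOpen D) {f h X : E → E} (hfh : AutPair D f h)
    (hX : DifferentiableOn ℂ X D) : DifferentiableOn ℂ (push D f h X) D := by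
  have hc : CompleteSpace E := FiniteDimensional.complete ℂ E
  have h1 : DifferentiableOn ℂ (fun y => fderiv ℂ f (h y) (X (h y))) D :=
    ((differentiableOn_fderiv hD hfh.hF).comp hfh.hG hfh.mapsG).clm_apply
      (hX.comp hfh.hG hfh.mapsG)
  exact h1.congr (fun y hy => push_of_mem hy)

/-- the flow of a push-forward -/
lemma push_isFlow (hD : IsOpen D) {f h X : E → E} (hfh : AutPair D f h) {φ : ℝ → E → E}
    (hφ : IsFlow D X φ) : IsFlow D (push D f h X) (fun t y => f (φ t (h y))) where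
  hol t := (hfh.hF.comp ((hφ.hol t).comp hfh.hG hfh.mapsG) ((hφ.maps t).comp hfh.mapsG))
  maps t := hfh.mapsF.comp ((hφ.maps t).comp hfh.mapsG)
  zero x hx := by rw [hφ.zero _ (hfh.mapsG hx), hfh.right x hx]
  add s t x hx := by
    rw [hfh.left _ (hφ.maps t (hfh.mapsG hx)), hφ.add _ _ _ (hfh.mapsG hx)]
  gen x hx := by
    rw [push_of_mem hx]
    have h3 : DifferentiableAt ℂ f (φ 0 (h x)) := by
      rw [hφ.zero _ (hfh.mapsG hx)]
      exact hfh.hF.differentiableAt (hD.mem_nhds (hfh.mapsG hx))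
    have h4 := (h3.hasFDerivAt.restrictScalars ℝ).comp_hasDerivAt (0 : ℝ)
      (hφ.gen (h x) (hfh.mapsG hx))
    rw [hφ.zero _ (hfh.mapsG hx)] at h4
    exact h4

lemma IsComplete.push (hD : IsOpen D) {f h X : E → E} (hfh : AutPair D f h)
    (hX : IsComplete D X) : IsComplete D (push D f h X) := by
  obtain ⟨hXd, φ, hφ⟩ := hX
  exact ⟨push_differentiableOn hD hfh hXd, _, push_isFlow hD hfh hφ⟩

lemma push_mem (d : Dm D) {f h X : E → E} (hfh : AutPair D f h) (hX : X ∈ gD d) :
    push D f h X ∈ gD d := ⟨hX.1.push d.op hfh, fun _ hx => push_of_notMem hx⟩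

/-- derivative of the push-forward along a flow at time zero -/
lemma hasDerivAt_push (hD : IsOpen D) {X Y : E → E} {φ : ℝ → E → E} (hφ : IsFlow D X φ)
    (hX : DifferentiableOn ℂ X D) (hY : DifferentiableOn ℂ Y D) (y : E) :
    HasDerivAt (fun s : ℝ => push D (φ s) (φ (-s)) Y y) (-(brk D X Y y)) 0 := by
  by_cases hy : y ∈ D
  swap
  · simp only [push_of_notMem hy, brk_of_notMem hy, neg_zero]
    exact hasDerivAt_const 0 _
  have hc : CompleteSpace E := FiniteDimensional.complete ℂ E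
  have hrev : HasDerivAt (fun s : ℝ => φ (-s) y) (-X y) 0 := hφ.rev.gen y hy
  have hφ0 : φ 0 y = y := hφ.zero y hy
  -- `C s = Dφ_s (φ_{-s} y)`
  set C : ℝ → (E →L[ℂ] E) := fun s => fderiv ℂ (φ s) (φ (-s) y) with hC
  set B : ℝ → (E →L[ℂ] E) := fun s => fderiv ℂ (φ (-s)) y with hB
  have hCB : ∀ s, (C s).comp (B s) = ContinuousLinearMap.id ℂ E := by
    intro s
    have h1 := (hφ.autPair (-s)).fderiv_comp hD hy
    simp only [neg_neg] at h1
    exact h1
  have hBC : ∀ s, (B s).comp (C s) = ContinuousLinearMap.id ℂ E := by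
    intro s
    have h1 := (hφ.autPair s).fderiv_comp hD (hφ.maps (-s) hy)
    have h2 : φ s (φ (-s) y) = y := (hφ.autPair s).right y hy
    rw [h2] at h1
    exact h1
  have hid0 : fderiv ℂ (φ 0) y = ContinuousLinearMap.id ℂ E := by
    have : φ 0 =ᶠ[𝓝 y] fun y => y := by
      filter_upwards [hD.mem_nhds hy] with z hz using hφ.zero z hz
    rw [this.fderiv_eq]
    exact fderiv_id
  have hB' : HasDerivAt B (-(fderiv ℂ X y)) 0 := by
    have h1 := hφ.rev.hasDerivAt_fderiv hD hX.neg hy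
    have h2 : fderiv ℂ (fun x => - X x) y = -(fderiv ℂ X y) := fderiv_fun_neg
    rw [h2] at h1
    exact h1
  have hB0 : B 0 = ContinuousLinearMap.id ℂ E := by simp only [hB, neg_zero, hid0]
  have hC0 : C 0 = ContinuousLinearMap.id ℂ E := by simp only [hC, neg_zero, hφ0, hid0]
  -- `C s → id`
  have hCinv : ∀ s, C s = Ring.inverse (B s) := by
    intro s
    have hu : IsUnit (B s) := ⟨⟨B s, C s, hBC s, hCB s⟩, rfl⟩
    have h1 : Ring.inverse (B s) * B s = 1 := Ring.inverse_mul_cancel _ hu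
    have h2 : (C s) * (B s) = 1 := hCB s
    exact hu.mul_right_cancel (h2.trans h1.symm)
  have hC' : HasDerivAt C (fderiv ℂ X y) 0 := by
    have hu : IsUnit (B 0) := ⟨⟨B 0, C 0, hBC 0, hCB 0⟩, rfl⟩
    have h1 := hasFDerivAt_ringInverse (𝕜 := ℝ) hu.unit
    have h2 : HasFDerivAt (Ring.inverse (M₀ := E →L[ℂ] E))
      (-((ContinuousLinearMap.mulLeftRight ℝ (E →L[ℂ] E)) ↑hu.unit⁻¹) ↑hu.unit⁻¹) (B 0) := h1
    have h3 := h2.comp_hasDerivAt (0 : ℝ) hB'
    have h4 : ((hu.unit⁻¹ : (E →L[ℂ] E)ˣ) : E →L[ℂ] E) = 1 := by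
      have : hu.unit = 1 := Units.ext hB0
      rw [this]; simp
    rw [h4] at h3
    have h5 : (-((ContinuousLinearMap.mulLeftRight ℝ (E →L[ℂ] E)) 1) 1) (-(fderiv ℂ X y))
        = fderiv ℂ X y := by
      simp
    rw [h5] at h3
    refine h3.congr_of_eventuallyEq (Filter.Eventually.of_forall (fun s => ?_))
    exact hCinv s
  -- product rule
  have hYd : DifferentiableAt ℂ Y (φ (-(0:ℝ)) y) := by
    rw [neg_zero, hφ0]; exact hY.differentiableAt (hD.mem_nhds hy)
  have hv : HasDerivAt (fun s : ℝ => Y (φ (-s) y)) (-(fderiv ℂ Y y (X y))) 0 := by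
    have h4 := (hYd.hasFDerivAt.restrictScalars ℝ).comp_hasDerivAt (0 : ℝ) hrev
    rw [neg_zero, hφ0] at h4
    have h5 : (ContinuousLinearMap.restrictScalars ℝ (fderiv ℂ Y y)) (-X y)
        = -(fderiv ℂ Y y (X y)) := by simp
    rw [h5] at h4
    exact h4
  have hprod : HasDerivAt (fun s : ℝ => C s (Y (φ (-s) y)))
      (fderiv ℂ X y (Y y) + (-(fderiv ℂ Y y (X y)))) 0 := by
    have h1 : HasDerivAt (fun s : ℝ => (C s).restrictScalars ℝ)
        ((fderiv ℂ X y).restrictScalars ℝ) 0 := by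
      have h2 := ((ContinuousLinearMap.restrictScalarsL ℂ E E ℝ ℝ).hasFDerivAt
        (x := C 0)).comp_hasDerivAt (0 : ℝ) hC'
      exact h2
    have h2 := h1.clm_apply hv
    rw [hC0, neg_zero, hφ0] at h2
    exact h2
  refine (hprod.congr_deriv ?_).congr_of_eventuallyEq (Filter.Eventually.of_forall (fun s => ?_))
  · rw [brk_of_mem hy]; abel
  · exact push_of_mem hy

/-- `gD` is closed for pointwise convergence -/
lemma gD_closed (d : Dm D) : IsClosed (gD d : Set (E → E)) :=
  (gD d).closed_of_finiteDimensional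

lemma brk_mem (d : Dm D) {X Y : E → E} (hX : X ∈ gD d) (hY : Y ∈ gD d) : brk D X Y ∈ gD d := by
  obtain ⟨hXd, φ, hφ⟩ := hX.1
  have h1 : Tendsto (fun s : ℝ => s⁻¹ • (push D (φ s) (φ (-s)) Y - Y)) (𝓝[≠] 0)
      (𝓝 (-(brk D X Y))) := by
    rw [tendsto_pi_nhds]
    intro y
    have h2 := hasDerivAt_push d.op hφ hXd hY.1.1 y
    rw [hasDerivAt_iff_tendsto_slope] at h2
    refine h2.congr (fun s => ?_)
    have h3 : push D (φ 0) (φ (-0)) Y y = Y y := by
      by_cases hy : y ∈ D
      · rw [push_of_mem hy, neg_zero, hφ.zero y hy]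
        have : φ 0 =ᶠ[𝓝 y] fun y => y := by
          filter_upwards [d.op.mem_nhds hy] with z hz using hφ.zero z hz
        rw [this.fderiv_eq, fderiv_fun_id]
        rfl
      · rw [push_of_notMem hy, hY.2 y hy]
    rw [slope_def_module, h3, sub_zero]
    rfl
  have h2 : -(brk D X Y) ∈ (gD d : Set (E → E)) := by
    refine (gD_closed d).mem_of_tendsto h1 (Filter.Eventually.of_forall (fun s => ?_))
    exact (gD d).smul_mem _ ((gD d).sub_mem (push_mem d (hφ.autPair s) hY) hY)
  have h3 := (gD d).neg_mem h2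
  rwa [neg_neg] at h3

noncomputable instance (d : Dm D) : Bracket (gD d) (gD d) :=
  ⟨fun X Y => ⟨brk D X Y, brk_mem d X.2 Y.2⟩⟩

lemma coe_lie (d : Dm D) (X Y : gD d) : ((⁅X, Y⁆ : gD d) : E → E) = brk D X Y := rfl

lemma gD_diffAt (d : Dm D) (X : gD d) {x : E} (hx : x ∈ D) : DifferentiableAt ℂ (X : E → E) x :=
  X.2.1.1.differentiableAt (d.op.mem_nhds hx)

lemma gD_contDiffAt (d : Dm D) (X : gD d) {x : E} (hx : x ∈ D) :
    ContDiffAt ℂ 2 (X : E → E) x :=
  (R266.SCV.analyticOnNhd_of_differentiableOn d.op X.2.1.1 x hx).contDiffAt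

lemma brk_eventuallyEq (d : Dm D) (X Y : E → E) {x : E} (hx : x ∈ D) :
    brk D X Y =ᶠ[𝓝 x] VectorField.lieBracket ℂ X Y := by
  filter_upwards [d.op.mem_nhds hx] with y hy
  rw [brk_of_mem hy]
  rfl

noncomputable instance (d : Dm D) : LieRing (gD d) where
  add_lie X Y Z := by
    ext x
    simp only [coe_lie, Submodule.coe_add, Pi.add_apply]
    by_cases hx : x ∈ D
    · simp only [brk_of_mem hx, Pi.add_apply]
      rw [fderiv_add (gD_diffAt d X hx) (gD_diffAt d Y hx)]
      simp only [map_add, add_apply]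
      abel
    · simp [brk_of_notMem hx]
  lie_add X Y Z := by
    ext x
    simp only [coe_lie, Submodule.coe_add, Pi.add_apply]
    by_cases hx : x ∈ D
    · simp only [brk_of_mem hx, Pi.add_apply]
      rw [fderiv_add (gD_diffAt d Y hx) (gD_diffAt d Z hx)]
      simp only [map_add, add_apply]
      abel
    · simp [brk_of_notMem hx]
  lie_self X := by
    ext x
    simp only [coe_lie]
    by_cases hx : x ∈ D
    · simp [brk_of_mem hx]
    · simp [brk_of_notMem hx]
  leibniz_lie X Y Z := by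
    ext x
    simp only [coe_lie, Submodule.coe_add, Pi.add_apply]
    by_cases hx : x ∈ D
    · have hc : CompleteSpace E := FiniteDimensional.complete ℂ E
      have h1 := VectorField.leibniz_identity_lieBracket (𝕜 := ℂ) (n := 2) (by simp)
        (gD_contDiffAt d X hx) (gD_contDiffAt d Y hx) (gD_contDiffAt d Z hx)
      have e : ∀ U V W : E → E, brk D U (brk D V W) x =
          VectorField.lieBracket ℂ U (VectorField.lieBracket ℂ V W) x := by
        intro U V W
        rw [brk_of_mem hx, (brk_eventuallyEq d V W hx).fderiv_eq,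
          (brk_eventuallyEq d V W hx).eq_of_nhds]
        rfl
      have e' : ∀ U V W : E → E, brk D (brk D U V) W x =
          VectorField.lieBracket ℂ (VectorField.lieBracket ℂ U V) W x := by
        intro U V W
        rw [brk_of_mem hx, (brk_eventuallyEq d U V hx).fderiv_eq,
          (brk_eventuallyEq d U V hx).eq_of_nhds]
        rfl
      rw [e, e', e, h1]
    · simp [brk_of_notMem hx]

noncomputable instance (d : Dm D) : LieAlgebra ℝ (gD d) where
  lie_smul c X Y := by
    ext x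
    simp only [coe_lie, Submodule.coe_smul, Pi.smul_apply]
    by_cases hx : x ∈ D
    · simp only [brk_of_mem hx, Pi.smul_apply]
      rw [fderiv_const_smul (gD_diffAt d Y hx)]
      simp only [smul_apply, smul_sub]
      congr 1
      exact (fderiv ℂ (X : E → E) x).map_smul_of_tower c _
    · simp [brk_of_notMem hx]

end

end Crest.Agent.R264
end

-- ▼ part R264/GD3

/-!
Row 264, part D3 (helper938): adjoint action, flows, and the final `Pack` (node D3).
-/

set_option autoImplicit false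
set_option linter.unusedSectionVars false

open Set Filter Topology Metric

namespace Crest.Agent.R264

variable {E : Type*} [NormedAddCommGroup E] [NormedSpace ℂ E]

section

variable [FiniteDimensional ℂ E] {D : Set E}

/-- the one-parameter group of a holomorphic field is unique -/
theorem flow_unique (hD : IsOpen D) {X : E → E} (hX : DifferentiableOn ℂ X D)
    {φ ψ : ℝ → E → E} (hφ : IsFlow D X φ) (hψ : IsFlow D X ψ) :
    ∀ t, ∀ x ∈ D, φ t x = ψ t x := by
  intro t x hx
  have hcφ : Continuous (fun s => φ s x) := hφ.continuous hx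
  have hcψ : Continuous (fun s => ψ s x) := hψ.continuous hx
  have hclosed : IsClosed {s : ℝ | φ s x = ψ s x} := isClosed_eq hcφ hcψ
  have hopen : IsOpen {s : ℝ | φ s x = ψ s x} := by
    rw [isOpen_iff_mem_nhds]
    intro t₀ ht₀
    have ht₀' : φ t₀ x = ψ t₀ x := ht₀
    obtain ⟨r, M, K, hr, hM0, hsub, hM, hK⟩ := exists_good hD hX (hφ.maps t₀ hx)
    have hb : closedBall (φ t₀ x) (2 * r) ∈ 𝓝 (φ t₀ x) := closedBall_mem_nhds _ (by positivity)
    have h1 := ODE_solution_unique_of_eventually (v := fun _ => X)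
      (s := fun _ => closedBall (φ t₀ x) (2 * r)) (K := K) (f := fun s => φ s x)
      (g := fun s => ψ s x) (t₀ := t₀)
      (Filter.Eventually.of_forall (fun _ => hK))
      ((hcφ.continuousAt.eventually_mem hb).mono (fun s hs => ⟨hφ.hasDerivAt hx s, hs⟩))
      ((hcψ.continuousAt.eventually_mem (by rwa [ht₀'] at hb ⊢)).mono
        (fun s hs => ⟨hψ.hasDerivAt hx s, hs⟩)) ht₀'
    exact h1
  have huniv := IsClopen.eq_univ ⟨hclosed, hopen⟩ ⟨0, by
    simp [hφ.zero x hx, hψ.zero x hx]⟩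
  have : t ∈ {s : ℝ | φ s x = ψ s x} := huniv ▸ mem_univ t
  exact this

lemma inverse_fderiv (hD : IsOpen D) {f h : E → E} (hfh : AutPair D f h) {y : E} (hy : y ∈ D) :
    (fderiv ℂ h y).inverse = fderiv ℂ f (h y) := by
  refine ContinuousLinearMap.inverse_eq ?_ ?_
  · have h1 := hfh.fderiv_comp hD (hfh.mapsG hy)
    rw [hfh.right y hy] at h1
    exact h1
  · exact hfh.symm.fderiv_comp hD hy

lemma push_brk (hD : IsOpen D) {f h : E → E} (hfh : AutPair D f h) {X Y : E → E}
    (hX : DifferentiableOn ℂ X D) (hY : DifferentiableOn ℂ Y D) :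
    push D f h (brk D X Y) = brk D (push D f h X) (push D f h Y) := by
  have hc : CompleteSpace E := FiniteDimensional.complete ℂ E
  ext y
  by_cases hy : y ∈ D
  swap
  · rw [push_of_notMem hy, brk_of_notMem hy]
  have e : ∀ V : E → E, push D f h V =ᶠ[𝓝 y] VectorField.pullback ℂ h V := by
    intro V
    filter_upwards [hD.mem_nhds hy] with z hz
    rw [push_of_mem hz, VectorField.pullback, inverse_fderiv hD hfh hz]
  have h1 : brk D (push D f h X) (push D f h Y) y =
      VectorField.lieBracket ℂ (VectorField.pullback ℂ h X) (VectorField.pullback ℂ h Y) y := by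
    rw [brk_of_mem hy, (e X).fderiv_eq, (e Y).fderiv_eq, (e X).eq_of_nhds, (e Y).eq_of_nhds]
    rfl
  have hhd : ContDiffAt ℂ 2 h y :=
    (R266.SCV.analyticOnNhd_of_differentiableOn hD hfh.hG y hy).contDiffAt
  rw [h1, ← VectorField.pullback_lieBracket (n := 2) (by simp) hhd
    (hX.differentiableAt (hD.mem_nhds (hfh.mapsG hy)))
    (hY.differentiableAt (hD.mem_nhds (hfh.mapsG hy)))]
  rw [push_of_mem hy, brk_of_mem (hfh.mapsG hy), VectorField.pullback, inverse_fderiv hD hfh hy]
  rfl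

lemma push_push (hD : IsOpen D) {f h : E → E} (hfh : AutPair D f h) {X : E → E}
    (hX : ∀ x ∉ D, X x = 0) : push D h f (push D f h X) = X := by
  ext x
  by_cases hx : x ∈ D
  · rw [push_of_mem hx, push_of_mem (hfh.mapsF hx), hfh.left x hx]
    exact hfh.fderiv_apply hD hx _
  · rw [push_of_notMem hx, hX x hx]

/-- the adjoint action of an automorphism -/
noncomputable def AdG (d : Dm D) {f h : E → E} (hfh : AutPair D f h) : gD d ≃ₗ⁅ℝ⁆ gD d where
  toFun X := ⟨push D f h X, push_mem d hfh X.2⟩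
  invFun X := ⟨push D h f X, push_mem d hfh.symm X.2⟩
  left_inv X := Subtype.ext (push_push d.op hfh X.2.2)
  right_inv X := Subtype.ext (push_push d.op hfh.symm X.2.2)
  map_add' X Y := by
    ext x
    by_cases hx : x ∈ D
    · simp [push_of_mem hx]
    · simp [push_of_notMem hx]
  map_smul' c X := by
    ext x
    by_cases hx : x ∈ D
    · simp only [Submodule.coe_smul, push_of_mem hx, Pi.smul_apply, RingHom.id_apply]
      exact (fderiv ℂ f (h x)).map_smul_of_tower c _
    · simp [push_of_notMem hx]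
  map_lie' {X Y} := by
    ext1
    exact push_brk d.op hfh X.2.1.1 Y.2.1.1


/-- pointwise derivative of `Ad(φ_s) Y` at every time -/
lemma hasDerivAt_push' (hD : IsOpen D) {X Y : E → E} {φ : ℝ → E → E} (hφ : IsFlow D X φ)
    (hX : DifferentiableOn ℂ X D) (hY : DifferentiableOn ℂ Y D) (y : E) (t : ℝ) :
    HasDerivAt (fun s : ℝ => push D (φ s) (φ (-s)) Y y) (-(push D (φ t) (φ (-t)) (brk D X Y) y))
      t := by
  by_cases hy : y ∈ D
  swap
  · simp only [push_of_notMem hy, neg_zero]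
    exact hasDerivAt_const t _
  have hz : φ (-t) y ∈ D := hφ.maps (-t) hy
  have h1 := hasDerivAt_push hD hφ hX hY (φ (-t) y)
  have h2 : HasDerivAt (fun s : ℝ => push D (φ (s - t)) (φ (-(s - t))) Y (φ (-t) y))
      (-(brk D X Y (φ (-t) y))) t := by
    have h6 : HasDerivAt (fun s : ℝ => push D (φ s) (φ (-s)) Y (φ (-t) y))
      (-(brk D X Y (φ (-t) y))) (t - t) := by rwa [sub_self]
    have h7 : HasDerivAt (fun s : ℝ => s - t) 1 t := (hasDerivAt_id t).sub_const t
    simpa [Function.comp_def] using HasDerivAt.scomp (h := fun s : ℝ => s - t) t h6 h7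
  have h3 := ((fderiv ℂ (φ t) (φ (-t) y)).restrictScalars ℝ).hasFDerivAt.comp_hasDerivAt t h2
  have h4 : ((fderiv ℂ (φ t) (φ (-t) y)).restrictScalars ℝ) (-(brk D X Y (φ (-t) y)))
      = -(push D (φ t) (φ (-t)) (brk D X Y) y) := by
    rw [push_of_mem hy, map_neg]
    rfl
  rw [h4] at h3
  refine h3.congr_of_eventuallyEq (Filter.Eventually.of_forall (fun s => ?_))
  change push D (φ s) (φ (-s)) Y y =
    fderiv ℂ (φ t) (φ (-t) y) (push D (φ (s - t)) (φ (-(s - t))) Y (φ (-t) y))
  rw [push_of_mem hy, push_of_mem hz]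
  have e1 : φ (-(s - t)) (φ (-t) y) = φ (-s) y := by
    rw [← hφ.add _ _ y hy]; congr 1; ring
  rw [e1]
  have hw : φ (-s) y ∈ D := hφ.maps (-s) hy
  have e2 : φ s =ᶠ[𝓝 (φ (-s) y)] φ t ∘ φ (s - t) := by
    filter_upwards [hD.mem_nhds hw] with z hz
    rw [Function.comp_apply, ← hφ.add _ _ z hz]
    congr 1
    ring
  have e3 : φ (s - t) (φ (-s) y) = φ (-t) y := by
    rw [← hφ.add _ _ y hy]; congr 1; ring
  rw [e2.fderiv_eq, fderiv_comp (φ (-s) y)]
  · rw [e3]; rfl
  · rw [e3]; exact (hφ.hol t).differentiableAt (hD.mem_nhds hz)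
  · exact (hφ.hol (s - t)).differentiableAt (hD.mem_nhds hw)

/-- derivative of `Ad(φ_s) Y` tested on functionals -/
lemma AdG_deriv (d : Dm D) {A Y : gD d} {φ : ℝ → E → E} (hφ : IsFlow D (A : E → E) φ)
    (l : gD d →ₗ[ℝ] ℝ) (p : ∀ t : ℝ, AutPair D (φ t) (φ (-t))) (t : ℝ) :
    HasDerivAt (fun s => l (AdG d (p s) Y)) (-(l (AdG d (p t) ⁅A, Y⁆))) t := by
  have hl : Continuous l := l.continuous_of_finiteDimensional
  rw [hasDerivAt_iff_tendsto_slope]
  have h1 : Tendsto (fun s => (s - t)⁻¹ • (AdG d (p s) Y - AdG d (p t) Y)) (𝓝[≠] t)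
      (𝓝 (-(AdG d (p t) ⁅A, Y⁆))) := by
    rw [tendsto_subtype_rng, tendsto_pi_nhds]
    intro y
    have h2 := hasDerivAt_push' d.op hφ A.2.1.1 Y.2.1.1 y t
    rw [hasDerivAt_iff_tendsto_slope] at h2
    exact h2.congr (fun s => rfl)
  have h3 := (hl.tendsto _).comp h1
  rw [map_neg] at h3
  refine h3.congr (fun s => ?_)
  simp only [Function.comp_apply, map_smul, map_sub, slope_def_module]

/-- bounded isotropy -/
lemma AdG_bdd (d : Dm D) {A : gD d} {φ : ℝ → E → E} (hφ : IsFlow D (A : E → E) φ) {x : E}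
    (hx : x ∈ D) (hA : (A : E → E) x = 0) (p : ∀ t : ℝ, AutPair D (φ t) (φ (-t))) (Y : gD d)
    (l : gD d →ₗ[ℝ] ℝ) : ∃ C : ℝ, ∀ t, |l (AdG d (p t) Y)| ≤ C := by
  have hc : CompleteSpace E := FiniteDimensional.complete ℂ E
  have hproper : ProperSpace E := FiniteDimensional.proper ℂ E
  have hfd1 : FiniteDimensional ℝ E := FiniteDimensional.complexToReal E
  have hfd2 : FiniteDimensional ℝ (E →L[ℂ] E) := FiniteDimensional.complexToReal _
  -- `x` is fixed by the flow
  have hfix : ∀ t, φ t x = x := by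
    intro t
    have hder : ∀ t, HasDerivAt (fun s => φ s x) 0 t := by
      intro t
      have h2 : HasDerivAt (fun s : ℝ => φ t (φ s x)) (fderiv ℂ (φ t) x ((A : E → E) x)) 0 := by
        have h3 : DifferentiableAt ℂ (φ t) (φ 0 x) := by
          rw [hφ.zero x hx]
          exact (hφ.hol t).differentiableAt (d.op.mem_nhds hx)
        have h4 := (h3.hasFDerivAt.restrictScalars ℝ).comp_hasDerivAt (0 : ℝ) (hφ.gen x hx)
        rw [hφ.zero x hx] at h4
        exact h4
      rw [hA, map_zero] at h2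
      have h5 : HasDerivAt (fun s : ℝ => φ t (φ (s - t) x)) 0 t := by
        have h6 : HasDerivAt (fun s : ℝ => φ t (φ s x)) 0 (t - t) := by rwa [sub_self]
        have h7 : HasDerivAt (fun s : ℝ => s - t) 1 t := (hasDerivAt_id t).sub_const t
        simpa [Function.comp_def] using HasDerivAt.scomp (h := fun s : ℝ => s - t) t h6 h7
      refine h5.congr_of_eventuallyEq (Filter.Eventually.of_forall (fun s => ?_))
      simp only
      rw [← hφ.add _ _ x hx]
      congr 1
      ring
    have h2 := is_const_of_deriv_eq_zero (f := fun s => φ s x)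
      (fun t => (hder t).differentiableAt) (fun t => (hder t).deriv) t 0
    simpa [hφ.zero x hx] using h2
  obtain ⟨M, hM⟩ := d.bdd.exists_norm_le
  have hM0 : 0 ≤ M := (norm_nonneg _).trans (hM x hx)
  obtain ⟨s, hs, hsD⟩ := Metric.isOpen_iff.1 d.op x hx
  set r := s / 3 with hr
  have hr0 : 0 < r := by positivity
  have hb2 : ball x (2 * r) ⊆ D := (ball_subset_ball (by linarith)).trans hsD
  have hcb : closedBall x r ⊆ D := (closedBall_subset_ball (by linarith)).trans hb2
  -- bound of `Y` on `closedBall x r`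
  obtain ⟨CY, hCY⟩ := (isCompact_closedBall x r).exists_bound_of_continuousOn
    ((Y.2.1.1.continuousOn).mono hcb)
  have hCY0 : 0 ≤ CY := (norm_nonneg _).trans (hCY x (mem_closedBall_self hr0.le))
  -- small radius
  set ρ := min r (r * r / (M + 1)) with hρ
  have hρ0 : 0 < ρ := lt_min hr0 (by positivity)
  have hlip : ∀ t, ∀ z ∈ ball x ρ, φ t z ∈ ball x r := by
    intro t z hz
    have hz' : z ∈ ball x r := ball_subset_ball (min_le_left _ _) hz
    have h1 := norm_sub_le_of_bounded (hφ.hol t) (fun z hz => hM _ (hφ.maps t hz)) hr0 hb2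
      (mem_ball_self hr0) hz'
    rw [hfix t] at h1
    rw [mem_ball, dist_eq_norm]
    rw [mem_ball, dist_eq_norm] at hz
    refine h1.trans_lt ?_
    have h2 : ‖z - x‖ < r * r / (M + 1) := hz.trans_le (min_le_right _ _)
    rw [lt_div_iff₀ (by positivity)] at h2
    rw [div_mul_eq_mul_div, div_lt_iff₀ hr0]
    have h3 : M * ‖z - x‖ ≤ ‖z - x‖ * (M + 1) := by nlinarith [norm_nonneg (z - x)]
    linarith
  have hD' : ∀ t, ∀ w ∈ ball x r, ‖fderiv ℂ (φ t) w‖ ≤ M / r := by
    intro t w hw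
    have hsub : ball w r ⊆ D := by
      refine (ball_subset_ball' ?_).trans hb2
      rw [mem_ball] at hw
      linarith
    exact R266.SCV.norm_fderiv_le_of_ball hr0 ((hφ.hol t).mono hsub)
      (fun y hy => hM _ (hφ.maps t (hsub hy)))
  have hball : ball x ρ ⊆ D := (ball_subset_ball (by
    have := min_le_left r (r * r / (M + 1)); linarith)).trans hb2
  have hval : ∀ t, ∀ z ∈ ball x ρ, ‖push D (φ t) (φ (-t)) Y z‖ ≤ M / r * CY := by
    intro t z hz
    rw [push_of_mem (hball hz)]
    have hw := hlip (-t) z hz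
    calc ‖fderiv ℂ (φ t) (φ (-t) z) ((Y : E → E) (φ (-t) z))‖
        ≤ ‖fderiv ℂ (φ t) (φ (-t) z)‖ * ‖(Y : E → E) (φ (-t) z)‖ :=
          ContinuousLinearMap.le_opNorm _ _
      _ ≤ M / r * CY := mul_le_mul (hD' t _ hw) (hCY _ (ball_subset_closedBall hw))
          (norm_nonneg _) (by positivity)
  have hjet : ∀ t, ‖jetMap d x hx (AdG d (p t) Y)‖ ≤ max (M / r * CY) (M / r * CY / ρ) := by
    intro t
    rw [Prod.norm_def]
    refine max_le_max ?_ ?_
    · exact hval t x (mem_ball_self hρ0)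
    · exact R266.SCV.norm_fderiv_le_of_ball hρ0
        ((push_differentiableOn d.op (p t) Y.2.1.1).mono hball) (hval t)
  obtain ⟨J, hJ⟩ := (jetMap d x hx).exists_leftInverse_of_injective
    (LinearMap.ker_eq_bot.2 (jetMap_injective d x hx))
  set l' : (E × (E →L[ℂ] E)) →L[ℝ] ℝ := LinearMap.toContinuousLinearMap (l ∘ₗ J) with hl'
  refine ⟨‖l'‖ * max (M / r * CY) (M / r * CY / ρ), fun t => ?_⟩
  have h1 : l (AdG d (p t) Y) = l' (jetMap d x hx (AdG d (p t) Y)) := by
    have h2 : J (jetMap d x hx (AdG d (p t) Y)) = AdG d (p t) Y := by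
      have := LinearMap.congr_fun hJ (AdG d (p t) Y)
      simpa using this
    simp only [hl', LinearMap.coe_toContinuousLinearMap', LinearMap.comp_apply, h2]
  rw [h1, ← Real.norm_eq_abs]
  exact (l'.le_opNorm _).trans (mul_le_mul_of_nonneg_left (hjet t) (norm_nonneg _))

/-- the package of the complete holomorphic fields of a bounded domain -/
noncomputable def gPack (d : Dm D) : Pack D (gD d) where
  ev := (gD d).subtype
  off X x hx := X.2.2 x hx
  hol X := X.2.1.1
  lie X Y x hx := brk_of_mem hx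
  jet X x hx h0 h1 := by
    ext y
    by_cases hy : y ∈ D
    · exact jet_zero d X.2.1 hx h0 h1 y hy
    · exact X.2.2 y hy
  flow X := Classical.choose X.2.1.2
  isFlow X := Classical.choose_spec X.2.1.2
  flow_deriv X x hx t := (Classical.choose_spec X.2.1.2).hasDerivAt hx t
  flow_fderiv X x hx := (Classical.choose_spec X.2.1.2).hasDerivAt_fderiv d.op X.2.1.1 hx
  surj Y hY := by
    classical
    refine ⟨⟨fun x => if x ∈ D then Y x else 0, ?_, ?_⟩, ?_⟩
    · exact hY.congr' (fun x hx => by simp [hx])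
    · intro x hx; simp [hx]
    · intro x hx
      simp [hx]
  uniq X φ hφ t x hx := flow_unique d.op X.2.1.1 hφ (Classical.choose_spec X.2.1.2) t x hx
  Ad hf := AdG d hf
  ev_Ad {f h} hf X x hx := by
    change push D f h (X : E → E) (f x) = _
    rw [push_of_mem (hf.mapsF hx), hf.left x hx]
    rfl
  Ad_deriv A Y l p t := AdG_deriv d (Classical.choose_spec A.2.1.2) l p t
  Ad_bdd A x hx h0 p Y l := AdG_bdd d (Classical.choose_spec A.2.1.2) hx h0 p Y l

end

/-- **NODE D3.** -/
theorem d3Stmt : D3Stmt := by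
  intro n D h1 h2 h3
  have d : Dm D := ⟨h1, h2, h3⟩
  exact ⟨gD d, inferInstance, inferInstance, inferInstance, ⟨gPack d⟩⟩

end Crest.Agent.R264
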