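import Crest.Agent.R264.TS3

-- ▼ part R264/TSChoice
section

/-!
Row 264, module TS: tame subsets of the line and semialgebraic choice (S7).
-/

set_option autoImplicit false

open Set

namespace Crest.Agent.R264.TS

universe u v

/-! ### tame subsets of the line -/

/-- `S` is constant on the intervals not meeting some finite set -/
def Tame (S : Set ℝ) : Prop :=
  ∃ Z : Set ℝ, Z.Finite ∧ ∀ s t, s ≤ t → (∀ z ∈ Z, ¬ (s ≤ z ∧ z ≤ t)) → (s ∈ S ↔ t ∈ S)

/-- the fibres of an SA set over `ℝ` are tame -/
theorem SA.tame_fibre {ι : Type v} {s : Set (Option ι → ℝ)} (hs : SA s) (x : ι → ℝ) :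
    Tame {t : ℝ | (fun o : Option ι => o.elim t x) ∈ s} := by
  classical
  obtain ⟨W, hW⟩ := hs
  let r : MvPolynomial (Option ι) ℝ → Polynomial ℝ := fun p =>
    (MvPolynomial.optionEquivLeft ℝ ι p).map (MvPolynomial.eval x)
  refine ⟨⋃ p ∈ W, ((r p).roots.toFinset : Set ℝ), ?_, ?_⟩
  · exact W.finite_toSet.biUnion fun p _ => (r p).roots.toFinset.finite_toSet
  · intro s t hst hZ
    refine hW _ _ fun p hp => ?_
    rw [eval_option, eval_option]
    change SignType.sign ((r p).eval s) = SignType.sign ((r p).eval t)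
    by_cases h0 : r p = 0
    · rw [h0]; simp
    · refine sign_eq_of_no_root hst fun c hc hc0 => ?_
      refine hZ c ?_ hc
      refine mem_iUnion₂.2 ⟨p, hp, ?_⟩
      simp [h0, hc0]

/-- first component of `S` -/
def firstComp (S : Set ℝ) : Set ℝ := {s | s ∈ S ∧ ∀ s' ∈ S, s' < s → ∀ r, s' < r → r < s → r ∈ S}

lemma firstComp_subset (S : Set ℝ) : firstComp S ⊆ S := fun _ h => h.1

/-- the first component is order convex -/
lemma firstComp_ordConnected (S : Set ℝ) {a b r : ℝ} (ha : a ∈ firstComp S) (hb : b ∈ firstComp S)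
    (har : a ≤ r) (hrb : r ≤ b) : r ∈ firstComp S := by
  rcases har.lt_or_eq with har | rfl
  swap
  · exact ha
  rcases hrb.lt_or_eq with hrb | rfl
  swap
  · exact hb
  refine ⟨hb.2 a ha.1 (har.trans hrb) r har hrb, fun s' hs' hs'r q hq hqr => ?_⟩
  exact hb.2 s' hs' (hs'r.trans hrb) q hq (hqr.trans hrb)

lemma Tame.firstComp_nonempty {S : Set ℝ} (h : Tame S) (hS : S.Nonempty) :
    (firstComp S).Nonempty := by
  classical
  obtain ⟨Z, hZ, hZS⟩ := h
  -- the rank function
  let ρ : ℝ → ℕ := fun s => (Z ∩ Iio s).ncard + (Z ∩ Iic s).ncard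
  obtain ⟨s, hs, hmin⟩ : ∃ s ∈ S, ∀ t ∈ S, ρ s ≤ ρ t := by
    obtain ⟨s, hs, hmin⟩ := (wellFounded_lt (α := ℕ)).has_min (ρ '' S) (hS.image ρ)
    obtain ⟨s0, hs0, rfl⟩ := hs
    exact ⟨s0, hs0, fun t ht => not_lt.1 (hmin _ ⟨t, ht, rfl⟩)⟩
  refine ⟨s, hs, fun s' hs' hlt r hr1 hr2 => ?_⟩
  have f1 : (Z ∩ Iio s).Finite := hZ.subset inter_subset_left
  have f2 : (Z ∩ Iic s).Finite := hZ.subset inter_subset_left
  have g1 : Z ∩ Iio s' ⊆ Z ∩ Iio s := inter_subset_inter_right _ (Iio_subset_Iio hlt.le)
  have g2 : Z ∩ Iic s' ⊆ Z ∩ Iic s := inter_subset_inter_right _ (Iic_subset_Iic.2 hlt.le)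
  have h1 := ncard_le_ncard g1 f1
  have h2 := ncard_le_ncard g2 f2
  have h3 := hmin s' hs'
  simp only [ρ] at h3
  have e1 : Z ∩ Iio s' = Z ∩ Iio s := eq_of_subset_of_ncard_le g1 (by omega) f1
  have e2 : Z ∩ Iic s' = Z ∩ Iic s := eq_of_subset_of_ncard_le g2 (by omega) f2
  have hno : ∀ z ∈ Z, ¬ (s' ≤ z ∧ z ≤ s) := by
    rintro z hz ⟨hz1, hz2⟩
    rcases hz2.lt_or_eq with h4 | h4
    · have : z ∈ Z ∩ Iio s' := by rw [e1]; exact ⟨hz, h4⟩
      exact absurd this.2 (not_lt.2 hz1)
    · have : z ∈ Z ∩ Iic s' := by rw [e2]; exact ⟨hz, hz2⟩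
      have := this.2
      simp only [mem_Iic] at this
      linarith
  exact (hZS s' r hr1.le fun z hz hz' => hno z hz ⟨hz'.1, hz'.2.trans hr2.le⟩).1 hs'

/-! ### the canonical point of a convex set -/

/-- `t` is the canonical point of the convex set `A` -/
def IsCan (A : Set ℝ) (t : ℝ) : Prop :=
  (∃ a b, IsGLB A a ∧ IsLUB A b ∧ t + t = a + b) ∨
  (¬ BddBelow A ∧ ∃ b, IsLUB A b ∧ t + 1 = b) ∨
  ((∃ a, IsGLB A a ∧ t = a + 1) ∧ ¬ BddAbove A) ∨
  (¬ BddBelow A ∧ ¬ BddAbove A ∧ t = 0)

lemma IsCan.unique {A : Set ℝ} {t t' : ℝ} (h : IsCan A t) (h' : IsCan A t') : t = t' := by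
  rcases h with ⟨a, b, ha, hb, h⟩ | ⟨hn, b, hb, h⟩ | ⟨⟨a, ha, h⟩, hn⟩ | ⟨hn, hn', h⟩ <;>
  rcases h' with ⟨a', b', ha', hb', h'⟩ | ⟨hn2, b', hb', h'⟩ | ⟨⟨a', ha', h'⟩, hn2⟩ |
    ⟨hn2, hn2', h'⟩
  · have := ha.unique ha'; have := hb.unique hb'; linarith
  · exact absurd ⟨a, ha.1⟩ hn2
  · exact absurd ⟨b, hb.1⟩ hn2
  · exact absurd ⟨a, ha.1⟩ hn2
  · exact absurd ⟨a', ha'.1⟩ hn
  · have := hb.unique hb'; linarith
  · exact absurd ⟨a', ha'.1⟩ hn
  · exact absurd ⟨b, hb.1⟩ hn2'
  · exact absurd ⟨b', hb'.1⟩ hn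
  · exact absurd ⟨a, ha.1⟩ hn2
  · have := ha.unique ha'; linarith
  · exact absurd ⟨a, ha.1⟩ hn2
  · exact absurd ⟨a', ha'.1⟩ hn
  · exact absurd ⟨b', hb'.1⟩ hn'
  · exact absurd ⟨a', ha'.1⟩ hn
  · rw [h, h']

lemma exists_isCan {A : Set ℝ} (hA : A.Nonempty) : ∃ t, IsCan A t := by
  by_cases h1 : BddBelow A <;> by_cases h2 : BddAbove A
  · exact ⟨(sInf A + sSup A) / 2, Or.inl ⟨_, _, isGLB_csInf hA h1, isLUB_csSup hA h2, by ring⟩⟩
  · exact ⟨sInf A + 1, Or.inr (Or.inr (Or.inl ⟨⟨_, isGLB_csInf hA h1, rfl⟩, h2⟩))⟩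
  · exact ⟨sSup A - 1, Or.inr (Or.inl ⟨h1, _, isLUB_csSup hA h2, by ring⟩)⟩
  · exact ⟨0, Or.inr (Or.inr (Or.inr ⟨h1, h2, rfl⟩))⟩

lemma IsCan.mem {A : Set ℝ} (hA : A.Nonempty)
    (hc : ∀ a ∈ A, ∀ b ∈ A, ∀ r, a ≤ r → r ≤ b → r ∈ A) {t : ℝ} (h : IsCan A t) : t ∈ A := by
  rcases h with ⟨a, b, ha, hb, h⟩ | ⟨hn, b, hb, h⟩ | ⟨⟨a, ha, h⟩, hn⟩ | ⟨hn, hn', h⟩
  · obtain ⟨x, hx⟩ := hA
    have hab : a ≤ b := (ha.1 hx).trans (hb.1 hx)
    rcases hab.lt_or_eq with hab | hab
    · obtain ⟨y, hy, -, hyt⟩ := ha.exists_between (show a < t by linarith)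
      obtain ⟨z, hz, hzt, -⟩ := hb.exists_between (show t < b by linarith)
      exact hc y hy z hz t hyt.le hzt.le
    · have h1 := ha.1 hx
      have h2 := hb.1 hx
      have : t = x := by linarith
      rw [this]; exact hx
  · rw [not_bddBelow_iff] at hn
    obtain ⟨y, hy, hyt⟩ := hn t
    obtain ⟨z, hz, hzt, -⟩ := hb.exists_between (show t < b by linarith)
    exact hc y hy z hz t hyt.le hzt.le
  · rw [not_bddAbove_iff] at hn
    obtain ⟨y, hy, hyt⟩ := hn t
    obtain ⟨z, hz, -, hzt⟩ := ha.exists_between (show a < t by linarith)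
    exact hc z hz y hy t hzt.le hyt.le
  · rw [not_bddAbove_iff] at hn'
    rw [not_bddBelow_iff] at hn
    obtain ⟨y, hy, hyt⟩ := hn t
    obtain ⟨z, hz, hzt⟩ := hn' t
    exact hc y hy z hz t hyt.le hzt.le

/-! ### semialgebraicity -/

section

variable {ι : Type v}

/-- variables: comparison of two coordinates -/
lemma SA.lt_var (i j : ι) : SA {x : ι → ℝ | x i < x j} := by
  simpa using SA.lt (MvPolynomial.X i : MvPolynomial ι ℝ) (MvPolynomial.X j)

lemma SA.le_var (i j : ι) : SA {x : ι → ℝ | x i ≤ x j} := by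
  simpa using SA.le (MvPolynomial.X i : MvPolynomial ι ℝ) (MvPolynomial.X j)

/-- the family of the first components of the fibres -/
lemma SA.firstComp {P : (ι → ℝ) → ℝ → Prop}
    (h : SA {z : Option ι → ℝ | P (fun i => z (some i)) (z none)}) :
    SA {z : Option ι → ℝ | z none ∈ firstComp {t | P (fun i => z (some i)) t}} := by
  -- `P` evaluated at the coordinate `f`, parameters given by `g`
  have hP : ∀ {α : Type v} (g : ι → α) (f : α),
      SA {z : α → ℝ | P (fun i => z (g i)) (z f)} := by
    intro α g f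
    exact h.reindex (ι := α) (fun o => o.elim f g)
  refine SA.and h ?_
  apply SA.forall_real (P := fun (z : Option ι → ℝ) s' => P (fun i => z (some i)) s' →
    s' < z none → ∀ r, s' < r → r < z none → P (fun i => z (some i)) r)
  refine SA.imp (hP (fun i => some (some i)) none) (SA.imp (SA.lt_var _ _) ?_)
  apply SA.forall_real (P := fun (z : Option (Option ι) → ℝ) r => z none < r → r < z (some none) →
    P (fun i => z (some (some i))) r)
  exact SA.imp (SA.lt_var _ _) (SA.imp (SA.lt_var _ _) (hP _ _))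

/-- infima of SA families -/
lemma SA.isGLB {P : (ι → ℝ) → ℝ → Prop}
    (h : SA {z : Option ι → ℝ | P (fun i => z (some i)) (z none)}) :
    SA {z : Option ι → ℝ | IsGLB {t | P (fun i => z (some i)) t} (z none)} := by
  have hP : ∀ {α : Type v} (g : ι → α) (f : α),
      SA {z : α → ℝ | P (fun i => z (g i)) (z f)} := by
    intro α g f
    exact h.reindex (ι := α) (fun o => o.elim f g)
  have e : {z : Option ι → ℝ | IsGLB {t | P (fun i => z (some i)) t} (z none)} =
      {z | (∀ t, P (fun i => z (some i)) t → z none ≤ t) ∧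
        ∀ b, (∀ t, P (fun i => z (some i)) t → b ≤ t) → b ≤ z none} := by
    ext z; rfl
  rw [e]
  refine SA.and ?_ ?_
  · apply SA.forall_real (P := fun (z : Option ι → ℝ) t => P (fun i => z (some i)) t →
      z none ≤ t)
    exact SA.imp (hP _ _) (SA.le_var _ _)
  · apply SA.forall_real (P := fun (z : Option ι → ℝ) b =>
      (∀ t, P (fun i => z (some i)) t → b ≤ t) → b ≤ z none)
    refine SA.imp ?_ (SA.le_var _ _)
    apply SA.forall_real (P := fun (z : Option (Option ι) → ℝ) t =>
      P (fun i => z (some (some i))) t → z none ≤ t)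
    exact SA.imp (hP _ _) (SA.le_var _ _)

/-- suprema of SA families -/
lemma SA.isLUB {P : (ι → ℝ) → ℝ → Prop}
    (h : SA {z : Option ι → ℝ | P (fun i => z (some i)) (z none)}) :
    SA {z : Option ι → ℝ | IsLUB {t | P (fun i => z (some i)) t} (z none)} := by
  have hP : ∀ {α : Type v} (g : ι → α) (f : α),
      SA {z : α → ℝ | P (fun i => z (g i)) (z f)} := by
    intro α g f
    exact h.reindex (ι := α) (fun o => o.elim f g)
  have e : {z : Option ι → ℝ | IsLUB {t | P (fun i => z (some i)) t} (z none)} =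
      {z | (∀ t, P (fun i => z (some i)) t → t ≤ z none) ∧
        ∀ b, (∀ t, P (fun i => z (some i)) t → t ≤ b) → z none ≤ b} := by
    ext z; rfl
  rw [e]
  refine SA.and ?_ ?_
  · apply SA.forall_real (P := fun (z : Option ι → ℝ) t => P (fun i => z (some i)) t →
      t ≤ z none)
    exact SA.imp (hP _ _) (SA.le_var _ _)
  · apply SA.forall_real (P := fun (z : Option ι → ℝ) b =>
      (∀ t, P (fun i => z (some i)) t → t ≤ b) → z none ≤ b)
    refine SA.imp ?_ (SA.le_var _ _)
    apply SA.forall_real (P := fun (z : Option (Option ι) → ℝ) t =>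
      P (fun i => z (some (some i))) t → t ≤ z none)
    exact SA.imp (hP _ _) (SA.le_var _ _)

lemma SA.bddAbove {P : (ι → ℝ) → ℝ → Prop}
    (h : SA {z : Option ι → ℝ | P (fun i => z (some i)) (z none)}) :
    SA {x : ι → ℝ | BddAbove {t | P x t}} := by
  have hP : ∀ {α : Type v} (g : ι → α) (f : α),
      SA {z : α → ℝ | P (fun i => z (g i)) (z f)} := by
    intro α g f
    exact h.reindex (ι := α) (fun o => o.elim f g)
  apply SA.exists_real (P := fun (x : ι → ℝ) b => ∀ ⦃t⦄, P x t → t ≤ b)
  apply SA.forall_real (P := fun (z : Option ι → ℝ) t => P (fun i => z (some i)) t →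
      t ≤ z none)
  exact SA.imp (hP _ _) (SA.le_var _ _)

lemma SA.bddBelow {P : (ι → ℝ) → ℝ → Prop}
    (h : SA {z : Option ι → ℝ | P (fun i => z (some i)) (z none)}) :
    SA {x : ι → ℝ | BddBelow {t | P x t}} := by
  have hP : ∀ {α : Type v} (g : ι → α) (f : α),
      SA {z : α → ℝ | P (fun i => z (g i)) (z f)} := by
    intro α g f
    exact h.reindex (ι := α) (fun o => o.elim f g)
  apply SA.exists_real (P := fun (x : ι → ℝ) b => ∀ ⦃t⦄, P x t → b ≤ t)
  apply SA.forall_real (P := fun (z : Option ι → ℝ) t => P (fun i => z (some i)) t →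
      z none ≤ t)
  exact SA.imp (hP _ _) (SA.le_var _ _)

/-- a predicate version of reindexing -/
lemma SA.pullback {P : (ι → ℝ) → ℝ → Prop}
    (h : SA {z : Option ι → ℝ | P (fun i => z (some i)) (z none)}) {α : Type u}
    (g : ι → α) (f : α) : SA {z : α → ℝ | P (fun i => z (g i)) (z f)} :=
  h.reindex (ι := α) (fun o => o.elim f g)

lemma SA.isCan {P : (ι → ℝ) → ℝ → Prop}
    (h : SA {z : Option ι → ℝ | P (fun i => z (some i)) (z none)}) :
    SA {z : Option ι → ℝ | IsCan {t | P (fun i => z (some i)) t} (z none)} := by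
  have hG := SA.isGLB h
  have hL := SA.isLUB h
  have hA := (SA.bddAbove h).reindex (ι := Option ι) some
  have hB := (SA.bddBelow h).reindex (ι := Option ι) some
  refine SA.or ?_ (SA.or ?_ (SA.or ?_ ?_))
  · apply SA.exists_real (P := fun (z : Option ι → ℝ) a => ∃ b,
      IsGLB {t | P (fun i => z (some i)) t} a ∧ IsLUB {t | P (fun i => z (some i)) t} b ∧
      z none + z none = a + b)
    apply SA.exists_real (P := fun (z : Option (Option ι) → ℝ) b =>
      IsGLB {t | P (fun i => z (some (some i))) t} (z none) ∧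
      IsLUB {t | P (fun i => z (some (some i))) t} b ∧
      z (some none) + z (some none) = z none + b)
    refine SA.and ?_ (SA.and ?_ ?_)
    · exact SA.pullback (P := fun x t => IsGLB {t | P x t} t) hG
        (fun i => some (some (some i))) (some none)
    · exact SA.pullback (P := fun x t => IsLUB {t | P x t} t) hL
        (fun i => some (some (some i))) none
    · have := SA.eq (ι := Option (Option (Option ι)))
        (MvPolynomial.X (some (some none)) + MvPolynomial.X (some (some none)))
        (MvPolynomial.X (some none) + MvPolynomial.X none)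
      simpa using this
  · refine SA.and (SA.not hB) ?_
    apply SA.exists_real (P := fun (z : Option ι → ℝ) b =>
      IsLUB {t | P (fun i => z (some i)) t} b ∧ z none + 1 = b)
    refine SA.and ?_ ?_
    · exact SA.pullback (P := fun x t => IsLUB {t | P x t} t) hL
        (fun i => some (some i)) none
    · have := SA.eq (ι := Option (Option ι)) (MvPolynomial.X (some none) + 1)
        (MvPolynomial.X none)
      simpa using this
  · refine SA.and ?_ (SA.not hA)
    apply SA.exists_real (P := fun (z : Option ι → ℝ) a =>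
      IsGLB {t | P (fun i => z (some i)) t} a ∧ z none = a + 1)
    refine SA.and ?_ ?_
    · exact SA.pullback (P := fun x t => IsGLB {t | P x t} t) hG
        (fun i => some (some i)) none
    · have := SA.eq (ι := Option (Option ι)) (MvPolynomial.X (some none))
        (MvPolynomial.X none + 1)
      simpa using this
  · refine SA.and (SA.not hB) (SA.and (SA.not hA) ?_)
    have := SA.eq_zero (ι := Option ι) (MvPolynomial.X none)
    simpa using this

/-! ### choice -/

open Classical in
/-- the canonical point of the first component of the fibre, `0` for empty fibres -/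
noncomputable def choice1 (P : (ι → ℝ) → ℝ → Prop) (x : ι → ℝ) : ℝ :=
  if h : ∃ t, IsCan (TS.firstComp {t | P x t}) t then h.choose else 0

/-- **choice**, one coordinate: for an SA predicate `P (x, t)` there is an SA function `c` with
`P (x, c x)` whenever `∃ t, P (x, t)`. -/
theorem SA.exists_choice1 {P : (ι → ℝ) → ℝ → Prop}
    (h : SA {z : Option ι → ℝ | P (fun i => z (some i)) (z none)}) :
    ∃ c : (ι → ℝ) → ℝ, (∀ x, (∃ t, P x t) → P x (c x)) ∧
      SA {z : Option ι → ℝ | z none = c (fun i => z (some i))} := by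
  classical
  have hF := SA.firstComp h
  have hC := SA.isCan (P := fun x t => t ∈ TS.firstComp {t | P x t}) hF
  have hex : SA {x : ι → ℝ | ∃ t, P x t} := SA.exists_real h
  have key : ∀ x, (∃ t, P x t) → (TS.firstComp {t | P x t}).Nonempty := by
    intro x hx
    exact (SA.tame_fibre h x).firstComp_nonempty hx
  refine ⟨choice1 P, ?_, ?_⟩
  · intro x hx
    have h1 := exists_isCan (key x hx)
    have h2 : IsCan (TS.firstComp {t | P x t}) (choice1 P x) := by
      unfold choice1
      rw [dif_pos h1]
      exact h1.choose_spec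
    exact firstComp_subset _ (h2.mem (key x hx) fun a ha b hb r => firstComp_ordConnected _ ha hb)
  · have e : {z : Option ι → ℝ | z none = choice1 P (fun i => z (some i))} =
        {z | ((∃ t, P (fun i => z (some i)) t) ∧
          IsCan {t | t ∈ TS.firstComp {t | P (fun i => z (some i)) t}} (z none)) ∨
          (¬ (∃ t, P (fun i => z (some i)) t) ∧ z none = 0)} := by
      ext z
      by_cases hx : ∃ t, P (fun i => z (some i)) t
      · have h1 := exists_isCan (key _ hx)
        have h2 : IsCan (TS.firstComp {t | P (fun i => z (some i)) t})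
            (choice1 P (fun i => z (some i))) := by
          unfold choice1
          rw [dif_pos h1]
          exact h1.choose_spec
        constructor
        · intro hz
          refine Or.inl ⟨hx, ?_⟩
          have hz' : z none = choice1 P (fun i => z (some i)) := hz
          rw [hz']
          exact h2
        · rintro (hz | hz)
          · exact hz.2.unique h2
          · exact absurd hx hz.1
      · have hemp : {t | P (fun i => z (some i)) t} = ∅ := by
          ext t
          simp only [mem_empty_iff_false, iff_false]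
          exact fun ht => hx ⟨t, ht⟩
        have h1 : choice1 P (fun i => z (some i)) = 0 := by
          unfold choice1
          rw [dif_neg]
          rintro ⟨t, ht⟩
          have hE : TS.firstComp {t | P (fun i => z (some i)) t} = ∅ := by
            rw [hemp]; ext t; simp [TS.firstComp]
          rw [hE] at ht
          rcases ht with ⟨a, b, ha, hb, h⟩ | ⟨hn, b, hb, h⟩ | ⟨⟨a, ha, h⟩, hn⟩ | ⟨hn, hn', h⟩
          · have := ha.2 (show a + 1 ∈ lowerBounds ∅ by simp)
            linarith
          · exact hn bddBelow_empty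
          · exact hn bddAbove_empty
          · exact hn bddBelow_empty
        constructor
        · intro hz
          refine Or.inr ⟨hx, ?_⟩
          have hz' : z none = choice1 P (fun i => z (some i)) := hz
          rw [hz', h1]
        · rintro (hz | hz)
          · exact absurd hz.1 hx
          · change z none = choice1 P (fun i => z (some i))
            rw [h1]; exact hz.2
    rw [e]
    have hex' := hex.reindex (ι := Option ι) some
    refine SA.or (SA.and hex' hC) (SA.and (SA.not hex') ?_)
    have := SA.eq_zero (ι := Option ι) (MvPolynomial.X none)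
    simpa using this

end

end Crest.Agent.R264.TS
end

-- ▼ part R264/TSChoice2

/-!
Row 264, module TS: semialgebraic choice (S7), several coordinates.
-/

set_option autoImplicit false

open Set

namespace Crest.Agent.R264.TS

universe u v

/-- **choice** (S7): for an SA predicate `P (x, y)`, `y : κ → ℝ`, there is an SA function `c` with
`P (x, c x)` whenever `∃ y, P (x, y)`; its graph is SA. -/
theorem SA.exists_choice {ι : Type v} {κ : Type u} [Finite κ] {P : (ι → ℝ) → (κ → ℝ) → Prop}
    (h : SA {z : ι ⊕ κ → ℝ | P (fun i => z (.inl i)) (fun k => z (.inr k))}) :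
    ∃ c : (ι → ℝ) → (κ → ℝ), (∀ x, (∃ y, P x y) → P x (c x)) ∧
      ∀ k, SA {z : Option ι → ℝ | z none = c (fun i => z (some i)) k} := by
  suffices H : ∀ P : (ι → ℝ) → (κ → ℝ) → Prop,
      SA {z : ι ⊕ κ → ℝ | P (fun i => z (.inl i)) (fun k => z (.inr k))} →
      ∃ c : (ι → ℝ) → (κ → ℝ), (∀ x, (∃ y, P x y) → P x (c x)) ∧
      ∀ k, SA {z : Option ι → ℝ | z none = c (fun i => z (some i)) k} from H P h
  clear h P
  refine Finite.induction_empty_option (P := fun κ : Type u => ∀ P : (ι → ℝ) → (κ → ℝ) → Prop,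
      SA {z : ι ⊕ κ → ℝ | P (fun i => z (.inl i)) (fun k => z (.inr k))} →
      ∃ c : (ι → ℝ) → (κ → ℝ), (∀ x, (∃ y, P x y) → P x (c x)) ∧
      ∀ k, SA {z : Option ι → ℝ | z none = c (fun i => z (some i)) k}) ?_ ?_ ?_ κ
  · intro α β e ih P h
    obtain ⟨c, hc1, hc2⟩ := ih (fun x y => P x (y ∘ e.symm))
      (h.reindex (ι := ι ⊕ α) (Sum.map id e.symm))
    refine ⟨fun x => c x ∘ e.symm, fun x hx => ?_, fun k => hc2 (e.symm k)⟩
    obtain ⟨y, hy⟩ := hx
    refine hc1 x ⟨y ∘ e, ?_⟩
    convert hy using 1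
    ext k; simp
  · intro P h
    refine ⟨fun x k => k.elim, fun x hx => ?_, fun k => k.elim⟩
    obtain ⟨y, hy⟩ := hx
    convert hy using 1
    ext k; exact k.elim
  · intro α _ ih P h
    -- the last coordinate
    have h1 : SA {z : Option (ι ⊕ α) → ℝ | P (fun i => z (some (.inl i)))
        (fun o => o.elim (z none) fun a => z (some (.inr a)))} := by
      have := h.reindex (ι := Option (ι ⊕ α)) (Sum.elim (fun i => some (.inl i))
        (fun o : Option α => o.elim none fun a => some (.inr a)))
      convert this using 1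
      ext z
      change P _ _ ↔ P _ _
      apply iff_of_eq
      congr 1
      ext o
      cases o <;> rfl
    obtain ⟨c2, hc21, hc22⟩ := SA.exists_choice1 (P := fun (w : ι ⊕ α → ℝ) t =>
      P (fun i => w (.inl i)) (fun o => o.elim t fun a => w (.inr a))) h1
    have h2 := SA.exists_real (P := fun (w : ι ⊕ α → ℝ) t =>
      P (fun i => w (.inl i)) (fun o => o.elim t fun a => w (.inr a))) h1
    obtain ⟨c1, hc11, hc12⟩ := ih (fun x y => ∃ t, P x (fun o => o.elim t fun a => y a)) h2
    have hc12' : ∀ a, SA {z : Option ι → ℝ | z none = c1 (fun i => z (some i)) a} := hc12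
    refine ⟨fun x o => o.elim (c2 (Sum.elim x (c1 x))) (c1 x), fun x hx => ?_, fun k => ?_⟩
    · obtain ⟨y, hy⟩ := hx
      have h3 := hc11 x ⟨fun a => y (some a), y none, by
        convert hy using 1
        ext o; cases o <;> rfl⟩
      have h4 := hc21 (Sum.elim x (c1 x)) h3
      exact h4
    · cases k with
      | some a => exact hc12' a
      | none =>
        -- `z none = c2 (x, c1 x)`  iff  `∃ y, y = c1 x ∧ z none = c2 (x, y)`
        have e : {z : Option ι → ℝ | z none = (none : Option α).elim
            (c2 (Sum.elim (fun i => z (some i)) (c1 fun i => z (some i))))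
            (c1 fun i => z (some i))} =
            {z | ∃ y : α → ℝ, (∀ a, y a = c1 (fun i => z (some i)) a) ∧
              z none = c2 (Sum.elim (fun i => z (some i)) y)} := by
          ext z
          constructor
          · intro hz
            exact ⟨c1 fun i => z (some i), fun a => rfl, hz⟩
          · rintro ⟨y, hy, hz⟩
            have : y = c1 fun i => z (some i) := funext hy
            rw [this] at hz
            exact hz
        rw [e]
        apply SA.exists_fun (P := fun (z : Option ι → ℝ) (y : α → ℝ) =>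
          (∀ a, y a = c1 (fun i => z (some i)) a) ∧
              z none = c2 (Sum.elim (fun i => z (some i)) y))
        refine SA.and (SA.forall_finite fun a => ?_) ?_
        · exact (hc12' a).reindex (ι := Option ι ⊕ α)
            (fun o => o.elim (.inr a) fun i => .inl (some i))
        · have := hc22.reindex (ι := Option ι ⊕ α)
            (fun o => o.elim (.inl none) (Sum.elim (fun i => .inl (some i)) fun a => .inr a))
          convert this using 1
          ext z
          change z _ = c2 _ ↔ z _ = c2 _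
          have e2 : (Sum.elim (fun i => z (.inl (some i))) fun k => z (.inr k)) =
            (fun i : ι ⊕ α => z ((some i).elim (.inl none)
              (Sum.elim (fun i => .inl (some i)) fun a => .inr a))) := by
            ext i; cases i <;> rfl
          rw [e2]
          rfl

end Crest.Agent.R264.TS
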