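import Crest.Agent.R264.SAU3
import Crest.Agent.R264.TSChoice2
import Crest.Agent.R264.SAV
import Crest.Agent.R264.AIface

-- ▼ part R264/SAU4
section

/-!
Row 264, module SAU (helper264), part 4: (S6) uniform limits of semialgebraic families.
-/

set_option autoImplicit false

open Topology Filter Set MvPolynomial

namespace Crest.Agent.R264.SAU

open Crest.Agent.R264.TS

/-- (S4) generic smoothness, as an input -/
def GS (ι : Type*) [Fintype ι] : Prop :=
  ∀ f : (ι → ℝ) → ℝ, SAF f → ∃ Δ : MvPolynomial ι ℝ, Δ ≠ 0 ∧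
    ContDiffOn ℝ 1 f {x | eval x Δ ≠ 0}

variable {ι κ : Type*}

theorem contDiff_cons [Fintype ι] :
    ContDiff ℝ 1 (fun p : (ι → ℝ) × ℝ => cons p.1 p.2) := by
  rw [contDiff_pi]
  intro o
  cases o with
  | none => exact contDiff_snd
  | some i => exact (contDiff_apply ℝ ℝ i).comp contDiff_fst

/-- generic smoothness near `s = 0+` -/
theorem sm [Fintype ι] (hGS : GS (Option ι)) {f : (ι → ℝ) → ℝ → ℝ} (hf : SAF2 f)
    {O : Set (ι → ℝ)} (hO : IsOpen O) (hne : O.Nonempty) :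
    ∃ O' ⊆ O, IsOpen O' ∧ O'.Nonempty ∧ ∃ s1 > (0 : ℝ),
      ContDiffOn ℝ 1 (fun p : (ι → ℝ) × ℝ => f p.1 p.2) (O' ×ˢ Ioo 0 s1) := by
  obtain ⟨Δ, hΔ, hsm⟩ := hGS _ hf
  obtain ⟨a, ha, r, hr, hball, s1, hs1, hne0⟩ := s5_open Δ hΔ O hO hne
  refine ⟨Metric.ball a r, hball, Metric.isOpen_ball, ⟨a, Metric.mem_ball_self hr⟩, s1, hs1, ?_⟩
  have h := hsm.comp (contDiff_cons (ι := ι)).contDiffOn
    (s := Metric.ball a r ×ˢ Ioo 0 s1) (by
      rintro ⟨b, s⟩ ⟨hb, hs⟩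
      exact hne0 b hb s hs.1 hs.2)
  exact h

/-- generic continuity -/
theorem cont [Fintype ι] (hGS : GS ι) {f : (ι → ℝ) → ℝ} (hf : SAF f)
    {O : Set (ι → ℝ)} (hO : IsOpen O) (hne : O.Nonempty) :
    ∃ O' ⊆ O, IsOpen O' ∧ O'.Nonempty ∧ ∀ b ∈ O', ContinuousAt f b := by
  obtain ⟨Δ, hΔ, hsm⟩ := hGS _ hf
  obtain ⟨a, ha, hane⟩ := exists_eval_ne_zero Δ hΔ O hO hne
  have hopen : IsOpen {x : ι → ℝ | eval x Δ ≠ 0} :=
    isOpen_ne_fun (MvPolynomial.continuous_eval Δ) continuous_const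
  refine ⟨O ∩ {x | eval x Δ ≠ 0}, inter_subset_left, hO.inter hopen, ⟨a, ha, hane⟩, ?_⟩
  rintro b ⟨_, hb⟩
  exact hsm.continuousOn.continuousAt (hopen.mem_nhds hb)

/-- the set defining `η` -/
def etaSet (P : (ι → ℝ) → ℝ → Prop) (a : ι → ℝ) : Set ℝ :=
  {t | 0 ≤ t ∧ t ≤ 1 ∧ ∀ s, 0 < s → s < t → P a s}

/-- `η a = sup {t ≤ 1 : P a s for 0 < s < t}` -/
noncomputable def eta (P : (ι → ℝ) → ℝ → Prop) (a : ι → ℝ) : ℝ := sSup (etaSet P a)

theorem isGreatest_eta (P : (ι → ℝ) → ℝ → Prop) (a : ι → ℝ) :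
    IsGreatest (etaSet P a) (eta P a) := by
  have h0 : (0 : ℝ) ∈ etaSet P a := ⟨le_rfl, zero_le_one, fun s h1 h2 => absurd (h1.trans h2)
    (lt_irrefl _)⟩
  have hbd : BddAbove (etaSet P a) := ⟨1, fun t ht => ht.2.1⟩
  refine ⟨⟨le_csSup hbd h0, csSup_le ⟨0, h0⟩ fun t ht => ht.2.1, fun s h1 h2 => ?_⟩,
    fun t ht => le_csSup hbd ht⟩
  obtain ⟨t, ht, hst⟩ := exists_lt_of_lt_csSup ⟨0, h0⟩ h2
  exact ht.2.2 s h1 hst

theorem eta_pos {P : (ι → ℝ) → ℝ → Prop} {a : ι → ℝ} (h : ∀ᶠ s in 𝓝[>] (0 : ℝ), P a s) :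
    0 < eta P a := by
  rw [(nhdsGT_basis (0 : ℝ)).eventually_iff] at h
  obtain ⟨d, hd, h⟩ := h
  have : min d 1 ∈ etaSet P a := by
    refine ⟨(lt_min hd one_pos).le, min_le_right _ _, fun s h1 h2 => h ⟨h1, ?_⟩⟩
    exact h2.trans_le (min_le_left _ _)
  exact (lt_min hd one_pos).trans_le ((isGreatest_eta P a).2 this)

theorem eta_spec (P : (ι → ℝ) → ℝ → Prop) (a : ι → ℝ) {s : ℝ} (h1 : 0 < s)
    (h2 : s < eta P a) : P a s := (isGreatest_eta P a).1.2.2 s h1 h2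

theorem saf_eta {P : (ι → ℝ) → ℝ → Prop}
    (hP : SA {x : Option ι → ℝ | P (fun i => x (some i)) (x none)}) : SAF (eta P) := by
  apply SAF.of_iff (P := fun a t => (0 ≤ t ∧ t ≤ 1 ∧ ∀ s, 0 < s → s < t → P a s) ∧
    ∀ t', (0 ≤ t' ∧ t' ≤ 1 ∧ ∀ s, 0 < s → s < t' → P a s) → t' ≤ t)
  · intro a t
    constructor
    · rintro rfl
      exact ⟨(isGreatest_eta P a).1, fun t' h => (isGreatest_eta P a).2 h⟩
    · rintro ⟨h1, h2⟩
      exact (isGreatest_eta P a).unique ⟨h1, h2⟩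
  · apply SA.and
    · apply SA.and (SAF.le (SAF.const 0) (SAF.coord _))
      apply SA.and (SAF.le (SAF.coord _) (SAF.const 1))
      apply SA.allR
      apply SA.imp (SAF.lt (SAF.const 0) (SAF.coord _))
      apply SA.imp (SAF.lt (SAF.coord _) (SAF.coord _))
      have := TS.SA.reindex (ι := Option (Option ι)) hP
        (fun o : Option ι => o.elim none (fun i => some (some i)))
      exact this
    · apply SA.allR
      apply SA.imp
      · apply SA.and (SAF.le (SAF.const 0) (SAF.coord _))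
        apply SA.and (SAF.le (SAF.coord _) (SAF.const 1))
        apply SA.allR
        apply SA.imp (SAF.lt (SAF.const 0) (SAF.coord _))
        apply SA.imp (SAF.lt (SAF.coord _) (SAF.coord _))
        have := TS.SA.reindex (ι := Option (Option (Option ι))) hP
          (fun o : Option ι => o.elim none (fun i => some (some (some i))))
        exact this
      · exact SAF.le (SAF.coord _) (SAF.coord _)

/-- (S6) a bounded semialgebraic family has joint limits at `s = 0+` generically -/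
theorem s6 [Fintype ι] (hGS0 : GS ι) (hGS1 : GS (Option ι)) {F : (ι → ℝ) → ℝ → ℝ} (hF : SAF2 F)
    (hb : ∀ a s, |F a s| ≤ 1) {O : Set (ι → ℝ)} (hO : IsOpen O) (hne : O.Nonempty) :
    ∃ O' ⊆ O, IsOpen O' ∧ O'.Nonempty ∧ LimOn F O' := by
  choose F0 hF0 using exists_lim hF hb
  have hS0 : SAF F0 := saf_lim hF hF0
  obtain ⟨O1, hO1, hO1o, hO1n, hc0⟩ := cont hGS0 hS0 hO hne
  -- `η(a, δ)`
  let P : (Option ι → ℝ) → ℝ → Prop := fun x s =>
    |F (fun i => x (some i)) s - F0 (fun i => x (some i))| ≤ x none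
  have hP : SA {x : Option (Option ι) → ℝ | P (fun i => x (some i)) (x none)} := by
    apply SAF.le
    · apply SAF.abs
      apply SAF.sub
      · have := SAF.reindex (ι := Option (Option ι)) hF
          (fun o : Option ι => o.elim none (fun i => some (some i)))
        exact this
      · have := SAF.reindex (ι := Option (Option ι)) hS0 (fun i : ι => some (some i))
        exact this
    · exact SAF.coord _
  have hη : SAF2 (fun (a : ι → ℝ) (d : ℝ) => eta P (cons a d)) := by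
    have h1 := saf_eta hP
    have h2 : (fun x : Option ι → ℝ => eta P (cons (fun i => x (some i)) (x none))) = eta P := by
      funext x
      congr 1
      funext o
      cases o <;> rfl
    unfold SAF2
    rw [h2]
    exact h1
  have hηpos : ∀ (a : ι → ℝ) (d : ℝ), 0 < d → 0 < eta P (cons a d) := by
    intro a d hd
    apply eta_pos
    have := (hF0 a).eventually (Metric.closedBall_mem_nhds (F0 a) hd)
    filter_upwards [this] with s hs
    rw [Real.dist_eq] at hs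
    exact hs
  obtain ⟨O2, hO2, hO2o, hO2n, d0, hd0, hsm⟩ := sm hGS1 hη hO1o hO1n
  refine ⟨O2, hO2.trans hO1, hO2o, hO2n, F0, fun b hb2 => ?_⟩
  rw [Metric.tendsto_nhds]
  intro ε hε
  set d : ℝ := min (ε / 4) (d0 / 2) with hd
  have hdpos : 0 < d := lt_min (by positivity) (by positivity)
  have hdd0 : d < d0 := (min_le_right _ _).trans_lt (by linarith)
  have hcη : ContinuousAt (fun a : ι → ℝ => eta P (cons a d)) b := by
    have h1 : ContinuousAt (fun p : (ι → ℝ) × ℝ => eta P (cons p.1 p.2)) (b, d) := by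
      apply hsm.continuousOn.continuousAt
      exact (hO2o.prod isOpen_Ioo).mem_nhds ⟨hb2, hdpos, hdd0⟩
    have h2 : ContinuousAt (fun a : ι → ℝ => (a, d)) b :=
      (continuous_id.prodMk continuous_const).continuousAt
    exact ContinuousAt.comp (f := fun a : ι → ℝ => (a, d)) (x := b) h1 h2
  have hb1 := hηpos b d hdpos
  have e1 : ∀ᶠ a in 𝓝 b, eta P (cons b d) / 2 < eta P (cons a d) :=
    hcη.eventually (lt_mem_nhds (by linarith))
  have e2 : ∀ᶠ a in 𝓝 b, |F0 a - F0 b| < ε / 2 := by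
    have := (hc0 b (hO2 hb2)).eventually (Metric.ball_mem_nhds (F0 b) (half_pos hε))
    filter_upwards [this] with a ha
    rwa [Real.dist_eq] at ha
  have e3 : ∀ᶠ s in 𝓝[>] (0 : ℝ), 0 < s ∧ s < eta P (cons b d) / 2 := by
    have := Ioo_mem_nhdsGT (half_pos hb1)
    filter_upwards [this] with s hs
    exact hs
  have e4 := (e1.and e2).prod_mk e3
  filter_upwards [e4] with p hp
  obtain ⟨⟨h1, h2⟩, h3, h4⟩ := hp
  have h5 : P (cons p.1 d) p.2 := eta_spec P (cons p.1 d) h3 (h4.trans h1)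
  have h6 : |F p.1 p.2 - F0 p.1| ≤ d := h5
  rw [Real.dist_eq]
  calc |F p.1 p.2 - F0 b| = |(F p.1 p.2 - F0 p.1) + (F0 p.1 - F0 b)| := by ring_nf
    _ ≤ |F p.1 p.2 - F0 p.1| + |F0 p.1 - F0 b| := abs_add_le _ _
    _ < ε / 2 + ε / 2 := by
        have : d ≤ ε / 4 := min_le_left _ _
        linarith
    _ = ε := by ring

end Crest.Agent.R264.SAU
end

-- ▼ part R264/SAU5
section

/-!
Row 264, module SAU (helper264), part 5: (S3) and ARC-1 = existence of semialgebraic arcs.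
-/

set_option autoImplicit false

open Topology Filter Set MvPolynomial

namespace Crest.Agent.R264.SAU

open Crest.Agent.R264.TS

variable {ι κ : Type*}

/-- (S3) an SA set is locally constant off a hypersurface -/
theorem s3 [Fintype ι] {Z : Set (ι → ℝ)} (hZ : SA Z) :
    ∃ Δ : MvPolynomial ι ℝ, Δ ≠ 0 ∧ ∀ x, eval x Δ ≠ 0 → ∀ᶠ y in 𝓝 x, (y ∈ Z ↔ x ∈ Z) := by
  classical
  obtain ⟨W, hW⟩ := hZ
  refine ⟨∏ p ∈ W.filter (· ≠ 0), p, ?_, fun x hx => ?_⟩
  · rw [Finset.prod_ne_zero_iff]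
    intro p hp
    exact (Finset.mem_filter.1 hp).2
  have h1 : ∀ᶠ y in 𝓝 x, ∀ p ∈ W, SignType.sign (eval y p) = SignType.sign (eval x p) := by
    rw [Filter.eventually_all_finset]
    intro p hp
    by_cases hp0 : p = 0
    · simp [hp0]
    · have hne : eval x p ≠ 0 := by
        rw [map_prod, Finset.prod_ne_zero_iff] at hx
        exact hx p (Finset.mem_filter.2 ⟨hp, hp0⟩)
      have hc : ContinuousAt (fun y : ι → ℝ => SignType.sign (eval y p)) x :=
        ContinuousAt.comp (f := fun y : ι → ℝ => eval y p) (continuousAt_sign_of_ne_zero hne)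
          (MvPolynomial.continuous_eval p).continuousAt
      rw [ContinuousAt, nhds_discrete SignType, tendsto_pure] at hc
      exact hc
  filter_upwards [h1] with y hy
  exact hW y x hy

/-- ARC-1: existence of semialgebraic arcs -/
theorem arc1 [Fintype ι] [Fintype κ] [Nonempty κ] (hGS : GS ι) {A : (ι → ℝ) → (κ → ℝ) → Prop}
    (hA : SA {z : ι ⊕ κ → ℝ | A (fun i => z (Sum.inl i)) (fun k => z (Sum.inr k))})
    {O : Set (ι → ℝ)} (hO : IsOpen O) (hne : O.Nonempty)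
    (hop : ∀ a ∈ O, IsOpen {v | A a v})
    (hcl : ∀ a ∈ O, ∀ ε : ℝ, 0 < ε → ∃ a', dist a' a < ε ∧ ∃ v, A a' v ∧ ‖v‖ < ε) :
    ∃ O' ⊆ O, IsOpen O' ∧ O'.Nonempty ∧ ∃ s0 > (0 : ℝ), ∃ vv : (ι → ℝ) → ℝ → (κ → ℝ),
      (∀ j, SAF2 (fun a s => vv a s j)) ∧
      ∀ a ∈ O', ∀ s, 0 < s → s < s0 → A a (vv a s) ∧ ‖vv a s‖ = s := by
  -- the condition `s < ‖v‖` for all points `v` of the fibre
  have hP : SA {x : Option ι → ℝ | ∀ v : κ → ℝ, A (fun i => x (some i)) v → x none < ‖v‖} := by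
    apply SA.allV (P := fun (x : Option ι → ℝ) (v : κ → ℝ) =>
      A (fun i => x (some i)) v → x none < ‖v‖)
    apply SA.imp
    · have := TS.SA.reindex (ι := Option ι ⊕ κ) hA (Sum.map some id)
      exact this
    · exact SAF.lt (SAF.coord _) (SAF.norm fun k => SAF.coord (Sum.inr k))
  have hZ : SA {a : ι → ℝ | ∃ c : ℝ, 0 < c ∧ ∀ v : κ → ℝ, A a v → c < ‖v‖} := by
    apply SA.exR (P := fun (a : ι → ℝ) (c : ℝ) => 0 < c ∧ ∀ v : κ → ℝ, A a v → c < ‖v‖)
    exact SA.and (SAF.lt (SAF.const 0) (SAF.coord _)) hP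
  obtain ⟨Δ, hΔ, hloc⟩ := s3 hZ
  obtain ⟨a0, ha0, ha0ne⟩ := exists_eval_ne_zero Δ hΔ O hO hne
  have hloc0 := hloc a0 ha0ne
  have ha0Z : ¬ ∃ c : ℝ, 0 < c ∧ ∀ v : κ → ℝ, A a0 v → c < ‖v‖ := by
    intro hcon
    obtain ⟨B, hBsub, hBo, ha0B⟩ := eventually_nhds_iff.1
      (hloc0.and (hO.mem_nhds ha0))
    obtain ⟨O1, hO1, hO1o, ⟨b, hb⟩, hc1⟩ := cont hGS
      (saf_eta (P := fun (a : ι → ℝ) (s : ℝ) => ∀ v : κ → ℝ, A a v → s < ‖v‖) hP) hBo ⟨a0, ha0B⟩
    have hbB := hO1 hb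
    have hbZ : ∃ c : ℝ, 0 < c ∧ ∀ v : κ → ℝ, A b v → c < ‖v‖ := ((hBsub b hbB).1).2 hcon
    have hbO : b ∈ O := (hBsub b hbB).2
    obtain ⟨c, hc, hcv⟩ := hbZ
    set g := eta (fun (a : ι → ℝ) (s : ℝ) => ∀ v : κ → ℝ, A a v → s < ‖v‖) with hg
    have hgpos : 0 < g b := by
      apply eta_pos
      filter_upwards [Ioo_mem_nhdsGT hc] with s hs v hv
      exact hs.2.trans (hcv v hv)
    have e1 : ∀ᶠ a in 𝓝 b, g b / 2 < g a :=
      (hc1 b hb).eventually (lt_mem_nhds (by linarith))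
    obtain ⟨ρ, hρ, hρ'⟩ := Metric.eventually_nhds_iff.1 e1
    obtain ⟨a', ha', v, hv, hvn⟩ := hcl b hbO (min ρ (g b / 4)) (lt_min hρ (by linarith))
    have h1 := hρ' (ha'.trans_le (min_le_left _ _))
    have h2 := eta_spec (fun (a : ι → ℝ) (s : ℝ) => ∀ v : κ → ℝ, A a v → s < ‖v‖) a'
      (s := g b / 4) (by linarith) (by rw [← hg]; linarith) v hv
    have h3 := hvn.trans_le (min_le_right _ _)
    exact absurd h2 (not_lt.2 h3.le)
  obtain ⟨B, hBsub, hBo, ha0B⟩ := eventually_nhds_iff.1 (hloc0.and (hO.mem_nhds ha0))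
  have hBO : B ⊆ O := fun b hb => (hBsub b hb).2
  have hBZ : ∀ b ∈ B, ∀ c : ℝ, 0 < c → ∃ v : κ → ℝ, A b v ∧ ‖v‖ ≤ c := by
    intro b hb c hc
    have h1 : ¬ ∃ c : ℝ, 0 < c ∧ ∀ v : κ → ℝ, A b v → c < ‖v‖ := fun h =>
      ha0Z (((hBsub b hb).1).1 h)
    by_contra hcon
    push Not at hcon
    exact h1 ⟨c, hc, hcon⟩
  -- the norms taken on the fibre
  have hN : SA {x : Option ι → ℝ | ∃ v : κ → ℝ, A (fun i => x (some i)) v ∧ ‖v‖ = x none} := by
    apply SA.exV (P := fun (x : Option ι → ℝ) (v : κ → ℝ) =>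
      A (fun i => x (some i)) v ∧ ‖v‖ = x none)
    apply SA.and
    · have := TS.SA.reindex (ι := Option ι ⊕ κ) hA (Sum.map some id)
      exact this
    · exact SAF.eq (SAF.norm fun k => SAF.coord (Sum.inr k)) (SAF.coord _)
  have hev : ∀ b ∈ B, ∀ᶠ s in 𝓝[>] (0 : ℝ), ∃ v : κ → ℝ, A b v ∧ ‖v‖ = s := by
    intro b hb
    rcases ev' (P := fun (a : ι → ℝ) (s : ℝ) => ∃ v : κ → ℝ, A a v ∧ ‖v‖ = s) hN b with h | h
    · exact h
    · exfalso
      rw [(nhdsGT_basis (0 : ℝ)).eventually_iff] at h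
      obtain ⟨d, hd, h⟩ := h
      obtain ⟨v, hv, hvn⟩ := hBZ b hb (d / 2) (by linarith)
      by_cases hv0 : v = 0
      · -- `0` belongs to the open fibre
        have h1 : {v | A b v} ∈ 𝓝 (0 : κ → ℝ) := (hop b (hBO hb)).mem_nhds (by
          rw [hv0] at hv; exact hv)
        obtain ⟨ρ, hρ, hρ'⟩ := Metric.mem_nhds_iff.1 h1
        have ht : 0 < min (ρ / 2) (d / 2) := lt_min (by linarith) (by linarith)
        have hnorm : ‖(fun _ : κ => min (ρ / 2) (d / 2))‖ = min (ρ / 2) (d / 2) := by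
          rw [pi_norm_const, Real.norm_eq_abs, abs_of_pos ht]
        have h2 : A b (fun _ : κ => min (ρ / 2) (d / 2)) := by
          apply hρ'
          rw [mem_ball_zero_iff, hnorm]
          exact (min_le_left _ _).trans_lt (by linarith)
        exact h ⟨ht, (min_le_right _ _).trans_lt (by linarith)⟩ ⟨_, h2, hnorm⟩
      · exact h ⟨norm_pos_iff.2 hv0, hvn.trans_lt (by linarith)⟩ ⟨v, hv, rfl⟩
  set g := eta (fun (a : ι → ℝ) (s : ℝ) => ∃ v : κ → ℝ, A a v ∧ ‖v‖ = s) with hg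
  obtain ⟨O2, hO2, hO2o, ⟨b, hb⟩, hc2⟩ := cont hGS
    (saf_eta (P := fun (a : ι → ℝ) (s : ℝ) => ∃ v : κ → ℝ, A a v ∧ ‖v‖ = s) hN) hBo ⟨a0, ha0B⟩
  have hgpos : 0 < g b := eta_pos (hev b (hO2 hb))
  have e1 : ∀ᶠ a in 𝓝 b, g b / 2 < g a :=
    (hc2 b hb).eventually (lt_mem_nhds (by linarith))
  obtain ⟨O3, hO3sub, hO3o, hbO3⟩ := eventually_nhds_iff.1 (e1.and (hO2o.mem_nhds hb))
  obtain ⟨c, hc, hcs⟩ := SA.exists_choice (P := fun (x : Option ι → ℝ) (v : κ → ℝ) =>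
      A (fun i => x (some i)) v ∧ ‖v‖ = x none) (by
    apply SA.and
    · have := TS.SA.reindex (ι := Option ι ⊕ κ) hA (Sum.map some id)
      exact this
    · exact SAF.eq (SAF.norm fun k => SAF.coord (Sum.inr k)) (SAF.coord _))
  refine ⟨O3, fun a ha => hBO (hO2 (hO3sub a ha).2), hO3o, ⟨b, hbO3⟩, g b / 2, by linarith,
    fun a s => c (cons a s), ?_, ?_⟩
  · intro j
    have h1 : SAF (fun x : Option ι → ℝ => c x j) := by
      unfold SAF
      simpa only [eq_comm] using hcs j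
    have h2 : (fun x : Option ι → ℝ => c (cons (fun i => x (some i)) (x none)) j) =
        fun x => c x j := by
      funext x
      congr 1
      funext o
      cases o <;> rfl
    unfold SAF2
    rw [h2]
    exact h1
  · intro a ha s hs0 hs1
    have h1 : ∃ v : κ → ℝ, A a v ∧ ‖v‖ = s :=
      eta_spec (fun (a : ι → ℝ) (s : ℝ) => ∃ v : κ → ℝ, A a v ∧ ‖v‖ = s) a hs0
        (hs1.trans (hO3sub a ha).1)
    exact hc (cons a s) h1

end Crest.Agent.R264.SAU
end

-- ▼ part R264/SAUArc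

/-!
Row 264, module SAU (helper264): transport of ARC to `P m k` (first half of `AI.ArcStmt`).
-/

set_option autoImplicit false

open Topology Filter Set Complex
open scoped ContDiff

namespace Crest.Agent.R264.SAU

open Crest.Agent.R264.TS
open Crest.Agent.R264.JL (P sig ofR reV imV)

variable {m k : ℕ}

theorem pol_ofR {V : Type*} [AddCommGroup V] [Module ℝ V] {f : V → (Fin k → ℝ)} (hf : Pol f) :
    Pol (fun v => ofR (f v)) :=
  Pol.comp (Pol.lin (ofR (k := k) : (Fin k → ℝ) →ₗ[ℝ] (Fin k → ℂ))) hf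

/-- the fibre condition in `P m k`-coordinates is SA -/
theorem sav_fibre {O : Set (P m k)} {Ht : P m k → (Fin k → ℝ)} {UU : Set (EE m k)}
    (hG : SAV {p : P m k × (Fin k → ℝ) | p.1 ∈ O ∧ p.2 = Ht p.1}) (hU : SAV UU) :
    SAV {p : P m k × (Fin k → ℝ) | p.1 ∈ O ∧
      ((p.1.1, ofR p.1.2 + I • ofR (Ht p.1 + p.2)) : EE m k) ∈ UU} := by
  have h1 : SAV {p : P m k × (Fin k → ℝ) | ∃ y : Fin k → ℝ, (p.1 ∈ O ∧ y = Ht p.1) ∧
      ((p.1.1, ofR p.1.2 + I • ofR (y + p.2)) : EE m k) ∈ UU} := by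
    apply SAV.ex (P := fun (p : P m k × (Fin k → ℝ)) (y : Fin k → ℝ) => (p.1 ∈ O ∧ y = Ht p.1) ∧
      ((p.1.1, ofR p.1.2 + I • ofR (y + p.2)) : EE m k) ∈ UU)
    apply SAV.and
    · exact hG.preimage (g := fun q : (P m k × (Fin k → ℝ)) × (Fin k → ℝ) => (q.1.1, q.2))
        (by fun_prop)
    · apply hU.preimage (g := fun q : (P m k × (Fin k → ℝ)) × (Fin k → ℝ) =>
        ((q.1.1.1, ofR q.1.1.2 + I • ofR (q.2 + q.1.2)) : EE m k))
      apply Pol.prodMk
      · fun_prop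
      · apply Pol.add
        · exact pol_ofR (by fun_prop)
        · exact Pol.csmul (Pol.const I) (pol_ofR (by fun_prop))
  convert h1 using 1
  ext p
  constructor
  · rintro ⟨h1, h2⟩
    exact ⟨Ht p.1, ⟨h1, rfl⟩, h2⟩
  · rintro ⟨y, ⟨h1, rfl⟩, h2⟩
    exact ⟨h1, h2⟩

/-- fibres are open -/
theorem fibre_open {O : Set (P m k)} {Ht : P m k → (Fin k → ℝ)} {UU : Set (EE m k)}
    (hUo : IsOpen UU) (a : P m k) :
    IsOpen {v : Fin k → ℝ | a ∈ O ∧ ((a.1, ofR a.2 + I • ofR (Ht a + v)) : EE m k) ∈ UU} := by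
  by_cases ha : a ∈ O
  · simp only [ha, true_and]
    apply hUo.preimage (f := fun v : Fin k → ℝ =>
      ((a.1, ofR a.2 + I • ofR (Ht a + v)) : EE m k))
    fun_prop
  · simp only [ha, false_and]
    exact isOpen_empty

theorem point_eq (p : EE m k) (y : Fin k → ℝ) :
    ((p.1, ofR (reV p.2) + I • ofR (y + (imV p.2 - y))) : EE m k) = p := by
  refine Prod.ext rfl ?_
  funext i
  simp only [Pi.add_apply, Pi.smul_apply, JL.ofR_apply, JL.reV_apply, smul_eq_mul,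
    add_sub_cancel, JL.imV_apply]
  rw [mul_comm]
  exact Complex.re_add_im _

/-- `0` is in the closure of the fibres -/
theorem fibre_closure {O : Set (P m k)} {Ht : P m k → (Fin k → ℝ)} {UU : Set (EE m k)}
    (hO : IsOpen O) (hH : ContDiffOn ℝ ∞ Ht O)
    (hcl : ∀ a ∈ O, sig Ht a ∈ closure UU) (a : P m k) (ha : a ∈ O) (ε : ℝ) (hε : 0 < ε) :
    ∃ a', dist a' a < ε ∧ ∃ v : Fin k → ℝ,
      (a' ∈ O ∧ ((a'.1, ofR a'.2 + I • ofR (Ht a' + v)) : EE m k) ∈ UU) ∧ ‖v‖ < ε := by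
  have hHa : ContinuousAt Ht a := hH.continuousOn.continuousAt (hO.mem_nhds ha)
  -- the map `p ↦ a'`
  let φ : EE m k → P m k := fun p => (p.1, reV p.2)
  have hφ : Continuous φ := by fun_prop
  have hφa : φ (sig Ht a) = a := by
    refine Prod.ext rfl ?_
    funext i
    simp [φ, sig]
  have hψ : ContinuousAt (fun p : EE m k => imV p.2 - Ht (φ p)) (sig Ht a) := by
    apply ContinuousAt.sub
    · have : Continuous (fun p : EE m k => imV p.2) := by fun_prop
      exact this.continuousAt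
    · apply ContinuousAt.comp (f := φ)
      · rw [hφa]; exact hHa
      · exact hφ.continuousAt
  have hψa : imV (sig Ht a).2 - Ht (φ (sig Ht a)) = 0 := by
    rw [hφa]
    funext i
    simp [sig]
  have e1 : ∀ᶠ p in 𝓝 (sig Ht a), dist (φ p) a < ε := by
    have := hφ.continuousAt (x := sig Ht a)
    rw [ContinuousAt, hφa] at this
    exact this.eventually (Metric.ball_mem_nhds a hε)
  have e2 : ∀ᶠ p in 𝓝 (sig Ht a), φ p ∈ O := by
    have := hφ.continuousAt (x := sig Ht a)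
    rw [ContinuousAt, hφa] at this
    exact this.eventually (hO.mem_nhds ha)
  have e3 : ∀ᶠ p in 𝓝 (sig Ht a), ‖imV p.2 - Ht (φ p)‖ < ε := by
    rw [ContinuousAt, hψa] at hψ
    have := hψ.eventually (Metric.ball_mem_nhds (0 : Fin k → ℝ) hε)
    filter_upwards [this] with p hp
    simpa using hp
  obtain ⟨p, hpU, hp1, hp2, hp3⟩ := (mem_closure_iff_frequently.1 (hcl a ha)).and_eventually
    (e1.and (e2.and e3)) |>.exists
  refine ⟨φ p, hp1, imV p.2 - Ht (φ p), ⟨hp2, ?_⟩, hp3⟩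
  have := point_eq p (Ht (φ p))
  change ((p.1, ofR (reV p.2) + I • ofR (Ht (φ p) + (imV p.2 - Ht (φ p)))) : EE m k) ∈ UU
  rw [this]
  exact hpU

/-- the second half (ARC-2), as an input -/
def Arc2 : Prop := ∀ (n k : ℕ) (vv : (Fin n → ℝ) → ℝ → (Fin k → ℝ)),
  (∀ j, SAF2 (fun a s => vv a s j)) → ∀ O : Set (Fin n → ℝ), IsOpen O → O.Nonempty →
  ∀ s0 : ℝ, 0 < s0 → (∀ a ∈ O, ∀ s, 0 < s → s < s0 → ‖vv a s‖ ≤ s) →
  ∃ (a0 : Fin n → ℝ) (r s1 C : ℝ) (om : ℝ → ℝ), 0 < r ∧ 0 < s1 ∧ s1 ≤ s0 ∧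
    Metric.ball a0 r ⊆ O ∧ Monotone om ∧ Tendsto om (𝓝[>] 0) (𝓝 0) ∧ (∀ s, 0 ≤ om s) ∧
    (∀ a ∈ Metric.ball a0 r, ∀ a' ∈ Metric.ball a0 r, ∀ s, 0 < s → s < s1 →
      ‖vv a s - vv a' s‖ ≤ om s * ‖a - a'‖) ∧
    (∀ a ∈ Metric.ball a0 r, ∀ s s', 0 < s → s < s1 → 0 < s' → s' < s1 →
      ‖vv a s - vv a s'‖ ≤ C * |s - s'|)

/-- A5. -/
theorem arcStmt_of (hGS : ∀ n, GS (Fin n)) (h2 : Arc2) : AI.ArcStmt := by
  intro m k O Ht UU hO hne hH hG hUo hU hcl hnU
  -- `k = 0` is impossible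
  rcases Nat.eq_zero_or_pos k with hk | hk
  · exfalso
    subst hk
    obtain ⟨a, ha⟩ := hne
    obtain ⟨a', _, v, ⟨ha'O, hv⟩, _⟩ := fibre_closure hO hH hcl a ha 1 one_pos
    apply hnU a' ha'O
    have : ((a'.1, ofR a'.2 + I • ofR (Ht a' + v)) : EE m 0) = sig Ht a' := by
      refine Prod.ext rfl ?_
      funext i
      exact i.elim0
    rw [← this]
    exact hv
  have : Nonempty (Fin k) := ⟨⟨0, hk⟩⟩
  let e : P m k ≃ₗ[ℝ] (Fin (Module.finrank ℝ (P m k)) → ℝ) := coordE (P m k)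
  let E : P m k ≃L[ℝ] (Fin (Module.finrank ℝ (P m k)) → ℝ) := e.toContinuousLinearEquiv
  have hEe : ∀ a, E a = e a := fun _ => rfl
  have hEs : ∀ b, E.symm b = e.symm b := fun _ => rfl
  let A : (Fin (Module.finrank ℝ (P m k)) → ℝ) → (Fin k → ℝ) → Prop := fun b v =>
    e.symm b ∈ O ∧ (((e.symm b).1, ofR (e.symm b).2 + I • ofR (Ht (e.symm b) + v)) : EE m k) ∈ UU
  have hA : SA {z : Fin (Module.finrank ℝ (P m k)) ⊕ Fin k → ℝ |
      A (fun i => z (Sum.inl i)) (fun j => z (Sum.inr j))} := by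
    rw [← sav_iff_sa]
    apply (sav_fibre hG hU).preimage (g := fun z : Fin (Module.finrank ℝ (P m k)) ⊕ Fin k → ℝ =>
      (e.symm (fun i => z (Sum.inl i)), fun j => z (Sum.inr j)))
    apply Pol.prodMk
    · apply Pol.comp (Pol.lin (e.symm : (Fin (Module.finrank ℝ (P m k)) → ℝ) →ₗ[ℝ] P m k))
      fun_prop
    · fun_prop
  have hOo : IsOpen (E.symm ⁻¹' O) := hO.preimage E.symm.continuous
  obtain ⟨a1, ha1⟩ := hne
  have hOn : (E.symm ⁻¹' O).Nonempty := ⟨E a1, by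
    change E.symm (E a1) ∈ O
    rw [E.symm_apply_apply]
    exact ha1⟩
  obtain ⟨O', hO'O, hO'o, hO'n, s0, hs0, vv, hvs, hvA⟩ := arc1 (κ := Fin k) (hGS _) hA hOo hOn
    (fun b _ => fibre_open hUo (e.symm b)) (by
      intro b hb ε hε
      obtain ⟨K, hK0, hK⟩ : ∃ K : ℝ, 0 < K ∧ ∀ x : P m k, ‖E x‖ ≤ K * ‖x‖ := by
        refine ⟨‖(E : P m k →L[ℝ] (Fin (Module.finrank ℝ (P m k)) → ℝ))‖ + 1,
          by positivity, fun x => ?_⟩
        refine ((E : P m k →L[ℝ] (Fin (Module.finrank ℝ (P m k)) → ℝ)).le_opNorm x).trans ?_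
        exact mul_le_mul_of_nonneg_right (by linarith) (norm_nonneg _)
      obtain ⟨a', ha', v, hv, hvn⟩ := fibre_closure hO hH hcl (E.symm b) hb (min ε (ε / K))
        (lt_min hε (div_pos hε hK0))
      refine ⟨E a', ?_, v, ?_, hvn.trans_le (min_le_left _ _)⟩
      · have h1 : E a' - b = E (a' - E.symm b) := by
          rw [map_sub, E.apply_symm_apply]
        rw [dist_eq_norm, h1]
        refine (hK _).trans_lt ?_
        rw [dist_eq_norm] at ha'
        calc K * ‖a' - E.symm b‖ < K * (ε / K) :=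
              mul_lt_mul_of_pos_left (ha'.trans_le (min_le_right _ _)) hK0
          _ = ε := by field_simp
      · change e.symm (E a') ∈ O ∧ _
        have h2 : e.symm (E a') = a' := e.symm_apply_apply a'
        have h3 : A (E a') v = (e.symm (E a') ∈ O ∧ (((e.symm (E a')).1,
          ofR (e.symm (E a')).2 + I • ofR (Ht (e.symm (E a')) + v)) : EE m k) ∈ UU) := rfl
        rw [h2] at h3 ⊢
        exact hv)
  obtain ⟨a0, r, s1, C, om, hr, hs1, hs10, hball, hmono, hlim, hom0, hla, hls⟩ :=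
    h2 _ k vv hvs O' hO'o hO'n s0 hs0 (fun a ha s h1 h2 => ((hvA a ha s h1 h2).2).le)
  classical
  obtain ⟨K, hK0, hK⟩ : ∃ K : ℝ, 0 < K ∧ ∀ x : P m k, ‖E x‖ ≤ K * ‖x‖ := by
    refine ⟨‖(E : P m k →L[ℝ] (Fin (Module.finrank ℝ (P m k)) → ℝ))‖ + 1,
      by positivity, fun x => ?_⟩
    refine ((E : P m k →L[ℝ] (Fin (Module.finrank ℝ (P m k)) → ℝ)).le_opNorm x).trans ?_
    exact mul_le_mul_of_nonneg_right (by linarith) (norm_nonneg _)
  have hn : ∀ b ∈ Metric.ball a0 r, ∀ s, 0 < s → s < s1 → A b (vv b s) ∧ ‖vv b s‖ = s :=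
    fun b hb s h1 h2 => hvA b (hball hb) s h1 (h2.trans_le hs10)
  refine ⟨{
    O' := E ⁻¹' Metric.ball a0 r
    s₀ := s1 / 2
    C₀ := max C 1
    vv := fun a s => if s ≤ 0 then 0 else vv (E a) s
    om := fun s => om s * K
    hO' := Metric.isOpen_ball.preimage E.continuous
    hne := ⟨E.symm a0, by
      change E (E.symm a0) ∈ Metric.ball a0 r
      rw [E.apply_symm_apply]
      exact Metric.mem_ball_self hr⟩
    sub := ?_
    hs₀ := by positivity
    hC₀ := le_max_of_le_right zero_le_one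
    om_mono := fun s s' _ h _ => mul_le_mul_of_nonneg_right (hmono h) hK0.le
    om_lim := by simpa using hlim.mul_const K
    zero := fun a _ => by simp
    lipa := ?_
    lips := ?_
    mem := ?_ }⟩
  · intro a ha
    have h1 : E.symm (E a) ∈ O := hO'O (hball ha)
    rwa [E.symm_apply_apply] at h1
  · intro a ha a' ha' s h0 h1
    by_cases hs : s ≤ 0
    · simp only [hs, if_true, sub_self, norm_zero]
      exact mul_nonneg (mul_nonneg (hom0 s) hK0.le) (norm_nonneg _)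
    · simp only [hs, if_false]
      refine (hla (E a) ha (E a') ha' s (not_le.1 hs) (by linarith)).trans ?_
      rw [mul_assoc]
      apply mul_le_mul_of_nonneg_left _ (hom0 s)
      rw [← map_sub]
      exact hK _
  · intro a ha s s' h0 h1 h0' h1'
    have hb := hn (E a) ha
    by_cases hs : s ≤ 0
    · by_cases hs' : s' ≤ 0
      · simp only [hs, hs', if_true, sub_self, norm_zero]
        exact mul_nonneg (le_max_of_le_right zero_le_one) (abs_nonneg _)
      · simp only [hs, hs', if_true, if_false, zero_sub, norm_neg]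
        rw [(hb s' (not_le.1 hs') (by linarith)).2]
        have h3 : s = 0 := le_antisymm hs h0
        rw [h3, zero_sub, abs_neg, abs_of_nonneg h0']
        exact le_mul_of_one_le_left h0' (le_max_right _ _)
    · by_cases hs' : s' ≤ 0
      · simp only [hs, hs', if_true, if_false, sub_zero]
        rw [(hb s (not_le.1 hs) (by linarith)).2]
        have h3 : s' = 0 := le_antisymm hs' h0'
        rw [h3, sub_zero, abs_of_nonneg h0]
        exact le_mul_of_one_le_left h0 (le_max_right _ _)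
      · simp only [hs, hs', if_false]
        refine (hls (E a) ha s s' (not_le.1 hs) (by linarith) (not_le.1 hs')
          (by linarith)).trans ?_
        exact mul_le_mul_of_nonneg_right (le_max_left _ _) (abs_nonneg _)
  · intro a ha s h0 h1
    have hs : ¬ s ≤ 0 := not_le.2 h0
    simp only [hs, if_false]
    have h3 := ((hn (E a) ha s h0 (by linarith)).1).2
    have h4 : e.symm (E a) = a := e.symm_apply_apply a
    rw [h4] at h3
    exact h3

end Crest.Agent.R264.SAU
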