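import Crest.Agent.R264.KMain_Mg
import Crest.Agent.R264.SAUArc2a
import Crest.Agent.R264.SAUArc
import Crest.Agent.R264.TSSmooth
import Crest.Agent.R264.SAV
import Crest.Agent.R264.AIface
import Crest.Agent.R264.JLAlg

-- ▼ part R264/ThmDFin
section

/-!
Row 264 (S0402), Part D: **Theorem D** (helper744; inputs: 310, 375, 587, 792, 938, 469, 868, 851,
551, 399, 420, 415 and 744).
-/

set_option autoImplicit false

namespace Crest.Agent.R264

/-- **THEOREM D.** -/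
theorem thmD : ThmD :=
  thmD_of_lemmaK K.lemmaK

end Crest.Agent.R264
end

-- ▼ part R264/SAUArc2
section

/-!
Row 264, module ARC-2 (helper551): the analytic half of the arc lemma.
-/

set_option autoImplicit false

open Topology Filter Set

namespace Crest.Agent.R264.SAU

open Crest.Agent.R264.TS

variable {ι κ : Type*}

/-- mean value inequality on an interval, lower bound -/
theorem mvt_lower {f g : ℝ → ℝ} {x y c : ℝ} (hxy : x ≤ y)
    (hf : ∀ t ∈ Icc x y, HasDerivAt f (g t) t) (hg : ∀ t ∈ Icc x y, c ≤ g t) :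
    c * (y - x) ≤ f y - f x := by
  refine (convex_Icc x y).mul_sub_le_image_sub_of_le_deriv
    (fun t ht => (hf t ht).continuousAt.continuousWithinAt)
    (fun t ht => ((hf t (interior_subset ht)).differentiableAt).differentiableWithinAt)
    (fun t ht => ?_) x (left_mem_Icc.2 hxy) y (right_mem_Icc.2 hxy) hxy
  rw [(hf t (interior_subset ht)).deriv]
  exact hg t (interior_subset ht)

/-- joint limit unfolded -/
theorem lim_unfold {F : (ι → ℝ) → ℝ → ℝ} {b : ι → ℝ} {L : ℝ} [Fintype ι]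
    (h : Tendsto (fun p : (ι → ℝ) × ℝ => F p.1 p.2) (𝓝 b ×ˢ 𝓝[>] (0 : ℝ)) (𝓝 L)) {e : ℝ}
    (he : 0 < e) : ∃ ρ > 0, ∀ a ∈ Metric.ball b ρ, ∀ s, 0 < s → s < ρ → |F a s - L| < e := by
  have h1 := (Metric.tendsto_nhds.1 h) e he
  rw [Filter.eventually_prod_iff] at h1
  obtain ⟨pa, hpa, pb, hpb, h2⟩ := h1
  obtain ⟨r, hr, hra⟩ := Metric.eventually_nhds_iff.1 hpa
  obtain ⟨d, hd, hdb⟩ := (nhdsGT_basis (0 : ℝ)).eventually_iff.1 hpb
  refine ⟨min r d, lt_min hr hd, fun a ha s h0 hs => ?_⟩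
  have := h2 (hra (lt_of_lt_of_le (Metric.mem_ball.1 ha) (min_le_left _ _)))
    (hdb ⟨h0, lt_of_lt_of_le hs (min_le_right _ _)⟩)
  simpa [Real.dist_eq] using this

section Core

variable [Fintype ι] [DecidableEq ι]

set_option linter.unusedSectionVars false

/-- a `C¹` function of `(a, s)` on `O × (0, s1)` bounded by `s` -/
structure Core (v : (ι → ℝ) → ℝ → ℝ) (O : Set (ι → ℝ)) (s1 : ℝ) : Prop where
  hO : IsOpen O
  smooth : ContDiffOn ℝ 1 (fun p : (ι → ℝ) × ℝ => v p.1 p.2) (O ×ˢ Ioo 0 s1)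
  bd : ∀ a ∈ O, ∀ s, 0 < s → s < s1 → |v a s| ≤ s

variable {v : (ι → ℝ) → ℝ → ℝ} {O : Set (ι → ℝ)} {s1 : ℝ}

theorem Core.fd (h : Core v O s1) {a : ι → ℝ} {s : ℝ} (ha : a ∈ O) (h0 : 0 < s) (hs : s < s1) :
    HasFDerivAt (fun p : (ι → ℝ) × ℝ => v p.1 p.2)
      (fderiv ℝ (fun p : (ι → ℝ) × ℝ => v p.1 p.2) (a, s)) (a, s) := by
  refine ((h.smooth.differentiableOn (by norm_num)).differentiableAt ?_).hasFDerivAt
  exact (h.hO.prod isOpen_Ioo).mem_nhds ⟨ha, h0, hs⟩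

theorem Core.dA_eq (h : Core v O s1) {a : ι → ℝ} {s : ℝ} (ha : a ∈ O) (h0 : 0 < s) (hs : s < s1)
    (i : ι) : dA i v a s =
      fderiv ℝ (fun p : (ι → ℝ) × ℝ => v p.1 p.2) (a, s) (Pi.single i 1, 0) := by
  have h1 : HasDerivAt (fun t : ℝ => (a + t • (Pi.single i 1 : ι → ℝ), s))
      ((Pi.single i 1 : ι → ℝ), (0 : ℝ)) 0 := by
    have h2 : HasDerivAt (fun t : ℝ => a + t • (Pi.single i 1 : ι → ℝ)) (Pi.single i 1) 0 := by
      have := ((hasDerivAt_id (0 : ℝ)).smul_const (Pi.single i 1 : ι → ℝ)).const_add a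
      simpa using this
    exact h2.prodMk (hasDerivAt_const _ _)
  have h3 := h.fd ha h0 hs
  have h4 : HasFDerivAt (fun p : (ι → ℝ) × ℝ => v p.1 p.2)
      (fderiv ℝ (fun p : (ι → ℝ) × ℝ => v p.1 p.2) (a, s))
      ((fun t : ℝ => (a + t • (Pi.single i 1 : ι → ℝ), s)) 0) := by
    simpa using h3
  exact (h4.comp_hasDerivAt 0 h1).deriv

theorem Core.dS_eq (h : Core v O s1) {a : ι → ℝ} {s : ℝ} (ha : a ∈ O) (h0 : 0 < s) (hs : s < s1) :
    dS v a s = fderiv ℝ (fun p : (ι → ℝ) × ℝ => v p.1 p.2) (a, s) (0, 1) := by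
  have h1 : HasDerivAt (fun t : ℝ => (a, s + t)) ((0 : ι → ℝ), (1 : ℝ)) 0 := by
    have h2 : HasDerivAt (fun t : ℝ => s + t) 1 0 := by
      simpa using (hasDerivAt_id (0 : ℝ)).const_add s
    exact (hasDerivAt_const _ _).prodMk h2
  have h3 := h.fd ha h0 hs
  have h4 : HasFDerivAt (fun p : (ι → ℝ) × ℝ => v p.1 p.2)
      (fderiv ℝ (fun p : (ι → ℝ) × ℝ => v p.1 p.2) (a, s))
      ((fun t : ℝ => (a, s + t)) 0) := by
    simpa using h3
  exact (h4.comp_hasDerivAt 0 h1).deriv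

/-- derivative along the `i`-th coordinate line -/
theorem Core.lineA (h : Core v O s1) {a : ι → ℝ} {s t : ℝ} (i : ι)
    (ha : a + t • (Pi.single i 1 : ι → ℝ) ∈ O) (h0 : 0 < s) (hs : s < s1) :
    HasDerivAt (fun t : ℝ => v (a + t • (Pi.single i 1 : ι → ℝ)) s)
      (dA i v (a + t • (Pi.single i 1 : ι → ℝ)) s) t := by
  rw [h.dA_eq ha h0 hs]
  have h1 : HasDerivAt (fun t : ℝ => (a + t • (Pi.single i 1 : ι → ℝ), s))
      ((Pi.single i 1 : ι → ℝ), (0 : ℝ)) t := by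
    have h2 : HasDerivAt (fun t : ℝ => a + t • (Pi.single i 1 : ι → ℝ)) (Pi.single i 1) t := by
      have := ((hasDerivAt_id t).smul_const (Pi.single i 1 : ι → ℝ)).const_add a
      simpa using this
    exact h2.prodMk (hasDerivAt_const _ _)
  exact (h.fd ha h0 hs).comp_hasDerivAt (f := fun t : ℝ => (a + t • (Pi.single i 1 : ι → ℝ), s)) t h1

/-- derivative in `s` -/
theorem Core.lineS (h : Core v O s1) {a : ι → ℝ} {s : ℝ} (ha : a ∈ O) (h0 : 0 < s)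
    (hs : s < s1) : HasDerivAt (fun s : ℝ => v a s) (dS v a s) s := by
  rw [h.dS_eq ha h0 hs]
  have h1 : HasDerivAt (fun s : ℝ => (a, s)) ((0 : ι → ℝ), (1 : ℝ)) s :=
    (hasDerivAt_const _ _).prodMk (hasDerivAt_id s)
  exact (h.fd ha h0 hs).comp_hasDerivAt (f := fun s : ℝ => (a, s)) s h1

/-- (3): the limit of the bounded transform of `∂_i v` is zero -/
theorem Core.limA (h : Core v O s1) (hs1 : 0 < s1) (i : ι) {b : ι → ℝ} (hb : b ∈ O) {L : ℝ}
    (hL : Tendsto (fun p : (ι → ℝ) × ℝ => dA i v p.1 p.2 / (1 + |dA i v p.1 p.2|))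
      (𝓝 b ×ˢ 𝓝[>] (0 : ℝ)) (𝓝 L)) : L = 0 := by
  by_contra hne
  have hLp : 0 < |L| := abs_pos.2 hne
  obtain ⟨ρ, hρ, hlim⟩ := lim_unfold (F := fun a s => dA i v a s / (1 + |dA i v a s|)) hL
    (half_pos hLp)
  obtain ⟨ρ', hρ', hball⟩ := Metric.isOpen_iff.1 h.hO b hb
  set R := min ρ ρ' / 2 with hR
  have hRp : 0 < R := by have := lt_min hρ hρ'; positivity
  have hRρ : R < ρ := by
    have := min_le_left ρ ρ'; have h2 := lt_min hρ hρ'; rw [hR]; linarith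
  have hRρ' : R < ρ' := by
    have := min_le_right ρ ρ'; have h2 := lt_min hρ hρ'; rw [hR]; linarith
  set s : ℝ := min (min (ρ / 2) (s1 / 2)) (|L| * R / 8) with hs
  have hsp : 0 < s := by
    refine lt_min (lt_min (by positivity) (by positivity)) (by positivity)
  have hsρ : s < ρ := by
    have : s ≤ ρ / 2 := (min_le_left _ _).trans (min_le_left _ _)
    linarith
  have hss1 : s < s1 := by
    have : s ≤ s1 / 2 := (min_le_left _ _).trans (min_le_right _ _)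
    linarith
  have hsL : s ≤ |L| * R / 8 := min_le_right _ _
  have hdist : ∀ t ∈ Icc (0 : ℝ) R, dist (b + t • (Pi.single i 1 : ι → ℝ)) b ≤ R := by
    intro t ht
    rw [dist_eq_norm, add_sub_cancel_left, norm_smul, Real.norm_of_nonneg ht.1]
    have : ‖(Pi.single i 1 : ι → ℝ)‖ ≤ 1 := by
      rw [pi_norm_le_iff_of_nonneg zero_le_one]
      intro k
      by_cases hk : k = i
      · subst hk; simp
      · simp [Pi.single_eq_of_ne hk]
    calc t * ‖(Pi.single i 1 : ι → ℝ)‖ ≤ t * 1 := mul_le_mul_of_nonneg_left this ht.1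
      _ ≤ R := by linarith [ht.2]
  have hmemO : ∀ t ∈ Icc (0 : ℝ) R, b + t • (Pi.single i 1 : ι → ℝ) ∈ O := fun t ht =>
    hball (Metric.mem_ball.2 (lt_of_le_of_lt (hdist t ht) hRρ'))
  have hder : ∀ t ∈ Icc (0 : ℝ) R, HasDerivAt (fun t : ℝ => v (b + t • (Pi.single i 1 : ι → ℝ)) s)
      (dA i v (b + t • (Pi.single i 1 : ι → ℝ)) s) t := fun t ht =>
    h.lineA i (hmemO t ht) hsp hss1
  have hsg : ∀ t ∈ Icc (0 : ℝ) R, _ := fun t ht =>
    bdd_sign (hlim (b + t • (Pi.single i 1 : ι → ℝ))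
      (Metric.mem_ball.2 (lt_of_le_of_lt (hdist t ht) hRρ)) s hsp hsρ)
  have hb0 := h.bd _ (hmemO 0 ⟨le_rfl, hRp.le⟩) s hsp hss1
  have hbR := h.bd _ (hmemO R ⟨hRp.le, le_rfl⟩) s hsp hss1
  rw [abs_le] at hb0 hbR
  rcases lt_or_gt_of_ne hne with hneg | hpos
  · have := mvt_lower (f := fun t : ℝ => -v (b + t • (Pi.single i 1 : ι → ℝ)) s)
      (g := fun t => -dA i v (b + t • (Pi.single i 1 : ι → ℝ)) s) (c := |L| / 2) hRp.le
      (fun t ht => (hder t ht).neg)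
      (fun t ht => by
        have := ((hsg t ht).2 hneg).2
        rw [abs_of_neg hneg]; linarith)
    nlinarith [hb0.1, hb0.2, hbR.1, hbR.2]
  · have := mvt_lower (f := fun t : ℝ => v (b + t • (Pi.single i 1 : ι → ℝ)) s)
      (g := fun t => dA i v (b + t • (Pi.single i 1 : ι → ℝ)) s) (c := |L| / 2) hRp.le
      (fun t ht => hder t ht)
      (fun t ht => by
        have := (hsg t ht).1 hpos
        rw [abs_of_pos hpos]; linarith)
    nlinarith [hb0.1, hb0.2, hbR.1, hbR.2]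

/-- (4): the limit of the bounded transform of `∂_s v` is `< 1` in absolute value -/
theorem Core.limS (h : Core v O s1) (hs1 : 0 < s1) {b : ι → ℝ} (hb : b ∈ O) {L : ℝ}
    (hL : Tendsto (fun p : (ι → ℝ) × ℝ => dS v p.1 p.2 / (1 + |dS v p.1 p.2|))
      (𝓝 b ×ˢ 𝓝[>] (0 : ℝ)) (𝓝 L)) : |L| < 1 := by
  by_contra hne
  push Not at hne
  have hLp : 0 < |L| := lt_of_lt_of_le one_pos hne
  obtain ⟨ρ, hρ, hlim⟩ := lim_unfold (F := fun a s => dS v a s / (1 + |dS v a s|)) hL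
    (e := 1 / 3) (by norm_num)
  set s : ℝ := min (ρ / 2) (s1 / 2) with hs
  have hsp : 0 < s := lt_min (by positivity) (by positivity)
  have hsρ : s < ρ := by
    have : s ≤ ρ / 2 := (min_le_left _ _)
    linarith
  have hss1 : s < s1 := by
    have : s ≤ s1 / 2 := min_le_right _ _
    linarith
  have hder : ∀ t ∈ Icc (s / 4) s, HasDerivAt (fun t : ℝ => v b t) (dS v b t) t := fun t ht =>
    h.lineS hb (by linarith [ht.1]) (lt_of_le_of_lt ht.2 hss1)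
  have hG : ∀ t ∈ Icc (s / 4) s, |dS v b t / (1 + |dS v b t|) - L| < 1 / 3 := fun t ht =>
    hlim b (Metric.mem_ball_self hρ) t (by linarith [ht.1]) (lt_of_le_of_lt ht.2 hsρ)
  have hb0 := h.bd b hb (s / 4) (by linarith) (by linarith)
  have hbR := h.bd b hb s hsp hss1
  rw [abs_le] at hb0 hbR
  rcases lt_or_gt_of_ne (abs_pos.1 hLp) with hneg | hpos
  · rw [abs_of_neg hneg] at hne
    have := mvt_lower (f := fun t : ℝ => -v b t)
      (g := fun t => -dS v b t) (c := 2) (x := s / 4) (y := s) (by linarith)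
      (fun t ht => (hder t ht).neg)
      (fun t ht => by
        have h1 := (abs_lt.1 (hG t ht)).2
        have hp : 0 < 1 + |dS v b t| := by positivity
        have h2 : dS v b t / (1 + |dS v b t|) < -(2 / 3) := by linarith
        rw [div_lt_iff₀ hp] at h2
        have h3 : dS v b t < 0 := by nlinarith [abs_nonneg (dS v b t)]
        rw [abs_of_neg h3] at h2
        linarith)
    nlinarith [hb0.1, hb0.2, hbR.1, hbR.2]
  · rw [abs_of_pos hpos] at hne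
    have := mvt_lower (f := fun t : ℝ => v b t)
      (g := fun t => dS v b t) (c := 2) (x := s / 4) (y := s) (by linarith)
      (fun t ht => hder t ht)
      (fun t ht => by
        have h1 := (abs_lt.1 (hG t ht)).1
        have hp : 0 < 1 + |dS v b t| := by positivity
        have h2 : 2 / 3 < dS v b t / (1 + |dS v b t|) := by linarith
        rw [lt_div_iff₀ hp] at h2
        have h3 : 0 < dS v b t := by nlinarith [abs_nonneg (dS v b t)]
        rw [abs_of_pos h3] at h2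
        linarith)
    nlinarith [hb0.1, hb0.2, hbR.1, hbR.2]

/-- norm of the partial derivative in `a` -/
theorem Core.fdA (h : Core v O s1) {a : ι → ℝ} {s M : ℝ} (ha : a ∈ O) (h0 : 0 < s) (hs : s < s1)
    (hM : ∀ i, |dA i v a s| ≤ M) :
    ∃ L : (ι → ℝ) →L[ℝ] ℝ, HasFDerivAt (fun a => v a s) L a ∧ ‖L‖ ≤ Fintype.card ι * M := by
  have h1 : HasFDerivAt (fun a : ι → ℝ => (a, s)) (ContinuousLinearMap.inl ℝ (ι → ℝ) ℝ) a :=
    hasFDerivAt_prodMk_left a s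
  refine ⟨_, (h.fd ha h0 hs).comp (f := fun a : ι → ℝ => (a, s)) a h1, ?_⟩
  have hM0 : 0 ≤ (Fintype.card ι : ℝ) * M := by
    rcases isEmpty_or_nonempty ι with hι | ⟨⟨i⟩⟩
    · simp
    · exact mul_nonneg (Nat.cast_nonneg _) ((abs_nonneg _).trans (hM i))
  refine ContinuousLinearMap.opNorm_le_bound _ hM0 (fun x => ?_)
  have hx : x = ∑ i, x i • (Pi.single i (1 : ℝ) : ι → ℝ) := by
    funext k
    simp [Finset.sum_apply, Pi.single_apply]
  have h2 : ((fderiv ℝ (fun p : (ι → ℝ) × ℝ => v p.1 p.2) (a, s)).comp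
      (ContinuousLinearMap.inl ℝ (ι → ℝ) ℝ)) x = ∑ i, x i * dA i v a s := by
    conv_lhs => rw [hx]
    rw [map_sum]
    refine Finset.sum_congr rfl fun i _ => ?_
    rw [map_smul, smul_eq_mul, h.dA_eq ha h0 hs]
    rfl
  rw [h2, Real.norm_eq_abs]
  calc |∑ i, x i * dA i v a s| ≤ ∑ i, |x i * dA i v a s| := Finset.abs_sum_le_sum_abs _ _
    _ ≤ ∑ _i : ι, ‖x‖ * M := by
      refine Finset.sum_le_sum fun i _ => ?_
      rw [abs_mul]
      exact mul_le_mul (norm_le_pi_norm x i) (hM i) (abs_nonneg _) (norm_nonneg _)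
    _ = Fintype.card ι * M * ‖x‖ := by
      rw [Finset.sum_const, Finset.card_univ, nsmul_eq_mul]; ring

/-- bound for `∂_s v` near a point -/
theorem Core.bdS (h : Core v O s1) (hs1 : 0 < s1) {b : ι → ℝ} (hb : b ∈ O)
    (hlim : LimOn (fun a s => dS v a s / (1 + |dS v a s|)) O) :
    ∃ C ≥ 0, ∀ᶠ ρ in 𝓝[>] (0 : ℝ), ∀ a ∈ Metric.ball b ρ, ∀ s, 0 < s → s < ρ →
      |dS v a s| ≤ C := by
  obtain ⟨F0, hF0⟩ := hlim
  have hL := h.limS hs1 hb (hF0 b hb)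
  set L := F0 b with hLd
  set q : ℝ := (1 + |L|) / 2 with hq
  have hq1 : q < 1 := by rw [hq]; linarith
  have hq0 : 0 ≤ q := by positivity
  obtain ⟨ρ, hρ, hρl⟩ := lim_unfold (F := fun a s => dS v a s / (1 + |dS v a s|)) (hF0 b hb)
    (e := (1 - |L|) / 2) (by linarith)
  refine ⟨q / (1 - q), div_nonneg hq0 (by linarith), ?_⟩
  filter_upwards [Ioo_mem_nhdsGT hρ] with ρ' hρ' a ha s h0 hs
  have h1 := hρl a (Metric.ball_subset_ball hρ'.2.le ha) s h0 (hs.trans hρ'.2)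
  have h2 : |dS v a s / (1 + |dS v a s|)| < q := by
    have h3 := abs_sub_abs_le_abs_sub (dS v a s / (1 + |dS v a s|)) L
    rw [hq]; linarith
  have hp : 0 < 1 + |dS v a s| := by positivity
  rw [abs_div, abs_of_pos hp, div_lt_iff₀ hp] at h2
  rw [le_div_iff₀ (by linarith)]
  linarith

/-- uniform smallness of `∂_i v` on compact sets -/
theorem Core.smallA (h : Core v O s1) (hs1 : 0 < s1) (i : ι) {K : Set (ι → ℝ)} (hK : IsCompact K)
    (hKO : K ⊆ O) (hlim : LimOn (fun a s => dA i v a s / (1 + |dA i v a s|)) O) {ε : ℝ}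
    (hε : 0 < ε) : ∀ᶠ s in 𝓝[>] (0 : ℝ), ∀ b ∈ K, |dA i v b s| ≤ ε := by
  obtain ⟨F0, hF0⟩ := hlim
  have key : ∀ᶠ s in 𝓝 (0 : ℝ), ∀ b ∈ K, 0 < s → |dA i v b s| ≤ ε := by
    refine hK.eventually_forall_of_forall_eventually fun b hb => ?_
    have hL := h.limA hs1 i (hKO hb) (hF0 b (hKO hb))
    have h1 := hF0 b (hKO hb)
    rw [hL] at h1
    obtain ⟨ρ, hρ, hρl⟩ := lim_unfold (F := fun a s => dA i v a s / (1 + |dA i v a s|)) h1
      (e := ε / (1 + ε)) (by positivity)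
    rw [nhds_prod_eq] at *
    have hmem : Metric.ball (0 : ℝ) ρ ×ˢ Metric.ball b ρ ∈ 𝓝 (0 : ℝ) ×ˢ 𝓝 b :=
      prod_mem_prod (Metric.ball_mem_nhds _ hρ) (Metric.ball_mem_nhds _ hρ)
    filter_upwards [hmem] with z hz h0
    have hz1 : z.1 < ρ := by
      have := hz.1
      rw [Metric.mem_ball, Real.dist_eq, sub_zero, abs_of_pos h0] at this
      exact this
    have h2 := hρl z.2 hz.2 z.1 h0 hz1
    have hp : 0 < 1 + |dA i v z.2 z.1| := by positivity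
    rw [sub_zero, abs_div, abs_of_pos hp, div_lt_div_iff₀ hp (by positivity)] at h2
    nlinarith
  filter_upwards [nhdsWithin_le_nhds key, self_mem_nhdsWithin] with s hs h0 b hb
  exact hs b hb h0

end Core

theorem arc2 [Fintype ι] [Fintype κ]
    (S6 : ∀ F : (ι → ℝ) → ℝ → ℝ, SAF2 F → (∀ a s, |F a s| ≤ 1) → ∀ O : Set (ι → ℝ), IsOpen O →
      O.Nonempty → ∃ O' ⊆ O, IsOpen O' ∧ O'.Nonempty ∧ LimOn F O')
    (SM : ∀ f : (ι → ℝ) → ℝ → ℝ, SAF2 f → ∀ O : Set (ι → ℝ), IsOpen O → O.Nonempty →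
      ∃ O' ⊆ O, IsOpen O' ∧ O'.Nonempty ∧ ∃ s1 > 0,
        ContDiffOn ℝ 1 (fun p : (ι → ℝ) × ℝ => f p.1 p.2) (O' ×ˢ Ioo 0 s1))
    (vv : (ι → ℝ) → ℝ → (κ → ℝ)) (hvv : ∀ j, SAF2 (fun a s => vv a s j))
    {O : Set (ι → ℝ)} (hO : IsOpen O) (hne : O.Nonempty) {s0 : ℝ} (hs0 : 0 < s0)
    (hs : ∀ a ∈ O, ∀ s, 0 < s → s < s0 → ‖vv a s‖ ≤ s) :
    ∃ (a0 : ι → ℝ) (r s1 C : ℝ) (om : ℝ → ℝ), 0 < r ∧ 0 < s1 ∧ s1 ≤ s0 ∧
      Metric.ball a0 r ⊆ O ∧ Monotone om ∧ Tendsto om (𝓝[>] 0) (𝓝 0) ∧ (∀ s, 0 ≤ om s) ∧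
      (∀ a ∈ Metric.ball a0 r, ∀ a' ∈ Metric.ball a0 r, ∀ s, 0 < s → s < s1 →
        ‖vv a s - vv a' s‖ ≤ om s * ‖a - a'‖) ∧
      (∀ a ∈ Metric.ball a0 r, ∀ s s', 0 < s → s < s1 → 0 < s' → s' < s1 →
        ‖vv a s - vv a s'‖ ≤ C * |s - s'|) := by
  classical
  -- shrink three times
  obtain ⟨O1, hO1, hO1o, hO1n, hP1⟩ := shrink (α := κ)
    (fun j O => ∀ᶠ s1 in 𝓝[>] (0 : ℝ),
      ContDiffOn ℝ 1 (fun p : (ι → ℝ) × ℝ => vv p.1 p.2 j) (O ×ˢ Ioo 0 s1))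
    (fun j O O' h hsub => h.mono fun s1 h1 => h1.mono (prod_mono hsub subset_rfl))
    (fun j O hO hne => by
      obtain ⟨O', h1, h2, h3, s1, h4, h5⟩ := SM _ (hvv j) O hO hne
      refine ⟨O', h1, h2, h3, ?_⟩
      filter_upwards [Ioo_mem_nhdsGT h4] with s hs'
      exact h5.mono (prod_mono subset_rfl (Ioo_subset_Ioo_right hs'.2.le))) hO hne
  obtain ⟨O2, hO2, hO2o, hO2n, hP2⟩ := shrink (α := ι × κ)
    (fun k O => LimOn (fun a s => dA k.1 (fun a s => vv a s k.2) a s /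
      (1 + |dA k.1 (fun a s => vv a s k.2) a s|)) O)
    (fun k O O' h hsub => h.mono hsub)
    (fun k O hO hne => S6 _ (saf_bdd (saf_dA k.1 (hvv k.2))) (fun a s => bdd_le _) O hO hne)
    hO1o hO1n
  obtain ⟨O3, hO3, hO3o, hO3n, hP3⟩ := shrink (α := κ)
    (fun j O => LimOn (fun a s => dS (fun a s => vv a s j) a s /
      (1 + |dS (fun a s => vv a s j) a s|)) O)
    (fun k O O' h hsub => h.mono hsub)
    (fun j O hO hne => S6 _ (saf_bdd (saf_dS (hvv j))) (fun a s => bdd_le _) O hO hne)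
    hO2o hO2n
  have hO3O : O3 ⊆ O := hO3.trans (hO2.trans hO1)
  have hcore : ∀ᶠ s1 in 𝓝[>] (0 : ℝ), ∀ j, Core (fun a s => vv a s j) O3 s1 := by
    rw [Filter.eventually_all]
    intro j
    filter_upwards [hP1 j, Ioo_mem_nhdsGT hs0] with s1 h1 h2
    refine ⟨hO3o, h1.mono (prod_mono (hO3.trans hO2) subset_rfl), fun a ha s h0 hss => ?_⟩
    exact (norm_le_pi_norm (vv a s) j).trans (hs a (hO3O ha) s h0 (hss.trans h2.2))
  obtain ⟨a0, ha0⟩ := hO3n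
  obtain ⟨sc, hsc, hscp⟩ : ∃ sc : ℝ, (∀ j, Core (fun a s => vv a s j) O3 sc) ∧ 0 < sc :=
    (hcore.and self_mem_nhdsWithin).exists
  -- bound in `s`
  have hbS := fun j => (hsc j).bdS hscp ha0 (hP3 j)
  choose Cs hCs0 hCs using hbS
  have hCs' : ∀ᶠ ρ in 𝓝[>] (0 : ℝ), ∀ j, ∀ a ∈ Metric.ball a0 ρ, ∀ s, 0 < s → s < ρ →
      |dS (fun a s => vv a s j) a s| ≤ Cs j := Filter.eventually_all.2 hCs
  obtain ⟨R, hR, hRO⟩ := Metric.isOpen_iff.1 hO3o a0 ha0
  obtain ⟨r, ⟨hr1, hr2⟩, hr0⟩ := ((hCs'.and (Ioo_mem_nhdsGT hR)).and self_mem_nhdsWithin).exists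
  have hr0' : 0 < r := hr0
  have hKO : Metric.closedBall a0 r ⊆ O3 := (Metric.closedBall_subset_ball hr2.2).trans hRO
  have hKc : IsCompact (Metric.closedBall a0 r) := isCompact_closedBall _ _
  -- uniform smallness
  have hsm : ∀ ε > 0, ∀ᶠ s in 𝓝[>] (0 : ℝ), ∀ i j, ∀ b ∈ Metric.closedBall a0 r,
      |dA i (fun a s => vv a s j) b s| ≤ ε := by
    intro ε hε
    rw [Filter.eventually_all]
    intro i
    rw [Filter.eventually_all]
    intro j
    exact (hsc j).smallA hscp i hKc hKO ((hP2 (i, j)).mono hO3) hε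
  obtain ⟨d1, hd1, hd1'⟩ := (nhdsGT_basis (0 : ℝ)).eventually_iff.1 (hsm 1 one_pos)
  set s1 : ℝ := min (min s0 sc) (min r d1) with hs1
  have hs1p : 0 < s1 := lt_min (lt_min hs0 hscp) (lt_min hr0' hd1)
  have hs1s0 : s1 ≤ s0 := (min_le_left _ _).trans (min_le_left _ _)
  have hs1sc : s1 ≤ sc := (min_le_left _ _).trans (min_le_right _ _)
  have hs1r : s1 ≤ r := (min_le_right _ _).trans (min_le_left _ _)
  have hs1d : s1 ≤ d1 := (min_le_right _ _).trans (min_le_right _ _)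
  -- the modulus
  let A : ℝ → Set ℝ := fun s => {x | x = 0 ∨ ∃ s', 0 < s' ∧ s' ≤ s ∧ s' < s1 ∧
    ∃ b ∈ Metric.closedBall a0 r, ∃ i j, x = |dA i (fun a s => vv a s j) b s'|}
  have hAne : ∀ s, (A s).Nonempty := fun s => ⟨0, Or.inl rfl⟩
  have hAb : ∀ s, ∀ x ∈ A s, x ≤ 1 := by
    rintro s x (rfl | ⟨s', h0, -, hs', b, hb, i, j, rfl⟩)
    · exact zero_le_one
    · exact hd1' ⟨h0, lt_of_lt_of_le hs' hs1d⟩ i j b hb
  have hAbdd : ∀ s, BddAbove (A s) := fun s => ⟨1, fun x hx => hAb s x hx⟩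
  have hA0 : ∀ s, 0 ≤ sSup (A s) := fun s => le_csSup (hAbdd s) (Or.inl rfl)
  set om : ℝ → ℝ := fun s => Fintype.card ι * sSup (A s) with hom
  have hcard : (0 : ℝ) ≤ Fintype.card ι := Nat.cast_nonneg _
  refine ⟨a0, r, s1, ∑ j, Cs j, om, hr0', hs1p, hs1s0,
    (Metric.ball_subset_closedBall.trans hKO).trans hO3O, ?_, ?_, ?_, ?_, ?_⟩
  · intro s t hst
    refine mul_le_mul_of_nonneg_left (csSup_le_csSup (hAbdd t) (hAne s) ?_) hcard
    rintro x (rfl | ⟨s', h0, h1, h2, h3⟩)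
    · exact Or.inl rfl
    · exact Or.inr ⟨s', h0, h1.trans hst, h2, h3⟩
  · rw [Metric.tendsto_nhds]
    intro ε hε
    have hε' : 0 < ε / (Fintype.card ι + 1) := by positivity
    obtain ⟨d, hd, hd'⟩ := (nhdsGT_basis (0 : ℝ)).eventually_iff.1 (hsm _ hε')
    filter_upwards [Ioo_mem_nhdsGT hd] with s hsd
    have h1 : sSup (A s) ≤ ε / (Fintype.card ι + 1) := by
      refine csSup_le (hAne s) ?_
      rintro x (rfl | ⟨s', h0, h1, -, b, hb, i, j, rfl⟩)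
      · exact hε'.le
      · exact hd' ⟨h0, lt_of_le_of_lt h1 hsd.2⟩ i j b hb
    rw [Real.dist_eq, sub_zero, abs_of_nonneg (mul_nonneg hcard (hA0 s))]
    calc (Fintype.card ι : ℝ) * sSup (A s) ≤ Fintype.card ι * (ε / (Fintype.card ι + 1)) :=
          mul_le_mul_of_nonneg_left h1 hcard
      _ < ε := by
        rw [mul_div_assoc', div_lt_iff₀ (by positivity)]
        nlinarith
  · exact fun s => mul_nonneg hcard (hA0 s)
  · intro a ha a' ha' s h0 hss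
    rw [pi_norm_le_iff_of_nonneg (mul_nonneg (mul_nonneg hcard (hA0 s)) (norm_nonneg _))]
    intro j
    have hM : ∀ b ∈ Metric.closedBall a0 r, ∀ i, |dA i (fun a s => vv a s j) b s| ≤ sSup (A s) :=
      fun b hb i => le_csSup (hAbdd s) (Or.inr ⟨s, h0, le_rfl, hss, b, hb, i, j, rfl⟩)
    have hfd : ∀ b ∈ Metric.ball a0 r, ∃ L : (ι → ℝ) →L[ℝ] ℝ,
        HasFDerivAt (fun a => vv a s j) L b ∧ ‖L‖ ≤ om s := fun b hb =>
      (hsc j).fdA (hKO (Metric.ball_subset_closedBall hb)) h0 (lt_of_lt_of_le hss hs1sc)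
        (hM b (Metric.ball_subset_closedBall hb))
    choose! L hL1 hL2 using hfd
    exact (convex_ball a0 r).norm_image_sub_le_of_norm_hasFDerivWithin_le
      (fun b hb => (hL1 b hb).hasFDerivWithinAt) (fun b hb => hL2 b hb) ha' ha
  · intro a ha s s' h0 hss h0' hss'
    have hC0 : 0 ≤ ∑ j, Cs j := Finset.sum_nonneg fun j _ => hCs0 j
    rw [pi_norm_le_iff_of_nonneg (mul_nonneg hC0 (abs_nonneg _))]
    intro j
    have h1 := (convex_Ioo (0 : ℝ) s1).norm_image_sub_le_of_norm_hasDerivWithin_le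
      (f := fun s => vv a s j) (f' := fun s => dS (fun a s => vv a s j) a s) (C := Cs j)
      (fun t ht => ((hsc j).lineS (hKO (Metric.ball_subset_closedBall ha)) ht.1
        (lt_of_lt_of_le ht.2 hs1sc)).hasDerivWithinAt)
      (fun t ht => hr1 j a ha t ht.1 (lt_of_lt_of_le ht.2 hs1r)) ⟨h0', hss'⟩ ⟨h0, hss⟩
    refine h1.trans ?_
    rw [Real.norm_eq_abs]
    exact mul_le_mul_of_nonneg_right
      (Finset.single_le_sum (f := Cs) (fun j _ => hCs0 j) (Finset.mem_univ j)) (abs_nonneg _)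

end Crest.Agent.R264.SAU
end

-- ▼ part R264/SAUFinal
section

/-!
Row 264, module SAU (helper264): `arcStmt : AI.ArcStmt` (node A5), unconditional.
-/

set_option autoImplicit false

open Topology Filter Set MvPolynomial
open scoped ContDiff

namespace Crest.Agent.R264.SAU

open Crest.Agent.R264.TS

/-- (S4) for total SA functions, from `TS.SAFunOn.exists_contDiffOn` -/
theorem gs_all (ι : Type*) [Fintype ι] : GS ι := by
  intro f hf
  have h1 : SAFunOn f univ := by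
    unfold SAFunOn
    unfold SAF at hf
    simpa only [mem_univ, true_and, eq_comm] using hf
  obtain ⟨Δ, hΔ, h⟩ := h1.exists_contDiffOn isOpen_univ
  refine ⟨Δ, hΔ, ?_⟩
  have h2 := h.of_le (m := 1) le_top
  simpa only [univ_inter] using h2

theorem arc2_all : Arc2 := by
  intro n k vv hvv O hO hne s0 hs0 hs
  exact arc2 (fun F hF hb O hO hne => s6 (gs_all _) (gs_all _) hF hb hO hne)
    (fun f hf O hO hne => sm (gs_all _) hf hO hne) vv hvv hO hne hs0 hs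

/-- A5 -/
theorem arcStmt : AI.ArcStmt := arcStmt_of (fun _ => gs_all _) arc2_all

end Crest.Agent.R264.SAU
end

-- ▼ part R264/SAFar
section

/-!
Row 264 (helper369): the semialgebraic input of `JL.Main` (A6).
-/

set_option autoImplicit false

open Set Topology Filter Complex

namespace Crest.Agent.R264

open JL

variable {m k : ℕ}

theorem Pol.clin {V : Type*} [AddCommGroup V] [Module ℝ V] {W Z : Type*} [AddCommGroup W]
    [Module ℝ W] [Module ℂ W] [IsScalarTower ℝ ℂ W] [AddCommGroup Z] [Module ℝ Z] [Module ℂ Z]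
    [IsScalarTower ℝ ℂ Z] (L : W →ₗ[ℂ] Z) {f : V → W} (hf : Pol f) : Pol (fun v => L (f v)) :=
  (Pol.lin (L.restrictScalars ℝ)).comp hf

theorem pol_Amap {V : Type*} [AddCommGroup V] [Module ℝ V] (Ht : P m k → (Fin k → ℝ)) (a : P m k)
    {f : V → E m k} (hf : Pol f) : Pol (fun v => Amap Ht a (f v)) := by
  unfold Amap
  refine Pol.prodMk (by fun_prop) ?_
  refine Pol.sub (Pol.sub (by fun_prop) ?_) ?_
  · refine Pol.csmul (by fun_prop) ?_
    exact Pol.clin ((beta (fderiv ℝ Ht a)).toLinearMap) (by fun_prop)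
  · refine Pol.csmul (by fun_prop) ?_
    exact Pol.clin ((alpha (fderiv ℝ Ht a)).toLinearMap) (by fun_prop)

/-- the semialgebraic input of `JL.Main` -/
theorem far_eventually_or (Ht : P m k → (Fin k → ℝ)) {UU : Set (E m k)} (hUU : SAV UU) (a : P m k)
    (x : E m k) (r : ℝ) :
    (∀ᶠ ε in 𝓝[>] (0 : ℝ), Far UU Ht a ε x r) ∨ (∀ᶠ ε in 𝓝[>] (0 : ℝ), ¬ Far UU Ht a ε x r) := by
  have hS : SAV {ε : ℝ | ∀ q : E m k × E m k,
      (q.1 ∉ UU ∧ dil ε q.2 = Amap Ht a q.1) → r ≤ dist q.2 x} := by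
    refine SAV.ball (Q := fun (ε : ℝ) (q : E m k × E m k) =>
      q.1 ∉ UU ∧ dil ε q.2 = Amap Ht a q.1)
      (P := fun (_ : ℝ) (q : E m k × E m k) => r ≤ dist q.2 x) ?_ ?_
    · refine SAV.and ?_ ?_
      · exact (hUU.preimage (g := fun p : ℝ × (E m k × E m k) => p.2.1) (by fun_prop)).not
      · refine SAV.eq ?_ (pol_Amap Ht a (by fun_prop))
        unfold dil
        fun_prop
    · exact SAV.le_dist (by fun_prop) (by fun_prop) (by fun_prop)
  have key : ∀ ε : ℝ, 0 < ε → (Far UU Ht a ε x r ↔ ε ∈ {ε : ℝ | ∀ q : E m k × E m k,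
      (q.1 ∉ UU ∧ dil ε q.2 = Amap Ht a q.1) → r ≤ dist q.2 x}) := by
    intro ε hε
    constructor
    · rintro h ⟨p, y⟩ ⟨hp, hy⟩
      have h1 := h p hp
      have h2 : Tmap Ht a ε p = y := by
        unfold Tmap
        rw [← hy]
        unfold dil
        simp only [smul_smul, inv_pow]
        rw [inv_mul_cancel₀ hε.ne', inv_mul_cancel₀ (pow_ne_zero 2 hε.ne'), one_smul, one_smul]
      rw [h2] at h1
      exact h1
    · intro h p hp
      refine h ⟨p, Tmap Ht a ε p⟩ ⟨hp, ?_⟩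
      unfold Tmap dil
      simp only [smul_smul, inv_pow]
      rw [mul_inv_cancel₀ hε.ne', mul_inv_cancel₀ (pow_ne_zero 2 hε.ne'), one_smul, one_smul]
  rcases hS.eventually_or with h | h
  · left
    filter_upwards [h, self_mem_nhdsWithin] with ε h1 h2
    exact (key ε h2).2 h1
  · right
    filter_upwards [h, self_mem_nhdsWithin] with ε h1 h2
    exact fun hh => h1 ((key ε h2).1 hh)


theorem AI.farStmt : AI.FarStmt := fun _ _ Ht _ hUU a x r _ => far_eventually_or Ht hUU a x r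

end Crest.Agent.R264
end

-- ▼ part R264/JLExp
section

set_option autoImplicit false

open Topology Filter Set Metric Complex

namespace Crest.Agent.R264.JL

variable {m k : ℕ}

/-- second order Taylor expansion with Peano remainder. -/
lemma taylor2 {F : Type*} [NormedAddCommGroup F] [NormedSpace ℝ F] {h h' : ℝ → F} {h2 : F}
    (h1 : ∀ᶠ s in 𝓝 (0 : ℝ), HasDerivAt h (h' s) s) (hh : HasDerivAt h' h2 0) :
    Tendsto (fun ε : ℝ => (ε⁻¹ ^ 2) • (h ε - h 0 - ε • h' 0)) (𝓝[>] 0)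
      (𝓝 ((1 / 2 : ℝ) • h2)) := by
  rw [Metric.tendsto_nhds]
  intro c hc
  have hc2 : 0 < c / 2 := by positivity
  have hlo : ∀ᶠ s in 𝓝 (0 : ℝ), ‖h' s - h' 0 - (s - 0) • h2‖ ≤ (c / 2) * ‖s - 0‖ :=
    (hasDerivAt_iff_isLittleO.1 hh).def hc2
  obtain ⟨η, hη, hball⟩ := Metric.eventually_nhds_iff_ball.1 (h1.and hlo)
  have : ∀ᶠ ε in 𝓝[>] (0 : ℝ), ε ∈ Ioo (0 : ℝ) η := Ioo_mem_nhdsGT hη
  filter_upwards [this] with ε hε
  obtain ⟨hε0, hεη⟩ := hε
  set φ : ℝ → F := fun s => h s - h 0 - s • h' 0 - (s ^ 2 / 2) • h2 with hφ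
  have hmem : ∀ s ∈ Icc (0 : ℝ) ε, s ∈ ball (0 : ℝ) η := fun s hs => by
    rw [mem_ball, dist_zero_right, Real.norm_eq_abs, abs_of_nonneg hs.1]
    exact lt_of_le_of_lt hs.2 hεη
  have hder : ∀ s ∈ Icc (0 : ℝ) ε, HasDerivWithinAt φ (h' s - h' 0 - s • h2) (Icc 0 ε) s := by
    intro s hs
    have a1 := (hball s (hmem s hs)).1
    have a2 : HasDerivAt (fun s : ℝ => s • h' 0) ((1 : ℝ) • h' 0) s :=
      (hasDerivAt_id s).smul_const _
    have a3 : HasDerivAt (fun s : ℝ => (s ^ 2 / 2) • h2) (s • h2) s := by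
      have : HasDerivAt (fun s : ℝ => s ^ 2 / 2) s s := by
        have := (hasDerivAt_pow 2 s).div_const 2
        simpa using this
      exact this.smul_const _
    have := ((a1.sub_const (h 0)).sub a2).sub a3
    rw [one_smul] at this
    exact this.hasDerivWithinAt
  have hbd : ∀ s ∈ Icc (0 : ℝ) ε, ‖h' s - h' 0 - s • h2‖ ≤ (c / 2) * ε := by
    intro s hs
    have := (hball s (hmem s hs)).2
    rw [sub_zero, Real.norm_eq_abs, abs_of_nonneg hs.1] at this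
    refine this.trans ?_
    have := hs.2
    gcongr
  have hmv := Convex.norm_image_sub_le_of_norm_hasDerivWithin_le (𝕜 := ℝ) hder hbd
    (convex_Icc 0 ε) (left_mem_Icc.2 hε0.le) (right_mem_Icc.2 hε0.le)
  have hφ0 : φ 0 = 0 := by simp [hφ]
  rw [hφ0, sub_zero, sub_zero, Real.norm_eq_abs, abs_of_pos hε0] at hmv
  rw [dist_eq_norm]
  have : (ε⁻¹ ^ 2) • (h ε - h 0 - ε • h' 0) - (1 / 2 : ℝ) • h2 = (ε⁻¹ ^ 2) • φ ε := by
    simp only [hφ, smul_sub, smul_smul]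
    congr 2
    field_simp
  rw [this, norm_smul, Real.norm_eq_abs, abs_of_pos (by positivity)]
  calc ε⁻¹ ^ 2 * ‖φ ε‖ ≤ ε⁻¹ ^ 2 * (c / 2 * ε * ε) := by gcongr
    _ = c / 2 := by field_simp
    _ < c := by linarith

/-! ### The data at the base point -/

section base

variable (D0 : P m k →L[ℝ] (Fin k → ℝ)) (D2 : P m k →L[ℝ] (P m k →L[ℝ] (Fin k → ℝ)))

/-- `B u = D0 (0,u)`. -/
noncomputable def BB : (Fin k → ℝ) →L[ℝ] (Fin k → ℝ) :=
  D0 ∘L ContinuousLinearMap.inr ℝ (Fin m → ℂ) (Fin k → ℝ)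

lemma BB_apply (u : Fin k → ℝ) : BB D0 u = D0 (0, u) := rfl

/-- `G = (1 + B²)⁻¹`. -/
noncomputable def GG : (Fin k → ℝ) →L[ℝ] (Fin k → ℝ) :=
  Ring.inverse (1 + BB D0 * BB D0)

variable {D0}

lemma GG_spec (hD : ‖D0‖ ≤ 1 / 4) (u : Fin k → ℝ) :
    GG D0 u + BB D0 (BB D0 (GG D0 u)) = u := by
  have hB : ‖BB D0‖ ≤ 1 / 4 := by
    refine ContinuousLinearMap.opNorm_le_bound _ (by norm_num) fun w => ?_
    rw [BB_apply]
    refine (D0.le_opNorm _).trans ?_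
    rw [Prod.norm_mk, norm_zero, max_eq_right (norm_nonneg _)]
    gcongr
  have hu : IsUnit (1 + BB D0 * BB D0) := by
    have : (1 + BB D0 * BB D0) = 1 - (-(BB D0 * BB D0)) := by rw [sub_neg_eq_add]
    rw [this]
    apply isUnit_one_sub_of_norm_lt_one
    rw [norm_neg]
    calc ‖BB D0 * BB D0‖ ≤ ‖BB D0‖ * ‖BB D0‖ := norm_mul_le _ _
      _ ≤ (1 / 4) * (1 / 4) := by gcongr
      _ < 1 := by norm_num
  have := Ring.mul_inverse_cancel _ hu
  calc GG D0 u + BB D0 (BB D0 (GG D0 u)) = ((1 + BB D0 * BB D0) * GG D0) u := rfl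
    _ = u := by rw [GG, this]; rfl

variable (D0)

/-- `δ(b) = (b, u1(b))`, the tangent direction of the path. -/
noncomputable def dl : (Fin m → ℂ) →ₗ[ℝ] P m k where
  toFun b := (b, GG D0 (D0 (I • b, 0) - BB D0 (D0 (b, 0))))
  map_add' x y := by
    have h1 : ((x + y, 0) : P m k) = (x, 0) + (y, 0) := by simp
    have h2 : ((I • (x + y), 0) : P m k) = (I • x, 0) + (I • y, 0) := by simp
    refine Prod.ext rfl ?_
    simp only [Prod.snd_add]
    rw [h1, h2]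
    simp only [map_add, map_sub]
    abel
  map_smul' c x := by
    have h1 : ((c • x, 0) : P m k) = c • (x, 0) := by simp
    have h2 : ((I • c • x, 0) : P m k) = c • (I • x, 0) := by
      simp [smul_comm I c x]
    refine Prod.ext rfl ?_
    simp only [Prod.smul_snd, RingHom.id_apply]
    rw [h1, h2]
    simp only [map_smul, map_sub, smul_sub]

/-- `DD_b = alpha (D2 δ) + i beta (D2 δ) (1 - i β0)⁻¹ α0`. -/
noncomputable def DDb (D : P m k →L[ℝ] (Fin k → ℝ)) : (Fin m → ℂ) →L[ℂ] (Fin k → ℂ) :=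
  alpha D + (I • beta D) ∘L (XI D0 ∘L alpha D0)

/-- `DD`. -/
noncomputable def DDD : (Fin m → ℂ) →L[ℝ] ((Fin m → ℂ) →L[ℂ] (Fin k → ℂ)) :=
  LinearMap.toContinuousLinearMap
    { toFun := fun b => DDb D0 (D2 (dl D0 b))
      map_add' := fun x y => by
        simp only [DDb, ← alphaC_apply, ← betaC_apply, map_add, smul_add,
          ContinuousLinearMap.add_comp]
        abel
      map_smul' := fun c x => by
        simp only [DDb, RingHom.id_apply, ← alphaC_apply, ← betaC_apply, map_smul]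
        rw [smul_comm I c, ContinuousLinearMap.smul_comp, smul_add] }

lemma DDD_apply (b : Fin m → ℂ) : DDD D0 D2 b = DDb D0 (D2 (dl D0 b)) := rfl

lemma reV_ofR (x : Fin k → ℝ) : reV (ofR x) = x := by
  funext i; simp
lemma imV_ofR (x : Fin k → ℝ) : imV (ofR x) = 0 := by
  funext i; simp
lemma reV_I_ofR (x : Fin k → ℝ) : reV (I • ofR x) = 0 := by
  funext i; simp
lemma imV_I_ofR (x : Fin k → ℝ) : imV (I • ofR x) = x := by
  funext i; simp

lemma beta_ofR (D : P m k →L[ℝ] (Fin k → ℝ)) (x y : Fin k → ℝ) :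
    beta D (ofR x + I • ofR y) = ofR (D (0, x)) + I • ofR (D (0, y)) := by
  rw [beta_apply, map_add, map_add, reV_ofR, imV_ofR, reV_I_ofR, imV_I_ofR, add_zero, zero_add]

lemma I_I_smul (x : Fin k → ℂ) : I • I • x = -x := by
  rw [smul_smul, Complex.I_mul_I, neg_one_smul]

lemma XD_ofR (D : P m k →L[ℝ] (Fin k → ℝ)) (x y : Fin k → ℝ) :
    XD D (ofR x + I • ofR y) = ofR (x + D (0, y)) + I • ofR (y - D (0, x)) := by
  rw [XD_apply, beta_ofR, smul_add, I_I_smul, map_add, map_sub, smul_sub]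
  abel

variable {D0}

lemma F1 (hD : ‖D0‖ ≤ 1 / 4) (b : Fin m → ℂ) :
    XD D0 (ofR (dl D0 b).2 + I • ofR (D0 (dl D0 b))) = (2 * I) • alpha D0 b := by
  have hspec := GG_spec hD (D0 (I • b, 0) - BB D0 (D0 (b, 0)))
  set u := GG D0 (D0 (I • b, 0) - BB D0 (D0 (b, 0))) with hu
  have hdl : dl D0 b = (b, u) := rfl
  have hsplit : D0 (b, u) = D0 (b, 0) + BB D0 u := by
    rw [BB_apply, ← map_add]; simp
  rw [hdl, XD_ofR]
  simp only
  rw [hsplit, ← BB_apply, ← BB_apply, (BB D0).map_add]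
  have e1 : u + (BB D0 (D0 (b, 0)) + BB D0 (BB D0 u)) = D0 (I • b, 0) := by
    calc u + (BB D0 (D0 (b, 0)) + BB D0 (BB D0 u))
        = (u + BB D0 (BB D0 u)) + BB D0 (D0 (b, 0)) := by abel
      _ = D0 (I • b, 0) := by rw [hspec]; abel
  have e2 : D0 (b, 0) + BB D0 u - BB D0 u = D0 (b, 0) := by abel
  rw [e1, e2, alpha_apply, smul_smul]
  have : (2 * I * (1 / 2) : ℂ) = I := by ring
  rw [this, smul_sub, I_I_smul]
  abel

lemma F2 (hD : ‖D0‖ ≤ 1 / 4) (t Q : Fin k → ℝ) :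
    XD D0 (ofR (GG D0 (t - (1 / 2 : ℝ) • BB D0 Q)) +
      I • ofR (D0 (0, GG D0 (t - (1 / 2 : ℝ) • BB D0 Q)) + (1 / 2 : ℝ) • Q)) =
      ofR t + I • ofR ((1 / 2 : ℝ) • Q) := by
  have hspec := GG_spec hD (t - (1 / 2 : ℝ) • BB D0 Q)
  set u := GG D0 (t - (1 / 2 : ℝ) • BB D0 Q) with hu
  rw [XD_ofR, ← BB_apply, ← BB_apply, (BB D0).map_add, (BB D0).map_smul]
  have e1 : u + (BB D0 (BB D0 u) + (1 / 2 : ℝ) • BB D0 Q) = t := by
    rw [← add_assoc, hspec]; abel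
  have e2 : BB D0 u + (1 / 2 : ℝ) • Q - BB D0 u = (1 / 2 : ℝ) • Q := by abel
  rw [e1, e2]

lemma F3 (hD : ‖D0‖ ≤ 1 / 4) (b : Fin m → ℂ) :
    reV (DDD D0 D2 b b) = (1 / 2 : ℝ) • D2 (dl D0 b) (dl D0 b) := by
  have h1 := F1 hD b
  set D := D2 (dl D0 b) with hDdef
  set w := ofR (dl D0 b).2 + I • ofR (D0 (dl D0 b)) with hw
  have h2 : XI D0 (alpha D0 b) = (2 * I)⁻¹ • w := by
    have h2I : (2 * I : ℂ) ≠ 0 := by simp
    have : alpha D0 b = (2 * I)⁻¹ • XD D0 w := by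
      rw [h1, smul_smul, inv_mul_cancel₀ h2I, one_smul]
    rw [this, map_smul, XI_XD hD]
  have h3 : DDD D0 D2 b b = alpha D b + (1 / 2 : ℂ) • beta D w := by
    rw [DDD_apply]
    simp only [DDb, ContinuousLinearMap.add_apply, ContinuousLinearMap.comp_apply,
      ContinuousLinearMap.smul_apply]
    rw [h2, map_smul, smul_smul]
    congr 2
    field_simp
  rw [h3, hw, beta_ofR, alpha_apply]
  have h4 : D (dl D0 b) = D (b, 0) + D (0, (dl D0 b).2) := by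
    rw [← map_add]
    congr 1
    refine Prod.ext ?_ ?_
    · simp [dl]
    · simp
  rw [h4]
  funext i
  simp
  ring

end base

end Crest.Agent.R264.JL
end

-- ▼ part R264/JLLim
section

set_option autoImplicit false

open Topology Filter Set Metric Complex

namespace Crest.Agent.R264.JL

variable {m k : ℕ}

lemma tendsto_comp {ι U V W : Type*} [NormedAddCommGroup U] [NormedSpace ℂ U]
    [NormedAddCommGroup V] [NormedSpace ℂ V] [NormedAddCommGroup W] [NormedSpace ℂ W]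
    {l : Filter ι} {A : ι → V →L[ℂ] W} {B : ι → U →L[ℂ] V} {A0 : V →L[ℂ] W} {B0 : U →L[ℂ] V}
    (hA : Tendsto A l (𝓝 A0)) (hB : Tendsto B l (𝓝 B0)) :
    Tendsto (fun j => A j ∘L B j) l (𝓝 (A0 ∘L B0)) :=
  ((isBoundedBilinearMap_comp (𝕜 := ℂ) (E := U) (F := V) (G := W)).continuous.tendsto
    (A0, B0)).comp (hA.prodMk_nhds hB)

/-- the path `a(ε) = a0 + ε δ + ε² v`. -/
noncomputable def gam (a0 δ v : P m k) (ε : ℝ) : P m k := a0 + ε • δ + (ε ^ 2) • v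

lemma gam_zero (a0 δ v : P m k) : gam a0 δ v 0 = a0 := by simp [gam]

lemma hasDerivAt_gam (a0 δ v : P m k) (ε : ℝ) :
    HasDerivAt (gam a0 δ v) (δ + (2 * ε) • v) ε := by
  have a2 : HasDerivAt (fun s : ℝ => s • δ) ((1 : ℝ) • δ) ε :=
    (hasDerivAt_id ε).smul_const _
  have a3 : HasDerivAt (fun s : ℝ => (s ^ 2) • v) ((2 * ε) • v) ε := by
    have := (hasDerivAt_pow 2 ε)
    simp only [Nat.cast_ofNat, Nat.add_one_sub_one, pow_one] at this
    exact this.smul_const _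
  have := (a2.const_add a0).add a3
  rw [one_smul] at this
  exact this

lemma continuous_gam (a0 δ v : P m k) : Continuous (gam a0 δ v) :=
  continuous_iff_continuousAt.2 fun ε => (hasDerivAt_gam a0 δ v ε).continuousAt

lemma tendsto_gam (a0 δ v : P m k) : Tendsto (gam a0 δ v) (𝓝[>] 0) (𝓝 a0) := by
  have := (continuous_gam a0 δ v).tendsto 0
  rw [gam_zero] at this
  exact this.mono_left nhdsWithin_le_nhds

section

variable {Ht : P m k → (Fin k → ℝ)} {a0 : P m k}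

lemma ht_eventually (hC : ContDiffAt ℝ 2 Ht a0) :
    ∀ᶠ a in 𝓝 a0, HasFDerivAt Ht (fderiv ℝ Ht a) a := by
  have h1 : ∀ᶠ a in 𝓝 a0, ContDiffAt ℝ 2 Ht a := hC.eventually (by simp)
  filter_upwards [h1] with a ha
  exact (ha.differentiableAt (by norm_num)).hasFDerivAt

lemma ht_fderiv (hC : ContDiffAt ℝ 2 Ht a0) :
    HasFDerivAt (fderiv ℝ Ht) (fderiv ℝ (fderiv ℝ Ht) a0) a0 := by
  have : ContDiffAt ℝ 1 (fderiv ℝ Ht) a0 := hC.fderiv_right (by norm_num)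
  exact (this.differentiableAt (by norm_num)).hasFDerivAt

lemma hasDerivAt_fderiv_gam (hC : ContDiffAt ℝ 2 Ht a0) (δ v : P m k) :
    HasDerivAt (fun ε => fderiv ℝ Ht (gam a0 δ v ε)) (fderiv ℝ (fderiv ℝ Ht) a0 δ) 0 := by
  have h := ht_fderiv hC
  have h2 := hasDerivAt_gam a0 δ v 0
  rw [mul_zero, zero_smul, add_zero] at h2
  rw [← gam_zero a0 δ v] at h
  have := h.comp_hasDerivAt (0 : ℝ) h2
  rw [gam_zero] at this
  exact this

lemma ht_taylor (hC : ContDiffAt ℝ 2 Ht a0) (δ v : P m k) :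
    Tendsto (fun ε : ℝ => (ε⁻¹ ^ 2) •
      (Ht (gam a0 δ v ε) - Ht a0 - ε • fderiv ℝ Ht a0 δ)) (𝓝[>] 0)
      (𝓝 (fderiv ℝ Ht a0 v + (1 / 2 : ℝ) • fderiv ℝ (fderiv ℝ Ht) a0 δ δ)) := by
  have h1 : ∀ᶠ s in 𝓝 (0 : ℝ), HasDerivAt (fun ε => Ht (gam a0 δ v ε))
      ((fun ε => fderiv ℝ Ht (gam a0 δ v ε) (δ + (2 * ε) • v)) s) s := by
    have hc : Tendsto (gam a0 δ v) (𝓝 0) (𝓝 a0) := by
      have := (continuous_gam a0 δ v).tendsto 0
      rwa [gam_zero] at this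
    filter_upwards [hc.eventually (ht_eventually hC)] with s hs
    exact hs.comp_hasDerivAt s (hasDerivAt_gam a0 δ v s)
  have h2 : HasDerivAt (fun ε : ℝ => fderiv ℝ Ht (gam a0 δ v ε) (δ + (2 * ε) • v))
      (fderiv ℝ (fderiv ℝ Ht) a0 δ δ + fderiv ℝ Ht a0 ((2 : ℝ) • v)) 0 := by
    have hv : HasDerivAt (fun ε : ℝ => δ + (2 * ε) • v) ((2 : ℝ) • v) 0 := by
      have h3 : HasDerivAt (fun ε : ℝ => 2 * ε) 2 0 := by
        simpa using (hasDerivAt_id (0 : ℝ)).const_mul 2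
      exact (h3.smul_const v).const_add δ
    have := (hasDerivAt_fderiv_gam hC δ v).clm_apply hv
    simpa [gam_zero] using this
  have := taylor2 h1 h2
  simp only [gam_zero, mul_zero, zero_smul, add_zero] at this
  have e : fderiv ℝ Ht a0 v + (1 / 2 : ℝ) • fderiv ℝ (fderiv ℝ Ht) a0 δ δ =
      (1 / 2 : ℝ) • (fderiv ℝ (fderiv ℝ Ht) a0 δ δ + fderiv ℝ Ht a0 ((2 : ℝ) • v)) := by
    rw [smul_add, map_smul, smul_smul]
    norm_num
    abel
  rw [e]
  exact this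

end

theorem trans_tendsto {Ht : P m k → (Fin k → ℝ)} {a0 : P m k} (hC : ContDiffAt ℝ 2 Ht a0)
    (hD : ‖fderiv ℝ Ht a0‖ ≤ 1 / 4) (b : Fin m → ℂ) (t : Fin k → ℝ) :
    ∃ v : P m k, Tendsto (fun ε => trans Ht a0 (gam a0 (dl (fderiv ℝ Ht a0) b) v ε) ε) (𝓝[>] 0)
      (𝓝 (b, 1, (2 * I) • DDD (fderiv ℝ Ht a0) (fderiv ℝ (fderiv ℝ Ht) a0) b,
        ofR t + I • ofR (reV (DDD (fderiv ℝ Ht a0) (fderiv ℝ (fderiv ℝ Ht) a0) b b)))) := by
  set D0 := fderiv ℝ Ht a0 with hD0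
  set D2 := fderiv ℝ (fderiv ℝ Ht) a0 with hD2
  set δ := dl D0 b with hδ
  set Q := D2 δ δ with hQ
  set u2 := GG D0 (t - (1 / 2 : ℝ) • BB D0 Q) with hu2
  set v : P m k := (0, u2) with hv
  refine ⟨v, ?_⟩
  have hpos : ∀ᶠ ε in 𝓝[>] (0 : ℝ), 0 < ε := eventually_mem_nhdsWithin
  have hγ := tendsto_gam a0 δ v
  -- continuity of the derivative
  have hDγ : Tendsto (fun ε => fderiv ℝ Ht (gam a0 δ v ε)) (𝓝[>] 0) (𝓝 D0) := by
    have : ContinuousAt (fderiv ℝ Ht) a0 := (ht_fderiv hC).continuousAt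
    exact this.tendsto.comp hγ
  have hXI : Tendsto (fun ε => XI (fderiv ℝ Ht (gam a0 δ v ε))) (𝓝[>] 0) (𝓝 (XI D0)) :=
    (continuousAt_XI hD).tendsto.comp hDγ
  have hslope : Tendsto (fun ε : ℝ => ε⁻¹ • (fderiv ℝ Ht (gam a0 δ v ε) - D0)) (𝓝[>] 0)
      (𝓝 (D2 δ)) := by
    have h := (hasDerivAt_iff_tendsto_slope.1 (hasDerivAt_fderiv_gam hC δ v))
    have h2 : Tendsto (slope (fun ε => fderiv ℝ Ht (gam a0 δ v ε)) 0) (𝓝[>] 0) (𝓝 (D2 δ)) :=
      h.mono_left (nhdsWithin_mono _ (fun x hx => ne_of_gt hx))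
    refine h2.congr fun ε => ?_
    rw [slope_def_module, gam_zero, sub_zero]
  have hone : XD D0 ∘L XI D0 = (1 : (Fin k → ℂ) →L[ℂ] (Fin k → ℂ)) := by
    ext1 w
    rw [ContinuousLinearMap.comp_apply, XD_XI hD]
    rfl
  have hQt : Tendsto (fun ε => XD D0 ∘L XI (fderiv ℝ Ht (gam a0 δ v ε))) (𝓝[>] 0)
      (𝓝 (1 : (Fin k → ℂ) →L[ℂ] (Fin k → ℂ))) := by
    rw [← hone]
    exact tendsto_comp (tendsto_const_nhds (x := XD D0)) hXI
  -- the components
  refine Tendsto.prodMk_nhds ?_ (Tendsto.prodMk_nhds hQt (Tendsto.prodMk_nhds ?_ ?_))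
  · refine tendsto_const_nhds.congr' ?_
    filter_upwards [hpos] with ε hε
    have : (gam a0 δ v ε).1 - a0.1 = ε • b := by
      simp [gam, hv, hδ, dl]
    rw [this, smul_smul, inv_mul_cancel₀ hε.ne', one_smul]
  · refine Tendsto.const_smul ?_ _
    have hA : Tendsto (fun ε : ℝ => alphaC (ε⁻¹ • (fderiv ℝ Ht (gam a0 δ v ε) - D0))) (𝓝[>] 0)
        (𝓝 (alphaC (D2 δ))) := (alphaC.continuous.tendsto _).comp hslope
    have hB : Tendsto (fun ε : ℝ => I • betaC (ε⁻¹ • (fderiv ℝ Ht (gam a0 δ v ε) - D0))) (𝓝[>] 0)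
        (𝓝 (I • betaC (D2 δ))) := ((betaC.continuous.tendsto _).comp hslope).const_smul I
    have c1 : Tendsto (fun ε : ℝ => (XD D0 ∘L XI (fderiv ℝ Ht (gam a0 δ v ε))) ∘L
        alphaC (ε⁻¹ • (fderiv ℝ Ht (gam a0 δ v ε) - D0))) (𝓝[>] 0)
        (𝓝 ((1 : (Fin k → ℂ) →L[ℂ] (Fin k → ℂ)) ∘L alphaC (D2 δ))) :=
      tendsto_comp hQt hA
    have c2 : Tendsto (fun ε : ℝ => XI (fderiv ℝ Ht (gam a0 δ v ε)) ∘L alpha D0) (𝓝[>] 0)
        (𝓝 (XI D0 ∘L alpha D0)) :=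
      tendsto_comp hXI tendsto_const_nhds
    have c3 : Tendsto (fun ε : ℝ => (I • betaC (ε⁻¹ • (fderiv ℝ Ht (gam a0 δ v ε) - D0))) ∘L
        (XI (fderiv ℝ Ht (gam a0 δ v ε)) ∘L alpha D0)) (𝓝[>] 0)
        (𝓝 ((I • betaC (D2 δ)) ∘L (XI D0 ∘L alpha D0))) :=
      tendsto_comp hB c2
    have c4 := c1.add c3
    have hlim : (1 : (Fin k → ℂ) →L[ℂ] (Fin k → ℂ)) ∘L alphaC (D2 δ)
        + (I • betaC (D2 δ)) ∘L (XI D0 ∘L alpha D0) = DDD D0 D2 b := by
      rw [DDD_apply, DDb]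
      rfl
    rw [hlim] at c4
    refine c4.congr' ?_
    have hsm : ∀ᶠ ε in 𝓝[>] (0 : ℝ), ‖fderiv ℝ Ht (gam a0 δ v ε) - D0‖ < 1 / 4 := by
      have := hDγ.sub_const D0
      rw [sub_self] at this
      have := this.norm
      rw [norm_zero] at this
      exact this.eventually (gt_mem_nhds (by norm_num))
    have hun : ∀ᶠ ε in 𝓝[>] (0 : ℝ), IsUnit (XD (fderiv ℝ Ht (gam a0 δ v ε))) := by
      have h1 : Tendsto (fun ε => XD (fderiv ℝ Ht (gam a0 δ v ε))) (𝓝[>] 0) (𝓝 (XD D0)) :=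
        (continuous_XD.tendsto _).comp hDγ
      exact h1.eventually ((Units.isOpen.mem_nhds (isUnit_XD hD)))
    filter_upwards [hun] with ε hε
    set D := fderiv ℝ Ht (gam a0 δ v ε) with hDε
    have hXX : ∀ w, XD D (XI D w) = w := fun w => by
      have := Ring.mul_inverse_cancel _ hε
      calc XD D (XI D w) = (XD D * XI D) w := rfl
        _ = w := by rw [XI, this]; rfl
    ext1 ζ
    have e0 : alphaC (ε⁻¹ • (D - D0)) = ε⁻¹ • (alpha D - alpha D0) := by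
      rw [map_smul, map_sub]; rfl
    have e1 : betaC (ε⁻¹ • (D - D0)) = ε⁻¹ • (beta D - beta D0) := by
      rw [map_smul, map_sub]; rfl
    rw [e0, e1]
    simp only [ContinuousLinearMap.add_apply, ContinuousLinearMap.comp_apply,
      ContinuousLinearMap.smul_apply, ContinuousLinearMap.sub_apply]
    -- `X0 w = X w + i (β - β0) w`
    have e2 : ∀ w, XD D0 w = XD D w + I • (beta D w - beta D0 w) := fun w => by
      rw [XD_apply, XD_apply, smul_sub]; abel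
    have hrI : ∀ (c : ℝ) (w : Fin k → ℂ), XI D (c • w) = c • XI D w := fun c w => by
      rw [← Complex.coe_smul, map_smul, Complex.coe_smul]
    have hrX : ∀ (c : ℝ) (w : Fin k → ℂ), XD D0 (c • w) = c • XD D0 w := fun c w => by
      rw [← Complex.coe_smul, map_smul, Complex.coe_smul]
    rw [hrI, hrX, map_sub, map_sub, e2 (XI D (alpha D0 ζ)), hXX]
    module
  · have hT := ht_taylor hC δ v
    have hT2 : Tendsto (fun ε : ℝ => XD D0 (ofR u2 + I • ofR ((ε⁻¹ ^ 2) •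
      (Ht (gam a0 δ v ε) - Ht a0 - ε • D0 δ)))) (𝓝[>] 0)
      (𝓝 (XD D0 (ofR u2 + I • ofR (D0 v + (1 / 2 : ℝ) • D2 δ δ)))) := by
      refine ((XD D0).continuous.tendsto _).comp ?_
      refine tendsto_const_nhds.add ?_
      exact ((ofR.continuous.tendsto _).comp hT).const_smul I
    have hF2 := F2 hD t Q
    rw [hv] at hT2
    rw [hF2] at hT2
    rw [F3 D2 hD b]
    refine hT2.congr' ?_
    filter_upwards [hpos] with ε hε
    have hF1 := F1 hD b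
    have g1 : (gam a0 δ (0, u2) ε).1 - a0.1 = ε • b := by
      simp [gam, hδ, dl]
    have g2 : (sig Ht (gam a0 δ (0, u2) ε)).2 - (sig Ht a0).2
        = ε • (ofR δ.2 + I • ofR (D0 δ)) + (ε ^ 2) • (ofR u2 + I • ofR ((ε⁻¹ ^ 2) •
          (Ht (gam a0 δ (0, u2) ε) - Ht a0 - ε • D0 δ))) := by
      simp only [sig]
      have g3 : (gam a0 δ (0, u2) ε).2 = a0.2 + ε • δ.2 + (ε ^ 2) • u2 := by
        simp [gam]
      rw [g3]
      simp only [map_add, map_smul, map_sub]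
      have h4 : ε ^ 2 * ε⁻¹ ^ 2 = 1 := by field_simp
      have h5 : (ε ^ 2) • (I • (ε⁻¹ ^ 2) • (ofR (Ht (gam a0 δ (0, u2) ε)) - ofR (Ht a0)
          - ε • ofR (D0 δ))) = I • (ofR (Ht (gam a0 δ (0, u2) ε)) - ofR (Ht a0)
          - ε • ofR (D0 δ)) := by
        rw [smul_comm (ε ^ 2) I, smul_smul (ε ^ 2), h4, one_smul]
      rw [smul_add (ε ^ 2), h5]
      module
    have hrX : ∀ (c : ℝ) (w : Fin k → ℂ), XD D0 (c • w) = c • XD D0 w := fun c w => by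
      rw [← Complex.coe_smul, map_smul, Complex.coe_smul]
    have hrα : ∀ (c : ℝ) (w : Fin m → ℂ), alpha D0 (c • w) = c • alpha D0 w := fun c w => by
      rw [← Complex.coe_smul, map_smul, Complex.coe_smul]
    rw [← hδ] at hF1
    rw [g1, g2, ← hD0]
    generalize ofR u2 + I • ofR ((ε⁻¹ ^ 2) •
          (Ht (gam a0 δ (0, u2) ε) - Ht a0 - ε • D0 δ)) = Rr
    rw [map_add, hrX, hrX, hF1, hrα]
    have h4 : ε⁻¹ ^ 2 * ε ^ 2 = 1 := by field_simp
    rw [smul_comm (2 * I) ε, add_sub_cancel_left, smul_smul, h4, one_smul]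

end Crest.Agent.R264.JL
end

-- ▼ part R264/JLBaire
section

set_option autoImplicit false

open Topology Filter Set Metric Complex

namespace Crest.Agent.R264.JL

variable {m k : ℕ}

lemma tendsto_apply {ι V W : Type*}
    [NormedAddCommGroup V] [NormedSpace ℂ V] [NormedAddCommGroup W] [NormedSpace ℂ W]
    {l : Filter ι} {A : ι → V →L[ℂ] W} {B : ι → V} {A0 : V →L[ℂ] W} {B0 : V}
    (hA : Tendsto A l (𝓝 A0)) (hB : Tendsto B l (𝓝 B0)) :
    Tendsto (fun j => A j (B j)) l (𝓝 (A0 B0)) :=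
  ((isBoundedBilinearMap_apply (𝕜 := ℂ) (E := V) (F := W)).continuous.tendsto
    (A0, B0)).comp (hA.prodMk_nhds hB)

section

variable {Ht : P m k → (Fin k → ℝ)} {a : P m k}

lemma cont_fderiv (hC : ContDiffAt ℝ 2 Ht a) : Tendsto (fderiv ℝ Ht) (𝓝 a) (𝓝 (fderiv ℝ Ht a)) :=
  (ht_fderiv hC).continuousAt.tendsto

lemma cont_sig (hC : ContDiffAt ℝ 2 Ht a) :
    Tendsto (fun a' => (sig Ht a').2) (𝓝 a) (𝓝 (sig Ht a).2) := by
  have h1 : Tendsto Ht (𝓝 a) (𝓝 (Ht a)) := hC.continuousAt.tendsto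
  have h2 : Tendsto (fun a' : P m k => ofR a'.2) (𝓝 a) (𝓝 (ofR a.2)) :=
    (ofR.continuous.comp continuous_snd).tendsto a
  exact h2.add (((ofR.continuous.tendsto _).comp h1).const_smul I)

lemma cont_Tmap (hC : ContDiffAt ℝ 2 Ht a) (ε : ℝ) (p : E m k) :
    Tendsto (fun a' => Tmap Ht a' ε p) (𝓝 a) (𝓝 (Tmap Ht a ε p)) := by
  have hD := cont_fderiv hC
  have hs := cont_sig hC
  have h1 : Tendsto (fun a' : P m k => p.1 - a'.1) (𝓝 a) (𝓝 (p.1 - a.1)) :=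
    (continuous_const.sub continuous_fst).tendsto a
  have hX : Tendsto (fun a' => XD (fderiv ℝ Ht a')) (𝓝 a) (𝓝 (XD (fderiv ℝ Ht a))) :=
    (continuous_XD.tendsto _).comp hD
  have hA : Tendsto (fun a' => alpha (fderiv ℝ Ht a')) (𝓝 a) (𝓝 (alpha (fderiv ℝ Ht a))) :=
    (alphaC.continuous.tendsto _).comp hD
  have h2 : Tendsto (fun a' => XD (fderiv ℝ Ht a') (p.2 - (sig Ht a').2)) (𝓝 a)
      (𝓝 (XD (fderiv ℝ Ht a) (p.2 - (sig Ht a).2))) := tendsto_apply hX (hs.const_sub p.2)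
  have h3 : Tendsto (fun a' => (2 * I) • alpha (fderiv ℝ Ht a') (p.1 - a'.1)) (𝓝 a)
      (𝓝 ((2 * I) • alpha (fderiv ℝ Ht a) (p.1 - a.1))) := (tendsto_apply hA h1).const_smul _
  exact (h1.const_smul ε⁻¹).prodMk_nhds ((h2.sub h3).const_smul (ε⁻¹ ^ 2))

lemma cont_trans (hC : ContDiffAt ℝ 2 Ht a) (hD : ‖fderiv ℝ Ht a‖ ≤ 1 / 4) (ε : ℝ) :
    Tendsto (fun a' => trans Ht a a' ε) (𝓝 a)
      (𝓝 ((0, 1, 0, 0) : Th m k)) := by
  have hD' := cont_fderiv hC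
  have hs := cont_sig hC
  have hone : XD (fderiv ℝ Ht a) ∘L XI (fderiv ℝ Ht a) = (1 : (Fin k → ℂ) →L[ℂ] (Fin k → ℂ)) := by
    ext1 w
    rw [ContinuousLinearMap.comp_apply, XD_XI hD]
    rfl
  have hXI : Tendsto (fun a' => XI (fderiv ℝ Ht a')) (𝓝 a) (𝓝 (XI (fderiv ℝ Ht a))) :=
    (continuousAt_XI hD).tendsto.comp hD'
  have hA : Tendsto (fun a' => alpha (fderiv ℝ Ht a')) (𝓝 a) (𝓝 (alpha (fderiv ℝ Ht a))) :=
    (alphaC.continuous.tendsto _).comp hD'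
  have hz : Tendsto (fun a' : P m k => a'.1 - a.1) (𝓝 a) (𝓝 0) := by
    have := (continuous_fst.tendsto a).sub_const a.1
    simpa using this
  have hw : Tendsto (fun a' : P m k => (sig Ht a').2 - (sig Ht a).2) (𝓝 a) (𝓝 0) := by
    simpa using hs.sub_const (sig Ht a).2
  refine Tendsto.prodMk_nhds ?_ (Tendsto.prodMk_nhds ?_ (Tendsto.prodMk_nhds ?_ ?_))
  · simpa using hz.const_smul ε⁻¹
  · rw [← hone]
    exact tendsto_comp tendsto_const_nhds hXI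
  · have h1 : Tendsto (fun a' => XD (fderiv ℝ Ht a) ∘L XI (fderiv ℝ Ht a') ∘L
        alpha (fderiv ℝ Ht a')) (𝓝 a) (𝓝 (XD (fderiv ℝ Ht a) ∘L XI (fderiv ℝ Ht a) ∘L
        alpha (fderiv ℝ Ht a))) := tendsto_comp tendsto_const_nhds (tendsto_comp hXI hA)
    have h2 : XD (fderiv ℝ Ht a) ∘L XI (fderiv ℝ Ht a) ∘L alpha (fderiv ℝ Ht a)
        = alpha (fderiv ℝ Ht a) := by
      ext1 w
      rw [ContinuousLinearMap.comp_apply, ContinuousLinearMap.comp_apply, XD_XI hD]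
    rw [h2] at h1
    have h3 := h1.sub_const (alpha (fderiv ℝ Ht a))
    rw [sub_self] at h3
    have h4 := (h3.const_smul ε⁻¹).const_smul (2 * I)
    rw [smul_zero, smul_zero] at h4
    exact h4
  · have h1 : Tendsto (fun a' => XD (fderiv ℝ Ht a) ((sig Ht a').2 - (sig Ht a).2)) (𝓝 a)
        (𝓝 (XD (fderiv ℝ Ht a) 0)) := ((XD (fderiv ℝ Ht a)).continuous.tendsto _).comp hw
    have h2 : Tendsto (fun a' : P m k => (2 * I) • alpha (fderiv ℝ Ht a) (a'.1 - a.1)) (𝓝 a)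
        (𝓝 ((2 * I) • alpha (fderiv ℝ Ht a) 0)) :=
      (((alpha (fderiv ℝ Ht a)).continuous.tendsto _).comp hz).const_smul _
    have h3 := (h1.sub h2).const_smul (ε⁻¹ ^ 2)
    rw [map_zero, map_zero, smul_zero, sub_zero, smul_zero] at h3
    exact h3

lemma Aff_id (y : E m k) : Aff ((0, 1, 0, 0) : Th m k) y = y := by
  simp [Aff]

end

/-- `Far` is monotone in `r` and Lipschitz in `x`. -/
lemma Far.mono {UU : Set (E m k)} {Ht : P m k → (Fin k → ℝ)} {a : P m k} {ε : ℝ} {x y : E m k}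
    {r s : ℝ} (h : Far UU Ht a ε x r) (hs : s ≤ r - dist x y) : Far UU Ht a ε y s := by
  intro p hp
  have h1 := h p hp
  have h2 := dist_triangle (Tmap Ht a ε p) y x
  rw [dist_comm y x] at h2
  linarith

section Baire

variable (UU : Set (E m k)) (Ht : P m k → (Fin k → ℝ)) (O : Set (P m k))

/-- `Far` for all small `ε`. -/
def S1 (x : E m k) (r : ℝ) (K : ℕ) : Set (P m k) :=
  {a | a ∈ O ∧ ∀ ε ∈ Ioc (0 : ℝ) (1 / ((K : ℝ) + 1)), Far UU Ht a ε x r}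

/-- not `Far` for all small `ε`. -/
def S2 (x : E m k) (r : ℝ) (K : ℕ) : Set (P m k) :=
  {a | a ∈ O ∧ ∀ ε ∈ Ioc (0 : ℝ) (1 / ((K : ℝ) + 1)), ¬ Far UU Ht a ε x r}

variable {UU Ht O}

lemma S1_closure (hO : IsOpen O) (hC : ContDiffOn ℝ 2 Ht O) {x : E m k} {r : ℝ} {K : ℕ}
    {a : P m k} (ha : a ∈ O) (hcl : a ∈ closure (S1 UU Ht O x r K)) :
    ∀ ε ∈ Ioc (0 : ℝ) (1 / ((K : ℝ) + 1)), Far UU Ht a ε x r := by
  intro ε hε p hp
  have hCa : ContDiffAt ℝ 2 Ht a := (hC a ha).contDiffAt (hO.mem_nhds ha)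
  have hfr := mem_closure_iff_frequently.1 hcl
  by_contra hcon
  push Not at hcon
  have hev : ∀ᶠ a' in 𝓝 a, dist (Tmap Ht a' ε p) x < r :=
    ((cont_Tmap hCa ε p).dist tendsto_const_nhds).eventually (gt_mem_nhds hcon)
  obtain ⟨a', ha', h1⟩ := (hfr.and_eventually hev).exists
  exact absurd (ha'.2 ε hε p hp) (not_le.2 h1)

lemma S2_closure (hO : IsOpen O) (hC : ContDiffOn ℝ 2 Ht O)
    (hsm : ∀ a ∈ O, ‖fderiv ℝ Ht a‖ ≤ 1 / 4) {x : E m k} {r : ℝ} {K : ℕ}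
    {a : P m k} (ha : a ∈ O) (hcl : a ∈ closure (S2 UU Ht O x r K)) :
    ∀ ε ∈ Ioc (0 : ℝ) (1 / ((K : ℝ) + 1)), ∀ r', r < r' → ¬ Far UU Ht a ε x r' := by
  intro ε hε r' hr' hfar
  have hCa : ContDiffAt ℝ 2 Ht a := (hC a ha).contDiffAt (hO.mem_nhds ha)
  have hfr := mem_closure_iff_frequently.1 hcl
  have hev := Aff_tendsto (cont_trans hCa (hsm a ha) ε) (‖x‖ + r) (sub_pos.2 hr')
  obtain ⟨a', ha', h1⟩ := (hfr.and_eventually hev).exists
  have h2 := ha'.2 ε hε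
  simp only [Far, not_forall, not_le] at h2
  obtain ⟨p, hp, hlt⟩ := h2
  have h3 : ‖Tmap Ht a' ε p‖ ≤ ‖x‖ + r := by
    calc ‖Tmap Ht a' ε p‖ = ‖(Tmap Ht a' ε p - x) + x‖ := by rw [sub_add_cancel]
      _ ≤ ‖Tmap Ht a' ε p - x‖ + ‖x‖ := norm_add_le _ _
      _ ≤ ‖x‖ + r := by rw [← dist_eq_norm]; linarith
  have h4 := h1 _ h3
  rw [Aff_id, ← Tmap_trans (hsm a' ha'.1)] at h4
  have h5 := hfar p hp
  have h6 := dist_triangle (Tmap Ht a ε p) (Tmap Ht a' ε p) x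
  linarith

/-- joint limit property at `a0`. -/
def Joint (UU : Set (E m k)) (Ht : P m k → (Fin k → ℝ)) (a0 : P m k) : Prop :=
  ∀ (x : E m k) (R : ℝ), 0 < R →
    (∃ᶠ q in 𝓝 a0 ×ˢ 𝓝[>] (0 : ℝ), Far UU Ht q.1 q.2 x R) →
    ∃ r > 0, ∀ᶠ q in 𝓝 a0 ×ˢ 𝓝[>] (0 : ℝ), Far UU Ht q.1 q.2 x r

/-- A6: the joint limit property holds on a residual subset of `O`. -/
theorem joint_residual (hO : IsOpen O) (hC : ContDiffOn ℝ 2 Ht O)
    (hsm : ∀ a ∈ O, ‖fderiv ℝ Ht a‖ ≤ 1 / 4)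
    (hSA : ∀ a ∈ O, ∀ (x : E m k) (r : ℝ), 0 < r →
      (∀ᶠ ε in 𝓝[>] (0 : ℝ), Far UU Ht a ε x r) ∨
      (∀ᶠ ε in 𝓝[>] (0 : ℝ), ¬ Far UU Ht a ε x r)) :
    ∃ R : Set (P m k), Dense R ∧ IsGδ R ∧ ∀ a0 ∈ R, a0 ∈ O → Joint UU Ht a0 := by
  classical
  let f : (ℕ × ℚ) → Option (Bool × ℕ) → Set (P m k) := fun i j =>
    match j with
    | none => Oᶜ
    | some (true, K) => closure (S1 UU Ht O (TopologicalSpace.denseSeq (E m k) i.1) i.2 K)
    | some (false, K) => closure (S2 UU Ht O (TopologicalSpace.denseSeq (E m k) i.1) i.2 K)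
  have hf_closed : ∀ i j, IsClosed (f i j) := by
    intro i j
    match j with
    | none => exact hO.isClosed_compl
    | some (true, K) => exact isClosed_closure
    | some (false, K) => exact isClosed_closure
  have hsmall : ∀ {p : ℝ → Prop}, (∀ᶠ ε in 𝓝[>] (0 : ℝ), p ε) →
      ∃ K : ℕ, ∀ ε ∈ Ioc (0 : ℝ) (1 / ((K : ℝ) + 1)), p ε := by
    intro p hp
    obtain ⟨η, hη, h⟩ := mem_nhdsGT_iff_exists_Ioo_subset.1 hp
    obtain ⟨K, hK⟩ := exists_nat_one_div_lt (show (0 : ℝ) < η from hη)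
    exact ⟨K, fun ε hε => h ⟨hε.1, lt_of_le_of_lt hε.2 hK⟩⟩
  have hf_cover : ∀ i, ⋃ j, f i j = univ := by
    intro i
    rw [eq_univ_iff_forall]
    intro a
    by_cases ha : a ∈ O
    · have hdich : (∀ᶠ ε in 𝓝[>] (0 : ℝ), Far UU Ht a ε
          (TopologicalSpace.denseSeq (E m k) i.1) i.2) ∨
          (∀ᶠ ε in 𝓝[>] (0 : ℝ), ¬ Far UU Ht a ε
          (TopologicalSpace.denseSeq (E m k) i.1) i.2) := by
        by_cases hq : (0 : ℝ) < i.2
        · exact hSA a ha _ _ hq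
        · left
          refine Eventually.of_forall fun ε p _ => ?_
          exact (not_lt.1 hq).trans dist_nonneg
      rcases hdich with h | h
      · obtain ⟨K, hK⟩ := hsmall h
        exact mem_iUnion.2 ⟨some (true, K), subset_closure ⟨ha, hK⟩⟩
      · obtain ⟨K, hK⟩ := hsmall h
        exact mem_iUnion.2 ⟨some (false, K), subset_closure ⟨ha, hK⟩⟩
    · exact mem_iUnion.2 ⟨none, ha⟩
  have hW_dense : ∀ i, Dense (⋃ j, interior (f i j)) := fun i =>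
    dense_iUnion_interior_of_closed (hf_closed i) (hf_cover i)
  have hW_open : ∀ i, IsOpen (⋃ j, interior (f i j)) := fun i =>
    isOpen_iUnion fun j => isOpen_interior
  refine ⟨⋂ i, ⋃ j, interior (f i j), dense_iInter_of_isOpen hW_open hW_dense,
    IsGδ.iInter_of_isOpen hW_open, ?_⟩
  intro a0 ha0 haO x R hR hfreq
  -- the dichotomy at `a0` for the dense data
  have hkey : ∀ (n : ℕ) (q : ℚ),
      (∀ᶠ z in 𝓝 a0 ×ˢ 𝓝[>] (0 : ℝ), Far UU Ht z.1 z.2 (TopologicalSpace.denseSeq (E m k) n) q) ∨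
      (∀ᶠ z in 𝓝 a0 ×ˢ 𝓝[>] (0 : ℝ), ∀ r' : ℝ, (q : ℝ) < r' →
        ¬ Far UU Ht z.1 z.2 (TopologicalSpace.denseSeq (E m k) n) r') := by
    intro n q
    have h1 := mem_iInter.1 ha0 (n, q)
    obtain ⟨j, hj⟩ := mem_iUnion.1 h1
    have hev : ∀ᶠ a in 𝓝 a0, a ∈ f (n, q) j ∧ a ∈ O :=
      inter_mem (mem_interior_iff_mem_nhds.1 hj) (hO.mem_nhds haO)
    have hevε : ∀ K : ℕ, ∀ᶠ ε in 𝓝[>] (0 : ℝ), ε ∈ Ioc (0 : ℝ) (1 / ((K : ℝ) + 1)) := fun K =>
      Ioc_mem_nhdsGT (by positivity)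
    match j, hev with
    | none, hev => exact absurd haO (interior_subset hj)
    | some (true, K), hev =>
      left
      filter_upwards [hev.prod_mk (hevε K)] with z hz
      exact S1_closure hO hC hz.1.2 hz.1.1 z.2 hz.2
    | some (false, K), hev =>
      right
      filter_upwards [hev.prod_mk (hevε K)] with z hz
      exact S2_closure hO hC hsm hz.1.2 hz.1.1 z.2 hz.2
  obtain ⟨n, hn⟩ : ∃ n, dist x (TopologicalSpace.denseSeq (E m k) n) < R / 4 := by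
    have := (TopologicalSpace.denseRange_denseSeq (E m k)).exists_dist_lt x
      (show (0 : ℝ) < R / 4 by positivity)
    exact this
  obtain ⟨q, hq1, hq2⟩ := exists_rat_btwn (show R / 4 < R / 2 by linarith)
  rcases hkey n q with h | h
  · refine ⟨q - dist x (TopologicalSpace.denseSeq (E m k) n), by linarith, ?_⟩
    filter_upwards [h] with z hz
    exact hz.mono (by rw [dist_comm])
  · exfalso
    obtain ⟨z, hz1, hz2⟩ := (hfreq.and_eventually h).exists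
    refine hz2 (R - dist x (TopologicalSpace.denseSeq (E m k) n)) (by linarith) ?_
    exact hz1.mono le_rfl

end Baire

end Crest.Agent.R264.JL
end

-- ▼ part R264/JLMain

set_option autoImplicit false

open Topology Filter Set Metric Complex

namespace Crest.Agent.R264.JL

variable {m k : ℕ}

section

variable {UU : Set (E m k)} {Ht : P m k → (Fin k → ℝ)} {a0 : P m k}

lemma mem_OMs_of_far (hD : ‖fderiv ℝ Ht a0‖ ≤ 1 / 4) {x : E m k} {r : ℝ} (hr : 0 < r)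
    (h : ∀ᶠ ε in 𝓝[>] (0 : ℝ), Far UU Ht a0 ε x r) : x ∈ OMs (Amap Ht a0 '' UU) := by
  refine ⟨r, hr, ?_⟩
  filter_upwards [h, self_mem_nhdsWithin] with ε h1 h2
  exact (far_iff hD UU h2 x r).1 h1

lemma far_of_mem_OMs (hD : ‖fderiv ℝ Ht a0‖ ≤ 1 / 4) {x : E m k}
    (h : x ∈ OMs (Amap Ht a0 '' UU)) :
    ∃ r > 0, ∀ᶠ ε in 𝓝[>] (0 : ℝ), Far UU Ht a0 ε x r := by
  obtain ⟨r, hr, h⟩ := h
  refine ⟨r, hr, ?_⟩
  filter_upwards [h, self_mem_nhdsWithin] with ε h1 h2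
  exact (far_iff hD UU h2 x r).2 h1

lemma tendsto_const_prod : Tendsto (fun ε : ℝ => (a0, ε)) (𝓝[>] (0 : ℝ)) (𝓝 a0 ×ˢ 𝓝[>] (0 : ℝ)) :=
  Tendsto.prodMk tendsto_const_nhds tendsto_id

lemma mem_OMs_of_joint (hD : ‖fderiv ℝ Ht a0‖ ≤ 1 / 4) (hJ : Joint UU Ht a0) {x : E m k} {R : ℝ}
    (hR : 0 < R) (h : ∃ᶠ q in 𝓝 a0 ×ˢ 𝓝[>] (0 : ℝ), Far UU Ht q.1 q.2 x R) :
    x ∈ OMs (Amap Ht a0 '' UU) := by
  obtain ⟨r, hr, h2⟩ := hJ x R hR h
  exact mem_OMs_of_far hD hr (tendsto_const_prod.eventually h2)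

/-- the converse kernel property. -/
theorem kernel (hD : ‖fderiv ℝ Ht a0‖ ≤ 1 / 4) (hJ : Joint UU Ht a0) {x : E m k} {r : ℝ}
    (hr : 0 < r)
    (h : ∃ᶠ ε in 𝓝[>] (0 : ℝ), ball x r ⊆ {y | dil ε y ∈ Amap Ht a0 '' UU}) :
    x ∈ OMs (Amap Ht a0 '' UU) := by
  refine mem_OMs_of_joint hD hJ hr ?_
  have h1 : ∃ᶠ ε in 𝓝[>] (0 : ℝ), Far UU Ht a0 ε x r := by
    refine (h.and_eventually self_mem_nhdsWithin).mono ?_
    intro ε hε
    exact (far_iff hD UU hε.2 x r).2 hε.1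
  exact tendsto_const_prod.frequently h1

lemma continuous_Aff (θ : Th m k) : Continuous (Aff θ) := by
  unfold Aff
  fun_prop

/-- INVARIANCE (one inclusion). -/
theorem Lmap_mem (hC : ContDiffAt ℝ 2 Ht a0) (hsm : ∀ᶠ a in 𝓝 a0, ‖fderiv ℝ Ht a‖ ≤ 1 / 4)
    (hJ : Joint UU Ht a0) (b : Fin m → ℂ) (t : Fin k → ℝ) {x : E m k}
    (hx : x ∈ OMs (Amap Ht a0 '' UU)) :
    Lmap (DDD (fderiv ℝ Ht a0) (fderiv ℝ (fderiv ℝ Ht) a0)) b t x ∈ OMs (Amap Ht a0 '' UU) := by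
  have hD : ‖fderiv ℝ Ht a0‖ ≤ 1 / 4 := hsm.self_of_nhds
  obtain ⟨r, hr, hfar⟩ := far_of_mem_OMs hD hx
  obtain ⟨v, hv⟩ := trans_tendsto hC hD b t
  set D0 := fderiv ℝ Ht a0 with hD0
  set D2 := fderiv ℝ (fderiv ℝ Ht) a0 with hD2
  set γ := gam a0 (dl D0 b) v with hγ
  set θ0 : Th m k := (b, 1, (2 * I) • DDD D0 D2 b, ofR t + I • ofR (reV (DDD D0 D2 b b))) with hθ0
  set y0 := Lmap (DDD D0 D2) b t x with hy0
  have hθy : Aff θ0 y0 = x := by
    refine Prod.ext ?_ ?_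
    · simp [Aff, hθ0, hy0, Lmap]
    · simp only [Aff, hθ0, hy0, Lmap, ContinuousLinearMap.smul_apply,
        ContinuousLinearMap.one_apply]
      abel
  -- a small ball around `y0`
  have hr3 : 0 < r / 3 := by positivity
  have hcont : ContinuousAt (Aff θ0) y0 := (continuous_Aff θ0).continuousAt
  obtain ⟨r1, hr1, hball⟩ := Metric.continuousAt_iff.1 hcont (r / 3) hr3
  set r' := min r1 1 with hr'
  have hr'0 : 0 < r' := lt_min hr1 one_pos
  have hunif := Aff_tendsto hv (‖y0‖ + 1) hr3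
  have hγt : Tendsto γ (𝓝[>] 0) (𝓝 a0) := tendsto_gam _ _ _
  have hmain : ∀ᶠ ε in 𝓝[>] (0 : ℝ), Far UU Ht (γ ε) ε y0 r' := by
    filter_upwards [hfar, hunif, hγt.eventually hsm] with ε h1 h2 h3 p hp
    by_contra hcon
    push Not at hcon
    have h4 : ‖Tmap Ht (γ ε) ε p‖ ≤ ‖y0‖ + 1 := by
      calc ‖Tmap Ht (γ ε) ε p‖ = ‖(Tmap Ht (γ ε) ε p - y0) + y0‖ := by rw [sub_add_cancel]
        _ ≤ ‖Tmap Ht (γ ε) ε p - y0‖ + ‖y0‖ := norm_add_le _ _
        _ ≤ ‖y0‖ + 1 := by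
          rw [← dist_eq_norm]
          have := min_le_right r1 1
          linarith
    have h5 := h2 _ h4
    rw [← Tmap_trans h3] at h5
    have h6 : dist (Aff θ0 (Tmap Ht (γ ε) ε p)) (Aff θ0 y0) < r / 3 :=
      hball (lt_of_lt_of_le hcon (min_le_left _ _))
    rw [hθy] at h6
    have h7 := h1 p hp
    have h8 := dist_triangle (Tmap Ht a0 ε p) (Aff θ0 (Tmap Ht (γ ε) ε p)) x
    linarith
  refine mem_OMs_of_joint hD hJ hr'0 ?_
  have htend : Tendsto (fun ε : ℝ => (γ ε, ε)) (𝓝[>] (0 : ℝ)) (𝓝 a0 ×ˢ 𝓝[>] (0 : ℝ)) :=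
    Tendsto.prodMk hγt tendsto_id
  exact htend.frequently hmain.frequently

end

lemma ofR_re_im (w : Fin k → ℂ) : ofR (reV w) + I • ofR (imV w) = w := by
  funext i
  simp only [Pi.add_apply, Pi.smul_apply, ofR_apply, reV_apply, imV_apply, smul_eq_mul]
  rw [mul_comm]
  exact Complex.re_add_im (w i)

/-- `L_{b,t} ∘ L_{-b,t'} = id`. -/
lemma Lmap_Lmap (DD : (Fin m → ℂ) →L[ℝ] ((Fin m → ℂ) →L[ℂ] (Fin k → ℂ)))
    (b : Fin m → ℂ) (t : Fin k → ℝ) (p : E m k) :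
    Lmap DD b t (Lmap DD (-b) (-t - (2 : ℝ) • imV (DD b b)) p) = p := by
  refine Prod.ext ?_ ?_
  · simp [Lmap]
  · have h := ofR_re_im (DD b b)
    set q := reV (DD b b) with hq
    set s := imV (DD b b) with hs
    have h1 : (DD (-b)) (-b) = DD b b := by simp
    simp only [Lmap, h1]
    rw [← hq]
    have h2 : DD (-b) (p.1 - -b) = - DD b p.1 - DD b b := by
      rw [map_neg]
      simp only [ContinuousLinearMap.neg_apply, sub_neg_eq_add, map_add]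
      abel
    rw [h2, ← h]
    simp only [map_sub, map_neg, map_smul, sub_neg_eq_add, add_sub_cancel_right]
    have hII : ∀ w : Fin k → ℂ, (2 * I) • I • w = -((2 : ℂ) • w) := fun w => by
      rw [smul_smul, mul_assoc, Complex.I_mul_I, mul_neg_one, neg_smul]
    have h2r : (2 : ℝ) • ofR s = (2 : ℂ) • ofR s := by
      funext i; simp
    simp only [smul_sub, smul_add, smul_neg, hII, h2r]
    module

theorem image_Lmap {DD : (Fin m → ℂ) →L[ℝ] ((Fin m → ℂ) →L[ℂ] (Fin k → ℂ))} {S : Set (E m k)}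
    (h : ∀ b t x, x ∈ S → Lmap DD b t x ∈ S) (b : Fin m → ℂ) (t : Fin k → ℝ) :
    Lmap DD b t '' S = S := by
  apply Subset.antisymm
  · rintro _ ⟨x, hx, rfl⟩
    exact h b t x hx
  · intro y hy
    exact ⟨_, h _ _ _ hy, Lmap_Lmap DD b t y⟩

/-- A6 + A7, for every `a0` in a residual set. -/
theorem main_residual {Ht : P m k → (Fin k → ℝ)} {O : Set (P m k)} {UU : Set (E m k)}
    (hO : IsOpen O) (hC : ContDiffOn ℝ 2 Ht O) (hsm : ∀ a ∈ O, ‖fderiv ℝ Ht a‖ ≤ 1 / 4)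
    (hSA : ∀ a ∈ O, ∀ (x : E m k) (r : ℝ), 0 < r →
      (∀ᶠ ε in 𝓝[>] (0 : ℝ), Far UU Ht a ε x r) ∨
      (∀ᶠ ε in 𝓝[>] (0 : ℝ), ¬ Far UU Ht a ε x r)) :
    ∃ R : Set (P m k), Dense R ∧ IsGδ R ∧ ∀ a0 ∈ R, a0 ∈ O →
      (∀ b t, Lmap (DDD (fderiv ℝ Ht a0) (fderiv ℝ (fderiv ℝ Ht) a0)) b t ''
        OMs (Amap Ht a0 '' UU) = OMs (Amap Ht a0 '' UU)) ∧
      (∀ (x : E m k) (r : ℝ), 0 < r →
        (∃ᶠ ε in 𝓝[>] (0 : ℝ), ball x r ⊆ {y | dil ε y ∈ Amap Ht a0 '' UU}) →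
        x ∈ OMs (Amap Ht a0 '' UU)) := by
  obtain ⟨R, hR1, hR2, hR3⟩ := joint_residual hO hC hsm hSA
  refine ⟨R, hR1, hR2, fun a0 ha0 haO => ?_⟩
  have hJ := hR3 a0 ha0 haO
  have hCa : ContDiffAt ℝ 2 Ht a0 := (hC a0 haO).contDiffAt (hO.mem_nhds haO)
  have hsm' : ∀ᶠ a in 𝓝 a0, ‖fderiv ℝ Ht a‖ ≤ 1 / 4 := by
    filter_upwards [hO.mem_nhds haO] with a ha
    exact hsm a ha
  refine ⟨image_Lmap fun b t x hx => Lmap_mem hCa hsm' hJ b t hx, fun x r hr h => ?_⟩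
  exact kernel (hsm a0 haO) hJ hr h

/-- THEOREM A6 + A7. -/
theorem main : Main := by
  intro m k Ht O UU hO hne hC hsm _ hSA
  obtain ⟨R, hR1, _, hR3⟩ := main_residual hO hC hsm hSA
  obtain ⟨a0, haO, haR⟩ := hR1.inter_open_nonempty O hO hne
  exact ⟨a0, haO, _, hR3 a0 haR haO⟩


end Crest.Agent.R264.JL
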