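import Mathlib
import Crest.Agent.R266.Osgood

-- ▼ part R264/KPiola
section

/-! Row 264, part D, node D6 (Lemma K): Piola identity for cofactors of a complex Hessian, in the
algebraic form (commuting derivations of a commutative algebra). -/

set_option autoImplicit false

open Finset Matrix

namespace Crest.Agent.R264.K

section

variable {k S : Type*} [CommRing k] [CommRing S] [Algebra k S]

theorem der_prod {ι : Type*} [DecidableEq ι] (d : Derivation k S S) (s : Finset ι) (f : ι → S) :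
    d (∏ i ∈ s, f i) = ∑ j ∈ s, (∏ i ∈ s.erase j, f i) * d (f j) := by
  induction s using Finset.induction_on with
  | empty => simp
  | insert a s ha ih =>
    rw [prod_insert ha, d.leibniz, ih, sum_insert ha, erase_insert ha, smul_eq_mul, smul_eq_mul,
      mul_sum, add_comm]
    congr 1
    refine sum_congr rfl fun j hj => ?_
    have hne : a ≠ j := fun h => ha (h ▸ hj)
    rw [erase_insert_of_ne hne, prod_insert (by simp [ha]), mul_assoc]

theorem der_det {n : Type*} [Fintype n] [DecidableEq n] (d : Derivation k S S)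
    (M : Matrix n n S) :
    d M.det = ∑ r, (M.updateRow r (fun c => d (M r c))).det := by
  have key : ∀ N : Matrix n n S, N.det = ∑ σ : Equiv.Perm n, Equiv.Perm.sign σ • ∏ i, N i (σ i) := by
    intro N
    rw [← det_transpose, det_apply]
    rfl
  rw [key, map_sum]
  simp_rw [key]
  rw [sum_comm]
  refine sum_congr rfl fun σ _ => ?_
  rw [Units.smul_def, zsmul_eq_mul, ← smul_sum, Units.smul_def, zsmul_eq_mul, d.leibniz]
  have h0 : d ((Equiv.Perm.sign σ : ℤ) : S) = 0 := by
    simp
  rw [h0, smul_zero, add_zero, smul_eq_mul, der_prod]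
  congr 1
  refine sum_congr rfl fun j _ => ?_
  rw [← mul_prod_erase univ _ (mem_univ j), updateRow_self, mul_comm]
  congr 1
  refine prod_congr rfl fun i hi => ?_
  rw [updateRow_ne (ne_of_mem_erase hi)]

/-- the cofactor with position `(i,j)` -/
def cof {n : Type*} [Fintype n] [DecidableEq n] (M : Matrix n n S) (i j : n) : S :=
  (M.updateRow i (Pi.single j 1)).det

theorem cof_eq {n : Type*} [Fintype n] [DecidableEq n] (M : Matrix n n S) (i j : n) :
    cof M i j = M.adjugate j i := by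
  rw [cof, adjugate_apply]

theorem cof_transpose {n : Type*} [Fintype n] [DecidableEq n] (M : Matrix n n S) (i j : n) :
    cof Mᵀ i j = cof M j i := by
  rw [cof_eq, cof_eq, ← adjugate_transpose]
  rfl

theorem piola {n : Type*} [Fintype n] [DecidableEq n] (dd : n → Derivation k S S)
    (M : Matrix n n S) (hM : ∀ i r c, dd i (M r c) = dd r (M i c)) (j : n)
    (h2 : ∀ s : S, s + s = 0 → s = 0) :
    ∑ i, dd i (cof M i j) = 0 := by
  set T : n → n → S := fun i r => if i = r then 0 else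
    ((M.updateRow i (Pi.single j 1)).updateRow r (fun c => dd i (M r c))).det with hT
  have h1 : ∀ i, dd i (cof M i j) = ∑ r, T i r := by
    intro i
    rw [cof, der_det]
    refine sum_congr rfl fun r _ => ?_
    simp only [hT]
    split_ifs with h
    · subst h
      rw [updateRow_self]
      apply det_eq_zero_of_row_eq_zero i
      intro c
      rw [updateRow_self]
      by_cases hc : c = j
      · subst hc; simp
      · simp [Pi.single_eq_of_ne hc]
    · rw [updateRow_ne (Ne.symm h)]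
  have hanti : ∀ i r, T i r = - T r i := by
    intro i r
    by_cases h : i = r
    · subst h; simp [hT]
    have h' : r ≠ i := Ne.symm h
    simp only [hT, if_neg h, if_neg h']
    have e1 : ((M.updateRow i (Pi.single j 1)).updateRow r (fun c => dd i (M r c)))
        = ((M.updateRow r (Pi.single j 1)).updateRow i (fun c => dd r (M i c))).submatrix
          (Equiv.swap i r) id := by
      ext a c
      rw [submatrix_apply, id]
      by_cases ha : a = r
      · subst ha
        rw [updateRow_self, Equiv.swap_apply_right, updateRow_self, hM]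
      · rw [updateRow_ne ha]
        by_cases hb : a = i
        · subst hb
          rw [updateRow_self, Equiv.swap_apply_left, updateRow_ne h', updateRow_self]
        · rw [updateRow_ne hb, Equiv.swap_apply_of_ne_of_ne hb ha, updateRow_ne hb,
            updateRow_ne ha]
    rw [e1, det_permute, Equiv.Perm.sign_swap h]
    simp
  simp_rw [h1]
  apply h2
  conv_lhs => rw [add_comm]
  nth_rewrite 2 [sum_comm]
  rw [← sum_add_distrib]
  refine sum_eq_zero fun i _ => ?_
  rw [← sum_add_distrib]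
  refine sum_eq_zero fun r _ => ?_
  rw [hanti i r]
  ring

end

end Crest.Agent.R264.K
end

-- ▼ part R264/KWirt
section

/-! Row 264, node D6: Wirtinger calculus on `Fin n → ℂ`. -/

set_option autoImplicit false

open Finset Matrix Complex Filter Topology MeasureTheory
open scoped ContDiff ComplexConjugate

namespace Crest.Agent.R264.K

noncomputable section

variable {n : ℕ}

/-- Wirtinger operator: `s = -I` gives `∂_i`, `s = I` gives `∂bar_i`. -/
def P (s : ℂ) (i : Fin n) (f : (Fin n → ℂ) → ℂ) (x : Fin n → ℂ) : ℂ :=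
  (1 / 2) * (fderiv ℝ f x (Pi.single i 1) + s * fderiv ℝ f x (Pi.single i I))

theorem P_congr {s : ℂ} {i : Fin n} {f g : (Fin n → ℂ) → ℂ} {x : Fin n → ℂ}
    (h : f =ᶠ[𝓝 x] g) : P s i f x = P s i g x := by
  unfold P
  rw [h.fderiv_eq]

theorem P_congr' {s : ℂ} {i : Fin n} {f g : (Fin n → ℂ) → ℂ} {x : Fin n → ℂ}
    (h : f =ᶠ[𝓝 x] g) : P s i f =ᶠ[𝓝 x] P s i g := by
  filter_upwards [h.eventuallyEq_nhds] with y hy using P_congr hy

theorem P_add {s : ℂ} {i : Fin n} {f g : (Fin n → ℂ) → ℂ} {x : Fin n → ℂ}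
    (hf : DifferentiableAt ℝ f x) (hg : DifferentiableAt ℝ g x) :
    P s i (fun y => f y + g y) x = P s i f x + P s i g x := by
  unfold P
  rw [fderiv_fun_add hf hg]
  simp only [_root_.add_apply]
  ring

theorem P_const_mul {s : ℂ} {i : Fin n} {f : (Fin n → ℂ) → ℂ} {x : Fin n → ℂ} (c : ℂ)
    (hf : DifferentiableAt ℝ f x) :
    P s i (fun y => c * f y) x = c * P s i f x := by
  unfold P
  rw [fderiv_const_mul hf c]
  simp only [_root_.smul_apply, smul_eq_mul]
  ring

theorem P_mul {s : ℂ} {i : Fin n} {f g : (Fin n → ℂ) → ℂ} {x : Fin n → ℂ}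
    (hf : DifferentiableAt ℝ f x) (hg : DifferentiableAt ℝ g x) :
    P s i (fun y => f y * g y) x = f x * P s i g x + g x * P s i f x := by
  unfold P
  rw [fderiv_fun_mul hf hg]
  simp only [_root_.add_apply, _root_.smul_apply, smul_eq_mul]
  ring

theorem P_const {s : ℂ} {i : Fin n} {x : Fin n → ℂ} (c : ℂ) :
    P s i (fun _ : Fin n → ℂ => c) x = 0 := by
  unfold P
  simp

theorem P_sum {ι : Type*} {s : ℂ} {i : Fin n} {t : Finset ι} {f : ι → (Fin n → ℂ) → ℂ}
    {x : Fin n → ℂ} (hf : ∀ a ∈ t, DifferentiableAt ℝ (f a) x) :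
    P s i (fun y => ∑ a ∈ t, f a y) x = ∑ a ∈ t, P s i (f a) x := by
  unfold P
  rw [fderiv_fun_sum hf]
  simp only [_root_.sum_apply, mul_sum, sum_add_distrib, mul_add]

theorem contDiffAt_P {s : ℂ} {i : Fin n} {f : (Fin n → ℂ) → ℂ} {x : Fin n → ℂ} {m k : WithTop ℕ∞}
    (hf : ContDiffAt ℝ k f x) (hmk : m + 1 ≤ k) : ContDiffAt ℝ m (P s i f) x := by
  have h := hf.fderiv_right hmk
  unfold P
  exact contDiffAt_const.mul ((h.clm_apply contDiffAt_const).add
    (contDiffAt_const.mul (h.clm_apply contDiffAt_const)))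

theorem contDiff_P {s : ℂ} {i : Fin n} {f : (Fin n → ℂ) → ℂ}
    (hf : ContDiff ℝ ∞ f) : ContDiff ℝ ∞ (P s i f) :=
  contDiff_iff_contDiffAt.2 fun x => contDiffAt_P (hf.contDiffAt) (by simp)

theorem fderiv_dir {f : (Fin n → ℂ) → ℂ} {x : Fin n → ℂ} (hf : ContDiffAt ℝ 2 f x)
    (v w : Fin n → ℂ) :
    fderiv ℝ (fun y => fderiv ℝ f y v) x w = fderiv ℝ (fderiv ℝ f) x w v := by
  have h : DifferentiableAt ℝ (fderiv ℝ f) x :=
    (hf.fderiv_right (m := 1) (by norm_num)).differentiableAt (by norm_num)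
  rw [fderiv_clm_apply h (differentiableAt_const v)]
  simp

theorem fderiv_P {s : ℂ} {i : Fin n} {f : (Fin n → ℂ) → ℂ} {x : Fin n → ℂ}
    (hf : ContDiffAt ℝ 2 f x) (w : Fin n → ℂ) :
    fderiv ℝ (P s i f) x w = (1 / 2) * (fderiv ℝ (fderiv ℝ f) x w (Pi.single i 1)
      + s * fderiv ℝ (fderiv ℝ f) x w (Pi.single i I)) := by
  have h : DifferentiableAt ℝ (fderiv ℝ f) x :=
    (hf.fderiv_right (m := 1) (by norm_num)).differentiableAt (by norm_num)
  have hd : ∀ v, DifferentiableAt ℝ (fun y => fderiv ℝ f y v) x := fun v =>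
    h.clm_apply (differentiableAt_const v)
  have h1 : HasFDerivAt (fun y => (1 / 2 : ℂ) * (fderiv ℝ f y (Pi.single i 1)
      + s * fderiv ℝ f y (Pi.single i I))) _ x :=
    ((hd (Pi.single i 1)).hasFDerivAt.fun_add
      ((hd (Pi.single i I)).hasFDerivAt.const_mul s)).const_mul (1 / 2 : ℂ)
  have h2 : fderiv ℝ (P s i f) x = _ := h1.fderiv
  rw [h2]
  simp only [_root_.smul_apply, _root_.add_apply, smul_eq_mul]
  rw [fderiv_dir hf, fderiv_dir hf]

theorem P_comm {s t : ℂ} {i j : Fin n} {f : (Fin n → ℂ) → ℂ} {x : Fin n → ℂ}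
    (hf : ContDiffAt ℝ 2 f x) :
    P s i (P t j f) x = P t j (P s i f) x := by
  have hs : ∀ v w, fderiv ℝ (fderiv ℝ f) x v w = fderiv ℝ (fderiv ℝ f) x w v := fun v w =>
    (hf.isSymmSndFDerivAt (by simp)) v w
  rw [P, P, fderiv_P hf, fderiv_P hf, fderiv_P hf, fderiv_P hf]
  rw [hs (Pi.single i 1) (Pi.single j 1), hs (Pi.single i 1) (Pi.single j I),
    hs (Pi.single i I) (Pi.single j 1), hs (Pi.single i I) (Pi.single j I)]
  ring

theorem tsupport_P {s : ℂ} {i : Fin n} {f : (Fin n → ℂ) → ℂ} :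
    tsupport (P s i f) ⊆ tsupport f := by
  apply closure_minimal _ (isClosed_tsupport f)
  intro x hx
  by_contra h
  apply hx
  have h0 : f =ᶠ[𝓝 x] fun _ => (0 : ℂ) := notMem_tsupport_iff_eventuallyEq.1 h
  show P s i f x = 0
  rw [P_congr h0, P_const]

theorem P_eq_zero {s : ℂ} {i : Fin n} {f : (Fin n → ℂ) → ℂ} {x : Fin n → ℂ}
    (hx : x ∉ tsupport f) : P s i f x = 0 := by
  have h0 : f =ᶠ[𝓝 x] fun _ => (0 : ℂ) := notMem_tsupport_iff_eventuallyEq.1 hx
  rw [P_congr h0, P_const]

theorem integral_fderiv_dir {f : (Fin n → ℂ) → ℂ} (hf : ContDiff ℝ 1 f)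
    (hc : HasCompactSupport f) (v : Fin n → ℂ) : ∫ x, fderiv ℝ f x v = 0 := by
  have h1 : Integrable (fun x => fderiv ℝ f x v) := by
    apply Continuous.integrable_of_hasCompactSupport
    · exact (hf.continuous_fderiv (by norm_num)).clm_apply continuous_const
    · exact hc.fderiv_apply ℝ v
  have h := integral_smul_fderiv_eq_neg_fderiv_smul_of_integrable (𝕜 := ℝ) (μ := volume)
    (f := fun _ : Fin n → ℂ => (1 : ℝ)) (g := f) (v := v)
    (by simp) (by simpa using h1) (by simpa using hf.continuous.integrable_of_hasCompactSupport hc)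
    (fun x _ => differentiableAt_const _) (fun x _ => hf.differentiable (by norm_num) x)
  simpa using h

theorem integral_P {s : ℂ} {i : Fin n} {f : (Fin n → ℂ) → ℂ} (hf : ContDiff ℝ 1 f)
    (hc : HasCompactSupport f) : ∫ x, P s i f x = 0 := by
  have h1 : ∀ v, Integrable (fun x => fderiv ℝ f x v) := by
    intro v
    apply Continuous.integrable_of_hasCompactSupport
    · exact (hf.continuous_fderiv (by norm_num)).clm_apply continuous_const
    · exact hc.fderiv_apply ℝ v
  unfold P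
  rw [integral_const_mul, integral_add (h1 _) ((h1 _).const_mul s), integral_const_mul,
    integral_fderiv_dir hf hc, integral_fderiv_dir hf hc]
  simp

end

end Crest.Agent.R264.K
end

-- ▼ part R264/KLop
section

/-! Row 264, node D6: the operator `L_w f = tr (adj(∂∂bar w) ∂∂bar f)` and its self-adjointness. -/

set_option autoImplicit false

open Finset Matrix Complex Filter Topology MeasureTheory
open scoped ContDiff ComplexConjugate

namespace Crest.Agent.R264.K

noncomputable section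

variable {n : ℕ}

theorem contDiff_of_tsupp {F : Type*} [NormedAddCommGroup F] [NormedSpace ℝ F]
    {f : (Fin n → ℂ) → F} {m : WithTop ℕ∞} (hf : ∀ x ∈ tsupport f, ContDiffAt ℝ m f x) :
    ContDiff ℝ m f := by
  rw [contDiff_iff_contDiffAt]
  intro x
  by_cases hx : x ∈ tsupport f
  · exact hf x hx
  · exact (contDiffAt_const (c := (0 : F))).congr_of_eventuallyEq
      (notMem_tsupport_iff_eventuallyEq.1 hx)

theorem exists_cutoffK {D K : Set (Fin n → ℂ)} (hD : IsOpen D) (hK : IsCompact K) (hKD : K ⊆ D) :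
    ∃ θ : (Fin n → ℂ) → ℝ, ContDiff ℝ ∞ θ ∧ HasCompactSupport θ ∧ tsupport θ ⊆ D ∧
      (∀ x, 0 ≤ θ x ∧ θ x ≤ 1) ∧ ∀ᶠ x in 𝓝ˢ K, θ x = 1 := by
  obtain ⟨L, hL, hKL, hLD⟩ := exists_compact_between hK hD hKD
  obtain ⟨f, h1, h2, h3⟩ := exists_contMDiffMap_one_nhds_of_subset_interior
    (n := ⊤) (modelWithCornersSelf ℝ (Fin n → ℂ)) hK.isClosed hKL
  have hsupp : tsupport (f : (Fin n → ℂ) → ℝ) ⊆ L := by
    apply closure_minimal _ hL.isClosed
    intro x hx
    by_contra h
    exact hx (h2 x h)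
  refine ⟨f, ?_, hL.of_isClosed_subset (isClosed_tsupport _) hsupp, hsupp.trans hLD,
    fun x => ⟨(h3 x).1, (h3 x).2⟩, h1⟩
  have := f.contMDiff
  exact this.contDiff

/-! ### the algebra of smooth functions -/

/-- smooth complex functions on `ℂ^n` -/
def Sm (n : ℕ) : Subalgebra ℂ ((Fin n → ℂ) → ℂ) where
  carrier := {f | ContDiff ℝ ∞ f}
  mul_mem' {f g} hf hg := by
    rw [Set.mem_ofPred_eq] at *
    exact hf.mul hg
  add_mem' {f g} hf hg := by
    rw [Set.mem_ofPred_eq] at *
    exact hf.add hg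
  algebraMap_mem' c := by
    rw [Set.mem_ofPred_eq]
    exact contDiff_const

theorem smS (f : Sm n) : ContDiff ℝ ∞ f.1 := by
  have h : f.1 ∈ {f : (Fin n → ℂ) → ℂ | ContDiff ℝ ∞ f} := f.2
  rwa [Set.mem_ofPred_eq] at h

theorem smD (f : Sm n) (x : Fin n → ℂ) : DifferentiableAt ℝ f.1 x :=
  (smS f).differentiable (by simp) x

theorem smC (f : Sm n) (m : WithTop ℕ∞) (hm : m ≤ ∞) (x : Fin n → ℂ) : ContDiffAt ℝ m f.1 x :=
  ((smS f).of_le hm).contDiffAt

/-- Wirtinger derivations of `Sm n` -/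
def DD (s : ℂ) (i : Fin n) : Derivation ℂ (Sm n) (Sm n) :=
  Derivation.mk' { toFun := fun f => ⟨P s i f.1, by
                    rw [← SetLike.mem_coe]; exact contDiff_P (smS f)⟩
                   map_add' := fun f g => Subtype.ext (funext fun x => by
                    show P s i (fun y => f.1 y + g.1 y) x = P s i f.1 x + P s i g.1 x
                    exact P_add (smD f x) (smD g x))
                   map_smul' := fun c f => Subtype.ext (funext fun x => by
                    show P s i (fun y => c * f.1 y) x = c * P s i f.1 x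
                    exact P_const_mul c (smD f x)) }
    (fun f g => Subtype.ext (funext fun x => by
      show P s i (fun y => f.1 y * g.1 y) x = f.1 x * P s i g.1 x + g.1 x * P s i f.1 x
      exact P_mul (smD f x) (smD g x)))


theorem DD_val (s : ℂ) (i : Fin n) (f : Sm n) : (DD s i f).1 = P s i f.1 := rfl

theorem DD_comm (s t : ℂ) (i j : Fin n) (f : Sm n) :
    DD s i (DD t j f) = DD t j (DD s i f) :=
  Subtype.ext (funext fun x => by
    rw [DD_val, DD_val, DD_val, DD_val]
    exact P_comm (smC f 2 (by norm_cast) x))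

/-- complex Hessian over `Sm n` -/
def hs (w : Sm n) : Matrix (Fin n) (Fin n) (Sm n) := Matrix.of fun i j => DD (-I) i (DD I j w)

/-- `L_w f` over `Sm n` -/
def LL (w f : Sm n) : Sm n := ∑ i, ∑ j, cof (hs w) i j * DD (-I) i (DD I j f)

theorem two_inj (s : Sm n) (h : s + s = 0) : s = 0 := by
  have h2 : (2 : ℂ) • s = 0 := by rw [two_smul, h]
  have h3 : ((1 / 2 : ℂ)) • ((2 : ℂ) • s) = 0 := by rw [h2, smul_zero]
  rwa [smul_smul, show (1 / 2 : ℂ) * 2 = 1 by norm_num, one_smul] at h3

theorem piola_row (w : Sm n) (j : Fin n) : ∑ i, DD (-I) i (cof (hs w) i j) = 0 := by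
  apply piola (DD (-I)) (hs w) _ j two_inj
  intro i r c
  show DD (-I) i (DD (-I) r (DD I c w)) = DD (-I) r (DD (-I) i (DD I c w))
  rw [DD_comm]

theorem piola_col (w : Sm n) (i : Fin n) : ∑ j, DD I j (cof (hs w) i j) = 0 := by
  have h := piola (DD I) (hs w)ᵀ (n := Fin n) (by
    intro a r c
    show DD I a (DD (-I) c (DD I r w)) = DD I r (DD (-I) c (DD I a w))
    rw [DD_comm I (-I) a c, DD_comm I I a r, DD_comm I (-I) r c]) i two_inj
  simpa [cof_transpose] using h

/-- Green's formula, divergence form. -/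
theorem green (w η f : Sm n) :
    η * LL w f - f * LL w η = ∑ i, DD (-I) i (∑ j, η * cof (hs w) i j * DD I j f)
      - ∑ j, DD I j (∑ i, f * cof (hs w) i j * DD (-I) i η) := by
  have h1 : ∑ i, DD (-I) i (∑ j, η * cof (hs w) i j * DD I j f)
      = η * LL w f + ∑ i, ∑ j, cof (hs w) i j * DD (-I) i η * DD I j f := by
    have e : ∀ i, DD (-I) i (∑ j, η * cof (hs w) i j * DD I j f)
        = ∑ j, (η * (cof (hs w) i j * DD (-I) i (DD I j f))
          + cof (hs w) i j * DD (-I) i η * DD I j f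
          + η * (DD (-I) i (cof (hs w) i j) * DD I j f)) := by
      intro i
      rw [map_sum]
      refine sum_congr rfl fun j _ => ?_
      rw [Derivation.leibniz, Derivation.leibniz]
      simp only [smul_eq_mul]
      ring
    simp_rw [e, sum_add_distrib]
    have e2 : ∑ i, ∑ j, η * (DD (-I) i (cof (hs w) i j) * DD I j f) = 0 := by
      rw [sum_comm]
      refine sum_eq_zero fun j _ => ?_
      rw [← mul_sum, ← sum_mul, piola_row, zero_mul, mul_zero]
    rw [e2, add_zero]
    congr 1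
    rw [LL, mul_sum]
    refine sum_congr rfl fun i _ => ?_
    rw [mul_sum]
  have h2 : ∑ j, DD I j (∑ i, f * cof (hs w) i j * DD (-I) i η)
      = f * LL w η + ∑ i, ∑ j, cof (hs w) i j * DD (-I) i η * DD I j f := by
    have e : ∀ j, DD I j (∑ i, f * cof (hs w) i j * DD (-I) i η)
        = ∑ i, (f * (cof (hs w) i j * DD (-I) i (DD I j η))
          + cof (hs w) i j * DD (-I) i η * DD I j f
          + f * (DD I j (cof (hs w) i j) * DD (-I) i η)) := by
      intro j
      rw [map_sum]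
      refine sum_congr rfl fun i _ => ?_
      rw [Derivation.leibniz, Derivation.leibniz, DD_comm (-I) I i j]
      simp only [smul_eq_mul]
      ring
    simp_rw [e, sum_add_distrib]
    have e2 : ∑ j, ∑ i, f * (DD I j (cof (hs w) i j) * DD (-I) i η) = 0 := by
      rw [sum_comm]
      refine sum_eq_zero fun i _ => ?_
      rw [← mul_sum, ← sum_mul, piola_col, zero_mul, mul_zero]
    rw [e2, add_zero]
    congr 1
    · rw [LL, mul_sum, sum_comm]
      refine sum_congr rfl fun i _ => ?_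
      rw [mul_sum]
    · rw [sum_comm]
  rw [h1, h2]
  ring

/-! ### pointwise form -/

/-- complex Hessian -/
def Hm (f : (Fin n → ℂ) → ℂ) (x : Fin n → ℂ) : Matrix (Fin n) (Fin n) ℂ :=
  Matrix.of fun i j => P (-I) i (P I j f) x

/-- the operator `L_w f` -/
def Lop (w f : (Fin n → ℂ) → ℂ) (x : Fin n → ℂ) : ℂ :=
  ∑ i, ∑ j, cof (Hm w x) i j * Hm f x i j

theorem Lop_eq_trace (w f : (Fin n → ℂ) → ℂ) (x : Fin n → ℂ) :
    Lop w f x = ((Hm w x).adjugate * Hm f x).trace := by
  rw [Matrix.trace_mul_comm, Lop, Matrix.trace]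
  refine sum_congr rfl fun i _ => ?_
  rw [Matrix.diag_apply, Matrix.mul_apply]
  refine sum_congr rfl fun j _ => ?_
  rw [cof_eq, mul_comm]

/-- evaluation at a point -/
def ev (x : Fin n → ℂ) : Sm n →+* ℂ :=
  (Pi.evalRingHom (fun _ : Fin n → ℂ => ℂ) x).comp (Sm n).val.toRingHom

theorem ev_apply (x : Fin n → ℂ) (f : Sm n) : ev x f = f.1 x := rfl

theorem LL_val (w f : Sm n) (x : Fin n → ℂ) : (LL w f).1 x = Lop w.1 f.1 x := by
  rw [← ev_apply, LL, map_sum, Lop]
  refine sum_congr rfl fun i _ => ?_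
  rw [map_sum]
  refine sum_congr rfl fun j _ => ?_
  rw [map_mul]
  congr 1
  rw [cof_eq, cof_eq]
  have h := RingHom.map_adjugate (ev x) (hs w)
  have h2 : (ev x).mapMatrix (hs w) = Hm w.1 x := by
    ext a b
    rfl
  rw [h2] at h
  rw [← h]
  rfl

theorem Hm_congr {f g : (Fin n → ℂ) → ℂ} {x : Fin n → ℂ} (h : f =ᶠ[𝓝 x] g) : Hm f x = Hm g x := by
  ext i j
  exact P_congr (P_congr' h)

theorem Hm_eq_zero {f : (Fin n → ℂ) → ℂ} {x : Fin n → ℂ} (h : x ∉ tsupport f) : Hm f x = 0 := by
  ext i j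
  exact P_eq_zero (fun h1 => h (tsupport_P h1))

theorem Lop_eq_zero {w f : (Fin n → ℂ) → ℂ} {x : Fin n → ℂ} (h : x ∉ tsupport f) :
    Lop w f x = 0 := by
  rw [Lop, Hm_eq_zero h]
  simp

theorem hcs_mul_left {f g : (Fin n → ℂ) → ℂ} (h : HasCompactSupport f) :
    HasCompactSupport (fun x => f x * g x) := HasCompactSupport.mul_right h

theorem int_symm_aux (w η f : Sm n) (hc : HasCompactSupport η.1) :
    ∫ x, η.1 x * Lop w.1 f.1 x = ∫ x, f.1 x * Lop w.1 η.1 x := by
  have hcη : ∀ s i, HasCompactSupport (P s i η.1) := fun s i =>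
    hc.of_isClosed_subset (isClosed_tsupport _) tsupport_P
  have g := green w η f
  have hL : HasCompactSupport (LL w η).1 := by
    refine HasCompactSupport.intro hc ?_
    intro x hx
    rw [LL_val, Lop_eq_zero hx]
  have i1 : Integrable (fun x => η.1 x * Lop w.1 f.1 x) := by
    have : Integrable (fun x => (η * LL w f).1 x) := by
      apply Continuous.integrable_of_hasCompactSupport
      · exact (smS (η * LL w f)).continuous
      · exact HasCompactSupport.mul_right hc
    refine this.congr (Eventually.of_forall fun x => ?_)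
    show η.1 x * (LL w f).1 x = _
    rw [LL_val]
  have i2 : Integrable (fun x => f.1 x * Lop w.1 η.1 x) := by
    have : Integrable (fun x => (f * LL w η).1 x) := by
      apply Continuous.integrable_of_hasCompactSupport
      · exact (smS (f * LL w η)).continuous
      · exact HasCompactSupport.mul_left hL
    refine this.congr (Eventually.of_forall fun x => ?_)
    show f.1 x * (LL w η).1 x = _
    rw [LL_val]
  rw [← sub_eq_zero, ← integral_sub i1 i2]
  have key : ∀ x, η.1 x * Lop w.1 f.1 x - f.1 x * Lop w.1 η.1 x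
      = ∑ i, P (-I) i (∑ j, η * cof (hs w) i j * DD I j f : Sm n).1 x
        - ∑ j, P I j (∑ i, f * cof (hs w) i j * DD (-I) i η : Sm n).1 x := by
    intro x
    have h := congrArg (ev x) g
    rw [map_sub, map_sub, map_mul, map_mul, map_sum, map_sum] at h
    simp only [ev_apply, LL_val] at h
    exact h
  simp_rw [key]
  have hA : ∀ i, HasCompactSupport (∑ j, η * cof (hs w) i j * DD I j f : Sm n).1 := by
    intro i
    refine HasCompactSupport.intro hc ?_
    intro x hx
    rw [← ev_apply, map_sum]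
    refine sum_eq_zero fun j _ => ?_
    rw [map_mul, map_mul, ev_apply, image_eq_zero_of_notMem_tsupport hx]
    simp
  have hB : ∀ j, HasCompactSupport (∑ i, f * cof (hs w) i j * DD (-I) i η : Sm n).1 := by
    intro j
    refine HasCompactSupport.intro hc ?_
    intro x hx
    rw [← ev_apply, map_sum]
    refine sum_eq_zero fun i _ => ?_
    rw [map_mul, ev_apply x (DD (-I) i η), DD_val, P_eq_zero hx]
    simp
  have iA : ∀ s i (h : Sm n), HasCompactSupport h.1 → Integrable (fun x => P s i h.1 x) := by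
    intro s i h hh
    apply Continuous.integrable_of_hasCompactSupport
    · exact (contDiff_P (smS h)).continuous
    · exact hh.of_isClosed_subset (isClosed_tsupport _) tsupport_P
  rw [integral_sub, integral_finsetSum, integral_finsetSum]
  · rw [sum_eq_zero, sum_eq_zero, sub_zero]
    · intro j _
      exact integral_P ((smS _).of_le (by norm_cast)) (hB j)
    · intro i _
      exact integral_P ((smS _).of_le (by norm_cast)) (hA i)
  · exact fun j _ => iA _ _ _ (hB j)
  · exact fun i _ => iA _ _ _ (hA i)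
  · exact integrable_finsetSum _ fun i _ => iA _ _ _ (hA i)
  · exact integrable_finsetSum _ fun j _ => iA _ _ _ (hB j)

end

end Crest.Agent.R264.K
end

-- ▼ part R264/KChain

/-! Row 264, node D6: chain rules for the complex Hessian under holomorphic maps; locality;
self-adjointness on `D`. -/

set_option autoImplicit false

open Finset Matrix Complex Filter Topology MeasureTheory
open scoped ContDiff ComplexConjugate

namespace Crest.Agent.R264.K

noncomputable section

variable {n : ℕ}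

theorem vec_decomp (ξ : Fin n → ℂ) :
    ξ = ∑ k, ((ξ k).re • (Pi.single k 1 : Fin n → ℂ) + (ξ k).im • (Pi.single k I : Fin n → ℂ)) := by
  ext j
  rw [Finset.sum_apply, Finset.sum_eq_single j]
  · simp
  · intro b _ hb
    simp [Pi.single_eq_of_ne (Ne.symm hb)]
  · simp

/-- decomposition of a real-linear map into `(1,0)` and `(0,1)` parts -/
theorem lin_decomp (T : (Fin n → ℂ) →L[ℝ] ℂ) (ξ : Fin n → ℂ) :
    T ξ = ∑ k, (ξ k * ((1 / 2) * (T (Pi.single k 1) + -I * T (Pi.single k I)))
      + conj (ξ k) * ((1 / 2) * (T (Pi.single k 1) + I * T (Pi.single k I)))) := by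
  conv_lhs => rw [vec_decomp ξ, map_sum]
  refine sum_congr rfl fun k _ => ?_
  rw [map_add, map_smul, map_smul, real_smul, real_smul]
  have h1 : (ξ k) = ((ξ k).re : ℂ) + ((ξ k).im : ℂ) * I := (re_add_im _).symm
  have h2 : conj (ξ k) = ((ξ k).re : ℂ) - ((ξ k).im : ℂ) * I := by
    apply Complex.ext <;> simp
  rw [h2]
  conv_rhs => rw [h1]
  simp only [add_re, ofReal_re, mul_re, I_re, mul_zero, ofReal_im, I_im, zero_mul, add_im, mul_im,
    mul_one, sub_self, add_zero, zero_add]
  ring_nf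
  rw [I_sq]
  ring

theorem fderiv_decomp (f : (Fin n → ℂ) → ℂ) (x ξ : Fin n → ℂ) :
    fderiv ℝ f x ξ = ∑ k, (ξ k * P (-I) k f x + conj (ξ k) * P I k f x) :=
  lin_decomp (fderiv ℝ f x) ξ

theorem single_I (k : Fin n) : (Pi.single k I : Fin n → ℂ) = I • (Pi.single k 1 : Fin n → ℂ) := by
  ext j
  by_cases h : j = k
  · subst h; simp
  · simp [Pi.single_eq_of_ne h]

/-- Jacobian matrix -/
def Jm (γ : (Fin n → ℂ) → (Fin n → ℂ)) (x : Fin n → ℂ) : Matrix (Fin n) (Fin n) ℂ :=
  Matrix.of fun k i => fderiv ℂ γ x (Pi.single i 1) k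

theorem Jm_det (γ : (Fin n → ℂ) → (Fin n → ℂ)) (x : Fin n → ℂ) :
    (Jm γ x).det = (fderiv ℂ γ x).det := by
  have h : Jm γ x = LinearMap.toMatrix' (fderiv ℂ γ x : (Fin n → ℂ) →ₗ[ℂ] (Fin n → ℂ)) := by
    ext k i
    rw [LinearMap.toMatrix'_apply]
    rfl
  rw [h, LinearMap.det_toMatrix']

theorem fderiv_real_of_complex {γ : (Fin n → ℂ) → (Fin n → ℂ)} {x : Fin n → ℂ}
    (hγ : DifferentiableAt ℂ γ x) : fderiv ℝ γ x = (fderiv ℂ γ x).restrictScalars ℝ :=
  (hγ.hasFDerivAt.restrictScalars ℝ).fderiv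

theorem P_comp_neg {f : (Fin n → ℂ) → ℂ} {γ : (Fin n → ℂ) → (Fin n → ℂ)} {x : Fin n → ℂ}
    (hγ : DifferentiableAt ℂ γ x) (hf : DifferentiableAt ℝ f (γ x)) (i : Fin n) :
    P (-I) i (fun y => f (γ y)) x = ∑ k, P (-I) k f (γ x) * Jm γ x k i := by
  have hc : fderiv ℝ (fun y => f (γ y)) x = (fderiv ℝ f (γ x)).comp (fderiv ℝ γ x) :=
    fderiv_comp x hf (hγ.restrictScalars ℝ)
  rw [P, hc, fderiv_real_of_complex hγ]
  simp only [ContinuousLinearMap.comp_apply, ContinuousLinearMap.coe_restrictScalars']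
  rw [single_I, map_smul, fderiv_decomp, fderiv_decomp, mul_sum, ← sum_add_distrib, mul_sum]
  refine sum_congr rfl fun k _ => ?_
  have e : Jm γ x k i = fderiv ℂ γ x (Pi.single i 1) k := rfl
  rw [e]
  simp only [Pi.smul_apply, smul_eq_mul, map_mul, conj_I]
  ring_nf
  rw [I_sq]
  ring

theorem P_comp_pos {f : (Fin n → ℂ) → ℂ} {γ : (Fin n → ℂ) → (Fin n → ℂ)} {x : Fin n → ℂ}
    (hγ : DifferentiableAt ℂ γ x) (hf : DifferentiableAt ℝ f (γ x)) (i : Fin n) :
    P I i (fun y => f (γ y)) x = ∑ k, P I k f (γ x) * conj (Jm γ x k i) := by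
  have hc : fderiv ℝ (fun y => f (γ y)) x = (fderiv ℝ f (γ x)).comp (fderiv ℝ γ x) :=
    fderiv_comp x hf (hγ.restrictScalars ℝ)
  rw [P, hc, fderiv_real_of_complex hγ]
  simp only [ContinuousLinearMap.comp_apply, ContinuousLinearMap.coe_restrictScalars']
  rw [single_I, map_smul, fderiv_decomp, fderiv_decomp, mul_sum, ← sum_add_distrib, mul_sum]
  refine sum_congr rfl fun k _ => ?_
  have e : Jm γ x k i = fderiv ℂ γ x (Pi.single i 1) k := rfl
  rw [e]
  simp only [Pi.smul_apply, smul_eq_mul, map_mul, conj_I]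
  ring_nf
  rw [I_sq]
  ring

/-- the Jacobian entries are holomorphic -/
theorem Jm_diff {D : Set (Fin n → ℂ)} (hD : IsOpen D) {γ : (Fin n → ℂ) → (Fin n → ℂ)}
    (hγ : DifferentiableOn ℂ γ D) {x : Fin n → ℂ} (hx : x ∈ D) (k i : Fin n) :
    DifferentiableAt ℂ (fun y => Jm γ y k i) x := by
  have h1 : AnalyticOnNhd ℂ γ D := R266.SCV.analyticOnNhd_of_differentiableOn hD hγ
  have h2 : DifferentiableAt ℂ (fderiv ℂ γ) x := (h1.fderiv x hx).differentiableAt
  have h3 : DifferentiableAt ℂ (fun y => fderiv ℂ γ y (Pi.single i 1)) x :=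
    h2.clm_apply (differentiableAt_const _)
  exact (differentiableAt_pi.1 h3) k

theorem P_conj_hol {h : (Fin n → ℂ) → ℂ} {x : Fin n → ℂ} (hh : DifferentiableAt ℂ h x)
    (i : Fin n) : P (-I) i (fun y => conj (h y)) x = 0 := by
  have h1 : HasFDerivAt (fun y => conj (h y))
      ((conjCLE : ℂ →L[ℝ] ℂ).comp ((fderiv ℂ h x).restrictScalars ℝ)) x :=
    (conjCLE : ℂ →L[ℝ] ℂ).hasFDerivAt.comp x (hh.hasFDerivAt.restrictScalars ℝ)
  rw [P, h1.fderiv, single_I]
  simp only [ContinuousLinearMap.comp_apply, ContinuousLinearMap.coe_restrictScalars', map_smul,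
    smul_eq_mul]
  simp only [ContinuousLinearEquiv.coe_coe, conjCLE_apply, map_mul, conj_I]
  ring_nf
  rw [I_sq]
  ring

theorem diffAt_conj_Jm {D : Set (Fin n → ℂ)} (hD : IsOpen D) {γ : (Fin n → ℂ) → (Fin n → ℂ)}
    (hγ : DifferentiableOn ℂ γ D) {x : Fin n → ℂ} (hx : x ∈ D) (k i : Fin n) :
    DifferentiableAt ℝ (fun y => conj (Jm γ y k i)) x :=
  (conjCLE : ℂ →L[ℝ] ℂ).differentiableAt.comp x ((Jm_diff hD hγ hx k i).restrictScalars ℝ)

theorem Hm_comp {D : Set (Fin n → ℂ)} (hD : IsOpen D) {γ : (Fin n → ℂ) → (Fin n → ℂ)}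
    (hγ : DifferentiableOn ℂ γ D) {x : Fin n → ℂ} (hx : x ∈ D) {f : (Fin n → ℂ) → ℂ}
    (hf : ContDiffAt ℝ 2 f (γ x)) :
    Hm (fun y => f (γ y)) x = (Jm γ x)ᵀ * Hm f (γ x) * (Jm γ x).map conj := by
  have hγx : ∀ y ∈ D, DifferentiableAt ℂ γ y := fun y hy => hγ.differentiableAt (hD.mem_nhds hy)
  have hcont : ContinuousAt γ x := (hγx x hx).continuousAt
  have hev : ∀ᶠ y in 𝓝 x, y ∈ D ∧ DifferentiableAt ℝ f (γ y) := by
    have h0 : ∀ᶠ y in 𝓝 x, y ∈ D := hD.mem_nhds hx
    refine h0.and ?_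
    have := hf.eventually (by norm_cast)
    exact (hcont.eventually this).mono fun y hy => hy.differentiableAt (by norm_num)
  ext i j
  have h1 : P I j (fun y => f (γ y)) =ᶠ[𝓝 x]
      fun y => ∑ l, P I l f (γ y) * conj (Jm γ y l j) := by
    filter_upwards [hev] with y hy using P_comp_pos (hγx y hy.1) hy.2 j
  have hdl : ∀ l, DifferentiableAt ℝ (fun y => P I l f (γ y)) x := by
    intro l
    have h2 : DifferentiableAt ℝ (P I l f) (γ x) :=
      (contDiffAt_P (m := 1) hf (by norm_num)).differentiableAt (by norm_num)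
    exact h2.comp x ((hγx x hx).restrictScalars ℝ)
  have h3 : Hm (fun y => f (γ y)) x i j
      = ∑ l, ∑ k, Hm f (γ x) k l * Jm γ x k i * conj (Jm γ x l j) := by
    show P (-I) i (P I j (fun y => f (γ y))) x = _
    rw [P_congr h1, P_sum (fun l _ => (hdl l).fun_mul (diffAt_conj_Jm hD hγ hx l j))]
    refine sum_congr rfl fun l _ => ?_
    rw [P_mul (hdl l) (diffAt_conj_Jm hD hγ hx l j), P_conj_hol (Jm_diff hD hγ hx l j),
      mul_zero, zero_add]
    have h4 : P (-I) i (fun y => P I l f (γ y)) x = ∑ k, P (-I) k (P I l f) (γ x) * Jm γ x k i :=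
      P_comp_neg (hγx x hx)
        ((contDiffAt_P (m := 1) hf (by norm_num)).differentiableAt (by norm_num)) i
    rw [h4, mul_sum]
    refine sum_congr rfl fun k _ => ?_
    show _ = P (-I) k (P I l f) (γ x) * Jm γ x k i * conj (Jm γ x l j)
    ring
  rw [h3, Matrix.mul_apply]
  refine sum_congr rfl fun l _ => ?_
  rw [Matrix.mul_apply, Matrix.map_apply, sum_mul]
  refine sum_congr rfl fun k _ => ?_
  rw [Matrix.transpose_apply]
  ring

/-- invariance of `L` -/
theorem Lop_comp {D : Set (Fin n → ℂ)} (hD : IsOpen D) {γ : (Fin n → ℂ) → (Fin n → ℂ)}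
    (hγ : DifferentiableOn ℂ γ D) {x : Fin n → ℂ} (hx : x ∈ D) {u f : (Fin n → ℂ) → ℂ}
    (hf : ContDiffAt ℝ 2 f (γ x))
    (hu : Hm u x = (Jm γ x)ᵀ * Hm u (γ x) * (Jm γ x).map conj) :
    Lop u (fun y => f (γ y)) x = ((‖(fderiv ℂ γ x).det‖ ^ 2 : ℝ) : ℂ) * Lop u f (γ x) := by
  rw [Lop_eq_trace, Lop_eq_trace, Hm_comp hD hγ hx hf, hu]
  set J := Jm γ x with hJ
  set K := J.map conj with hK
  set G := Hm u (γ x)
  set F := Hm f (γ x)
  have hdetK : K.det = conj J.det := by
    rw [hK]
    exact (RingHom.map_det (starRingEnd ℂ) J).symm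
  have h1 : (Jᵀ * G * K).adjugate = K.adjugate * (G.adjugate * Jᵀ.adjugate) := by
    rw [adjugate_mul_distrib, adjugate_mul_distrib]
  have h2 : K.adjugate * (G.adjugate * Jᵀ.adjugate) * (Jᵀ * F * K)
      = J.det • (K.adjugate * (G.adjugate * F * K)) := by
    have e : Jᵀ.adjugate * Jᵀ = J.det • (1 : Matrix (Fin n) (Fin n) ℂ) := by
      rw [adjugate_mul, det_transpose]
    calc K.adjugate * (G.adjugate * Jᵀ.adjugate) * (Jᵀ * F * K)
        = K.adjugate * (G.adjugate * (Jᵀ.adjugate * Jᵀ) * F * K) := by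
          simp only [Matrix.mul_assoc]
      _ = J.det • (K.adjugate * (G.adjugate * F * K)) := by
          rw [e]
          simp only [Matrix.mul_smul, Matrix.smul_mul, Matrix.mul_one]
  rw [h1, h2, trace_smul, trace_mul_comm, Matrix.mul_assoc, mul_adjugate, Matrix.mul_smul,
    Matrix.mul_one, trace_smul, smul_eq_mul, smul_eq_mul, hdetK, ← mul_assoc, mul_conj, Jm_det]
  congr 1
  rw [normSq_eq_norm_sq]

theorem Lop_congr {w w' f f' : (Fin n → ℂ) → ℂ} {x : Fin n → ℂ} (h : w =ᶠ[𝓝 x] w')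
    (h' : f =ᶠ[𝓝 x] f') : Lop w f x = Lop w' f' x := by
  rw [Lop, Lop, Hm_congr h, Hm_congr h']

/-- self-adjointness of `L_u` on `D` -/
theorem int_symm {D : Set (Fin n → ℂ)} (hD : IsOpen D) {u : (Fin n → ℂ) → ℂ}
    (hu : ContDiffOn ℝ ∞ u D) {h f : (Fin n → ℂ) → ℂ} (hh : ContDiff ℝ ∞ h)
    (hc : HasCompactSupport h) (hs : tsupport h ⊆ D) (hf : ContDiff ℝ ∞ f) :
    ∫ x, h x * Lop u f x = ∫ x, f x * Lop u h x := by
  obtain ⟨θ, h1, h2, h3, h4, h5⟩ := exists_cutoffK hD hc hs
  have hw : ContDiff ℝ ∞ (fun x => (θ x : ℂ) * u x) := by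
    apply contDiff_of_tsupp
    intro x hx
    have hx' : x ∈ tsupport θ := by
      refine closure_mono ?_ hx
      intro y hy
      rw [Function.mem_support] at hy ⊢
      intro h0
      apply hy
      rw [h0]
      simp
    exact (ofRealCLM.contDiff.comp h1).contDiffAt.mul
      (hu.contDiffAt (hD.mem_nhds (h3 hx')))
  have hloc : ∀ x ∈ tsupport h, (fun x => (θ x : ℂ) * u x) =ᶠ[𝓝 x] u := by
    intro x hx
    have : ∀ᶠ y in 𝓝 x, θ y = 1 := h5.filter_mono (nhds_le_nhdsSet hx)
    filter_upwards [this] with y hy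
    rw [hy]
    simp
  have key := int_symm_aux ⟨fun x => (θ x : ℂ) * u x, by
      rw [← SetLike.mem_coe]; exact hw⟩ ⟨h, by rw [← SetLike.mem_coe]; exact hh⟩
      ⟨f, by rw [← SetLike.mem_coe]; exact hf⟩ hc
  have e1 : (fun x => h x * Lop u f x) = fun x => h x * Lop (fun x => (θ x : ℂ) * u x) f x := by
    ext x
    by_cases hx : x ∈ tsupport h
    · rw [Lop_congr (hloc x hx) (EventuallyEq.refl _ _)]
    · rw [image_eq_zero_of_notMem_tsupport hx, zero_mul, zero_mul]
  have e2 : (fun x => f x * Lop u h x) = fun x => f x * Lop (fun x => (θ x : ℂ) * u x) h x := by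
    ext x
    by_cases hx : x ∈ tsupport h
    · rw [Lop_congr (hloc x hx) (EventuallyEq.refl _ _)]
    · rw [Lop_eq_zero hx, Lop_eq_zero hx]
  rw [e1, e2]
  exact key

end

end Crest.Agent.R264.K
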