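import Crest.Agent.R264.GD3
import Crest.Agent.R264.DAFin_Mg
import Crest.Agent.R264.D8Fin
import Mathlib
import Crest.Agent.R264.KDefs
import Crest.Agent.R264.KChain
import Crest.Agent.R264.BergCov
import Crest.Agent.R266.Osgood

-- ▼ part R264/ThmDK
section

/-!
Row 264 (S0402), Part D: Theorem D from Lemma K (node D6) (helper744).
-/

set_option autoImplicit false

namespace Crest.Agent.R264

/-- **THEOREM D** from Lemma K. -/
theorem thmD_of_lemmaK (hK : ∀ n, K.LemmaK n) : ThmD :=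
  thmD_of' d3Stmt (AbI.d7_of Berg.berg hK) dAlg

end Crest.Agent.R264
end

-- ▼ part R264/KOp
section

/-! Row 264, node D6 (Lemma K): abstract operator interface (helper310).
`OpL D Γ L` : what is used of `L_u`; `VanStmt` = the `Γ`-part (U) (owner helper587). -/

set_option autoImplicit false

open Set Filter Topology MeasureTheory
open scoped ContDiff

namespace Crest.Agent.R264.K

noncomputable section

variable {n : ℕ}

/-- test functions of `D` -/
def Test (D : Set (Fin n → ℂ)) (h : (Fin n → ℂ) → ℝ) : Prop :=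
  ContDiff ℝ ∞ h ∧ HasCompactSupport h ∧ tsupport h ⊆ D

/-- A second order operator without zero order term, self-adjoint for Lebesgue measure and
equivariant under `Γ`. -/
structure OpL (D : Set (Fin n → ℂ)) (Γ : Set ((Fin n → ℂ) → (Fin n → ℂ)))
    (L : ((Fin n → ℂ) → ℝ) → (Fin n → ℂ) → ℝ) : Prop where
  congr : ∀ f g x, f =ᶠ[𝓝 x] g → L f x = L g x
  add : ∀ f g x, x ∈ D → ContDiffAt ℝ ∞ f x → ContDiffAt ℝ ∞ g x →
    L (fun y => f y + g y) x = L f x + L g x
  smul : ∀ (c : ℝ) f x, x ∈ D → ContDiffAt ℝ ∞ f x → L (fun y => c * f y) x = c * L f x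
  const : ∀ (c : ℝ) x, L (fun _ => c) x = 0
  cont : ∀ f, ContDiff ℝ ∞ f → ContinuousOn (L f) D
  symm : ∀ h f, Test D h → ContDiff ℝ ∞ f → ∫ x, h x * L f x = ∫ x, f x * L h x
  inv : ∀ γ ∈ Γ, ∀ f x, x ∈ D → ContDiffAt ℝ ∞ f (γ x) →
    L (fun y => f (γ y)) x = ‖(fderiv ℂ γ x).det‖ ^ 2 * L f (γ x)

/-- (U): the `Γ`-part. -/
def VanStmt (n : ℕ) : Prop :=
  ∀ (D : Set (Fin n → ℂ)) (Γ : Set ((Fin n → ℂ) → (Fin n → ℂ))), IsOpen D → D.Nonempty →
    Grp D Γ → ∀ L : ((Fin n → ℂ) → ℝ) → (Fin n → ℂ) → ℝ, OpL D Γ L →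
    ∀ φ : (Fin n → ℂ) → ℝ, ContinuousOn φ D →
      (∀ f ∈ Γ, ∃ c : ℝ, ∀ x ∈ D, φ (f x) = φ x + c) →
      (∀ h, Test D h → (∀ x, 0 ≤ h x) → 0 ≤ ∫ x, φ x * L h x) →
      ∀ h, Test D h → (∀ x, 0 ≤ h x) → ∫ x, φ x * L h x = 0

end

end Crest.Agent.R264.K
end

-- ▼ part R264/KLev
section

/-! Row 264, node D6: Levi form and complex Hessian; the real operator `Lr`. -/

set_option autoImplicit false

open Finset Matrix Complex Filter Topology MeasureTheory
open scoped ContDiff ComplexConjugate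

namespace Crest.Agent.R264.K

open Crest.Agent.R264.Berg (Lev)

noncomputable section

variable {n : ℕ}

theorem Q_expand {f : (Fin n → ℂ) → ℂ} {x : Fin n → ℂ} (hf : ContDiffAt ℝ 2 f x)
    (ξ : Fin n → ℂ) :
    fderiv ℝ (fderiv ℝ f) x ξ ξ = ∑ k, ∑ l, (ξ k * ξ l * P (-I) l (P (-I) k f) x
      + ξ k * conj (ξ l) * P I l (P (-I) k f) x
      + conj (ξ k) * ξ l * P (-I) l (P I k f) x
      + conj (ξ k) * conj (ξ l) * P I l (P I k f) x) := by
  have hd : ∀ s k, DifferentiableAt ℝ (P s k f) x := fun s k =>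
    (contDiffAt_P (m := 1) hf (by norm_num)).differentiableAt (by norm_num)
  have h1 : (fun y => fderiv ℝ f y ξ)
      = fun y => ∑ k, (ξ k * P (-I) k f y + conj (ξ k) * P I k f y) :=
    funext fun y => fderiv_decomp f y ξ
  rw [← fderiv_dir hf, h1, fderiv_fun_sum (fun k _ =>
    ((hd (-I) k).const_mul _).fun_add ((hd I k).const_mul _)), _root_.sum_apply]
  refine sum_congr rfl fun k _ => ?_
  rw [fderiv_fun_add ((hd (-I) k).const_mul _) ((hd I k).const_mul _), fderiv_const_mul (hd (-I) k),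
    fderiv_const_mul (hd I k)]
  simp only [_root_.add_apply, _root_.smul_apply, smul_eq_mul]
  rw [fderiv_decomp, fderiv_decomp, mul_sum, mul_sum, ← sum_add_distrib]
  refine sum_congr rfl fun l _ => ?_
  ring

theorem Q_lev {f : (Fin n → ℂ) → ℂ} {x : Fin n → ℂ} (hf : ContDiffAt ℝ 2 f x)
    (ξ : Fin n → ℂ) :
    fderiv ℝ (fderiv ℝ f) x ξ ξ + fderiv ℝ (fderiv ℝ f) x (I • ξ) (I • ξ)
      = 4 * ∑ i, ∑ j, Hm f x i j * ξ i * conj (ξ j) := by
  rw [Q_expand hf, Q_expand hf, ← sum_add_distrib]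
  simp_rw [← sum_add_distrib]
  have e1 : ∀ k l, (ξ k * ξ l * P (-I) l (P (-I) k f) x
      + ξ k * conj (ξ l) * P I l (P (-I) k f) x
      + conj (ξ k) * ξ l * P (-I) l (P I k f) x
      + conj (ξ k) * conj (ξ l) * P I l (P I k f) x)
      + ((I • ξ) k * (I • ξ) l * P (-I) l (P (-I) k f) x
      + (I • ξ) k * conj ((I • ξ) l) * P I l (P (-I) k f) x
      + conj ((I • ξ) k) * (I • ξ) l * P (-I) l (P I k f) x
      + conj ((I • ξ) k) * conj ((I • ξ) l) * P I l (P I k f) x)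
      = 2 * (Hm f x k l * ξ k * conj (ξ l)) + 2 * (Hm f x l k * ξ l * conj (ξ k)) := by
    intro k l
    have h1 : Hm f x k l = P I l (P (-I) k f) x := P_comm hf
    have h2 : Hm f x l k = P (-I) l (P I k f) x := rfl
    rw [h1, h2]
    simp only [Pi.smul_apply, smul_eq_mul, map_mul, conj_I]
    ring_nf
    rw [I_sq]
    ring
  simp_rw [e1, sum_add_distrib, ← mul_sum]
  rw [sum_comm (f := fun k l => Hm f x l k * ξ l * conj (ξ k))]
  ring

/-- complexification of a real function -/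
def cx (f : (Fin n → ℂ) → ℝ) : (Fin n → ℂ) → ℂ := fun y => (f y : ℂ)

theorem cx_contDiffAt {f : (Fin n → ℂ) → ℝ} {x : Fin n → ℂ} {m : WithTop ℕ∞}
    (hf : ContDiffAt ℝ m f x) : ContDiffAt ℝ m (cx f) x :=
  ofRealCLM.contDiff.contDiffAt.comp x hf

theorem fderiv_cx {f : (Fin n → ℂ) → ℝ} {x : Fin n → ℂ} (hf : DifferentiableAt ℝ f x)
    (v : Fin n → ℂ) : fderiv ℝ (cx f) x v = ((fderiv ℝ f x v : ℝ) : ℂ) := by
  have h : HasFDerivAt (cx f) (ofRealCLM.comp (fderiv ℝ f x)) x :=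
    ofRealCLM.hasFDerivAt.comp x hf.hasFDerivAt
  rw [h.fderiv]
  rfl

theorem fderiv2_cx {f : (Fin n → ℂ) → ℝ} {x : Fin n → ℂ} (hf : ContDiffAt ℝ 2 f x)
    (v w : Fin n → ℂ) :
    fderiv ℝ (fderiv ℝ (cx f)) x v w = ((fderiv ℝ (fderiv ℝ f) x v w : ℝ) : ℂ) := by
  rw [← fderiv_dir (cx_contDiffAt hf)]
  have h0 : ∀ᶠ y in 𝓝 x, DifferentiableAt ℝ f y :=
    (hf.eventually (by norm_cast)).mono fun y hy => hy.differentiableAt (by norm_num)
  have h1 : (fun y => fderiv ℝ (cx f) y w) =ᶠ[𝓝 x] fun y => ((fderiv ℝ f y w : ℝ) : ℂ) := by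
    filter_upwards [h0] with y hy using fderiv_cx hy w
  rw [h1.fderiv_eq]
  have h2 : DifferentiableAt ℝ (fderiv ℝ f) x :=
    (hf.fderiv_right (m := 1) (by norm_num)).differentiableAt (by norm_num)
  have h3 : HasFDerivAt (fun y => fderiv ℝ f y w) ((fderiv ℝ (fderiv ℝ f) x).flip w) x := by
    have := h2.hasFDerivAt.clm_apply (hasFDerivAt_const w x)
    refine this.congr_fderiv ?_
    ext v
    simp
  have h4 : HasFDerivAt (fun y => ((fderiv ℝ f y w : ℝ) : ℂ))
      (ofRealCLM.comp ((fderiv ℝ (fderiv ℝ f) x).flip w)) x :=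
    ofRealCLM.hasFDerivAt.comp x h3
  rw [h4.fderiv]
  rfl

theorem lev_eq {f : (Fin n → ℂ) → ℝ} {x : Fin n → ℂ} (hf : ContDiffAt ℝ 2 f x)
    (ξ : Fin n → ℂ) :
    ((Lev f x ξ : ℝ) : ℂ) = ∑ i, ∑ j, Hm (cx f) x i j * ξ i * conj (ξ j) := by
  have h := Q_lev (cx_contDiffAt hf) ξ
  rw [fderiv2_cx hf, fderiv2_cx hf] at h
  rw [Lev]
  push_cast
  rw [h]
  ring

theorem conj_P {f : (Fin n → ℂ) → ℂ} {x : Fin n → ℂ} (hf : DifferentiableAt ℝ f x) (s : ℂ)
    (i : Fin n) : conj (P s i f x) = P (conj s) i (fun y => conj (f y)) x := by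
  have h1 : HasFDerivAt (fun y => conj (f y)) ((conjCLE : ℂ →L[ℝ] ℂ).comp (fderiv ℝ f x)) x :=
    (conjCLE : ℂ →L[ℝ] ℂ).hasFDerivAt.comp x hf.hasFDerivAt
  rw [P, P, h1.fderiv, map_mul, map_add, map_mul]
  congr 1
  simp only [map_div₀, map_one, map_ofNat]

theorem Hm_herm {f : (Fin n → ℂ) → ℝ} {x : Fin n → ℂ} (hf : ContDiffAt ℝ 2 f x) :
    (Hm (cx f) x).IsHermitian := by
  ext i j
  rw [conjTranspose_apply]
  show conj (P (-I) j (P I i (cx f)) x) = P (-I) i (P I j (cx f)) x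
  have hc := cx_contDiffAt hf
  have hd : DifferentiableAt ℝ (P I i (cx f)) x :=
    (contDiffAt_P (m := 1) hc (by norm_num)).differentiableAt (by norm_num)
  rw [conj_P hd]
  have h0 : ∀ᶠ y in 𝓝 x, DifferentiableAt ℝ (cx f) y :=
    (hc.eventually (by norm_cast)).mono fun y hy => hy.differentiableAt (by norm_num)
  have h1 : (fun y => conj (P I i (cx f) y)) =ᶠ[𝓝 x] P (-I) i (cx f) := by
    filter_upwards [h0] with y hy
    rw [conj_P hy, conj_I]
    congr 1
    ext z
    simp [cx]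
  rw [P_congr h1, map_neg, conj_I, neg_neg]
  exact P_comm hc

theorem quad_eq (M : Matrix (Fin n) (Fin n) ℂ) (ξ : Fin n → ℂ) :
    ∑ i, ∑ j, M i j * ξ i * conj (ξ j) = ξ ⬝ᵥ (M *ᵥ star ξ) := by
  rw [dotProduct]
  refine sum_congr rfl fun i _ => ?_
  rw [mulVec, dotProduct, mul_sum]
  refine sum_congr rfl fun j _ => ?_
  rw [Pi.star_apply]
  show _ = ξ i * (M i j * conj (ξ j))
  ring

theorem fderiv_eq_mulVec (γ : (Fin n → ℂ) → (Fin n → ℂ)) (x ξ : Fin n → ℂ) :
    fderiv ℂ γ x ξ = Jm γ x *ᵥ ξ := by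
  have h : Jm γ x = LinearMap.toMatrix' (fderiv ℂ γ x : (Fin n → ℂ) →ₗ[ℂ] (Fin n → ℂ)) := by
    ext k i
    rw [LinearMap.toMatrix'_apply]
    rfl
  rw [h, LinearMap.toMatrix'_mulVec]
  rfl

/-- polarization -/
theorem mat_zero {M : Matrix (Fin n) (Fin n) ℂ}
    (h : ∀ ξ : Fin n → ℂ, ∑ i, ∑ j, M i j * ξ i * conj (ξ j) = 0) : M = 0 := by
  have h' : ∀ ξ : Fin n → ℂ, ξ ⬝ᵥ (M *ᵥ star ξ) = 0 := by
    intro ξ
    rw [← h ξ, quad_eq]
  have hB : ∀ a b : Fin n → ℂ, a ⬝ᵥ (M *ᵥ star b) + b ⬝ᵥ (M *ᵥ star a) = 0 := by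
    intro a b
    have h1 := h' (a + b)
    rw [star_add, mulVec_add, dotProduct_add, add_dotProduct, add_dotProduct, h' a, h' b] at h1
    rw [← h1]
    ring
  ext i j
  have h1 := hB (Pi.single i 1) (Pi.single j 1)
  have h2 := hB (Pi.single i 1) (I • Pi.single j 1)
  rw [star_smul, mulVec_smul, dotProduct_smul, smul_dotProduct] at h2
  have e : ∀ a b : Fin n, (Pi.single a 1 : Fin n → ℂ) ⬝ᵥ (M *ᵥ star (Pi.single b 1 : Fin n → ℂ))
      = M a b := by
    intro a b
    have : star (Pi.single b 1 : Fin n → ℂ) = Pi.single b 1 := by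
      ext k
      by_cases hk : k = b
      · subst hk; simp
      · simp [Pi.single_eq_of_ne hk]
    rw [this, single_dotProduct, one_mul, mulVec_single_one]
    rfl
  rw [e, e] at h1
  rw [e, e, smul_eq_mul, smul_eq_mul] at h2
  have h3 : star I = -I := conj_I
  rw [h3] at h2
  have h4 : M i j - M j i = 0 := by
    have : -I * (M i j - M j i) = 0 := by rw [← h2]; ring
    rcases mul_eq_zero.1 this with h5 | h5
    · simp at h5
    · exact h5
  rw [Matrix.zero_apply]
  have : 2 * M i j = 0 := by linear_combination h1 + h4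
  simpa using this

/-- from the invariance of the Levi form to the invariance of the complex Hessian -/
theorem Hm_inv {D : Set (Fin n → ℂ)} (hD : IsOpen D) {γ : (Fin n → ℂ) → (Fin n → ℂ)}
    {x : Fin n → ℂ} {u : (Fin n → ℂ) → ℝ}
    (hu : ContDiffOn ℝ ∞ u D) (hx : x ∈ D) (hγx : γ x ∈ D)
    (hinv : ∀ ξ, Lev u (γ x) (fderiv ℂ γ x ξ) = Lev u x ξ) :
    Hm (cx u) x = (Jm γ x)ᵀ * Hm (cx u) (γ x) * (Jm γ x).map conj := by
  have h2 : ∀ y ∈ D, ContDiffAt ℝ 2 u y := fun y hy =>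
    (hu.contDiffAt (hD.mem_nhds hy)).of_le (by norm_cast)
  rw [← sub_eq_zero]
  apply mat_zero
  intro ξ
  have h3 := lev_eq (h2 x hx) ξ
  have h4 := lev_eq (h2 _ hγx) (fderiv ℂ γ x ξ)
  rw [hinv ξ, h3, quad_eq, quad_eq, fderiv_eq_mulVec] at h4
  rw [quad_eq, sub_mulVec, dotProduct_sub, h4, sub_eq_zero, ← mulVec_mulVec, ← mulVec_mulVec,
    dotProduct_mulVec ξ (Jm γ x)ᵀ, vecMul_transpose]
  congr 2
  ext k
  rw [Pi.star_apply, mulVec, mulVec, dotProduct, dotProduct, star_sum]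
  refine sum_congr rfl fun i _ => ?_
  rw [star_mul', Pi.star_apply, map_apply]
  rfl

end

end Crest.Agent.R264.K
end

-- ▼ part R264/KMat
section

/-! Row 264, node D6: a matrix inequality. -/

set_option autoImplicit false

open Finset Matrix Complex
open scoped ComplexConjugate ComplexOrder

namespace Crest.Agent.R264.K

variable {n : ℕ}

open scoped MatrixOrder in
theorem psd_factor {M : Matrix (Fin n) (Fin n) ℂ} (h : M.PosSemidef) :
    ∃ B : Matrix (Fin n) (Fin n) ℂ, M = Bᴴ * B := by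
  obtain ⟨B, hB⟩ := CStarAlgebra.nonneg_iff_eq_star_mul_self.mp h.nonneg
  exact ⟨B, by rw [hB, star_eq_conjTranspose]⟩

theorem star_dot (w : Fin n → ℂ) : star w ⬝ᵥ w = ((∑ i, ‖w i‖ ^ 2 : ℝ) : ℂ) := by
  rw [dotProduct, ofReal_sum]
  refine sum_congr rfl fun i _ => ?_
  rw [Pi.star_apply]
  show conj (w i) * w i = _
  rw [conj_mul']
  norm_cast

theorem star_dot_gram (B : Matrix (Fin n) (Fin n) ℂ) (v : Fin n → ℂ) :
    star v ⬝ᵥ ((Bᴴ * B) *ᵥ v) = ((∑ i, ‖(B *ᵥ v) i‖ ^ 2 : ℝ) : ℂ) := by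
  rw [← mulVec_mulVec, dotProduct_mulVec, vecMul_conjTranspose, star_star, star_dot]

theorem trace_gram (W : Matrix (Fin n) (Fin n) ℂ) :
    (Wᴴ * W).trace = ((∑ i, ∑ j, ‖W j i‖ ^ 2 : ℝ) : ℂ) := by
  rw [trace, ofReal_sum]
  refine sum_congr rfl fun i _ => ?_
  rw [diag_apply, mul_apply, ofReal_sum]
  refine sum_congr rfl fun j _ => ?_
  rw [conjTranspose_apply]
  show conj (W j i) * W j i = _
  rw [conj_mul']
  norm_cast

theorem mulVec_sq_le (W : Matrix (Fin n) (Fin n) ℂ) (y : Fin n → ℂ) :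
    ∑ i, ‖(W *ᵥ y) i‖ ^ 2 ≤ (∑ i, ∑ j, ‖W j i‖ ^ 2) * ∑ j, ‖y j‖ ^ 2 := by
  rw [sum_comm, sum_mul]
  refine sum_le_sum fun i _ => ?_
  have h1 : ‖(W *ᵥ y) i‖ ≤ ∑ j, ‖W i j‖ * ‖y j‖ := by
    rw [mulVec, dotProduct]
    refine (norm_sum_le _ _).trans (sum_le_sum fun j _ => ?_)
    rw [norm_mul]
  calc ‖(W *ᵥ y) i‖ ^ 2 ≤ (∑ j, ‖W i j‖ * ‖y j‖) ^ 2 := by gcongr
    _ ≤ (∑ j, ‖W i j‖ ^ 2) * ∑ j, ‖y j‖ ^ 2 := sum_mul_sq_le_sq_mul_sq _ _ _

theorem adj_trace {G F : Matrix (Fin n) (Fin n) ℂ} (hG : G.PosDef) (hF : F.PosSemidef) :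
    0 < G.det.re ∧ 0 ≤ (G.adjugate * F).trace.re ∧
      ∀ v, G.det.re * (star v ⬝ᵥ (F *ᵥ v)).re
        ≤ (star v ⬝ᵥ (G *ᵥ v)).re * (G.adjugate * F).trace.re := by
  obtain ⟨C, hC⟩ := psd_factor hG.posSemidef
  obtain ⟨B, hB⟩ := psd_factor hF
  have hGdet : G.det ≠ 0 := by
    have := hG.isUnit
    rw [isUnit_iff_isUnit_det] at this
    exact this.ne_zero
  have hdG : G.det = ((‖C.det‖ ^ 2 : ℝ) : ℂ) := by
    rw [hC, det_mul, det_conjTranspose]
    show conj C.det * C.det = _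
    rw [conj_mul']
    norm_cast
  have hCdet : C.det ≠ 0 := by
    intro h
    rw [hdG, h] at hGdet
    simp at hGdet
  have hCu : IsUnit C.det := isUnit_iff_ne_zero.2 hCdet
  obtain ⟨W, hBW⟩ : ∃ W, B = W * C :=
    ⟨B * C⁻¹, by rw [Matrix.mul_assoc, nonsing_inv_mul C hCu, Matrix.mul_one]⟩
  have ht : (G.adjugate * F).trace = ((‖C.det‖ ^ 2 * ∑ i, ∑ j, ‖W j i‖ ^ 2 : ℝ) : ℂ) := by
    have e1 : G.adjugate * F = G.det • (C⁻¹ * (Wᴴ * W) * C) := by
      have e0 : G.adjugate = G.det • G⁻¹ := by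
        rw [Matrix.inv_def, Ring.inverse_eq_inv', smul_smul, mul_inv_cancel₀ hGdet, one_smul]
      have e2 : G⁻¹ = C⁻¹ * (Cᴴ)⁻¹ := by rw [hC, Matrix.mul_inv_rev]
      have e3 : (Cᴴ)⁻¹ * Cᴴ = 1 := by
        apply nonsing_inv_mul
        rw [det_conjTranspose]
        exact hCu.star
      rw [e0, smul_mul, e2, hB, hBW, conjTranspose_mul]
      congr 1
      calc C⁻¹ * Cᴴ⁻¹ * (Cᴴ * Wᴴ * (W * C)) = C⁻¹ * ((Cᴴ⁻¹ * Cᴴ) * (Wᴴ * W)) * C := by
            simp only [Matrix.mul_assoc]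
        _ = C⁻¹ * (Wᴴ * W) * C := by rw [e3, Matrix.one_mul]
    rw [e1, trace_smul, trace_mul_comm, ← Matrix.mul_assoc, mul_nonsing_inv C hCu, Matrix.one_mul,
      trace_gram, hdG, smul_eq_mul]
    push_cast
    ring
  have hd : 0 < G.det.re := by
    rw [hdG, ofReal_re]
    have : 0 < ‖C.det‖ := norm_pos_iff.2 hCdet
    positivity
  refine ⟨hd, ?_, ?_⟩
  · rw [ht, ofReal_re]
    positivity
  · intro v
    rw [ht, ofReal_re, hdG, ofReal_re, hB, star_dot_gram, ofReal_re, hC, star_dot_gram, ofReal_re]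
    have h1 : B *ᵥ v = W *ᵥ (C *ᵥ v) := by
      rw [hBW, mulVec_mulVec]
    rw [h1]
    have h2 := mulVec_sq_le W (C *ᵥ v)
    have h3 : 0 ≤ ‖C.det‖ ^ 2 := by positivity
    nlinarith [mul_le_mul_of_nonneg_left h2 h3]

end Crest.Agent.R264.K
end

-- ▼ part R264/KLr
section

/-! Row 264, node D6: the real operator `Lr u f = re L_u f`: it satisfies `OpL`, positivity. -/

set_option autoImplicit false

open Finset Matrix Complex Filter Topology MeasureTheory
open scoped ContDiff ComplexConjugate ComplexOrder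

namespace Crest.Agent.R264.K

open Crest.Agent.R264.Berg (Lev)

noncomputable section

variable {n : ℕ}

/-- the real operator -/
def Lr (u f : (Fin n → ℂ) → ℝ) (x : Fin n → ℂ) : ℝ := (Lop (cx u) (cx f) x).re

theorem Lr_congr {u f g : (Fin n → ℂ) → ℝ} {x : Fin n → ℂ} (h : f =ᶠ[𝓝 x] g) :
    Lr u f x = Lr u g x := by
  have h' : cx f =ᶠ[𝓝 x] cx g := by
    filter_upwards [h] with y hy
    simp [cx, hy]
  rw [Lr, Lr, Lop_congr (EventuallyEq.refl _ _) h']

theorem Hm_add {f g : (Fin n → ℂ) → ℂ} {x : Fin n → ℂ} (hf : ContDiffAt ℝ 2 f x)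
    (hg : ContDiffAt ℝ 2 g x) : Hm (fun y => f y + g y) x = Hm f x + Hm g x := by
  ext i j
  show P (-I) i (P I j (fun y => f y + g y)) x
    = P (-I) i (P I j f) x + P (-I) i (P I j g) x
  have h0 : ∀ᶠ y in 𝓝 x, DifferentiableAt ℝ f y ∧ DifferentiableAt ℝ g y :=
    ((hf.eventually (by norm_cast)).and (hg.eventually (by norm_cast))).mono fun y hy =>
      ⟨hy.1.differentiableAt (by norm_num), hy.2.differentiableAt (by norm_num)⟩
  have h1 : P I j (fun y => f y + g y) =ᶠ[𝓝 x] fun y => P I j f y + P I j g y := by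
    filter_upwards [h0] with y hy using P_add hy.1 hy.2
  rw [P_congr h1, P_add]
  · exact (contDiffAt_P (m := 1) hf (by norm_num)).differentiableAt (by norm_num)
  · exact (contDiffAt_P (m := 1) hg (by norm_num)).differentiableAt (by norm_num)

theorem Hm_smul {f : (Fin n → ℂ) → ℂ} {x : Fin n → ℂ} (c : ℂ) (hf : ContDiffAt ℝ 2 f x) :
    Hm (fun y => c * f y) x = c • Hm f x := by
  ext i j
  show P (-I) i (P I j (fun y => c * f y)) x = c * P (-I) i (P I j f) x
  have h0 : ∀ᶠ y in 𝓝 x, DifferentiableAt ℝ f y :=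
    (hf.eventually (by norm_cast)).mono fun y hy => hy.differentiableAt (by norm_num)
  have h1 : P I j (fun y => c * f y) =ᶠ[𝓝 x] fun y => c * P I j f y := by
    filter_upwards [h0] with y hy using P_const_mul c hy
  rw [P_congr h1, P_const_mul]
  exact (contDiffAt_P (m := 1) hf (by norm_num)).differentiableAt (by norm_num)

theorem Lop_add {w f g : (Fin n → ℂ) → ℂ} {x : Fin n → ℂ} (hf : ContDiffAt ℝ 2 f x)
    (hg : ContDiffAt ℝ 2 g x) : Lop w (fun y => f y + g y) x = Lop w f x + Lop w g x := by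
  rw [Lop, Hm_add hf hg]
  simp only [Matrix.add_apply, mul_add, sum_add_distrib]
  rfl

theorem Lop_smul {w f : (Fin n → ℂ) → ℂ} {x : Fin n → ℂ} (c : ℂ) (hf : ContDiffAt ℝ 2 f x) :
    Lop w (fun y => c * f y) x = c * Lop w f x := by
  rw [Lop, Hm_smul c hf, Lop, mul_sum]
  refine sum_congr rfl fun i _ => ?_
  rw [mul_sum]
  refine sum_congr rfl fun j _ => ?_
  rw [Matrix.smul_apply, smul_eq_mul]
  ring

theorem le2 {f : (Fin n → ℂ) → ℝ} {x : Fin n → ℂ} (hf : ContDiffAt ℝ ∞ f x) :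
    ContDiffAt ℝ 2 (cx f) x := (cx_contDiffAt hf).of_le (by norm_cast)

theorem cx_contDiff {f : (Fin n → ℂ) → ℝ} (hf : ContDiff ℝ ∞ f) : ContDiff ℝ ∞ (cx f) :=
  ofRealCLM.contDiff.comp hf

theorem cx_tsupport {f : (Fin n → ℂ) → ℝ} : tsupport (cx f) = tsupport f := by
  have : Function.support (cx f) = Function.support f := by
    ext y
    simp [cx]
  rw [tsupport, tsupport, this]

theorem cx_hcs {f : (Fin n → ℂ) → ℝ} (hf : HasCompactSupport f) : HasCompactSupport (cx f) := by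
  rw [HasCompactSupport, cx_tsupport]
  exact hf

/-- near a point of `D` the function `L_u f` is smooth -/
theorem Lop_smooth {D : Set (Fin n → ℂ)} (hD : IsOpen D) {u : (Fin n → ℂ) → ℂ}
    (hu : ContDiffOn ℝ ∞ u D) {f : (Fin n → ℂ) → ℂ} (hf : ContDiffOn ℝ ∞ f D)
    {x : Fin n → ℂ} (hx : x ∈ D) : ContDiffAt ℝ ∞ (Lop u f) x := by
  obtain ⟨θ, h1, h2, h3, h4, h5⟩ := exists_cutoffK hD (isCompact_singleton (x := x))
    (by simpa using hx)
  have hx1 : ∀ᶠ y in 𝓝 x, θ y = 1 := by simpa [nhdsSet_singleton] using h5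
  have hw : ∀ g : (Fin n → ℂ) → ℂ, ContDiffOn ℝ ∞ g D →
      ContDiff ℝ ∞ (fun x => (θ x : ℂ) * g x) := by
    intro g hg
    apply contDiff_of_tsupp
    intro y hy
    have hy' : y ∈ tsupport θ := by
      refine closure_mono ?_ hy
      intro z hz
      rw [Function.mem_support] at hz ⊢
      intro h0
      apply hz
      rw [h0]
      simp
    exact (ofRealCLM.contDiff.comp h1).contDiffAt.mul
      (hg.contDiffAt (hD.mem_nhds (h3 hy')))
  have hev : ∀ g : (Fin n → ℂ) → ℂ, (fun x => (θ x : ℂ) * g x) =ᶠ[𝓝 x] g := by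
    intro g
    filter_upwards [hx1] with y hy
    rw [hy]
    simp
  have key := smS (LL ⟨fun x => (θ x : ℂ) * u x, by rw [← SetLike.mem_coe]; exact hw u hu⟩
    ⟨fun x => (θ x : ℂ) * f x, by rw [← SetLike.mem_coe]; exact hw f hf⟩)
  refine key.contDiffAt.congr_of_eventuallyEq ?_
  filter_upwards [(hev u).eventuallyEq_nhds, (hev f).eventuallyEq_nhds] with y hy1 hy2
  rw [LL_val]
  exact Lop_congr hy1.symm hy2.symm

theorem Lr_cont {D : Set (Fin n → ℂ)} (hD : IsOpen D) {u : (Fin n → ℂ) → ℝ}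
    (hu : ContDiffOn ℝ ∞ u D) {f : (Fin n → ℂ) → ℝ} (hf : ContDiffOn ℝ ∞ f D) :
    ContinuousOn (Lr u f) D := by
  intro x hx
  have h1 : ContinuousAt (Lop (cx u) (cx f)) x :=
    (Lop_smooth hD (ofRealCLM.contDiff.comp_contDiffOn hu)
      (ofRealCLM.contDiff.comp_contDiffOn hf) hx).continuousAt
  exact (continuous_re.continuousAt.comp h1).continuousWithinAt

theorem Lop_cont_at {D : Set (Fin n → ℂ)} (hD : IsOpen D) {u : (Fin n → ℂ) → ℝ}
    (hu : ContDiffOn ℝ ∞ u D) {f : (Fin n → ℂ) → ℝ} (hf : ContDiffOn ℝ ∞ f D)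
    {x : Fin n → ℂ} (hx : x ∈ D) : ContinuousAt (Lop (cx u) (cx f)) x :=
  (Lop_smooth hD (ofRealCLM.contDiff.comp_contDiffOn hu)
      (ofRealCLM.contDiff.comp_contDiffOn hf) hx).continuousAt

theorem Lr_symm {D : Set (Fin n → ℂ)} (hD : IsOpen D) {u : (Fin n → ℂ) → ℝ}
    (hu : ContDiffOn ℝ ∞ u D) {h f : (Fin n → ℂ) → ℝ} (hh : Test D h) (hf : ContDiff ℝ ∞ f) :
    ∫ x, h x * Lr u f x = ∫ x, f x * Lr u h x := by
  obtain ⟨h1, h2, h3⟩ := hh
  have hcu : ContDiffOn ℝ ∞ (cx u) D := ofRealCLM.contDiff.comp_contDiffOn hu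
  have key := int_symm hD hcu (cx_contDiff h1) (cx_hcs h2) (by rw [cx_tsupport]; exact h3)
    (cx_contDiff hf)
  have c1 : Continuous (fun x => cx h x * Lop (cx u) (cx f) x) := by
    rw [continuous_iff_continuousAt]
    intro x
    by_cases hx : x ∈ tsupport h
    · exact (cx_contDiff h1).continuous.continuousAt.mul
        (Lop_cont_at hD hu hf.contDiffOn (h3 hx))
    · refine (continuousAt_const (y := (0 : ℂ))).congr ?_
      filter_upwards [notMem_tsupport_iff_eventuallyEq.1 hx] with y hy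
      rw [cx, hy]
      simp
  have c2 : Continuous (fun x => cx f x * Lop (cx u) (cx h) x) := by
    rw [continuous_iff_continuousAt]
    intro x
    by_cases hx : x ∈ tsupport h
    · exact (cx_contDiff hf).continuous.continuousAt.mul
        (Lop_cont_at hD hu h1.contDiffOn (h3 hx))
    · refine (continuousAt_const (y := (0 : ℂ))).congr ?_
      have : ∀ᶠ y in 𝓝 x, y ∉ tsupport h := (isClosed_tsupport h).isOpen_compl.mem_nhds hx
      filter_upwards [this] with y hy
      rw [Lop_eq_zero (by rw [cx_tsupport]; exact hy), mul_zero]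
  have i1 : Integrable (fun x => cx h x * Lop (cx u) (cx f) x) :=
    c1.integrable_of_hasCompactSupport (hcs_mul_left (cx_hcs h2))
  have i2 : Integrable (fun x => cx f x * Lop (cx u) (cx h) x) := by
    refine c2.integrable_of_hasCompactSupport (HasCompactSupport.intro h2 ?_)
    intro x hx
    rw [Lop_eq_zero (by rw [cx_tsupport]; exact hx), mul_zero]
  have e1 : ∀ x, h x * Lr u f x = (cx h x * Lop (cx u) (cx f) x).re := fun x => by
    rw [cx, re_ofReal_mul]; rfl
  have e2 : ∀ x, f x * Lr u h x = (cx f x * Lop (cx u) (cx h) x).re := fun x => by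
    rw [cx, re_ofReal_mul]; rfl
  simp_rw [e1, e2]
  have r1 := integral_re (𝕜 := ℂ) i1
  have r2 := integral_re (𝕜 := ℂ) i2
  simp only [RCLike.re_eq_complex_re] at r1 r2
  rw [r1, r2, key]

theorem opL {D : Set (Fin n → ℂ)} {Γ : Set ((Fin n → ℂ) → (Fin n → ℂ))} (hD : IsOpen D)
    (hΓ : Grp D Γ) {u : (Fin n → ℂ) → ℝ} (hu : ContDiffOn ℝ ∞ u D)
    (hinv : ∀ f ∈ Γ, ∀ x ∈ D, ∀ ξ, Lev u (f x) (fderiv ℂ f x ξ) = Lev u x ξ) :
    OpL D Γ (Lr u) where
  congr f g x h := Lr_congr h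
  add f g x hx hf hg := by
    have h1 : cx (fun y => f y + g y) = fun y => cx f y + cx g y := by
      ext y; simp [cx]
    rw [Lr, h1, Lop_add (le2 hf) (le2 hg), add_re]
    rfl
  smul c f x hx hf := by
    have h1 : cx (fun y => c * f y) = fun y => (c : ℂ) * cx f y := by
      ext y; simp [cx]
    rw [Lr, h1, Lop_smul _ (le2 hf), re_ofReal_mul]
    rfl
  const c x := by
    have h1 : Hm (cx (fun _ : Fin n → ℂ => c)) x = 0 := by
      ext i j
      show P (-I) i (P I j (fun _ : Fin n → ℂ => (c : ℂ))) x = 0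
      have : P I j (fun _ : Fin n → ℂ => (c : ℂ)) = fun _ => 0 := funext fun y => P_const _
      rw [this, P_const]
    rw [Lr, Lop, h1]
    simp
  cont f hf := Lr_cont hD hu hf.contDiffOn
  symm h f hh hf := Lr_symm hD hu hh hf
  inv γ hγ f x hx hf := by
    obtain ⟨δ, -, hp⟩ := hΓ.inv γ hγ
    have h1 : cx (fun y => f (γ y)) = fun y => cx f (γ y) := rfl
    rw [Lr, h1, Lop_comp hD hp.hF hx (le2 hf)
      (Hm_inv hD hu hx (hp.mapsF hx) (hinv γ hγ x hx)), re_ofReal_mul]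
    rfl

/-! ### positivity -/

theorem lev_star {f : (Fin n → ℂ) → ℝ} {x : Fin n → ℂ} (hf : ContDiffAt ℝ 2 f x)
    (v : Fin n → ℂ) : star v ⬝ᵥ (Hm (cx f) x *ᵥ v) = ((Lev f x (star v) : ℝ) : ℂ) := by
  rw [lev_eq hf, quad_eq, star_star]

theorem Hm_psd {f : (Fin n → ℂ) → ℝ} {x : Fin n → ℂ} (hf : ContDiffAt ℝ 2 f x)
    (h : ∀ ξ, 0 ≤ Lev f x ξ) : (Hm (cx f) x).PosSemidef := by
  refine .of_dotProduct_mulVec_nonneg (Hm_herm hf) fun v => ?_
  rw [lev_star hf]
  exact_mod_cast h _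

theorem Hm_pd {f : (Fin n → ℂ) → ℝ} {x : Fin n → ℂ} (hf : ContDiffAt ℝ 2 f x)
    (h : ∀ ξ, ξ ≠ 0 → 0 < Lev f x ξ) : (Hm (cx f) x).PosDef := by
  refine .of_dotProduct_mulVec_pos (Hm_herm hf) fun v hv => ?_
  rw [lev_star hf]
  have := h (star v) (by simpa using hv)
  exact_mod_cast this

/-- determinant of the complex Hessian of `u` -/
def dt (u : (Fin n → ℂ) → ℝ) (x : Fin n → ℂ) : ℝ := (Hm (cx u) x).det.re

theorem Lr_pos {u F : (Fin n → ℂ) → ℝ} {x : Fin n → ℂ} (hu : ContDiffAt ℝ 2 u x)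
    (hF : ContDiffAt ℝ 2 F x) (hup : ∀ ξ, ξ ≠ 0 → 0 < Lev u x ξ) (hFp : ∀ ξ, 0 ≤ Lev F x ξ) :
    0 < dt u x ∧ 0 ≤ Lr u F x ∧ ∀ ξ, dt u x * Lev F x ξ ≤ Lev u x ξ * Lr u F x := by
  obtain ⟨h1, h2, h3⟩ := adj_trace (Hm_pd hu hup) (Hm_psd hF hFp)
  have e : Lr u F x = ((Hm (cx u) x).adjugate * Hm (cx F) x).trace.re := by
    rw [Lr, Lop_eq_trace]
  refine ⟨h1, by rw [e]; exact h2, fun ξ => ?_⟩
  have h4 := h3 (star ξ)
  rw [lev_star hu, lev_star hF, ofReal_re, ofReal_re, star_star] at h4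
  rw [e]
  exact h4

end

end Crest.Agent.R264.K
end

-- ▼ part R264/KAsm
section

/-! Row 264, node D6: assembly of Lemma K from the mollification statements and (U). -/

set_option autoImplicit false

open Finset Matrix Complex Filter Topology MeasureTheory
open scoped ContDiff ComplexConjugate

namespace Crest.Agent.R264.K

open Crest.Agent.R264.Berg (Lev)

noncomputable section

variable {n : ℕ}

/-- (M1) -/
def MollStmt (n : ℕ) : Prop :=
  ∀ (D : Set (Fin n → ℂ)) (φ : (Fin n → ℂ) → ℝ), IsOpen D → ContinuousOn φ D → Psh D φ →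
    ∀ K ⊆ D, IsCompact K → ∃ F : ℕ → (Fin n → ℂ) → ℝ, (∀ k, ContDiff ℝ ∞ (F k)) ∧
      (∀ k, ∀ x ∈ K, ∀ ξ, 0 ≤ Lev (F k) x ξ) ∧ TendstoUniformlyOn F φ atTop K

/-- (M2) -/
def CircStmt (n : ℕ) : Prop :=
  ∀ (D : Set (Fin n → ℂ)) (φ : (Fin n → ℂ) → ℝ), IsOpen D → ContinuousOn φ D →
    (∀ η : (Fin n → ℂ) → ℝ, ContDiff ℝ ∞ η → HasCompactSupport η → tsupport η ⊆ D →
      (∀ x, 0 ≤ η x) → ∀ ξ, ∫ x, φ x * Lev η x ξ = 0) → Plh D φ

theorem fderiv2_dir {F : (Fin n → ℂ) → ℝ} (hF : ContDiff ℝ ∞ F) (v x : Fin n → ℂ) :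
    fderiv ℝ (fun y => fderiv ℝ F y v) x v = fderiv ℝ (fderiv ℝ F) x v v := by
  have h : DifferentiableAt ℝ (fderiv ℝ F) x :=
    ((hF.fderiv_right (m := ∞) (by simp)).differentiable (by simp)) x
  rw [fderiv_clm_apply h (differentiableAt_const v)]
  simp

theorem int_dir2 {η F : (Fin n → ℂ) → ℝ} (hη : ContDiff ℝ ∞ η) (hc : HasCompactSupport η)
    (hF : ContDiff ℝ ∞ F) (v : Fin n → ℂ) :
    ∫ x, η x * fderiv ℝ (fderiv ℝ F) x v v = ∫ x, F x * fderiv ℝ (fderiv ℝ η) x v v := by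
  have hA : ∀ G : (Fin n → ℂ) → ℝ, ContDiff ℝ ∞ G → ContDiff ℝ ∞ (fun y => fderiv ℝ G y v) :=
    fun G hG => (hG.fderiv_right (m := ∞) (by simp)).clm_apply contDiff_const
  have hdi : ∀ G : (Fin n → ℂ) → ℝ, ContDiff ℝ ∞ G → ∀ x, DifferentiableAt ℝ G x := fun G hG x =>
    hG.differentiable (by simp) x
  have hcB : HasCompactSupport (fun y => fderiv ℝ η y v) := hc.fderiv_apply ℝ v
  have hcB' : HasCompactSupport (fun y => fderiv ℝ (fun z => fderiv ℝ η z v) y v) :=
    hcB.fderiv_apply ℝ v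
  simp_rw [← fderiv2_dir hF v, ← fderiv2_dir hη v]
  have e1 := integral_mul_fderiv_eq_neg_fderiv_mul_of_integrable (μ := (volume : Measure (Fin n → ℂ)))
    (f := η) (g := fun y => fderiv ℝ F y v) (v := v)
    (((hA η hη).continuous.mul (hA F hF).continuous).integrable_of_hasCompactSupport
      (HasCompactSupport.mul_right hcB))
    ((hη.continuous.mul (hA _ (hA F hF)).continuous).integrable_of_hasCompactSupport
      (HasCompactSupport.mul_right hc))
    ((hη.continuous.mul (hA F hF).continuous).integrable_of_hasCompactSupport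
      (HasCompactSupport.mul_right hc))
    (fun x _ => hdi _ hη x) (fun x _ => hdi _ (hA F hF) x)
  have e2 := integral_mul_fderiv_eq_neg_fderiv_mul_of_integrable (μ := (volume : Measure (Fin n → ℂ)))
    (f := F) (g := fun y => fderiv ℝ η y v) (v := v)
    (((hA F hF).continuous.mul (hA η hη).continuous).integrable_of_hasCompactSupport
      (HasCompactSupport.mul_left hcB))
    ((hF.continuous.mul (hA _ (hA η hη)).continuous).integrable_of_hasCompactSupport
      (HasCompactSupport.mul_left hcB'))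
    ((hF.continuous.mul (hA η hη).continuous).integrable_of_hasCompactSupport
      (HasCompactSupport.mul_left hcB))
    (fun x _ => hdi _ hF x) (fun x _ => hdi _ (hA η hη) x)
  rw [e1, e2]
  congr 1
  refine integral_congr_ae (Eventually.of_forall fun x => ?_)
  simp only
  ring

theorem int_lev {η F : (Fin n → ℂ) → ℝ} (hη : ContDiff ℝ ∞ η) (hc : HasCompactSupport η)
    (hF : ContDiff ℝ ∞ F) (ξ : Fin n → ℂ) :
    ∫ x, η x * Lev F x ξ = ∫ x, F x * Lev η x ξ := by
  have hA2 : ∀ G : (Fin n → ℂ) → ℝ, ContDiff ℝ ∞ G → ∀ v : Fin n → ℂ,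
      Continuous (fun y => fderiv ℝ (fderiv ℝ G) y v v) := fun G hG v =>
    (((hG.fderiv_right (m := ∞) (by simp)).fderiv_right (m := ∞) (by simp)).continuous.clm_apply
      continuous_const).clm_apply continuous_const
  have hcB : ∀ v : Fin n → ℂ, HasCompactSupport (fun y => fderiv ℝ (fderiv ℝ η) y v v) := by
    intro v
    have h1 : HasCompactSupport (fderiv ℝ (fderiv ℝ η)) := (hc.fderiv ℝ).fderiv ℝ
    refine HasCompactSupport.intro h1 ?_
    intro x hx
    rw [image_eq_zero_of_notMem_tsupport hx]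
    simp
  have i1 : ∀ v : Fin n → ℂ, Integrable (fun x => η x * fderiv ℝ (fderiv ℝ F) x v v) := fun v =>
    (hη.continuous.mul (hA2 F hF v)).integrable_of_hasCompactSupport (HasCompactSupport.mul_right hc)
  have i2 : ∀ v : Fin n → ℂ, Integrable (fun x => F x * fderiv ℝ (fderiv ℝ η) x v v) := fun v =>
    (hF.continuous.mul (hA2 η hη v)).integrable_of_hasCompactSupport
      (HasCompactSupport.mul_left (hcB v))
  have e : ∀ G H : (Fin n → ℂ) → ℝ, ∀ x, G x * Lev H x ξ
      = (1 / 4) * (G x * fderiv ℝ (fderiv ℝ H) x ξ ξ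
        + G x * fderiv ℝ (fderiv ℝ H) x (I • ξ) (I • ξ)) := by
    intro G H x
    rw [Lev]
    ring
  simp_rw [e]
  rw [integral_const_mul, integral_const_mul, integral_add (i1 _) (i1 _),
    integral_add (i2 _) (i2 _), int_dir2 hη hc hF, int_dir2 hη hc hF]

theorem lev_contDiffOn {D : Set (Fin n → ℂ)} (hD : IsOpen D) {u : (Fin n → ℂ) → ℝ}
    (hu : ContDiffOn ℝ ∞ u D) (ξ : Fin n → ℂ) : ContDiffOn ℝ ∞ (fun x => Lev u x ξ) D := by
  intro x hx
  have h0 : ContDiffAt ℝ ∞ u x := hu.contDiffAt (hD.mem_nhds hx)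
  have h1 : ContDiffAt ℝ ∞ (fderiv ℝ u) x := h0.fderiv_right (by simp)
  have h2 : ContDiffAt ℝ ∞ (fderiv ℝ (fderiv ℝ u)) x := h1.fderiv_right (by simp)
  have h3 : ∀ v : Fin n → ℂ, ContDiffAt ℝ ∞ (fun y => fderiv ℝ (fderiv ℝ u) y v v) x := fun v =>
    (h2.clm_apply contDiffAt_const).clm_apply contDiffAt_const
  exact (contDiffAt_const.mul ((h3 ξ).add (h3 _))).contDiffWithinAt

theorem dt_cont {D : Set (Fin n → ℂ)} (hD : IsOpen D) {u : (Fin n → ℂ) → ℝ}
    (hu : ContDiffOn ℝ ∞ u D) : ContinuousOn (dt u) D := by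
  intro x hx
  have h0 : ContDiffAt ℝ ∞ (cx u) x := cx_contDiffAt (hu.contDiffAt (hD.mem_nhds hx))
  have h1 : ContinuousAt (fun y => Hm (cx u) y) x := by
    refine continuousAt_pi.2 fun i => continuousAt_pi.2 fun j => ?_
    have h2 : ContDiffAt ℝ ∞ (P I j (cx u)) x := contDiffAt_P h0 (by simp)
    have h3 : ContDiffAt ℝ ∞ (P (-I) i (P I j (cx u))) x := contDiffAt_P h2 (by simp)
    exact h3.continuousAt
  have h4 : ContinuousAt (fun y => (Hm (cx u) y).det) x :=
    (continuous_id.matrix_det).continuousAt.comp h1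
  exact (continuous_re.continuousAt.comp h4).continuousWithinAt

/-- limit of integrals -/
theorem tendsto_int {D : Set (Fin n → ℂ)} (hD : IsOpen D) {φ g : (Fin n → ℂ) → ℝ} {K : Set (Fin n → ℂ)}
    (hK : IsCompact K) (hKD : K ⊆ D) (hφ : ContinuousOn φ D) (hg : ContinuousOn g D)
    (hg0 : ∀ x ∉ K, g x = 0) {F : ℕ → (Fin n → ℂ) → ℝ} (hF : ∀ k, ContDiff ℝ ∞ (F k))
    (hlim : TendstoUniformlyOn F φ atTop K) :
    Tendsto (fun k => ∫ x, F k x * g x) atTop (𝓝 (∫ x, φ x * g x)) := by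
  have hind : ∀ f : (Fin n → ℂ) → ℝ, ∫ x, f x * g x = ∫ x in K, f x * g x := by
    intro f
    rw [← integral_indicator hK.measurableSet]
    refine integral_congr_ae (Eventually.of_forall fun x => ?_)
    by_cases hx : x ∈ K
    · rw [Set.indicator_of_mem hx]
    · simp [Set.indicator_of_notMem hx, hg0 x hx]
  simp_rw [hind]
  have hgK : ContinuousOn g K := hg.mono hKD
  have hφK : ContinuousOn φ K := hφ.mono hKD
  have hgi : IntegrableOn g K := hgK.integrableOn_compact hK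
  have hbd : IntegrableOn (fun x => ‖g x‖) K := hgi.norm
  have hi : IntegrableOn (fun x => φ x * g x) K := (hφK.mul hgK).integrableOn_compact hK
  have hik : ∀ k, IntegrableOn (fun x => F k x * g x) K := fun k =>
    (((hF k).continuous.continuousOn).mul hgK).integrableOn_compact hK
  rw [Metric.tendsto_atTop]
  intro ε hε
  set M := ∫ x in K, ‖g x‖ with hM
  have hM0 : 0 ≤ M := integral_nonneg fun x => norm_nonneg _
  have hδ : 0 < ε / (M + 1) := by positivity
  have h1 := (Metric.tendstoUniformlyOn_iff.1 hlim) _ hδ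
  obtain ⟨N, hN⟩ := eventually_atTop.1 h1
  refine ⟨N, fun k hk => ?_⟩
  rw [Real.dist_eq, ← integral_sub (hik k) hi]
  calc |∫ x in K, (F k x * g x - φ x * g x)| ≤ ∫ x in K, ε / (M + 1) * ‖g x‖ := by
        rw [← Real.norm_eq_abs]
        refine norm_integral_le_of_norm_le (hbd.const_mul _) ?_
        filter_upwards [ae_restrict_mem hK.measurableSet] with x hx
        have h2 := (hN k hk x hx).le
        rw [← sub_mul, norm_mul]
        rw [dist_comm, dist_eq_norm] at h2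
        exact mul_le_mul_of_nonneg_right h2 (norm_nonneg _)
    _ = ε / (M + 1) * M := by rw [integral_const_mul]
    _ < ε := by
        rw [div_mul_eq_mul_div, div_lt_iff₀ (by positivity)]
        nlinarith

theorem lemmaK_of (hM : MollStmt n) (hC : CircStmt n) (hV : VanStmt n) : LemmaK n := by
  intro D Γ hD hne hΓ u hu hup hinv φ hφ hpsh hχ
  have hL := opL hD hΓ hu hinv
  have hu2 : ∀ x ∈ D, ContDiffAt ℝ 2 u x := fun x hx =>
    (hu.contDiffAt (hD.mem_nhds hx)).of_le (by norm_cast)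
  have hF2 : ∀ {F : (Fin n → ℂ) → ℝ}, ContDiff ℝ ∞ F → ∀ x, ContDiffAt ℝ 2 F x := fun hF x =>
    hF.contDiffAt.of_le (by norm_cast)
  -- supports
  have hLs : ∀ h : (Fin n → ℂ) → ℝ, ∀ x ∉ tsupport h, Lr u h x = 0 := by
    intro h x hx
    rw [hL.congr h (fun _ => 0) x (notMem_tsupport_iff_eventuallyEq.1 hx), hL.const]
  have hint : ∀ h, Test D h → (∀ x, 0 ≤ h x) → ∀ F : ℕ → (Fin n → ℂ) → ℝ,
      (∀ k, ContDiff ℝ ∞ (F k)) → (TendstoUniformlyOn F φ atTop (tsupport h)) →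
      Tendsto (fun k => ∫ x, h x * Lr u (F k) x) atTop (𝓝 (∫ x, φ x * Lr u h x)) := by
    intro h hh h0 F hF hlim
    have e : ∀ k, ∫ x, h x * Lr u (F k) x = ∫ x, F k x * Lr u h x := fun k =>
      hL.symm h (F k) hh (hF k)
    simp_rw [e]
    exact tendsto_int hD hh.2.1 hh.2.2 hφ (hL.cont h hh.1) (hLs h) hF hlim
  have hpos : ∀ h, Test D h → (∀ x, 0 ≤ h x) → 0 ≤ ∫ x, φ x * Lr u h x := by
    intro h hh h0
    obtain ⟨F, hF1, hF2', hF3⟩ := hM D φ hD hφ hpsh (tsupport h) hh.2.2 hh.2.1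
    refine ge_of_tendsto' (hint h hh h0 F hF1 hF3) fun k => ?_
    refine integral_nonneg fun x => ?_
    by_cases hx : x ∈ tsupport h
    · exact mul_nonneg (h0 x) (Lr_pos (hu2 x (hh.2.2 hx)) (hF2 (hF1 k) x) (hup x (hh.2.2 hx))
        (hF2' k x hx)).2.1
    · simp [image_eq_zero_of_notMem_tsupport hx]
  have hvan := hV D Γ hD hne hΓ (Lr u) hL φ hφ hχ hpos
  refine hC D φ hD hφ fun η hη hηc hηD hη0 ξ => ?_
  -- the test function η * Lev u ξ
  set h : (Fin n → ℂ) → ℝ := fun x => η x * Lev u x ξ with hh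
  have hts : tsupport h ⊆ tsupport η := by
    refine closure_mono ?_
    intro y hy
    rw [Function.mem_support] at hy ⊢
    intro h0
    exact hy (by rw [hh]; simp [h0])
  have hT : Test D h := by
    refine ⟨?_, hηc.of_isClosed_subset (isClosed_tsupport _) hts, hts.trans hηD⟩
    apply contDiff_of_tsupp
    intro x hx
    exact hη.contDiffAt.mul ((lev_contDiffOn hD hu ξ).contDiffAt (hD.mem_nhds (hηD (hts hx))))
  have hlev0 : ∀ x ∈ D, 0 ≤ Lev u x ξ := by
    intro x hx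
    by_cases h0 : ξ = 0
    · subst h0; simp [Lev]
    · exact (hup x hx ξ h0).le
  have hh0 : ∀ x, 0 ≤ h x := by
    intro x
    by_cases hx : x ∈ tsupport η
    · exact mul_nonneg (hη0 x) (hlev0 x (hηD hx))
    · simp [hh, image_eq_zero_of_notMem_tsupport hx]
  obtain ⟨F, hF1, hF2', hF3⟩ := hM D φ hD hφ hpsh (tsupport η) hηD hηc
  have l1 := hint h hT hh0 F hF1 (hF3.mono hts)
  rw [hvan h hT hh0] at l1
  -- lower bound of dt
  obtain ⟨c, hc0, hc⟩ : ∃ c : ℝ, 0 < c ∧ ∀ x ∈ tsupport η, c ≤ dt u x := by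
    by_cases he : (tsupport η).Nonempty
    · obtain ⟨x0, hx0, hmin⟩ := hηc.isCompact.exists_isMinOn he ((dt_cont hD hu).mono hηD)
      refine ⟨dt u x0, ?_, fun x hx => hmin hx⟩
      exact (Lr_pos (hu2 x0 (hηD hx0)) (hF2 (hF1 0) x0) (hup x0 (hηD hx0)) (hF2' 0 x0 hx0)).1
    · exact ⟨1, one_pos, fun x hx => (he ⟨x, hx⟩).elim⟩
  -- ∫ η Lev F_k ξ → ∫ φ Lev η ξ
  have hlevs : ∀ x ∉ tsupport η, Lev η x ξ = 0 := by
    intro x hx
    have h1 : η =ᶠ[𝓝 x] fun _ => (0 : ℝ) := notMem_tsupport_iff_eventuallyEq.1 hx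
    have h2 : fderiv ℝ η =ᶠ[𝓝 x] fderiv ℝ (fun _ => (0 : ℝ)) := h1.fderiv
    have h3 : fderiv ℝ (fderiv ℝ η) x = 0 := by
      rw [h2.fderiv_eq]
      simp
    simp [Lev, h3]
  have l2 : Tendsto (fun k => ∫ x, η x * Lev (F k) x ξ) atTop (𝓝 (∫ x, φ x * Lev η x ξ)) := by
    have e : ∀ k, ∫ x, η x * Lev (F k) x ξ = ∫ x, F k x * Lev η x ξ := fun k =>
      int_lev hη hηc (hF1 k) ξ
    simp_rw [e]
    exact tendsto_int hD hηc hηD hφ ((lev_contDiffOn hD hη.contDiffOn ξ).continuousOn) hlevs hF1 hF3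
  have l3 : ∀ k, 0 ≤ ∫ x, η x * Lev (F k) x ξ := fun k => by
    refine integral_nonneg fun x => ?_
    by_cases hx : x ∈ tsupport η
    · exact mul_nonneg (hη0 x) (hF2' k x hx ξ)
    · simp [image_eq_zero_of_notMem_tsupport hx]
  have hcont : ∀ g : (Fin n → ℂ) → ℝ, ContinuousOn g D → Integrable (fun x => η x * g x) := by
    intro g hg
    refine Continuous.integrable_of_hasCompactSupport ?_ (HasCompactSupport.mul_right hηc)
    rw [continuous_iff_continuousAt]
    intro x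
    by_cases hx : x ∈ tsupport η
    · exact hη.continuous.continuousAt.mul (hg.continuousAt (hD.mem_nhds (hηD hx)))
    · refine (continuousAt_const (y := (0 : ℝ))).congr ?_
      filter_upwards [notMem_tsupport_iff_eventuallyEq.1 hx] with y hy
      rw [hy]
      simp
  have l4 : ∀ k, c * ∫ x, η x * Lev (F k) x ξ ≤ ∫ x, h x * Lr u (F k) x := fun k => by
    rw [← integral_const_mul]
    have hLc : ContinuousOn (Lr u (F k)) D := hL.cont _ (hF1 k)
    have hLe : ContinuousOn (fun x => Lev (F k) x ξ) D :=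
      (lev_contDiffOn hD (hF1 k).contDiffOn ξ).continuousOn
    have hLu : ContinuousOn (fun x => Lev u x ξ) D := (lev_contDiffOn hD hu ξ).continuousOn
    refine integral_mono ((hcont _ hLe).const_mul c) ?_ fun x => ?_
    · have := hcont _ (hLu.mul hLc)
      refine this.congr (Eventually.of_forall fun x => ?_)
      simp only [hh, Pi.mul_apply]
      ring
    · by_cases hx : x ∈ tsupport η
      · have h5 := Lr_pos (hu2 x (hηD hx)) (hF2 (hF1 k) x) (hup x (hηD hx)) (hF2' k x hx)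
        have h6 := h5.2.2 ξ
        have h7 : c * Lev (F k) x ξ ≤ dt u x * Lev (F k) x ξ :=
          mul_le_mul_of_nonneg_right (hc x hx) (hF2' k x hx ξ)
        have h8 := mul_le_mul_of_nonneg_left (h7.trans h6) (hη0 x)
        simp only [hh]
        nlinarith [h8]
      · simp [hh, image_eq_zero_of_notMem_tsupport hx]
  have l5 : Tendsto (fun k => c * ∫ x, η x * Lev (F k) x ξ) atTop (𝓝 0) :=
    squeeze_zero (fun k => mul_nonneg hc0.le (l3 k)) l4 l1
  have l6 := tendsto_nhds_unique l5 (l2.const_mul c)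
  have : c * ∫ x, φ x * Lev η x ξ = 0 := l6.symm
  rcases mul_eq_zero.1 this with h9 | h9
  · exact absurd h9 hc0.ne'
  · exact h9

end

end Crest.Agent.R264.K
end

-- ▼ part R264/KMollA
section

/-!
# Row 264, D6 (Lemma K), mollification module, part A (helper375)
Levi form and circle means for smooth functions.
-/

set_option autoImplicit false

open Set Function Filter Topology Metric Complex MeasureTheory
open scoped Real ContDiff

namespace Crest.Agent.R264.KM

open Crest.Agent.R264.K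

open Crest.Agent.R264.Berg (Lev)

noncomputable section

variable {n : ℕ}

variable {f : (Fin n → ℂ) → ℝ}

theorem two_le_infty : (2 : WithTop ℕ∞) ≤ ∞ := WithTop.coe_le_coe.2 le_top

/-- uniform second order Taylor estimate. -/
theorem taylor2 (hf : ContDiff ℝ ∞ f) (x : Fin n → ℂ) {ε : ℝ} (hε : 0 < ε) :
    ∃ δ > 0, ∀ v : Fin n → ℂ, ‖v‖ < δ →
      |f (x + v) - f x - fderiv ℝ f x v - fderiv ℝ (fderiv ℝ f) x v v / 2| ≤ ε * ‖v‖ ^ 2 := by
  have hf' : ContDiff ℝ ∞ (fderiv ℝ f) := hf.fderiv_right (m := ∞) (by simp)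
  have hd' : HasFDerivAt (fderiv ℝ f) (fderiv ℝ (fderiv ℝ f) x) x :=
    (hf'.differentiable (by simp) x).hasFDerivAt
  have hsym : ∀ v w, fderiv ℝ (fderiv ℝ f) x v w = fderiv ℝ (fderiv ℝ f) x w v := by
    intro v w
    have := (hf.contDiffAt (x := x)).isSymmSndFDerivAt (n := ∞) (by
      rw [minSmoothness_of_isRCLikeNormedField]; exact two_le_infty)
    exact this v w
  have h1 := hd'.isLittleO.def hε
  have h2 : ∀ᶠ y in 𝓝 x, ‖fderiv ℝ f y - fderiv ℝ f x - fderiv ℝ (fderiv ℝ f) x (y - x)‖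
      ≤ ε * ‖y - x‖ := h1
  obtain ⟨δ, hδ, hb⟩ := Metric.eventually_nhds_iff_ball.1 h2
  refine ⟨δ, hδ, fun v hv => ?_⟩
  set g : (Fin n → ℂ) → ℝ := fun w => f (x + w) - f x - fderiv ℝ f x w
    - fderiv ℝ (fderiv ℝ f) x w w / 2 with hg
  have hgd : ∀ w : Fin n → ℂ, HasFDerivAt g
      (fderiv ℝ f (x + w) - fderiv ℝ f x - fderiv ℝ (fderiv ℝ f) x w) w := by
    intro w
    have e1 : HasFDerivAt (fun w => f (x + w)) (fderiv ℝ f (x + w)) w := by
      have := (hf.differentiable (by simp) (x + w)).hasFDerivAt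
      have h3 : HasFDerivAt (fun w => x + w) (ContinuousLinearMap.id ℝ (Fin n → ℂ)) w :=
        (hasFDerivAt_id w).const_add x
      have h4 := this.comp w h3
      rw [ContinuousLinearMap.comp_id] at h4
      exact h4
    have e2 : HasFDerivAt (fun w => fderiv ℝ f x w) (fderiv ℝ f x) w :=
      (fderiv ℝ f x).hasFDerivAt
    have e3 : HasFDerivAt (fun w => fderiv ℝ (fderiv ℝ f) x w w)
        ((fderiv ℝ (fderiv ℝ f) x w) + (fderiv ℝ (fderiv ℝ f) x).flip w) w := by
      have a1 : HasFDerivAt (fun w => fderiv ℝ (fderiv ℝ f) x w) (fderiv ℝ (fderiv ℝ f) x) w :=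
        (fderiv ℝ (fderiv ℝ f) x).hasFDerivAt
      have a2 := a1.clm_apply (hasFDerivAt_id w)
      simpa using a2
    have e4 := ((e1.sub_const (f x)).sub e2).sub (e3.mul_const (1 / 2 : ℝ))
    have h5 : (1 / 2 : ℝ) • ((fderiv ℝ (fderiv ℝ f) x w) + (fderiv ℝ (fderiv ℝ f) x).flip w)
        = fderiv ℝ (fderiv ℝ f) x w := by
      ext u
      simp only [smul_apply, add_apply,
        ContinuousLinearMap.flip_apply, smul_eq_mul]
      rw [hsym u w]; ring
    rw [h5] at e4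
    refine e4.congr_of_eventuallyEq (Eventually.of_forall fun w => ?_)
    simp only [hg, Pi.sub_apply]
    ring
  have hmv := (convex_ball (0 : Fin n → ℂ) δ |>.inter
    (convex_closedBall (0 : Fin n → ℂ) ‖v‖)).norm_image_sub_le_of_norm_hasFDerivWithin_le
      (f := g) (f' := fun w => fderiv ℝ f (x + w) - fderiv ℝ f x - fderiv ℝ (fderiv ℝ f) x w)
      (C := ε * ‖v‖) (x := 0) (y := v)
      (fun w _ => (hgd w).hasFDerivWithinAt) (fun w hw => by
        have hw1 : ‖w‖ < δ := by simpa using hw.1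
        have hw2 : ‖w‖ ≤ ‖v‖ := by simpa using hw.2
        have := hb (x + w) (by simpa [mem_ball, dist_eq_norm] using hw1)
        simp only [add_sub_cancel_left] at this
        exact this.trans (mul_le_mul_of_nonneg_left hw2 hε.le))
      ⟨by simpa using hδ, by simp⟩ ⟨by simpa using hv, by simp⟩
  have hg0 : g 0 = 0 := by simp [hg]
  rw [hg0, sub_zero, sub_zero, Real.norm_eq_abs] at hmv
  calc |f (x + v) - f x - fderiv ℝ f x v - fderiv ℝ (fderiv ℝ f) x v v / 2| = |g v| := rfl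
    _ ≤ ε * ‖v‖ * ‖v‖ := hmv
    _ = ε * ‖v‖ ^ 2 := by ring

/-- sums over the four rotations. -/
theorem four_sum (B : (Fin n → ℂ) →L[ℝ] (Fin n → ℂ) →L[ℝ] ℝ) (ξ : Fin n → ℂ) (ζ : ℂ) :
    B (ζ • ξ) (ζ • ξ) + B (I • ζ • ξ) (I • ζ • ξ) = ‖ζ‖ ^ 2 * (B ξ ξ + B (I • ξ) (I • ξ)) := by
  have h1 : ζ • ξ = (ζ.re : ℝ) • ξ + (ζ.im : ℝ) • (I • ξ) := by
    ext i
    simp only [Pi.smul_apply, Pi.add_apply, smul_eq_mul, real_smul]
    conv_lhs => rw [← re_add_im ζ]
    ring
  have h2 : I • ζ • ξ = (-ζ.im : ℝ) • ξ + (ζ.re : ℝ) • (I • ξ) := by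
    ext i
    simp only [Pi.smul_apply, Pi.add_apply, smul_eq_mul, real_smul]
    conv_lhs => rw [← re_add_im ζ]
    push_cast
    linear_combination (ζ.im : ℂ) * ξ i * I_mul_I
  have h3 : ‖ζ‖ ^ 2 = ζ.re ^ 2 + ζ.im ^ 2 := by
    rw [← normSq_eq_norm_sq, normSq_apply]; ring
  rw [h2, h1, h3]
  simp only [map_add, map_smul, add_apply, smul_apply, smul_eq_mul]
  ring

/-- the Levi form of a smooth function with the sub-mean value property is nonnegative. -/
theorem lev_nonneg (hf : ContDiff ℝ ∞ f) (x ξ : Fin n → ℂ)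
    (h : ∀ᶠ v in 𝓝 (0 : Fin n → ℂ),
      f x ≤ Real.circleAverage (fun ζ : ℂ => f (x + ζ • v)) 0 1) :
    0 ≤ Lev f x ξ := by
  -- it is enough to bound from below by `-ε‖ξ‖²`
  have key : ∀ ε > 0, -(ε * ‖ξ‖ ^ 2) ≤ Lev f x ξ := by
    intro ε hε
    obtain ⟨δ, hδ, hT⟩ := taylor2 hf x hε
    obtain ⟨δ', hδ', hS⟩ := Metric.eventually_nhds_iff_ball.1 h
    -- choose the radius
    obtain ⟨r, hr0, hr1, hr2⟩ : ∃ r > 0, r * ‖ξ‖ < δ ∧ r * ‖ξ‖ < δ' := by
      refine ⟨min δ δ' / (‖ξ‖ + 1), by positivity, ?_, ?_⟩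
      · rw [div_mul_eq_mul_div, div_lt_iff₀ (by positivity)]
        nlinarith [min_le_left δ δ', lt_min hδ hδ', norm_nonneg ξ]
      · rw [div_mul_eq_mul_div, div_lt_iff₀ (by positivity)]
        nlinarith [min_le_right δ δ', lt_min hδ hδ', norm_nonneg ξ]
    set v : Fin n → ℂ := (r : ℂ) • ξ with hv
    have hvn : ‖v‖ = r * ‖ξ‖ := by
      rw [hv, norm_smul, norm_real, Real.norm_eq_abs, abs_of_pos hr0]
    have hcont : ∀ w : Fin n → ℂ, Continuous fun ζ : ℂ => f (x + ζ • w) := fun w =>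
      hf.continuous.comp (by fun_prop)
    have hint : ∀ w : Fin n → ℂ, CircleIntegrable (fun ζ : ℂ => f (x + ζ • w)) 0 1 := fun w =>
      (hcont w).continuousOn.circleIntegrable'
    have hs : ∀ w : Fin n → ℂ, ‖w‖ = ‖v‖ →
        f x ≤ Real.circleAverage (fun ζ : ℂ => f (x + ζ • w)) 0 1 := fun w hw =>
      hS w (by rw [mem_ball_zero_iff, hw, hvn]; exact hr2)
    have h1 := hs v rfl
    have h2 := hs (I • v) (by rw [norm_smul, norm_I, one_mul])
    have h3 := hs (-v) (by rw [norm_neg])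
    have h4 := hs (-(I • v)) (by rw [norm_neg, norm_smul, norm_I, one_mul])
    have hsum : 4 * f x ≤ Real.circleAverage (fun ζ : ℂ => (f (x + ζ • v) + f (x + ζ • (I • v)))
        + (f (x + ζ • (-v)) + f (x + ζ • (-(I • v))))) 0 1 := by
      have e1 := Real.circleAverage_fun_add (hint v) (hint (I • v))
      have e2 := Real.circleAverage_fun_add (hint (-v)) (hint (-(I • v)))
      have e3 := Real.circleAverage_fun_add (c := 0) (R := 1) (f₁ := fun ζ : ℂ => f (x + ζ • v) + f (x + ζ • (I • v)))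
        (f₂ := fun ζ : ℂ => f (x + ζ • (-v)) + f (x + ζ • (-(I • v))))
        (((hcont _).add (hcont _)).continuousOn.circleIntegrable')
        (((hcont _).add (hcont _)).continuousOn.circleIntegrable')
      rw [e3, e1, e2]
      linarith
    have hB := four_sum (fderiv ℝ (fderiv ℝ f) x) v
    have hbd : Real.circleAverage (fun ζ : ℂ => (f (x + ζ • v) + f (x + ζ • (I • v)))
        + (f (x + ζ • (-v)) + f (x + ζ • (-(I • v))))) 0 1 ≤
        4 * f x + r ^ 2 * (4 * Lev f x ξ) + 4 * (ε * (r * ‖ξ‖) ^ 2) := by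
      refine Real.circleAverage_mono_on_of_le_circle (by
        refine Continuous.continuousOn ?_ |>.circleIntegrable'
        exact ((hcont _).add (hcont _)).add ((hcont _).add (hcont _))) ?_
      intro ζ hζ
      have hζ1 : ‖ζ‖ = 1 := by simpa using hζ
      have hn : ∀ w : Fin n → ℂ, ‖w‖ = ‖v‖ → ‖ζ • w‖ < δ := fun w hw => by
        rw [norm_smul, hζ1, one_mul, hw, hvn]; exact hr1
      have t1 := (abs_le.1 (hT (ζ • v) (hn v rfl))).2
      have t2 := (abs_le.1 (hT (ζ • (I • v)) (hn _ (by rw [norm_smul, norm_I, one_mul])))).2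
      have t3 := (abs_le.1 (hT (ζ • (-v)) (hn _ (by rw [norm_neg])))).2
      have t4 := (abs_le.1 (hT (ζ • (-(I • v))) (hn _ (by
        rw [norm_neg, norm_smul, norm_I, one_mul])))).2
      have n1 : ‖ζ • v‖ = r * ‖ξ‖ := by rw [norm_smul, hζ1, one_mul, hvn]
      have n2 : ‖ζ • (I • v)‖ = r * ‖ξ‖ := by
        rw [norm_smul, hζ1, one_mul, norm_smul, norm_I, one_mul, hvn]
      simp only [smul_neg, norm_neg, map_neg, neg_apply, neg_neg, n1, n2] at t1 t2 t3 t4
      have hc : I • ζ • v = ζ • (I • v) := smul_comm _ _ _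
      have hB' := hB ζ
      rw [hζ1, hc] at hB'
      have hB2 := four_sum (fderiv ℝ (fderiv ℝ f) x) ξ (r : ℂ)
      rw [← hv, norm_real, Real.norm_eq_abs, abs_of_pos hr0] at hB2
      have hl : 4 * Lev f x ξ = fderiv ℝ (fderiv ℝ f) x ξ ξ
          + fderiv ℝ (fderiv ℝ f) x (I • ξ) (I • ξ) := by
        rw [Lev]; ring
      rw [hl]
      simp only [smul_neg]
      linarith
    have h5 := hsum.trans hbd
    have h6 : 0 ≤ r ^ 2 * (4 * (Lev f x ξ + ε * ‖ξ‖ ^ 2)) := by
      have : r ^ 2 * (4 * (Lev f x ξ + ε * ‖ξ‖ ^ 2))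
        = r ^ 2 * (4 * Lev f x ξ) + 4 * (ε * (r * ‖ξ‖) ^ 2) := by ring
      rw [this]; linarith
    have h7 : 0 ≤ 4 * (Lev f x ξ + ε * ‖ξ‖ ^ 2) := by
      by_contra hneg
      have := mul_neg_of_pos_of_neg (pow_pos hr0 2) (not_le.1 hneg)
      linarith
    linarith
  by_contra hneg
  push Not at hneg
  have := key (-Lev f x ξ / (2 * (‖ξ‖ ^ 2 + 1))) (div_pos (by linarith) (by positivity))
  have h8 : -Lev f x ξ / (2 * (‖ξ‖ ^ 2 + 1)) * ‖ξ‖ ^ 2 ≤ -Lev f x ξ / 2 := by
    rw [div_mul_eq_mul_div, div_le_div_iff₀ (by positivity) (by norm_num)]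
    nlinarith [sq_nonneg ‖ξ‖]
  linarith

/-- mean value equality for smooth functions with vanishing Levi form on a closed disc. -/
theorem mean_eq (hf : ContDiff ℝ ∞ f) {W : Set (Fin n → ℂ)} (hW : IsOpen W)
    (hl : ∀ x ∈ W, ∀ ξ, Lev f x ξ = 0) (x ξ : Fin n → ℂ)
    (hx : ∀ ζ : ℂ, ‖ζ‖ ≤ 1 → x + ζ • ξ ∈ W) :
    Real.circleAverage (fun ζ : ℂ => f (x + ζ • ξ)) 0 1 = f x := by
  set g : ℂ → ℝ := fun ζ => f (x + ζ • ξ) with hg
  have hgs : ContDiff ℝ ∞ g := hf.comp (by fun_prop)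
  set A : ℂ →L[ℝ] (Fin n → ℂ) :=
    ((ContinuousLinearMap.id ℂ ℂ).smulRight ξ).restrictScalars ℝ with hA
  have hA1 : ∀ ζ : ℂ, A ζ = ζ • ξ := fun ζ => by simp [hA]
  have hAd : ∀ ζ : ℂ, HasFDerivAt (fun ζ : ℂ => x + ζ • ξ) A ζ := by
    intro ζ
    have := A.hasFDerivAt (x := ζ) |>.const_add x
    exact this
  have hg1 : ∀ ζ, fderiv ℝ g ζ = (fderiv ℝ f (x + ζ • ξ)).comp A := by
    intro ζ
    exact ((hf.differentiable (by simp) _).hasFDerivAt.comp ζ (hAd ζ)).fderiv
  have hf' : ContDiff ℝ ∞ (fderiv ℝ f) := hf.fderiv_right (m := ∞) (by simp)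
  have hg2 : ∀ ζ a b, fderiv ℝ (fderiv ℝ g) ζ a b
      = fderiv ℝ (fderiv ℝ f) (x + ζ • ξ) (a • ξ) (b • ξ) := by
    intro ζ a b
    have e1 : HasFDerivAt (fun ζ : ℂ => fderiv ℝ f (x + ζ • ξ))
        ((fderiv ℝ (fderiv ℝ f) (x + ζ • ξ)).comp A) ζ :=
      (hf'.differentiable (by simp) _).hasFDerivAt.comp ζ (hAd ζ)
    have e2 : HasFDerivAt (fderiv ℝ g)
        (((ContinuousLinearMap.compL ℝ ℂ (Fin n → ℂ) ℝ).flip A).comp
          ((fderiv ℝ (fderiv ℝ f) (x + ζ • ξ)).comp A)) ζ := by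
      have e3 := ((ContinuousLinearMap.compL ℝ ℂ (Fin n → ℂ) ℝ).flip A).hasFDerivAt.comp ζ e1
      refine e3.congr_of_eventuallyEq (Eventually.of_forall fun z => ?_)
      rw [hg1]; rfl
    rw [e2.fderiv]
    simp [hA1]
  have hH : InnerProductSpace.HarmonicOnNhd g (closedBall (0 : ℂ) |1|) := by
    intro z hz
    refine ⟨(hgs.of_le two_le_infty).contDiffAt, ?_⟩
    have hz1 : x + z • ξ ∈ W := hx z (by simpa using hz)
    have hev : ∀ᶠ w in 𝓝 z, x + w • ξ ∈ W := by
      have : Continuous fun w : ℂ => x + w • ξ := by fun_prop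
      exact this.continuousAt.preimage_mem_nhds (hW.mem_nhds hz1)
    filter_upwards [hev] with w hw
    rw [InnerProductSpace.laplacian_eq_iteratedFDeriv_complexPlane]
    simp only [iteratedFDeriv_two_apply, Matrix.cons_val_zero, Matrix.cons_val_one, hg2, one_smul,
      Pi.zero_apply]
    have := hl _ hw ξ
    rw [Lev] at this
    linarith
  have := hH.circleAverage_eq
  rw [this, hg]
  simp

end

end Crest.Agent.R264.KM
end

-- ▼ part R264/KMollB
section

/-!
# Row 264, D6 (Lemma K), mollification module, part B (helper375)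
-/

set_option autoImplicit false

open Set Function Filter Topology Metric Complex MeasureTheory
open scoped Real ContDiff Convolution

namespace Crest.Agent.R264.KM

open Crest.Agent.R264.K

open Crest.Agent.R264.Berg (Lev)

noncomputable section

variable {n : ℕ}

/-- a continuous compactly supported function equal to `φ` on a given compact set. -/
theorem exists_cutoff {D : Set (Fin n → ℂ)} (hD : IsOpen D) {φ : (Fin n → ℂ) → ℝ}
    (hφ : ContinuousOn φ D) {K : Set (Fin n → ℂ)} (hK : IsCompact K) (hKD : K ⊆ D) :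
    ∃ g : (Fin n → ℂ) → ℝ, Continuous g ∧ HasCompactSupport g ∧ ∀ x ∈ K, g x = φ x := by
  obtain ⟨f, hf1, hfc, hfD, -⟩ := exists_continuousMap_one_of_isCompact_subset_isOpen hK hD hKD
  refine ⟨fun x => f x * φ x, ?_, ?_, fun x hx => by simp [hf1 hx]⟩
  · rw [continuous_iff_continuousAt]
    intro x
    by_cases hx : x ∈ D
    · exact f.continuous.continuousAt.mul (hφ.continuousAt (hD.mem_nhds hx))
    · have : x ∉ tsupport f := fun h => hx (hfD h)
      have h2 : (fun x => f x * φ x) =ᶠ[𝓝 x] fun _ => 0 := by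
        filter_upwards [notMem_tsupport_iff_eventuallyEq.1 this] with y hy
        simp [hy]
      exact continuousAt_const.congr h2.symm
  · exact HasCompactSupport.mul_right (f := f) hfc

/-- the mollification of `g` by the bump function `b`. -/
def moll (b : ContDiffBump (0 : Fin n → ℂ)) (g : (Fin n → ℂ) → ℝ) (x : Fin n → ℂ) : ℝ :=
  ∫ t, b.normed volume t * g (x - t)

theorem moll_eq (b : ContDiffBump (0 : Fin n → ℂ)) (g : (Fin n → ℂ) → ℝ) :
    moll b g = ((b.normed volume) ⋆[ContinuousLinearMap.lsmul ℝ ℝ, volume] g) := by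
  ext x
  simp [moll, convolution_def]

theorem contDiff_moll (b : ContDiffBump (0 : Fin n → ℂ)) {g : (Fin n → ℂ) → ℝ}
    (hg : Continuous g) : ContDiff ℝ ∞ (moll b g) := by
  rw [moll_eq]
  exact b.hasCompactSupport_normed.contDiff_convolution_left _ b.contDiff_normed
    hg.locallyIntegrable

theorem abs_moll_sub_le (b : ContDiffBump (0 : Fin n → ℂ)) {g : (Fin n → ℂ) → ℝ}
    (hg : Continuous g) {x : Fin n → ℂ} {ε : ℝ} (h : ∀ y ∈ ball x b.rOut, |g y - g x| ≤ ε) :
    |moll b g x - g x| ≤ ε := by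
  have := b.dist_normed_convolution_le (μ := volume) (g := g) (x₀ := x) (ε := ε)
    hg.aestronglyMeasurable (by simpa [Real.dist_eq] using h)
  rw [← moll_eq, Real.dist_eq] at this
  exact this

/-- sub-mean value inequality for the mollification. -/
theorem moll_submean (b : ContDiffBump (0 : Fin n → ℂ)) {g : (Fin n → ℂ) → ℝ}
    (hg : Continuous g) (hgc : HasCompactSupport g) (x v : Fin n → ℂ)
    (h : ∀ t ∈ ball (0 : Fin n → ℂ) b.rOut,
      g (x - t) ≤ Real.circleAverage (fun ζ : ℂ => g (x - t + ζ • v)) 0 1) :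
    moll b g x ≤ Real.circleAverage (fun ζ : ℂ => moll b g (x + ζ • v)) 0 1 := by
  obtain ⟨C, hC⟩ := hgc.exists_bound_of_continuous hg
  have hρc : Continuous (b.normed volume) := b.continuous_normed
  have hρi : Integrable (b.normed volume) :=
    hρc.integrable_of_hasCompactSupport b.hasCompactSupport_normed
  have hswap : Real.circleAverage (fun ζ : ℂ => moll b g (x + ζ • v)) 0 1
      = ∫ t, b.normed volume t * Real.circleAverage (fun ζ : ℂ => g (x - t + ζ • v)) 0 1 := by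
    simp only [Real.circleAverage, moll]
    rw [intervalIntegral_integral_swap]
    · rw [← integral_smul]
      refine integral_congr_ae (Eventually.of_forall fun t => ?_)
      simp only [smul_eq_mul]
      rw [intervalIntegral.integral_const_mul]
      have : ∀ θ : ℝ, x + circleMap 0 1 θ • v - t = x - t + circleMap 0 1 θ • v := fun θ => by
        abel
      simp only [this]
      ring
    · have : IsFiniteMeasure ((volume : Measure ℝ).restrict (Set.uIoc 0 (2 * π))) := by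
        rw [uIoc_of_le (by positivity)]; infer_instance
      refine Integrable.mono' ((hρi.const_mul C).comp_snd (volume.restrict (Set.uIoc 0 (2 * π))))
        ?_ (Eventually.of_forall fun p => ?_)
      · refine Continuous.aestronglyMeasurable ?_
        have : Continuous fun p : ℝ × (Fin n → ℂ) => circleMap 0 1 p.1 :=
          (continuous_circleMap 0 1).comp continuous_fst
        simp only [Function.uncurry_def]
        exact (hρc.comp continuous_snd).mul (hg.comp (by fun_prop))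
      · simp only [Function.uncurry_def, norm_mul, Real.norm_eq_abs]
        rw [abs_of_nonneg (b.nonneg_normed _), mul_comm]
        exact mul_le_mul_of_nonneg_right (hC _) (b.nonneg_normed _)
  rw [hswap, moll]
  have hb : ∀ t, |Real.circleAverage (fun ζ : ℂ => g (x - t + ζ • v)) 0 1| ≤ C := by
    intro t
    refine (Real.abs_circleAverage_le_circleAverage_abs).trans ?_
    refine Real.circleAverage_mono_on_of_le_circle ?_ fun ζ _ => hC _
    refine (Continuous.continuousOn ?_).circleIntegrable'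
    exact (hg.comp (by fun_prop)).abs
  refine integral_mono_ae ?_ ?_ (Eventually.of_forall fun t => ?_)
  · refine Continuous.integrable_of_hasCompactSupport (hρc.mul (hg.comp (by fun_prop))) ?_
    exact b.hasCompactSupport_normed.mul_right
  · refine Integrable.mono' (hρi.const_mul C) ?_ (Eventually.of_forall fun t => ?_)
    · refine hρc.aestronglyMeasurable.mul ?_
      refine Continuous.aestronglyMeasurable ?_
      simp only [Real.circleAverage, smul_eq_mul]
      refine continuous_const.mul ?_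
      refine intervalIntegral.continuous_parametric_intervalIntegral_of_continuous' ?_ _ _
      have : Continuous fun p : (Fin n → ℂ) × ℝ => circleMap 0 1 p.2 :=
        (continuous_circleMap 0 1).comp continuous_snd
      simp only [Function.uncurry_def]
      exact hg.comp (by fun_prop)
    · rw [norm_mul, Real.norm_eq_abs, Real.norm_eq_abs, abs_of_nonneg (b.nonneg_normed _),
        mul_comm]
      exact mul_le_mul_of_nonneg_right (hb t) (b.nonneg_normed _)
  · by_cases ht : t ∈ ball (0 : Fin n → ℂ) b.rOut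
    · exact mul_le_mul_of_nonneg_left (h t ht) (b.nonneg_normed _)
    · have : b.normed volume t = 0 := by
        rw [← notMem_support, b.support_normed_eq]; exact ht
      simp [this]

end

end Crest.Agent.R264.KM
end

-- ▼ part R264/KMoll
section

/-!
# Row 264, D6 (Lemma K), mollification module (helper375): main statements
-/

set_option autoImplicit false

open Set Function Filter Topology Metric Complex MeasureTheory
open scoped Real ContDiff Convolution

namespace Crest.Agent.R264.KM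

open Crest.Agent.R264.K

open Crest.Agent.R264.Berg (Lev)

noncomputable section

variable {n : ℕ}

/-- directional derivative of a convolution. -/
theorem fderiv_conv {ρ g : (Fin n → ℂ) → ℝ} (hρ : ContDiff ℝ ∞ ρ) (hρc : HasCompactSupport ρ)
    (hg : Continuous g) (x ξ : Fin n → ℂ) :
    fderiv ℝ (fun x => ∫ t, ρ t * g (x - t)) x ξ = ∫ t, fderiv ℝ ρ t ξ * g (x - t) := by
  have h1 : (fun x => ∫ t, ρ t * g (x - t))
      = (ρ ⋆[ContinuousLinearMap.lsmul ℝ ℝ, volume] g) := by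
    ext x; simp [convolution_def]
  have hρ1 : ContDiff ℝ 1 ρ := hρ.of_le (by exact WithTop.coe_le_coe.2 le_top)
  rw [h1, (hρc.hasFDerivAt_convolution_left (ContinuousLinearMap.lsmul ℝ ℝ) hρ1
    hg.locallyIntegrable x).fderiv, convolution_def, ContinuousLinearMap.integral_apply]
  · refine integral_congr_ae (Eventually.of_forall fun t => ?_)
    simp
  · have := (hρc.fderiv (𝕜 := ℝ)).convolutionExists_left
      ((ContinuousLinearMap.lsmul ℝ ℝ : ℝ →L[ℝ] ℝ →L[ℝ] ℝ).precompL (Fin n → ℂ))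
      (μ := (volume : Measure (Fin n → ℂ))) (hρ1.continuous_fderiv (by simp))
      hg.locallyIntegrable x
    exact this

/-- Levi form of a convolution. -/
theorem Lev_conv {ρ g : (Fin n → ℂ) → ℝ} (hρ : ContDiff ℝ ∞ ρ) (hρc : HasCompactSupport ρ)
    (hg : Continuous g) (x ξ : Fin n → ℂ) :
    Lev (fun x => ∫ t, ρ t * g (x - t)) x ξ = ∫ t, Lev ρ t ξ * g (x - t) := by
  set F : (Fin n → ℂ) → ℝ := fun x => ∫ t, ρ t * g (x - t) with hF
  have hFs : ContDiff ℝ ∞ F := by
    have h1 : F = (ρ ⋆[ContinuousLinearMap.lsmul ℝ ℝ, volume] g) := by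
      ext x; simp [hF, convolution_def]
    rw [h1]
    exact hρc.contDiff_convolution_left _ hρ hg.locallyIntegrable
  have hF' : ContDiff ℝ ∞ (fderiv ℝ F) := hFs.fderiv_right (m := ∞) (by simp)
  have hρ' : ContDiff ℝ ∞ (fderiv ℝ ρ) := hρ.fderiv_right (m := ∞) (by simp)
  have h2 : ∀ v, fderiv ℝ (fderiv ℝ F) x v v = ∫ t, fderiv ℝ (fderiv ℝ ρ) t v v * g (x - t) := by
    intro v
    have e1 : ∀ (G : (Fin n → ℂ) → ℝ), ContDiff ℝ ∞ (fderiv ℝ G) → ∀ y,
        fderiv ℝ (fderiv ℝ G) y v v = fderiv ℝ (fun y => fderiv ℝ G y v) y v := by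
      intro G hG y
      rw [fderiv_clm_apply (hG.differentiable (by simp) y) (differentiableAt_const v)]
      simp
    rw [e1 F hF']
    have e2 : (fun y => fderiv ℝ F y v) = fun y => ∫ t, fderiv ℝ ρ t v * g (y - t) := by
      ext y; exact fderiv_conv hρ hρc hg y v
    rw [e2, fderiv_conv (ρ := fun t => fderiv ℝ ρ t v) (hρ'.clm_apply contDiff_const)
      (hρc.fderiv_apply (𝕜 := ℝ) v) hg x v]
    refine integral_congr_ae (Eventually.of_forall fun t => ?_)
    simp only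
    rw [e1 ρ hρ']
  have hint : ∀ v, Integrable fun t => fderiv ℝ (fderiv ℝ ρ) t v v * g (x - t) := by
    intro v
    have hc : Continuous fun t => fderiv ℝ (fderiv ℝ ρ) t v v := by
      have h3 : Continuous (fderiv ℝ (fderiv ℝ ρ)) :=
        (hρ'.fderiv_right (m := ∞) (by simp)).continuous
      exact (h3.clm_apply continuous_const).clm_apply continuous_const
    refine Continuous.integrable_of_hasCompactSupport (hc.mul (hg.comp (by fun_prop))) ?_
    refine HasCompactSupport.mul_right ?_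
    have := (hρc.fderiv (𝕜 := ℝ)).fderiv_apply (𝕜 := ℝ) v
    exact this.comp_left (g := fun A : (Fin n → ℂ) →L[ℝ] ℝ => A v) (by simp)
  rw [Lev, h2, h2, ← integral_add (hint _) (hint _), ← integral_const_mul]
  refine integral_congr_ae (Eventually.of_forall fun t => ?_)
  simp only [Lev]
  ring

theorem Lev_moll (b : ContDiffBump (0 : Fin n → ℂ)) {g : (Fin n → ℂ) → ℝ}
    (hg : Continuous g) (x ξ : Fin n → ℂ) :
    Lev (moll b g) x ξ = ∫ t, Lev (b.normed volume) t ξ * g (x - t) :=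
  Lev_conv b.contDiff_normed b.hasCompactSupport_normed hg x ξ

theorem hasFDerivAt_reflect {F : Type*} [NormedAddCommGroup F] [NormedSpace ℝ F]
    {G : (Fin n → ℂ) → F} (hG : Differentiable ℝ G) (x s : Fin n → ℂ) :
    HasFDerivAt (fun s => G (x - s)) (-fderiv ℝ G (x - s)) s := by
  have h1 : HasFDerivAt (fun s : Fin n → ℂ => x - s) (-ContinuousLinearMap.id ℝ (Fin n → ℂ)) s :=
    (hasFDerivAt_id s).const_sub x
  have h2 := (hG (x - s)).hasFDerivAt.comp s h1
  rw [ContinuousLinearMap.comp_neg, ContinuousLinearMap.comp_id] at h2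
  exact h2

/-- Levi form of `ρ(x - ·)`. -/
theorem Lev_reflect {ρ : (Fin n → ℂ) → ℝ} (hρ : ContDiff ℝ ∞ ρ) (x s ξ : Fin n → ℂ) :
    Lev (fun s => ρ (x - s)) s ξ = Lev ρ (x - s) ξ := by
  have hρ' : ContDiff ℝ ∞ (fderiv ℝ ρ) := hρ.fderiv_right (m := ∞) (by simp)
  have h1 : fderiv ℝ (fun s => ρ (x - s)) = fun s => -fderiv ℝ ρ (x - s) := by
    ext1 s
    exact (hasFDerivAt_reflect (hρ.differentiable (by simp)) x s).fderiv
  have h2 : fderiv ℝ (fderiv ℝ (fun s => ρ (x - s))) s = fderiv ℝ (fderiv ℝ ρ) (x - s) := by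
    rw [h1]
    have := (hasFDerivAt_reflect (hρ'.differentiable (by simp)) x s).neg
    rw [neg_neg] at this
    exact this.fderiv
  rw [Lev, Lev, h2]

/-- the Levi form vanishes off the support. -/
theorem Lev_eq_zero {η : (Fin n → ℂ) → ℝ} {x : Fin n → ℂ} (hx : x ∉ tsupport η)
    (ξ : Fin n → ℂ) : Lev η x ξ = 0 := by
  have h0 : η =ᶠ[𝓝 x] fun _ => 0 := notMem_tsupport_iff_eventuallyEq.1 hx
  have h1 : fderiv ℝ η =ᶠ[𝓝 x] 0 := by
    have := h0.fderiv (𝕜 := ℝ)
    simpa using this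
  rw [Lev, h1.fderiv_eq]
  simp

/-- **(M2)** Weyl's lemma for the Levi form. -/
theorem circle_eq_of_test {D : Set (Fin n → ℂ)} (hD : IsOpen D) {φ : (Fin n → ℂ) → ℝ}
    (hφ : ContinuousOn φ D)
    (h : ∀ η : (Fin n → ℂ) → ℝ, ContDiff ℝ ∞ η → HasCompactSupport η → tsupport η ⊆ D →
      (∀ x, 0 ≤ η x) → ∀ ξ, ∫ x, φ x * Lev η x ξ = 0) :
    Plh D φ := by
  intro x ξ hx
  set Q : Set (Fin n → ℂ) := (fun ζ : ℂ => x + ζ • ξ) '' closedBall 0 1 with hQ
  have hQc : IsCompact Q := (isCompact_closedBall 0 1).image (by fun_prop)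
  have hQD : Q ⊆ D := by
    rintro _ ⟨ζ, hζ, rfl⟩
    exact hx ζ (by simpa using hζ)
  obtain ⟨δ, hδ, hδD⟩ := hQc.exists_cthickening_subset_open hD hQD
  have hK1 : IsCompact (cthickening δ Q) := hQc.cthickening
  obtain ⟨g, hg, hgc, hgφ⟩ := exists_cutoff hD hφ hK1 hδD
  have hQK : Q ⊆ cthickening δ Q := self_subset_cthickening Q
  have hgu : UniformContinuous g := hgc.uniformContinuous_of_continuous hg
  -- the mollified functions have vanishing Levi form near the disc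
  have hlev : ∀ b : ContDiffBump (0 : Fin n → ℂ), b.rOut ≤ δ / 2 →
      ∀ y ∈ thickening (δ / 2) Q, ∀ ξ, Lev (moll b g) y ξ = 0 := by
    intro b hb y hy ξ
    rw [Lev_moll b hg]
    have hρ : ContDiff ℝ ∞ (b.normed volume : (Fin n → ℂ) → ℝ) := b.contDiff_normed
    set η : (Fin n → ℂ) → ℝ := fun s => b.normed volume (y - s) with hη
    have hηs : tsupport η ⊆ closedBall y (δ / 2) := by
      refine closure_minimal (fun s hs => ?_) isClosed_closedBall
      have : y - s ∈ support (b.normed volume) := hs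
      rw [b.support_normed_eq, mem_ball_zero_iff] at this
      rw [mem_closedBall, dist_comm, dist_eq_norm]
      exact (this.le.trans hb)
    have hηK : tsupport η ⊆ cthickening δ Q := by
      intro s hs
      obtain ⟨q, hq, hqy⟩ := mem_thickening_iff.1 hy
      have h1 := mem_closedBall.1 (hηs hs)
      refine mem_cthickening_of_dist_le s q δ Q hq ?_
      have := dist_triangle s y q
      linarith
    have h2 := h η (hρ.comp (contDiff_const.sub contDiff_id))
      ((isCompact_closedBall y (δ / 2)).of_isClosed_subset (isClosed_tsupport _) hηs)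
      (hηK.trans hδD) (fun s => b.nonneg_normed _) ξ
    rw [← integral_sub_left_eq_self _ volume y, ← h2]
    refine integral_congr_ae (Eventually.of_forall fun s => ?_)
    simp only [sub_sub_cancel]
    rw [hη, Lev_reflect hρ]
    by_cases hs : s ∈ tsupport η
    · rw [hgφ s (hηK hs), mul_comm]
    · have := Lev_eq_zero hs ξ
      rw [hη, Lev_reflect hρ] at this
      rw [this]; simp
  have hmean : ∀ b : ContDiffBump (0 : Fin n → ℂ), b.rOut ≤ δ / 2 →
      Real.circleAverage (fun ζ : ℂ => moll b g (x + ζ • ξ)) 0 1 = moll b g x := by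
    intro b hb
    refine mean_eq (contDiff_moll b hg) isOpen_thickening (hlev b hb) x ξ ?_
    intro ζ hζ
    exact self_subset_thickening (by positivity) Q ⟨ζ, by simpa using hζ, rfl⟩
  have hgint : ∀ f : (Fin n → ℂ) → ℝ, Continuous f →
      CircleIntegrable (fun ζ : ℂ => f (x + ζ • ξ)) 0 1 := fun f hf =>
    (hf.comp (by fun_prop)).continuousOn.circleIntegrable'
  have hfin : Real.circleAverage (fun ζ : ℂ => g (x + ζ • ξ)) 0 1 = g x := by
    by_contra hne
    set e : ℝ := |Real.circleAverage (fun ζ : ℂ => g (x + ζ • ξ)) 0 1 - g x| with he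
    have hepos : 0 < e := abs_pos.2 (sub_ne_zero.2 hne)
    obtain ⟨d, hd, hgd⟩ := Metric.uniformContinuous_iff.1 hgu (e / 4) (by positivity)
    set r : ℝ := min (δ / 2) d with hr
    have hrpos : 0 < r := lt_min (by positivity) hd
    set b : ContDiffBump (0 : Fin n → ℂ) := ⟨r / 2, r, by positivity, by linarith⟩ with hbdef
    have hbr : b.rOut = r := rfl
    have hb1 : b.rOut ≤ δ / 2 := by rw [hbr]; exact min_le_left _ _
    have happ : ∀ y, |moll b g y - g y| ≤ e / 4 := by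
      intro y
      refine abs_moll_sub_le b hg fun z hz => ?_
      have := hgd (a := z) (b := y) (lt_of_lt_of_le (mem_ball.1 hz) (by
        rw [hbr]; exact min_le_right _ _))
      rw [Real.dist_eq] at this
      exact this.le
    have h1 : |Real.circleAverage (fun ζ : ℂ => g (x + ζ • ξ)) 0 1
        - Real.circleAverage (fun ζ : ℂ => moll b g (x + ζ • ξ)) 0 1| ≤ e / 4 := by
      rw [← Real.circleAverage_fun_sub (hgint g hg)
        (hgint _ (contDiff_moll b hg).continuous)]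
      refine Real.abs_circleAverage_le_circleAverage_abs.trans ?_
      refine Real.circleAverage_mono_on_of_le_circle ?_ fun ζ _ => ?_
      · exact (Continuous.continuousOn (by
          have c1 : Continuous fun ζ : ℂ => g (x + ζ • ξ) := hg.comp (by fun_prop)
          have c2 : Continuous fun ζ : ℂ => moll b g (x + ζ • ξ) :=
            (contDiff_moll b hg).continuous.comp (by fun_prop)
          exact (c1.sub c2).abs)).circleIntegrable'
      · show |g (x + ζ • ξ) - moll b g (x + ζ • ξ)| ≤ e / 4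
        rw [abs_sub_comm]
        exact happ _
    rw [hmean b hb1] at h1
    have h2 := happ x
    have h3 : e ≤ e / 4 + e / 4 := by
      calc e = |(Real.circleAverage (fun ζ : ℂ => g (x + ζ • ξ)) 0 1 - moll b g x)
            + (moll b g x - g x)| := by rw [he]; congr 1; ring
        _ ≤ _ := (abs_add_le _ _).trans (add_le_add h1 h2)
    linarith
  have hx0 : x ∈ Q := ⟨0, by simp, by simp⟩
  rw [← hgφ x (hQK hx0), ← hfin]
  refine Real.circleAverage_congr_sphere fun ζ hζ => ?_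
  have : x + ζ • ξ ∈ Q := ⟨ζ, by
    have : ‖ζ‖ = 1 := by simpa using hζ
    simp [this], rfl⟩
  exact hgφ _ (hQK this)

/-- **(M1)** smooth psh approximation. -/
theorem exists_moll {D : Set (Fin n → ℂ)} (hD : IsOpen D) {φ : (Fin n → ℂ) → ℝ}
    (hφ : ContinuousOn φ D) (hpsh : Psh D φ) {K : Set (Fin n → ℂ)} (hK : IsCompact K)
    (hKD : K ⊆ D) :
    ∃ F : ℕ → (Fin n → ℂ) → ℝ, (∀ k, ContDiff ℝ ∞ (F k)) ∧
      (∀ k, ∀ x ∈ K, ∀ ξ, 0 ≤ Lev (F k) x ξ) ∧ TendstoUniformlyOn F φ atTop K := by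
  obtain ⟨δ, hδ, hδD⟩ := hK.exists_cthickening_subset_open hD hKD
  have hK1 : IsCompact (cthickening δ K) := hK.cthickening
  obtain ⟨g, hg, hgc, hgφ⟩ := exists_cutoff hD hφ hK1 hδD
  have hKK : K ⊆ cthickening δ K := self_subset_cthickening K
  have hgu : UniformContinuous g := hgc.uniformContinuous_of_continuous hg
  set r : ℕ → ℝ := fun k => δ / (k + 2) with hr
  have hrpos : ∀ k, 0 < r k := fun k => by positivity
  have hrle : ∀ k, r k ≤ δ / 2 := fun k => by
    rw [hr]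
    exact div_le_div_of_nonneg_left hδ.le (by norm_num) (by linarith [Nat.cast_nonneg (α := ℝ) k])
  have hrlim : Tendsto r atTop (𝓝 0) := by
    have : Tendsto (fun k : ℕ => (k : ℝ) + 2) atTop atTop :=
      tendsto_atTop_add_const_right _ _ tendsto_natCast_atTop_atTop
    exact tendsto_const_nhds.div_atTop this
  set b : ℕ → ContDiffBump (0 : Fin n → ℂ) := fun k =>
    ⟨r k / 2, r k, half_pos (hrpos k), half_lt_self (hrpos k)⟩ with hb
  refine ⟨fun k => moll (b k) g, fun k => contDiff_moll _ hg, fun k x hx ξ => ?_, ?_⟩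
  · refine lev_nonneg (contDiff_moll _ hg) x ξ ?_
    filter_upwards [ball_mem_nhds (0 : Fin n → ℂ) (half_pos hδ)] with v hv
    rw [mem_ball_zero_iff] at hv
    refine moll_submean (b k) hg hgc x v fun t ht => ?_
    rw [mem_ball_zero_iff] at ht
    have ht' : ‖t‖ < δ / 2 := lt_of_lt_of_le ht (hrle k)
    have hmem : ∀ ζ : ℂ, ‖ζ‖ ≤ 1 → x - t + ζ • v ∈ cthickening δ K := by
      intro ζ hζ
      refine mem_cthickening_of_dist_le _ x δ K hx ?_
      rw [dist_eq_norm]
      have h1 : x - t + ζ • v - x = ζ • v - t := by abel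
      rw [h1]
      have h2 : ‖ζ • v‖ ≤ δ / 2 := by
        rw [norm_smul]
        exact (mul_le_of_le_one_left (norm_nonneg _) hζ).trans hv.le
      have := norm_sub_le (ζ • v) t
      linarith
    have h3 := hpsh (x - t) v fun ζ hζ => hδD (hmem ζ hζ)
    have h4 : x - t ∈ cthickening δ K := by simpa using hmem 0 (by simp)
    rw [hgφ _ h4]
    refine h3.trans (le_of_eq ?_)
    refine Real.circleAverage_congr_sphere fun ζ hζ => ?_
    have : ‖ζ‖ = 1 := by simpa using hζ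
    exact (hgφ _ (hmem ζ this.le)).symm
  · rw [Metric.tendstoUniformlyOn_iff]
    intro ε hε
    obtain ⟨d, hd, hgd⟩ := Metric.uniformContinuous_iff.1 hgu (ε / 2) (by positivity)
    filter_upwards [hrlim.eventually (gt_mem_nhds hd)] with k hk x hx
    rw [← hgφ x (hKK hx), dist_comm, Real.dist_eq]
    have : |moll (b k) g x - g x| ≤ ε / 2 := by
      refine abs_moll_sub_le (b k) hg fun z hz => ?_
      have h5 : dist z x < d := lt_trans (mem_ball.1 hz) hk
      have := hgd (a := z) (b := x) h5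
      rw [Real.dist_eq] at this
      exact this.le
    linarith

end

end Crest.Agent.R264.KM

namespace Crest.Agent.R264.K

open Crest.Agent.R264.Berg (Lev)

variable {n : ℕ}

/-- **(M1)** -/
theorem exists_moll {D : Set (Fin n → ℂ)} (hD : IsOpen D) {φ : (Fin n → ℂ) → ℝ}
    (hφ : ContinuousOn φ D) (hpsh : Psh D φ) {K : Set (Fin n → ℂ)} (hK : IsCompact K)
    (hKD : K ⊆ D) :
    ∃ F : ℕ → (Fin n → ℂ) → ℝ, (∀ k, ContDiff ℝ ∞ (F k)) ∧
      (∀ k, ∀ x ∈ K, ∀ ξ, 0 ≤ Lev (F k) x ξ) ∧ TendstoUniformlyOn F φ atTop K :=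
  KM.exists_moll hD hφ hpsh hK hKD

/-- **(M2)** -/
theorem circle_eq_of_test {D : Set (Fin n → ℂ)} (hD : IsOpen D) {φ : (Fin n → ℂ) → ℝ}
    (hφ : ContinuousOn φ D)
    (h : ∀ η : (Fin n → ℂ) → ℝ, ContDiff ℝ ∞ η → HasCompactSupport η → tsupport η ⊆ D →
      (∀ x, 0 ≤ η x) → ∀ ξ, ∫ x, φ x * Lev η x ξ = 0) :
    Plh D φ :=
  KM.circle_eq_of_test hD hφ h

end Crest.Agent.R264.K
end

-- ▼ part R264/KMollGlue
section

/-! Row 264, node D6: the mollification statements in the shape of `KAsm` (helper375). -/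

set_option autoImplicit false

open Set Filter Topology MeasureTheory
open scoped ContDiff

namespace Crest.Agent.R264.K

theorem mollStmt (n : ℕ) : MollStmt n := fun _ _ hD hφ hp _ hKD hK =>
  KM.exists_moll hD hφ hp hK hKD

theorem circStmt (n : ℕ) : CircStmt n := fun _ _ hD hφ h => KM.circle_eq_of_test hD hφ h


end Crest.Agent.R264.K
end

-- ▼ part R264/KVan
section

/-! Row 264, node D6 (Lemma K), part (U): the `Γ`-part (helper587). -/

set_option autoImplicit false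

open Set Filter Topology MeasureTheory
open scoped ContDiff

namespace Crest.Agent.R264.K

noncomputable section

variable {n : ℕ}

/-- pull back of a function by an automorphism of `D`, extended by zero -/
def pull (D : Set (Fin n → ℂ)) (f : (Fin n → ℂ) → (Fin n → ℂ)) (h : (Fin n → ℂ) → ℝ) :
    (Fin n → ℂ) → ℝ :=
  D.indicator (fun x => h (f x))

lemma pull_mem {D : Set (Fin n → ℂ)} {f : (Fin n → ℂ) → (Fin n → ℂ)} {h : (Fin n → ℂ) → ℝ}
    {x : Fin n → ℂ} (hx : x ∈ D) : pull D f h x = h (f x) := indicator_of_mem hx _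

lemma pull_not_mem {D : Set (Fin n → ℂ)} {f : (Fin n → ℂ) → (Fin n → ℂ)} {h : (Fin n → ℂ) → ℝ}
    {x : Fin n → ℂ} (hx : x ∉ D) : pull D f h x = 0 := indicator_of_notMem hx _

lemma contDiffAt_of_hol {D : Set (Fin n → ℂ)} (hD : IsOpen D)
    {f : (Fin n → ℂ) → (Fin n → ℂ)} (hf : DifferentiableOn ℂ f D) {x : Fin n → ℂ} (hx : x ∈ D) :
    ContDiffAt ℝ ∞ f x :=
  (((R266.SCV.contDiffOn_omega_of_differentiableOn hD hf).of_le
    (by simp)).restrict_scalars ℝ).contDiffAt (hD.mem_nhds hx)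

lemma Test.eq_zero {D : Set (Fin n → ℂ)} {h : (Fin n → ℂ) → ℝ} (hh : Test D h)
    {x : Fin n → ℂ} (hx : x ∉ D) : h x = 0 :=
  image_eq_zero_of_notMem_tsupport (fun h1 => hx (hh.2.2 h1))

/-- pull backs of test functions are test functions -/
theorem Test.pull {D : Set (Fin n → ℂ)} (hD : IsOpen D) {f g : (Fin n → ℂ) → (Fin n → ℂ)}
    (H : AutPair D f g) {h : (Fin n → ℂ) → ℝ} (hh : Test D h) : Test D (pull D f h) := by
  have hKc : IsCompact (g '' tsupport h) :=
    (hh.2.1 : IsCompact (tsupport h)).image_of_continuousOn (H.hG.continuousOn.mono hh.2.2)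
  have hKD : g '' tsupport h ⊆ D := by
    rintro _ ⟨x, hx, rfl⟩
    exact H.mapsG (hh.2.2 hx)
  have hsub : Function.support (K.pull D f h) ⊆ g '' tsupport h := by
    intro x hx
    have hxD : x ∈ D := by
      by_contra h1
      exact hx (pull_not_mem h1)
    rw [Function.mem_support, pull_mem hxD] at hx
    exact ⟨f x, subset_tsupport _ hx, H.left x hxD⟩
  have hts : tsupport (K.pull D f h) ⊆ g '' tsupport h :=
    closure_minimal hsub hKc.isClosed
  refine ⟨?_, hKc.of_isClosed_subset (isClosed_tsupport _) hts, hts.trans hKD⟩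
  rw [contDiff_iff_contDiffAt]
  intro x
  by_cases hx : x ∈ D
  · have h1 : ContDiffAt ℝ ∞ (fun y => h (f y)) x :=
      hh.1.contDiffAt.comp x (contDiffAt_of_hol hD H.hF hx)
    refine h1.congr_of_eventuallyEq ?_
    filter_upwards [hD.mem_nhds hx] with y hy
    exact pull_mem hy
  · have h1 : K.pull D f h =ᶠ[𝓝 x] fun _ => (0 : ℝ) := by
      have h2 : x ∉ tsupport (K.pull D f h) := fun h3 => hx (hKD (hts h3))
      exact notMem_tsupport_iff_eventuallyEq.1 h2
    exact contDiffAt_const.congr_of_eventuallyEq h1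

/-- change of variables by an automorphism -/
theorem integral_aut {D : Set (Fin n → ℂ)} (hD : IsOpen D) {f g : (Fin n → ℂ) → (Fin n → ℂ)}
    (H : AutPair D f g) (F : (Fin n → ℂ) → ℝ) :
    ∫ x in D, ‖(fderiv ℂ f x).det‖ ^ 2 * F (f x) = ∫ x in D, F x := by
  have himg : f '' D = D := by
    apply Subset.antisymm
    · rintro _ ⟨x, hx, rfl⟩
      exact H.mapsF hx
    · intro x hx
      exact ⟨g x, H.mapsG hx, H.right x hx⟩
  have hinj : InjOn f D := by
    intro x hx y hy hxy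
    rw [← H.left x hx, ← H.left y hy, hxy]
  have hder : ∀ x ∈ D, HasFDerivWithinAt f ((fderiv ℂ f x).restrictScalars ℝ) D x := by
    intro x hx
    exact ((H.hF.differentiableAt (hD.mem_nhds hx)).hasFDerivAt.restrictScalars
      ℝ).hasFDerivWithinAt
  have h1 := integral_image_eq_integral_abs_det_fderiv_smul volume hD.measurableSet hder hinj F
  rw [himg] at h1
  rw [h1]
  refine setIntegral_congr_fun hD.measurableSet (fun x _ => ?_)
  simp only [BergTrans.det_restrictScalars_clm, smul_eq_mul]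
  rw [abs_of_nonneg (by positivity)]

/-- the integral of a function vanishing off `D` -/
lemma integral_eq_on {D : Set (Fin n → ℂ)} (F : (Fin n → ℂ) → ℝ)
    (hF : ∀ x, x ∉ D → F x = 0) : ∫ x, F x = ∫ x in D, F x :=
  (setIntegral_eq_integral_of_forall_compl_eq_zero hF).symm

section OpL

variable {D : Set (Fin n → ℂ)} {Γ : Set ((Fin n → ℂ) → (Fin n → ℂ))}
  {L : ((Fin n → ℂ) → ℝ) → (Fin n → ℂ) → ℝ}

lemma OpL.zero_off (hL : OpL D Γ L) {h : (Fin n → ℂ) → ℝ} {x : Fin n → ℂ}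
    (hx : x ∉ tsupport h) : L h x = 0 := by
  rw [hL.congr h (fun _ => 0) x (notMem_tsupport_iff_eventuallyEq.1 hx), hL.const]

lemma OpL.zero_off' (hL : OpL D Γ L) {h : (Fin n → ℂ) → ℝ} (hh : Test D h) {x : Fin n → ℂ}
    (hx : x ∉ D) : L h x = 0 := hL.zero_off (fun h1 => hx (hh.2.2 h1))

/-- integrability of `F * L h` -/
lemma OpL.integrable (hL : OpL D Γ L) (hD : IsOpen D) {h : (Fin n → ℂ) → ℝ} (hh : Test D h)
    {F : (Fin n → ℂ) → ℝ} (hF : ContinuousOn F D) : Integrable (fun x => F x * L h x) := by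
  have h1 : ContinuousOn (fun x => F x * L h x) D := hF.mul (hL.cont h hh.1)
  have h2 : ∀ x, x ∉ tsupport h → F x * L h x = 0 := by
    intro x hx
    rw [hL.zero_off hx, mul_zero]
  have h3 : Continuous (fun x => F x * L h x) := by
    rw [continuous_iff_continuousAt]
    intro x
    by_cases hx : x ∈ D
    · exact h1.continuousAt (hD.mem_nhds hx)
    · have h4 : x ∈ (tsupport h)ᶜ := fun h5 => hx (hh.2.2 h5)
      have h5 : (fun x => F x * L h x) =ᶠ[𝓝 x] fun _ => (0 : ℝ) := by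
        filter_upwards [(isClosed_tsupport h).isOpen_compl.mem_nhds h4] with y hy
        exact h2 y hy
      exact (continuousAt_const).congr_of_eventuallyEq h5
  exact h3.integrable_of_hasCompactSupport
    (HasCompactSupport.intro hh.2.1 h2)

/-- `∫ L h = 0` -/
lemma OpL.integral_L (hL : OpL D Γ L) {h : (Fin n → ℂ) → ℝ} (hh : Test D h) :
    ∫ x, L h x = 0 := by
  have h1 := hL.symm h (fun _ => 1) hh contDiff_const
  simp only [hL.const, mul_zero, one_mul] at h1
  rw [← h1]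
  simp

/-- the operator on a pull back -/
lemma OpL.pull_eq (hL : OpL D Γ L) (hD : IsOpen D) {f : (Fin n → ℂ) → (Fin n → ℂ)}
    (hf : f ∈ Γ) {h : (Fin n → ℂ) → ℝ} (hh : ContDiff ℝ ∞ h) {x : Fin n → ℂ} (hx : x ∈ D) :
    L (pull D f h) x = ‖(fderiv ℂ f x).det‖ ^ 2 * L h (f x) := by
  rw [← hL.inv f hf h x hx hh.contDiffAt]
  refine hL.congr _ _ x ?_
  filter_upwards [hD.mem_nhds hx] with y hy
  exact pull_mem hy

/-- basic change of variables -/
lemma OpL.cov (hL : OpL D Γ L) (hD : IsOpen D) {f g : (Fin n → ℂ) → (Fin n → ℂ)}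
    (hf : f ∈ Γ) (H : AutPair D f g) {h : (Fin n → ℂ) → ℝ} (hh : Test D h)
    (F : (Fin n → ℂ) → ℝ) :
    ∫ x, F (f x) * L (pull D f h) x = ∫ x, F x * L h x := by
  rw [integral_eq_on (D := D) (fun x => F x * L h x)
      (fun x hx => by rw [hL.zero_off' hh hx, mul_zero]),
    integral_eq_on (D := D) (fun x => F (f x) * L (pull D f h) x)
      (fun x hx => by rw [hL.zero_off' (hh.pull hD H) hx, mul_zero]),
    ← integral_aut hD H (fun x => F x * L h x)]
  refine setIntegral_congr_fun hD.measurableSet (fun x hx => ?_)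
  rw [hL.pull_eq hD hf hh.1 hx]
  ring

/-- (2): invariance of `Λ` -/
lemma OpL.lam_pull (hL : OpL D Γ L) (hD : IsOpen D) {f g : (Fin n → ℂ) → (Fin n → ℂ)}
    (hf : f ∈ Γ) (H : AutPair D f g) {h : (Fin n → ℂ) → ℝ} (hh : Test D h)
    {φ : (Fin n → ℂ) → ℝ} (hφ : ContinuousOn φ D) {c : ℝ} (hc : ∀ x ∈ D, φ (f x) = φ x + c) :
    ∫ x, φ x * L (pull D f h) x = ∫ x, φ x * L h x := by
  have h1 := hL.cov hD hf H hh (fun x => φ x - c)
  have h2 : ∀ x, (φ (f x) - c) * L (pull D f h) x = φ x * L (pull D f h) x := by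
    intro x
    by_cases hx : x ∈ D
    · rw [hc x hx]; ring
    · rw [hL.zero_off' (hh.pull hD H) hx]; ring
  simp only [h2] at h1
  rw [h1]
  have h3 : ∀ x, (φ x - c) * L h x = φ x * L h x - c * L h x := fun x => by ring
  simp only [h3]
  rw [integral_sub (hL.integrable hD hh hφ) (hL.integrable hD hh continuousOn_const),
    integral_const_mul, hL.integral_L hh, mul_zero, sub_zero]

/-- (3): `b(f) = b(f⁻¹)` -/
lemma OpL.b_symm (hL : OpL D Γ L) (hD : IsOpen D) {f g : (Fin n → ℂ) → (Fin n → ℂ)}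
    (hg : g ∈ Γ) (H : AutPair D f g) {ψ : (Fin n → ℂ) → ℝ} (hψ : Test D ψ) :
    ∫ x, ψ x * L (pull D f ψ) x = ∫ x, ψ x * L (pull D g ψ) x := by
  have H' : AutPair D g f := ⟨H.hG, H.hF, H.mapsG, H.mapsF, H.right, H.left⟩
  rw [hL.symm ψ (pull D f ψ) hψ (hψ.pull hD H).1]
  rw [← hL.cov hD hg H' hψ (pull D f ψ)]
  refine integral_congr_ae (Eventually.of_forall (fun x => ?_))
  simp only
  by_cases hx : x ∈ D
  · rw [pull_mem (H'.mapsF hx), H'.left x hx]
  · rw [hL.zero_off' (hψ.pull hD H') hx, mul_zero, mul_zero]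

/-- additivity of `L` along finite sums of test functions -/
lemma OpL.sum (hL : OpL D Γ L) {ι : Type*} (s : Finset ι) (h : ι → (Fin n → ℂ) → ℝ)
    (hh : ∀ i ∈ s, ContDiff ℝ ∞ (h i)) {x : Fin n → ℂ} (hx : x ∈ D) :
    L (fun y => ∑ i ∈ s, h i y) x = ∑ i ∈ s, L (h i) x := by
  classical
  induction s using Finset.induction_on with
  | empty => simp [hL.const]
  | insert a s ha ih =>
    simp only [Finset.sum_insert ha]
    rw [hL.add (h a) (fun y => ∑ i ∈ s, h i y) x hx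
      (hh a (Finset.mem_insert_self _ _)).contDiffAt
      (ContDiff.sum (fun i hi => hh i (Finset.mem_insert_of_mem hi))).contDiffAt,
      ih (fun i hi => hh i (Finset.mem_insert_of_mem hi))]

end OpL

/-! ### Test functions -/

lemma Test.add {D : Set (Fin n → ℂ)} {h k : (Fin n → ℂ) → ℝ} (hh : Test D h) (hk : Test D k) :
    Test D (fun x => h x + k x) := by
  refine ⟨hh.1.add hk.1, hh.2.1.add hk.2.1, ?_⟩
  exact (tsupport_add h k).trans (union_subset hh.2.2 hk.2.2)

lemma Test.const_mul {D : Set (Fin n → ℂ)} {h : (Fin n → ℂ) → ℝ} (hh : Test D h) (c : ℝ) :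
    Test D (fun x => c * h x) := by
  refine ⟨contDiff_const.mul hh.1, hh.2.1.mul_left, ?_⟩
  exact (tsupport_mul_subset_right (f := fun _ => c) (g := h)).trans hh.2.2

lemma Test.zero {D : Set (Fin n → ℂ)} : Test D (fun _ => 0) := by
  refine ⟨contDiff_const, ?_, ?_⟩
  · exact HasCompactSupport.zero
  · have : tsupport (fun _ : Fin n → ℂ => (0 : ℝ)) = ∅ := by
      rw [tsupport_eq_empty_iff]; rfl
    rw [this]; exact empty_subset _

lemma Test.sum {D : Set (Fin n → ℂ)} {ι : Type*} (s : Finset ι) (h : ι → (Fin n → ℂ) → ℝ)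
    (hh : ∀ i ∈ s, Test D (h i)) : Test D (fun x => ∑ i ∈ s, h i x) := by
  classical
  induction s using Finset.induction_on with
  | empty => simpa using Test.zero
  | insert a s ha ih =>
    simp only [Finset.sum_insert ha]
    exact (hh a (Finset.mem_insert_self _ _)).add
      (ih (fun i hi => hh i (Finset.mem_insert_of_mem hi)))

/-- nonnegative test function positive on a compact set -/
lemma exists_test_pos {D : Set (Fin n → ℂ)} (hD : IsOpen D) {K : Set (Fin n → ℂ)}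
    (hK : IsCompact K) (hKD : K ⊆ D) :
    ∃ ψ, Test D ψ ∧ (∀ x, 0 ≤ ψ x) ∧ ∀ x ∈ K, 0 < ψ x := by
  classical
  have h1 : ∀ x ∈ K, ∃ f : (Fin n → ℂ) → ℝ, Test D f ∧ (∀ y, 0 ≤ f y) ∧ 0 < f x := by
    intro x hx
    obtain ⟨f, h1, h2, h3, h4, h5⟩ := exists_contDiff_tsupport_subset (n := ⊤)
      (hD.mem_nhds (hKD hx))
    exact ⟨f, ⟨h3, h2, h1⟩, fun y => (h4 (mem_range_self y)).1, by rw [h5]; norm_num⟩
  choose! f hf1 hf2 hf3 using h1
  obtain ⟨t, ht, htK⟩ := hK.elim_nhds_subcover (fun x => {y | 0 < f x y}) (fun x hx =>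
    (isOpen_lt continuous_const (hf1 x hx).1.continuous).mem_nhds (hf3 x hx))
  refine ⟨fun y => ∑ x ∈ t, f x y, Test.sum t f (fun x hx => hf1 x (ht x hx)),
    fun y => Finset.sum_nonneg (fun x hx => hf2 x (ht x hx) y), fun y hy => ?_⟩
  obtain ⟨x, hx, hxy⟩ := mem_iUnion₂.1 (htK hy)
  exact Finset.sum_pos' (fun x hx => hf2 x (ht x hx) y) ⟨x, hx, hxy⟩

/-! ### Sums over the group -/

/-- the sum over the group -/
def tot (Γ : Set ((Fin n → ℂ) → (Fin n → ℂ))) (h : (Fin n → ℂ) → ℝ) (x : Fin n → ℂ) : ℝ :=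
  ∑ᶠ f ∈ Γ, h (f x)

section Grp

variable {D : Set (Fin n → ℂ)} {Γ : Set ((Fin n → ℂ) → (Fin n → ℂ))}

lemma tot_eq' {h : (Fin n → ℂ) → ℝ} {x : Fin n → ℂ} (F : Finset ((Fin n → ℂ) → (Fin n → ℂ)))
    (hF : ∀ f ∈ F, f ∈ Γ) (hF' : ∀ f ∈ Γ, h (f x) ≠ 0 → f ∈ F) :
    tot Γ h x = ∑ f ∈ F, h (f x) := by
  refine finsum_mem_eq_sum_of_inter_support_eq _ ?_
  ext f
  simp only [mem_inter_iff, Function.mem_support, Finset.mem_coe]
  exact ⟨fun h1 => ⟨hF' f h1.1 h1.2, h1.2⟩, fun h1 => ⟨hF f h1.1, h1.2⟩⟩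

lemma tot_eq (G : Grp D Γ) {h : (Fin n → ℂ) → ℝ} (hh : Test D h) {K : Set (Fin n → ℂ)}
    (hK : IsCompact K) (hKD : K ⊆ D) :
    ∃ F : Finset ((Fin n → ℂ) → (Fin n → ℂ)),
      (∀ f, f ∈ F ↔ f ∈ Γ ∧ ∃ x ∈ K, f x ∈ tsupport h) ∧
      ∀ x ∈ K, tot Γ h x = ∑ f ∈ F, h (f x) := by
  refine ⟨(G.pd K hKD _ hh.2.2 hK hh.2.1).toFinset, fun f => by simp, fun x hx => ?_⟩
  refine tot_eq' _ (fun f hf => ?_) (fun f hf h1 => ?_)
  · simp only [Finite.mem_toFinset, mem_ofPred_eq] at hf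
    exact hf.1
  · simp only [Finite.mem_toFinset, mem_ofPred_eq]
    exact ⟨hf, x, hx, subset_tsupport _ h1⟩

/-- invariance of the total sum -/
lemma tot_inv (G : Grp D Γ) (h : (Fin n → ℂ) → ℝ) {g : (Fin n → ℂ) → (Fin n → ℂ)} (hg : g ∈ Γ)
    {x : Fin n → ℂ} (hx : x ∈ D) : tot Γ h (g x) = tot Γ h x := by
  obtain ⟨gi, hgi, H⟩ := G.inv g hg
  have h1 : ∀ f : (Fin n → ℂ) → (Fin n → ℂ), ∃ k : (Fin n → ℂ) → (Fin n → ℂ),
      f ∈ Γ → k ∈ Γ ∧ ∀ x ∈ D, k x = f (g x) := by
    intro f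
    by_cases hf : f ∈ Γ
    · obtain ⟨k, hk, hk'⟩ := G.mul f hf g hg
      exact ⟨k, fun _ => ⟨hk, hk'⟩⟩
    · exact ⟨f, fun h => absurd h hf⟩
  choose e he using h1
  refine finsum_mem_eq_of_bijOn e ⟨fun f hf => (he f hf).1, ?_, ?_⟩ (fun f hf => ?_)
  · intro f1 hf1 f2 hf2 h12
    refine G.ext f1 hf1 f2 hf2 (fun y hy => ?_)
    rw [← H.right y hy, ← (he f1 hf1).2 _ (H.mapsG hy), h12, (he f2 hf2).2 _ (H.mapsG hy)]
  · intro k hk
    obtain ⟨f, hf, hf'⟩ := G.mul k hk gi hgi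
    refine ⟨f, hf, G.ext _ (he f hf).1 _ hk (fun y hy => ?_)⟩
    rw [(he f hf).2 y hy, hf' _ (H.mapsF hy), H.left y hy]
  · rw [(he f hf).2 x hx]

/-- smooth partition of unity for `Γ` -/
theorem exists_part (hD : IsOpen D) (G : Grp D Γ) :
    ∃ ψ, Test D ψ ∧ (∀ x, 0 ≤ ψ x) ∧ ∀ x ∈ D, tot Γ ψ x = 1 := by
  obtain ⟨K0, hK0D, hK0, hcov⟩ := G.cocpt
  obtain ⟨ψ0, hT, h0, hp⟩ := exists_test_pos hD hK0 hK0D
  have hfin : ∀ x ∈ D, ∃ F : Finset ((Fin n → ℂ) → (Fin n → ℂ)),
      (∀ f ∈ F, f ∈ Γ) ∧ (∀ f ∈ Γ, ψ0 (f x) ≠ 0 → f ∈ F) := by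
    intro x hx
    obtain ⟨F, hF, -⟩ := tot_eq G hT (K := {x}) isCompact_singleton (singleton_subset_iff.2 hx)
    exact ⟨F, fun f hf => ((hF f).1 hf).1, fun f hf h1 => (hF f).2
      ⟨hf, x, rfl, subset_tsupport _ h1⟩⟩
  -- positivity of the total sum
  have hSpos : ∀ x ∈ D, 0 < tot Γ ψ0 x := by
    intro x hx
    obtain ⟨F, hF, hF'⟩ := hfin x hx
    rw [tot_eq' F hF hF']
    obtain ⟨f, hf, y, hy, rfl⟩ := hcov x hx
    obtain ⟨g, hg, H⟩ := G.inv f hf
    have h1 : 0 < ψ0 (g (f y)) := by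
      rw [H.left y (hK0D hy)]; exact hp y hy
    exact Finset.sum_pos' (fun k _ => h0 _) ⟨g, hF' g hg h1.ne', h1⟩
  -- smoothness of the total sum
  have hSsm : ∀ x ∈ D, ContDiffAt ℝ ∞ (tot Γ ψ0) x := by
    intro x hx
    obtain ⟨r, hr, hsub⟩ := Metric.nhds_basis_closedBall.mem_iff.1 (hD.mem_nhds hx)
    obtain ⟨F, hF, hFs⟩ := tot_eq G hT (isCompact_closedBall x r) hsub
    have h1 : ContDiffAt ℝ ∞ (fun y => ∑ f ∈ F, ψ0 (f y)) x := by
      refine ContDiffAt.sum (fun f hf => ?_)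
      obtain ⟨g, hg, H⟩ := G.inv f ((hF f).1 hf).1
      exact hT.1.contDiffAt.comp x (contDiffAt_of_hol hD H.hF hx)
    refine h1.congr_of_eventuallyEq ?_
    filter_upwards [Metric.closedBall_mem_nhds x hr] with y hy
    exact hFs y hy
  refine ⟨fun x => ψ0 x / tot Γ ψ0 x, ?_, fun x => ?_, fun x hx => ?_⟩
  · have hsub : tsupport (fun x => ψ0 x / tot Γ ψ0 x) ⊆ tsupport ψ0 := by
      refine closure_mono (fun x hx => ?_)
      rw [Function.mem_support] at hx ⊢
      intro h1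
      exact hx (by simp [h1])
    refine ⟨?_, (hT.2.1 : IsCompact (tsupport ψ0)).of_isClosed_subset (isClosed_tsupport _) hsub,
      hsub.trans hT.2.2⟩
    rw [contDiff_iff_contDiffAt]
    intro x
    by_cases hx : x ∈ D
    · exact hT.1.contDiffAt.div (hSsm x hx) (hSpos x hx).ne'
    · have h2 : x ∉ tsupport (fun x => ψ0 x / tot Γ ψ0 x) := fun h3 => hx (hT.2.2 (hsub h3))
      exact contDiffAt_const.congr_of_eventuallyEq (notMem_tsupport_iff_eventuallyEq.1 h2)
  · by_cases hx : x ∈ D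
    · exact div_nonneg (h0 x) (hSpos x hx).le
    · simp only [hT.eq_zero hx, zero_div, le_refl]
  · obtain ⟨F, hF, hF'⟩ := hfin x hx
    rw [tot_eq' F hF (fun f hf h1 => hF' f hf (fun h2 => h1 (by simp [h2])))]
    have h1 : ∀ f ∈ F, ψ0 (f x) / tot Γ ψ0 (f x) = ψ0 (f x) / tot Γ ψ0 x := by
      intro f hf
      rw [tot_inv G ψ0 (hF f hf) hx]
    rw [Finset.sum_congr rfl h1, ← Finset.sum_div, ← tot_eq' F hF hF']
    exact div_self (hSpos x hx).ne'

end Grp

/-- (U): the `Γ`-part. -/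
theorem vanStmt (n : ℕ) : VanStmt n := by
  classical
  intro D Γ hD hne G L hL φ hφ hcex hpos h hh hh0
  obtain ⟨ψ, hψ, hψ0, hψ1⟩ := exists_part hD G
  have hinv : ∀ f : (Fin n → ℂ) → (Fin n → ℂ), ∃ g : (Fin n → ℂ) → (Fin n → ℂ),
      f ∈ Γ → g ∈ Γ ∧ AutPair D f g := by
    intro f
    by_cases hf : f ∈ Γ
    · obtain ⟨g, hg, H⟩ := G.inv f hf
      exact ⟨g, fun _ => ⟨hg, H⟩⟩
    · exact ⟨f, fun h => absurd h hf⟩
  choose iv hiv using hinv
  have hcex' : ∀ f : (Fin n → ℂ) → (Fin n → ℂ), ∃ c : ℝ, f ∈ Γ → ∀ x ∈ D, φ (f x) = φ x + c := by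
    intro f
    by_cases hf : f ∈ Γ
    · obtain ⟨c, hc⟩ := hcex f hf
      exact ⟨c, fun _ => hc⟩
    · exact ⟨0, fun h => absurd h hf⟩
  choose c hc using hcex'
  have hiviv : ∀ f ∈ Γ, iv (iv f) = f := by
    intro f hf
    have h1 := hiv f hf
    have h2 := hiv (iv f) h1.1
    refine G.ext _ h2.1 _ hf (fun x hx => ?_)
    have h3 := h2.2.left (f x) (h1.2.mapsF hx)
    rw [h1.2.left x hx] at h3
    exact h3
  have hciv : ∀ f ∈ Γ, c (iv f) = - c f := by
    intro f hf
    obtain ⟨x, hx⟩ := hne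
    have h1 := hc f hf x hx
    have h2 := hc (iv f) (hiv f hf).1 (f x) ((hiv f hf).2.mapsF hx)
    rw [(hiv f hf).2.left x hx] at h2
    linarith
  obtain ⟨F, hF, hFs⟩ := tot_eq G hψ (K := tsupport ψ) hψ.2.1 hψ.2.2
  have hFΓ : ∀ f ∈ F, f ∈ Γ := fun f hf => ((hF f).1 hf).1
  have hivF : ∀ f ∈ F, iv f ∈ F := by
    intro f hf
    obtain ⟨h1, x, hx, hfx⟩ := (hF f).1 hf
    exact (hF _).2 ⟨(hiv f h1).1, f x, hfx, by rwa [(hiv f h1).2.left x (hψ.2.2 hx)]⟩
  have key : ∫ x, φ x * L ψ x = 0 := by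
    -- step a
    have ha : ∫ x, φ x * L ψ x = ∑ f ∈ F, ∫ x, (pull D f ψ x * φ x) * L ψ x := by
      rw [← integral_finsetSum]
      · refine integral_congr_ae (Eventually.of_forall (fun x => ?_))
        simp only
        by_cases hx : x ∈ tsupport ψ
        · have h1 : ∑ f ∈ F, ψ (f x) = 1 := by
            rw [← hFs x hx]; exact hψ1 x (hψ.2.2 hx)
          have h2 : ∀ f ∈ F, pull D f ψ x * φ x * L ψ x = ψ (f x) * (φ x * L ψ x) := by
            intro f _
            rw [pull_mem (hψ.2.2 hx)]; ring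
          rw [Finset.sum_congr rfl h2, ← Finset.sum_mul, h1, one_mul]
        · rw [hL.zero_off hx]; simp
      · intro f hf
        exact hL.integrable hD hψ
          ((hψ.pull hD (hiv f (hFΓ f hf)).2).1.continuous.continuousOn.mul hφ)
    -- step b
    have hb : ∀ f ∈ F, ∫ x, (pull D f ψ x * φ x) * L ψ x =
        (∫ x, (ψ x * φ x) * L (pull D (iv f) ψ) x) +
          c (iv f) * ∫ x, ψ x * L (pull D (iv f) ψ) x := by
      intro f hf
      obtain ⟨hg, H⟩ := hiv f (hFΓ f hf)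
      have H' : AutPair D (iv f) f := ⟨H.hG, H.hF, H.mapsG, H.mapsF, H.right, H.left⟩
      have hT := hψ.pull hD H'
      have hi1 : Integrable (fun x => (ψ x * φ x) * L (pull D (iv f) ψ) x) :=
        hL.integrable hD hT (hψ.1.continuous.continuousOn.mul hφ)
      have hi2 : Integrable (fun x => c (iv f) * (ψ x * L (pull D (iv f) ψ) x)) :=
        (hL.integrable hD hT hψ.1.continuous.continuousOn).const_mul _
      rw [← hL.cov hD hg H' hψ (fun x => pull D f ψ x * φ x), ← integral_const_mul,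
        ← integral_add hi1 hi2]
      refine integral_congr_ae (Eventually.of_forall (fun x => ?_))
      simp only
      by_cases hx : x ∈ D
      · rw [pull_mem (H'.mapsF hx), H'.left x hx, hc _ hg x hx]
        ring
      · rw [hL.zero_off' hT hx]; ring
    rw [ha, Finset.sum_congr rfl hb]
    have hre : ∀ T : ((Fin n → ℂ) → (Fin n → ℂ)) → ℝ, ∑ f ∈ F, T (iv f) = ∑ f ∈ F, T f := by
      intro T
      refine Finset.sum_nbij' iv iv hivF hivF (fun f hf => hiviv f (hFΓ f hf))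
        (fun f hf => hiviv f (hFΓ f hf)) (fun f _ => rfl)
    rw [hre (fun g => (∫ x, (ψ x * φ x) * L (pull D g ψ) x) +
        c g * ∫ x, ψ x * L (pull D g ψ) x),
      Finset.sum_add_distrib]
    -- step d
    have hd : ∑ g ∈ F, ∫ x, (ψ x * φ x) * L (pull D g ψ) x = 0 := by
      rw [← integral_finsetSum]
      · have h1 : ∀ x, ∑ g ∈ F, (ψ x * φ x) * L (pull D g ψ) x = 0 := by
          intro x
          by_cases hx : ψ x = 0
          · simp [hx]
          · have hxt : x ∈ tsupport ψ := subset_tsupport _ hx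
            have h2 : L (fun y => ∑ g ∈ F, pull D g ψ y) x = 0 := by
              rw [hL.congr _ (fun _ => 1) x, hL.const]
              filter_upwards [(isOpen_ne_fun hψ.1.continuous continuous_const).mem_nhds hx]
                with y hy
              have hyt : y ∈ tsupport ψ := subset_tsupport _ hy
              have h3 : ∀ g ∈ F, pull D g ψ y = ψ (g y) := fun g _ => pull_mem (hψ.2.2 hyt)
              rw [Finset.sum_congr rfl h3, ← hFs y hyt]
              exact hψ1 y (hψ.2.2 hyt)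
            rw [hL.sum F (fun g => pull D g ψ)
              (fun g hg => (hψ.pull hD (hiv g (hFΓ g hg)).2).1) (hψ.2.2 hxt)] at h2
            rw [← Finset.mul_sum, h2, mul_zero]
        simp only [h1, integral_zero]
      · intro g hg
        exact hL.integrable hD (hψ.pull hD (hiv g (hFΓ g hg)).2)
          (hψ.1.continuous.continuousOn.mul hφ)
    -- step e
    have he : ∑ g ∈ F, c g * ∫ x, ψ x * L (pull D g ψ) x = 0 := by
      have h1 := hre (fun g => c g * ∫ x, ψ x * L (pull D g ψ) x)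
      have h2 : ∀ g ∈ F, c (iv g) * ∫ x, ψ x * L (pull D (iv g) ψ) x =
          - (c g * ∫ x, ψ x * L (pull D g ψ) x) := by
        intro g hg
        rw [hciv g (hFΓ g hg), hL.b_symm hD (hiv g (hFΓ g hg)).1 (hiv g (hFΓ g hg)).2 hψ]
        ring
      rw [Finset.sum_congr rfl h2, Finset.sum_neg_distrib] at h1
      linarith
    rw [hd, he, add_zero]
  -- step 5
  obtain ⟨C, hC⟩ := hh.1.continuous.bounded_above_of_compact_support hh.2.1
  have hC0 : 0 ≤ C := (norm_nonneg _).trans (hC 0)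
  obtain ⟨F2, hF2, hF2s⟩ := tot_eq G hψ (K := tsupport h) hh.2.1 hh.2.2
  have hF2Γ : ∀ f ∈ F2, f ∈ Γ := fun f hf => ((hF2 f).1 hf).1
  have hpT : ∀ f ∈ F2, Test D (pull D f ψ) := fun f hf => hψ.pull hD (hiv f (hF2Γ f hf)).2
  have hST : Test D (fun x => ∑ f ∈ F2, pull D f ψ x) := Test.sum F2 _ hpT
  have hkT : Test D (fun x => C * (∑ f ∈ F2, pull D f ψ x) + (-1) * h x) :=
    (hST.const_mul C).add (hh.const_mul (-1))
  have hpull0 : ∀ f x, 0 ≤ pull D f ψ x := fun f x => indicator_nonneg (fun y _ => hψ0 _) x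
  have hk0 : ∀ x, 0 ≤ C * (∑ f ∈ F2, pull D f ψ x) + (-1) * h x := by
    intro x
    by_cases hx : x ∈ tsupport h
    · have h1 : ∑ f ∈ F2, pull D f ψ x = 1 := by
        have h3 : ∀ g ∈ F2, pull D g ψ x = ψ (g x) := fun g _ => pull_mem (hh.2.2 hx)
        rw [Finset.sum_congr rfl h3, ← hF2s x hx]
        exact hψ1 x (hh.2.2 hx)
      rw [h1]
      have h2 := (le_abs_self (h x)).trans (hC x)
      linarith
    · rw [image_eq_zero_of_notMem_tsupport hx]
      have := mul_nonneg hC0 (Finset.sum_nonneg (fun f (_ : f ∈ F2) => hpull0 f x))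
      linarith
  have h5 := hpos _ hkT hk0
  have h6 : ∀ x, φ x * L (fun x => C * (∑ f ∈ F2, pull D f ψ x) + (-1) * h x) x =
      C * (∑ f ∈ F2, φ x * L (pull D f ψ) x) - φ x * L h x := by
    intro x
    by_cases hx : x ∈ D
    · rw [hL.add _ _ x hx (hST.const_mul C).1.contDiffAt (hh.const_mul (-1)).1.contDiffAt,
        hL.smul C _ x hx hST.1.contDiffAt, hL.smul (-1) _ x hx hh.1.contDiffAt,
        hL.sum F2 (fun g => pull D g ψ) (fun g hg => (hpT g hg).1) hx, ← Finset.mul_sum]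
      ring
    · rw [hL.zero_off' hkT hx, hL.zero_off' hh hx,
        Finset.sum_eq_zero (fun f hf => by rw [hL.zero_off' (hpT f hf) hx, mul_zero])]
      ring
  simp only [h6] at h5
  rw [integral_sub, integral_const_mul, integral_finsetSum] at h5
  · have h7 : ∀ f ∈ F2, ∫ x, φ x * L (pull D f ψ) x = 0 := by
      intro f hf
      rw [hL.lam_pull hD (hF2Γ f hf) (hiv f (hF2Γ f hf)).2 hψ hφ (hc f (hF2Γ f hf)), key]
    rw [Finset.sum_eq_zero h7] at h5
    have h8 := hpos h hh hh0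
    linarith
  · exact fun f hf => hL.integrable hD (hpT f hf) hφ
  · exact (integrable_finsetSum _ (fun f hf => hL.integrable hD (hpT f hf) hφ)).const_mul C
  · exact hL.integrable hD hh hφ

end

end Crest.Agent.R264.K
end

-- ▼ part R264/KMain

/-! Row 264, node D6: Lemma K. -/

set_option autoImplicit false

namespace Crest.Agent.R264.K

/-- **Lemma K** (node D6). -/
theorem lemmaK (n : ℕ) : LemmaK n := lemmaK_of (mollStmt n) (circStmt n) (vanStmt n)

end Crest.Agent.R264.K
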