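import Crest.Agent.R264.TopAlg
import Crest.Agent.R264.CPDefs
import Crest.Agent.R264.TSSmooth
import Crest.Agent.R264.TSChoice2
import Crest.Agent.R264.SAV
import Crest.Agent.R264.AIface
import Mathlib
import Crest.Agent.R264.Pk1
import Crest.Agent.R266.SCV

-- ▼ part R264/TopFin
section

/-!
Row 264 (S0402): final assembly (helper369):  `Part0A → ThmAA → PropC → ThmD → S0402`.
-/

set_option autoImplicit false

open Topology Filter Set

namespace Crest.Agent.R264

open Crest.AlgGeometry.Semialg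

/-- THEOREM A (+ B) with the algebraic data of Part 0 as input. -/
def ThmAA : Prop :=
  ∀ (N : ℕ) (U : Set (Fin N → ℂ)) (Γ : Subgroup (Equiv.Perm U)), Setup N U Γ →
    ∀ V O : Set (Fin N → ℂ), IsAlgebraicSet V → IsOpen O → U = O ∩ V →
    ∀ n : ℕ, 0 < n → IsSubmfd n U → AlgData n V U → Nonempty (PeakData U n)

/-- THEOREM C (pointwise in the peak data). -/
def PropC : Prop :=
  ∀ (N : ℕ) (U : Set (Fin N → ℂ)) (Γ : Subgroup (Equiv.Perm U)), Setup N U Γ →
    ∀ n : ℕ, 0 < n → IsSubmfd n U → PeakData U n →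
    ∃ (D : Set (Fin n → ℂ)) (Ψ : U → (Fin n → ℂ)) (Θ : (Fin n → ℂ) → (Fin N → ℂ)),
      IsOpen D ∧ Bornology.IsBounded D ∧ Biholo U D Ψ Θ ∧ Spans D

theorem partABCA_of (hA : ThmAA) (hC : PropC) : PartABCA := by
  intro N U Γ hS V O hV hO hUO n hn hU A
  obtain ⟨P⟩ := hA N U Γ hS V O hV hO hUO n hn hU A
  exact hC N U Γ hS n hn hU P

/-- S0402 from the four nodes. -/
theorem s0402_of (h0 : Part0A) (hA : ThmAA) (hC : PropC) (hD : ThmD)
    (N : ℕ) (V U : Set (Fin N → ℂ)) (hV : IsAlgebraicSet V)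
    (hUV : ∃ O : Set (Fin N → ℂ), IsOpen O ∧ U = O ∩ V)
    (hconn : IsConnected U) (hsa : IsSemialgebraic U)
    (hbd : Bornology.IsBounded U) (Γ : Subgroup (Equiv.Perm U))
    (hΓ : ∀ γ ∈ Γ, IsHolomorphicMap U (fun y : U => ((γ y : U) : Fin N → ℂ)))
    (hpd : ProperlyDiscontinuousSMul Γ U)
    (hcpt : CompactSpace (Quotient (MulAction.orbitRel Γ U))) :
    ∃ (m : ℕ) (D : Set (Fin m → ℂ)), IsBoundedSymmetricDomain D ∧
      ∃ (Ψ : U → (Fin m → ℂ)) (Θ : (Fin m → ℂ) → (Fin N → ℂ)),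
        IsHolomorphicMap U Ψ ∧ DifferentiableOn ℂ Θ D ∧
        (∀ y : U, Ψ y ∈ D ∧ Θ (Ψ y) = (y : Fin N → ℂ)) ∧
        (∀ z ∈ D, ∃ y : U, (y : Fin N → ℂ) = Θ z ∧ Ψ y = z) :=
  mainA_of h0 (partABCA_of hA hC) hD N V U hV hUV hconn hsa hbd Γ hΓ hpd hcpt

end Crest.Agent.R264
end

-- ▼ part R264/TSFrozen
section

/-!
Row 264, module TS: S3, S4, S7 in the forms asked for by helper264.
-/

set_option autoImplicit false
set_option linter.unusedSectionVars false

open Set Filter Topology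
open scoped ContDiff

namespace Crest.Agent.R264.TS

universe u v

section

variable {ι : Type v} [Fintype ι]

/-- a nonzero polynomial does not vanish identically on a nonempty open set -/
theorem exists_eval_ne_zero_of_isOpen {p : MvPolynomial ι ℝ} (hp : p ≠ 0) {O : Set (ι → ℝ)}
    (hO : IsOpen O) (hne : O.Nonempty) : ∃ a ∈ O, MvPolynomial.eval a p ≠ 0 := by
  classical
  by_contra hcon
  push Not at hcon
  obtain ⟨a, ha⟩ := hne
  obtain ⟨r, hr, hball⟩ := Metric.isOpen_iff.1 hO a ha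
  apply hp
  apply MvPolynomial.funext_set (fun i => Ioo (a i - r) (a i + r))
    (fun i => Set.Ioo_infinite (by linarith))
  intro x hx
  rw [map_zero]
  apply hcon
  apply hball
  rw [Metric.mem_ball, dist_pi_lt_iff hr]
  intro i
  have := hx i (mem_univ i)
  rw [Real.dist_eq, abs_lt]
  constructor <;> linarith [this.1, this.2]

/-- the complement of the zero set of a nonzero polynomial is open and dense -/
theorem isOpen_ne_zero (p : MvPolynomial ι ℝ) : IsOpen {x : ι → ℝ | MvPolynomial.eval x p ≠ 0} :=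
  isOpen_ne_fun (continuous_eval p) continuous_const





/-- S4, helper264's form -/
theorem gs {f : (ι → ℝ) → ℝ} {W : Set (ι → ℝ)} (hW : IsOpen W)
    (hf : SA {p : ι ⊕ Unit → ℝ | (fun i => p (.inl i)) ∈ W ∧
      f (fun i => p (.inl i)) = p (.inr ())}) :
    ∃ Δ : MvPolynomial ι ℝ, Δ ≠ 0 ∧ ContDiffOn ℝ ∞ f (W \ {x | MvPolynomial.eval x Δ = 0}) := by
  have h1 : SAFunOn f W := by
    have := hf.reindex (ι := Option ι) (Sum.elim some fun _ => none)
    unfold SAFunOn
    convert this using 1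
    ext z
    change (_ ∧ _) ↔ (_ ∧ _)
    exact and_congr Iff.rfl eq_comm
  obtain ⟨Δ, h2, h3⟩ := h1.exists_contDiffOn hW
  exact ⟨Δ, h2, (h3.mono fun x hx => ⟨hx.1, hx.2⟩).of_le le_top⟩

/-- S4 for finitely many functions, local form: on every nonempty open subset of `W` there is a
nonempty open set on which all `f k` are smooth. -/
theorem gs_finite {κ : Type*} [Finite κ] {f : κ → (ι → ℝ) → ℝ} {W O : Set (ι → ℝ)}
    (hf : ∀ k, SAFunOn (f k) W) (hO : IsOpen O) (hne : O.Nonempty) (hOW : O ⊆ W) :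
    ∃ O' ⊆ O, IsOpen O' ∧ O'.Nonempty ∧ ∀ k, ContDiffOn ℝ ω (f k) O' := by
  classical
  have := Fintype.ofFinite κ
  choose Δ h0 h1 using fun k => (hf k).exists_contDiffAt
  have hprod : ∏ k, Δ k ≠ 0 := Finset.prod_ne_zero_iff.2 fun k _ => h0 k
  obtain ⟨a, haO, ha⟩ := exists_eval_ne_zero_of_isOpen hprod hO hne
  refine ⟨O ∩ {x | MvPolynomial.eval x (∏ k, Δ k) ≠ 0}, inter_subset_left,
    hO.inter (isOpen_ne_zero _), ⟨a, haO, ha⟩, fun k x hx => ?_⟩
  refine (h1 k x (hOW hx.1) (Filter.mem_of_superset (hO.mem_nhds hx.1) hOW) ?_).contDiffWithinAt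
  have h2 := hx.2
  change MvPolynomial.eval x (∏ k, Δ k) ≠ 0 at h2
  rw [map_prod] at h2
  exact Finset.prod_ne_zero_iff.1 h2 k (Finset.mem_univ k)

end

/-- S7, helper264's form -/
theorem choice {ι : Type v} {κ : Type u} [Finite κ] {A : Set (ι ⊕ κ → ℝ)} (hA : SA A) :
    ∃ c : (ι → ℝ) → (κ → ℝ), (∀ x, (∃ y, Sum.elim x y ∈ A) → Sum.elim x (c x) ∈ A) ∧
      ∀ k, SAFun (fun x => c x k) := by
  have hA' : SA {z : ι ⊕ κ → ℝ | Sum.elim (fun i => z (.inl i)) (fun k => z (.inr k)) ∈ A} := by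
    convert hA using 1
    ext z
    have : (Sum.elim (fun i => z (.inl i)) (fun k => z (.inr k)) : ι ⊕ κ → ℝ) = z := by
      ext k; cases k <;> rfl
    rw [mem_ofPred_eq, this]
  obtain ⟨c, h1, h2⟩ := SA.exists_choice (P := fun x y => Sum.elim x y ∈ A) hA'
  refine ⟨c, h1, fun k => ?_⟩
  unfold SAFun SAFunOn
  convert h2 k using 1
  ext z
  simp

end Crest.Agent.R264.TS
namespace Crest.Agent.R264.TS.SA
end Crest.Agent.R264.TS.SA
end

-- ▼ part R264/SAVSmooth
section

/-!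
Row 264: generic smoothness (S4), choice (S7) and S3 in arbitrary finite-dimensional real vector
spaces (helper219), on top of helper369's `SAV`.
-/

set_option autoImplicit false
set_option linter.unusedSectionVars false

open Set Filter Topology
open scoped ContDiff

namespace Crest.Agent.R264

universe u v

theorem Pol.linEquiv {V W : Type*} [AddCommGroup V] [Module ℝ V] [AddCommGroup W] [Module ℝ W]
    (e : V ≃ₗ[ℝ] W) : Pol (fun v => e v) := Pol.lin e.toLinearMap

section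

variable {V Z : Type*} [NormedAddCommGroup V] [NormedSpace ℝ V] [FiniteDimensional ℝ V]
  [NormedAddCommGroup Z] [NormedSpace ℝ Z] [FiniteDimensional ℝ Z]

/-- transport of a real valued function to coordinates -/
theorem SAV.safunOn {f : V → ℝ} {W : Set V} (hf : SAV {p : V × ℝ | p.1 ∈ W ∧ p.2 = f p.1})
    {n : ℕ} (e : V ≃ₗ[ℝ] (Fin n → ℝ)) :
    TS.SAFunOn (fun x => f (e.symm x)) (e.symm ⁻¹' W) := by
  unfold TS.SAFunOn
  rw [← sav_iff_sa]
  have hg : Pol (fun z : Option (Fin n) → ℝ =>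
      ((e.symm (fun i => z (some i)), z none) : V × ℝ)) := by
    refine Pol.prodMk ?_ (by fun_prop)
    have h1 : Pol (fun z : Option (Fin n) → ℝ => fun i => z (some i)) := by fun_prop
    exact (Pol.linEquiv e.symm).comp h1
  exact hf.preimage hg

/-- **S4** for finitely many real valued SA functions -/
theorem SAV.gs_finite {κ : Type*} [Finite κ] {f : κ → V → ℝ} {W O : Set V}
    (hf : ∀ k, SAV {p : V × ℝ | p.1 ∈ W ∧ p.2 = f k p.1}) (hO : IsOpen O) (hne : O.Nonempty)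
    (hOW : O ⊆ W) : ∃ O' ⊆ O, IsOpen O' ∧ O'.Nonempty ∧ ∀ k, ContDiffOn ℝ ω (f k) O' := by
  let e : V ≃ₗ[ℝ] (Fin (Module.finrank ℝ V) → ℝ) := coordE V
  let e' : V ≃L[ℝ] (Fin (Module.finrank ℝ V) → ℝ) := e.toContinuousLinearEquiv
  obtain ⟨O', h1, h2, h3, h4⟩ := TS.gs_finite (fun k => (hf k).safunOn e)
    (O := e'.symm ⁻¹' O) (hO.preimage e'.symm.continuous)
    (by obtain ⟨x, hx⟩ := hne; exact ⟨e' x, by simpa using hx⟩)
    (fun x hx => hOW hx)
  refine ⟨e' ⁻¹' O', ?_, h2.preimage e'.continuous, ?_, fun k => ?_⟩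
  · intro x hx
    have := h1 hx
    simpa using this
  · obtain ⟨y, hy⟩ := h3
    exact ⟨e'.symm y, by simpa using hy⟩
  · have h5 := (h4 k).comp (t := O') (s := e' ⁻¹' O') e'.contDiff.contDiffOn (fun x hx => hx)
    refine h5.congr fun x hx => ?_
    change f k x = f k (e.symm (e x))
    rw [LinearEquiv.symm_apply_apply]

/-- composition of an SA map with a linear functional -/
theorem SAV.graph_lin {F : V → Z} {W : Set V} (hF : SAV {p : V × Z | p.1 ∈ W ∧ p.2 = F p.1})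
    (l : Z →ₗ[ℝ] ℝ) : SAV {p : V × ℝ | p.1 ∈ W ∧ p.2 = l (F p.1)} := by
  have h1 : SAV {q : (V × ℝ) × Z | (q.1.1 ∈ W ∧ q.2 = F q.1.1) ∧ q.1.2 = l q.2} := by
    refine SAV.and ?_ ?_
    · exact hF.preimage (g := fun q : (V × ℝ) × Z => ((q.1.1, q.2) : V × Z)) (by fun_prop)
    · exact SAV.eq (by fun_prop) ((Pol.lin l).comp Pol.snd')
  have h2 := SAV.ex (P := fun (p : V × ℝ) (z : Z) => (p.1 ∈ W ∧ z = F p.1) ∧ p.2 = l z) h1
  convert h2 using 1
  ext p
  constructor
  · rintro ⟨h3, h4⟩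
    exact ⟨F p.1, ⟨h3, rfl⟩, h4⟩
  · rintro ⟨z, ⟨h3, rfl⟩, h4⟩
    exact ⟨h3, h4⟩

/-- **S4** (generic smoothness): an SA map `F` on `W` is smooth (analytic) on some nonempty open
subset of every nonempty open subset of `W`. -/
theorem SAV.gs {F : V → Z} {W O : Set V} (hF : SAV {p : V × Z | p.1 ∈ W ∧ p.2 = F p.1})
    (hO : IsOpen O) (hne : O.Nonempty) (hOW : O ⊆ W) :
    ∃ O' ⊆ O, IsOpen O' ∧ O'.Nonempty ∧ ContDiffOn ℝ ω F O' := by
  let e : Z ≃ₗ[ℝ] (Fin (Module.finrank ℝ Z) → ℝ) := coordE Z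
  let e' : Z ≃L[ℝ] (Fin (Module.finrank ℝ Z) → ℝ) := e.toContinuousLinearEquiv
  obtain ⟨O', h1, h2, h3, h4⟩ := SAV.gs_finite
    (f := fun (k : Fin (Module.finrank ℝ Z)) v => e (F v) k)
    (fun k => hF.graph_lin ((LinearMap.proj k : (Fin (Module.finrank ℝ Z) → ℝ) →ₗ[ℝ] ℝ) ∘ₗ
      e.toLinearMap)) hO hne hOW
  refine ⟨O', h1, h2, h3, ?_⟩
  have h5 : ContDiffOn ℝ ω (fun v => e (F v)) O' := contDiffOn_pi.2 h4
  have h6 := e'.symm.contDiff.comp_contDiffOn h5
  refine h6.congr fun x hx => ?_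
  change F x = e.symm (e (F x))
  rw [LinearEquiv.symm_apply_apply]




end

section choice

variable {V Z : Type*} [AddCommGroup V] [Module ℝ V] [FiniteDimensional ℝ V]
  [AddCommGroup Z] [Module ℝ Z] [FiniteDimensional ℝ Z]

/-- **S7** (choice) in vector spaces: total SA map `c` with `P v (c v)` whenever `∃ z, P v z` -/
theorem SAV.choice {P : V → Z → Prop} (h : SAV {p : V × Z | P p.1 p.2}) :
    ∃ c : V → Z, (∀ v, (∃ z, P v z) → P v (c v)) ∧ SAV {p : V × Z | p.2 = c p.1} := by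
  let eV : V ≃ₗ[ℝ] (Fin (Module.finrank ℝ V) → ℝ) := coordE V
  let eZ : Z ≃ₗ[ℝ] (Fin (Module.finrank ℝ Z) → ℝ) := coordE Z
  have h1 : TS.SA {z : Fin (Module.finrank ℝ V) ⊕ Fin (Module.finrank ℝ Z) → ℝ |
      P (eV.symm fun i => z (.inl i)) (eZ.symm fun k => z (.inr k))} := by
    rw [← sav_iff_sa]
    have h2 : Pol (fun z : Fin (Module.finrank ℝ V) ⊕ Fin (Module.finrank ℝ Z) → ℝ =>
        ((eV.symm fun i => z (.inl i), eZ.symm fun k => z (.inr k)) : V × Z)) := by
      refine Pol.prodMk ?_ ?_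
      · have h3 : Pol (fun z : Fin (Module.finrank ℝ V) ⊕ Fin (Module.finrank ℝ Z) → ℝ =>
            fun i : Fin (Module.finrank ℝ V) => z (.inl i)) := by fun_prop
        exact (Pol.linEquiv eV.symm).comp h3
      · have h3 : Pol (fun z : Fin (Module.finrank ℝ V) ⊕ Fin (Module.finrank ℝ Z) → ℝ =>
            fun i : Fin (Module.finrank ℝ Z) => z (.inr i)) := by fun_prop
        exact (Pol.linEquiv eZ.symm).comp h3
    exact h.preimage h2
  obtain ⟨c, hc1, hc2⟩ := TS.SA.exists_choice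
    (P := fun x y => P (eV.symm x) (eZ.symm y)) h1
  refine ⟨fun v => eZ.symm (c (eV v)), fun v hv => ?_, ?_⟩
  · obtain ⟨z, hz⟩ := hv
    have := hc1 (eV v) ⟨eZ z, by simpa using hz⟩
    simpa using this
  · have h3 : ∀ k, SAV {p : V × Z | eZ p.2 k = c (eV p.1) k} := by
      intro k
      have h4 := (sav_iff_sa.2 (hc2 k))
      have h5 : Pol (fun p : V × Z => fun o : Option (Fin (Module.finrank ℝ V)) =>
          o.elim (eZ p.2 k) (fun i => eV p.1 i)) := by
        refine Pol.pi fun o => ?_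
        cases o with
        | none =>
          have h6 : Pol (fun p : V × Z => eZ p.2) :=
            (Pol.linEquiv eZ).comp Pol.snd'
          exact h6.apply k
        | some i =>
          have h6 : Pol (fun p : V × Z => eV p.1) :=
            (Pol.linEquiv eV).comp Pol.fst'
          exact h6.apply i
      exact h4.preimage h5
    have h4 := SAV.forall_finite h3
    convert h4 using 1
    ext p
    change p.2 = eZ.symm (c (eV p.1)) ↔ ∀ k, eZ p.2 k = c (eV p.1) k
    constructor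
    · intro h k
      rw [h]
      simp
    · intro h
      apply eZ.injective
      ext k
      rw [h k]
      simp

end choice

end Crest.Agent.R264
end

-- ▼ part R264/MSmooth
section

/-!
Row 264, node `AI.MSmooth` (helper219): the support function `M(c) = max_K Re (g q_c)` of a compact
semialgebraic set is semialgebraic, hence smooth on a nonempty open subset of `{M > 0}`.
-/

set_option autoImplicit false
set_option linter.unusedSectionVars false

open Set Filter Topology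
open scoped ContDiff

namespace Crest.Agent.R264.AI

/-- `(c, x) ↦ Re (g q_c)(x)` is a polynomial function -/
theorem pol_gq {N : ℕ} (g : MvPolynomial (Fin N) ℂ) :
    Pol (fun p : QV N × (Fin N → ℂ) => (gq g p.1 p.2).re) := by
  have h1 : Pol (fun p : QV N × (Fin N → ℂ) => MvPolynomial.eval p.2 g) :=
    Pol.ceval g Pol.snd'
  have h2 : Pol (fun p : QV N × (Fin N → ℂ) => Pk.qev p.1 p.2) := by
    unfold Pk.qev
    fun_prop
  unfold gq
  exact (h1.cmul h2).re


theorem continuous_cev {N : ℕ} (g : MvPolynomial (Fin N) ℂ) :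
    Continuous fun x : Fin N → ℂ => MvPolynomial.eval x g := MvPolynomial.continuous_eval g

/-- the graph of `M` is semialgebraic -/
theorem Mfun_sav {N : ℕ} {K : Set (Fin N → ℂ)} (g : MvPolynomial (Fin N) ℂ) (hK : IsCompact K)
    (hne : K.Nonempty) (hsa : SAV K) :
    SAV {p : QV N × ℝ | p.1 ∈ (univ : Set (QV N)) ∧ p.2 = Mfun K g p.1} := by
  have hp := pol_gq g
  have h1 : SAV {p : QV N × ℝ | ∃ x : Fin N → ℂ, x ∈ K ∧ p.2 = (gq g p.1 x).re} := by
    apply SAV.bex (Q := fun (_ : QV N × ℝ) (x : Fin N → ℂ) => x ∈ K)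
      (P := fun (p : QV N × ℝ) (x : Fin N → ℂ) => p.2 = (gq g p.1 x).re)
    · exact hsa.preimage Pol.snd'
    · refine SAV.eq (by fun_prop) ?_
      exact hp.comp (g := fun q : (QV N × ℝ) × (Fin N → ℂ) => ((q.1.1, q.2) : QV N × (Fin N → ℂ)))
        (by fun_prop)
  have h2 : SAV {p : QV N × ℝ | ∀ x : Fin N → ℂ, x ∈ K → (gq g p.1 x).re ≤ p.2} := by
    apply SAV.ball (Q := fun (_ : QV N × ℝ) (x : Fin N → ℂ) => x ∈ K)
      (P := fun (p : QV N × ℝ) (x : Fin N → ℂ) => (gq g p.1 x).re ≤ p.2)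
    · exact hsa.preimage Pol.snd'
    · refine SAV.le ?_ (by fun_prop)
      exact hp.comp (g := fun q : (QV N × ℝ) × (Fin N → ℂ) => ((q.1.1, q.2) : QV N × (Fin N → ℂ)))
        (by fun_prop)
  have h3 := h1.and h2
  convert h3 using 1
  ext p
  have hle : ∀ x ∈ K, (gq g p.1 x).re ≤ Mfun K g p.1 := fun x hx =>
    Pk.Fg_le_Mg (continuous_cev g) hK p.1 hx
  obtain ⟨x0, hx0, hx0'⟩ := Pk.exists_Mg (continuous_cev g) hK hne p.1
  have hx0'' : (gq g p.1 x0).re = Mfun K g p.1 := hx0'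
  constructor
  · rintro ⟨-, h⟩
    refine ⟨⟨x0, hx0, ?_⟩, fun x hx => ?_⟩
    · rw [h, hx0'']
    · rw [h]; exact hle x hx
  · rintro ⟨⟨x, hx, h⟩, h'⟩
    refine ⟨mem_univ _, le_antisymm ?_ ?_⟩
    · rw [h]; exact hle x hx
    · rw [← hx0'']; exact h' x0 hx0

/-- **Node MSmooth** -/
theorem mSmooth : MSmooth := by
  intro N K g hK hne hsa hpos
  have hc : Continuous (Mfun K g) := Pk.continuous_Mg (continuous_cev g) hK hne
  obtain ⟨c0, hc0⟩ := hpos
  obtain ⟨O', h1, h2, h3, h4⟩ := (Mfun_sav g hK hne hsa).gs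
    (O := {c | 0 < Mfun K g c}) (isOpen_lt continuous_const hc) ⟨c0, hc0⟩ (subset_univ _)
  exact ⟨O', h2, h3, fun c hc => h1 hc, h4.of_le le_top⟩

end Crest.Agent.R264.AI
end

-- ▼ part R264/Pk2
section

/-!
# Row 264, module PK (helper318), part 2: peaks along a real stratum

`S ⊆ ℂ^N` is near `x1 = peak q1` a real submanifold (chart `c : RChart r S x1`), `K ∩ S` is
relatively open in `S` near `x1`, `peak q ∈ S` for `q` near `q1` and `M` is `C^2` near `q1`.  Then

* `peak_open` : `peak` is open near `q1` as a map into `S`;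
* `peak_crit` : if `q` is near `q1`, `σ ∈ S` near `x1` and `d (Re (g q))|_S (σ) = 0`, then
  `σ = peak q` (so `σ` is the strict maximum point of `Re (g q)` over `K`).
-/

set_option autoImplicit false

open Set Filter Topology ContDiff

noncomputable section

namespace Crest.Agent.R264

/-- A real `C^∞` local parametrisation of `S ⊆ ℂ^N` near `x`. -/
structure RChart {N : ℕ} (r : ℕ) (S : Set (Fin N → ℂ)) (x : Fin N → ℂ) where
  /-- ambient neighbourhood -/
  O : Set (Fin N → ℂ)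
  /-- parameter domain -/
  W : Set (Fin r → ℝ)
  /-- parametrisation -/
  ι : (Fin r → ℝ) → (Fin N → ℂ)
  /-- coordinates (smooth in the ambient space) -/
  t : (Fin N → ℂ) → (Fin r → ℝ)
  hO : IsOpen O
  hW : IsOpen W
  mem : x ∈ O
  hι : ContDiffOn ℝ ∞ ι W
  ht : ContDiffOn ℝ ∞ t O
  ι_mem : ∀ w ∈ W, ι w ∈ S ∧ ι w ∈ O
  t_ι : ∀ w ∈ W, t (ι w) = w
  t_mem : ∀ y ∈ S, y ∈ O → t y ∈ W
  ι_t : ∀ y ∈ S, y ∈ O → ι (t y) = y

namespace Pk

variable {N r : ℕ}

/-- `Fg` in the chart -/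
def Ft (g : (Fin N → ℂ) → ℂ) (ι : (Fin r → ℝ) → (Fin N → ℂ)) (p : QP N × (Fin r → ℝ)) : ℝ :=
  Fg g p.1 (ι p.2)

lemma contDiff_qev : ContDiff ℝ ∞ (fun p : QP N × (Fin N → ℂ) => qev p.1 p.2) := by
  unfold qev
  fun_prop

lemma contDiffOn_Ft {g : (Fin N → ℂ) → ℂ} (hg : ContDiff ℝ ∞ g) {ι : (Fin r → ℝ) → (Fin N → ℂ)}
    {W : Set (Fin r → ℝ)} (hι : ContDiffOn ℝ ∞ ι W) :
    ContDiffOn ℝ ∞ (Ft g ι) (univ ×ˢ W) := by
  unfold Ft Fg
  have h1 : ContDiffOn ℝ ∞ (fun p : QP N × (Fin r → ℝ) => ι p.2) (univ ×ˢ W) :=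
    hι.comp contDiff_snd.contDiffOn fun p hp => hp.2
  have h2 : ContDiffOn ℝ ∞ (fun p : QP N × (Fin r → ℝ) => qev p.1 (ι p.2)) (univ ×ˢ W) :=
    contDiff_qev.comp_contDiffOn (contDiff_fst.contDiffOn.prodMk h1)
  exact Complex.reCLM.contDiff.comp_contDiffOn ((hg.comp_contDiffOn h1).mul h2)

/-- the `τ`-derivative of `Ft` -/
def Dt (g : (Fin N → ℂ) → ℂ) (ι : (Fin r → ℝ) → (Fin N → ℂ)) (p : QP N × (Fin r → ℝ)) :
    (Fin r → ℝ) →L[ℝ] ℝ := fderiv ℝ (fun τ => Fg g p.1 (ι τ)) p.2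

section

variable {g : (Fin N → ℂ) → ℂ} (hg : ContDiff ℝ ∞ g) {ι : (Fin r → ℝ) → (Fin N → ℂ)}
  {W : Set (Fin r → ℝ)} (hW : IsOpen W) (hι : ContDiffOn ℝ ∞ ι W)

include hg hW hι

lemma Dt_eq {p : QP N × (Fin r → ℝ)} (hp : p.2 ∈ W) :
    Dt g ι p = (fderiv ℝ (Ft g ι) p).comp (ContinuousLinearMap.inr ℝ (QP N) (Fin r → ℝ)) := by
  have h1 : DifferentiableAt ℝ (Ft g ι) p :=
    ((contDiffOn_Ft hg hι).contDiffAt ((isOpen_univ.prod hW).mem_nhds
      ⟨mem_univ _, hp⟩)).differentiableAt (by simp)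
  have h2 : HasFDerivAt (fun τ : Fin r → ℝ => (p.1, τ)) (ContinuousLinearMap.inr ℝ (QP N) (Fin r → ℝ))
      p.2 := hasFDerivAt_prodMk_right p.1 p.2
  have h3 : HasFDerivAt (Ft g ι) (fderiv ℝ (Ft g ι) p) (p.1, p.2) := h1.hasFDerivAt
  exact (h3.comp p.2 h2).fderiv

lemma contDiffOn_Dt : ContDiffOn ℝ ∞ (Dt g ι) (univ ×ˢ W) := by
  have h1 : ContDiffOn ℝ ∞ (fderiv ℝ (Ft g ι)) (univ ×ˢ W) :=
    (contDiffOn_Ft hg hι).fderiv_of_isOpen (isOpen_univ.prod hW) (by simp)
  have h2 : ContDiffOn ℝ ∞ (fun p => (fderiv ℝ (Ft g ι) p).comp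
      (ContinuousLinearMap.inr ℝ (QP N) (Fin r → ℝ))) (univ ×ˢ W) :=
    h1.clm_comp contDiffOn_const
  exact h2.congr fun p hp => Dt_eq hg hW hι hp.2

lemma Dt_add {τ : Fin r → ℝ} (hτ : τ ∈ W) (q q' : QP N) :
    Dt g ι (q + q', τ) = Dt g ι (q, τ) + Dt g ι (q', τ) := by
  have hd : ∀ q : QP N, DifferentiableAt ℝ (fun τ => Fg g q (ι τ)) τ := fun q => by
    have h1 : DifferentiableAt ℝ (Ft g ι) (q, τ) :=
      ((contDiffOn_Ft hg hι).contDiffAt ((isOpen_univ.prod hW).mem_nhds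
        ⟨mem_univ _, hτ⟩)).differentiableAt (by simp)
    exact h1.comp τ (hasFDerivAt_prodMk_right q τ).differentiableAt
  unfold Dt
  simp only
  rw [← fderiv_add (hd q) (hd q')]
  congr 1
  funext τ
  simp [Fg_add]

lemma Dt_smul {τ : Fin r → ℝ} (hτ : τ ∈ W) (c : ℝ) (q : QP N) :
    Dt g ι (c • q, τ) = c • Dt g ι (q, τ) := by
  have hd : DifferentiableAt ℝ (fun τ => Fg g q (ι τ)) τ := by
    have h1 : DifferentiableAt ℝ (Ft g ι) (q, τ) :=
      ((contDiffOn_Ft hg hι).contDiffAt ((isOpen_univ.prod hW).mem_nhds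
        ⟨mem_univ _, hτ⟩)).differentiableAt (by simp)
    exact h1.comp τ (hasFDerivAt_prodMk_right q τ).differentiableAt
  unfold Dt
  simp only
  rw [← fderiv_const_smul hd]
  congr 1
  funext τ
  simp [Fg_rsmul]

/-- derivative of `Dt` in the `q` direction -/
lemma fderiv_Dt_inl {p : QP N × (Fin r → ℝ)} (hp : p.2 ∈ W) (q' : QP N) :
    fderiv ℝ (Dt g ι) p (q', 0) = Dt g ι (q', p.2) := by
  have h1 : DifferentiableAt ℝ (Dt g ι) p :=
    ((contDiffOn_Dt hg hW hι).contDiffAt ((isOpen_univ.prod hW).mem_nhds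
      ⟨mem_univ _, hp⟩)).differentiableAt (by simp)
  have h2 : HasDerivAt (fun s : ℝ => (p.1 + s • q', p.2)) (q', (0 : Fin r → ℝ)) 0 := by
    have h3 : HasDerivAt (fun s : ℝ => p.1 + s • q') q' 0 := by
      simpa using ((hasDerivAt_id (0 : ℝ)).smul_const q').const_add p.1
    exact h3.prodMk (hasDerivAt_const _ _)
  have h4 : HasFDerivAt (Dt g ι) (fderiv ℝ (Dt g ι) p) (p.1 + (0 : ℝ) • q', p.2) := by
    rw [zero_smul, add_zero]; exact h1.hasFDerivAt
  have h5 := h4.comp_hasDerivAt (0 : ℝ) h2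
  have h6 : HasDerivAt (fun s : ℝ => Dt g ι (p.1, p.2) + s • Dt g ι (q', p.2)) (Dt g ι (q', p.2)) 0 := by
    simpa using ((hasDerivAt_id (0 : ℝ)).smul_const (Dt g ι (q', p.2))).const_add (Dt g ι (p.1, p.2))
  refine h5.unique (h6.congr_of_eventuallyEq (Eventually.of_forall fun s => ?_))
  show Dt g ι (p.1 + s • q', p.2) = _
  rw [Dt_add hg hW hι hp, Dt_smul hg hW hι hp]

end

/-- every real functional on `ℂ^N` is the real part of a complex linear one -/
lemma exists_re_eq (l : (Fin N → ℂ) →L[ℝ] ℝ) :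
    ∃ c : Fin N → ℂ, ∀ z, l z = (∑ i, c i * z i).re := by
  refine ⟨fun i => (l (Pi.single i 1) : ℂ) - Complex.I * (l (Pi.single i Complex.I) : ℂ), fun z => ?_⟩
  have hz : z = ∑ i, ((z i).re • (Pi.single i (1 : ℂ) : Fin N → ℂ) +
      (z i).im • (Pi.single i Complex.I : Fin N → ℂ)) := by
    funext j
    rw [Finset.sum_apply]
    simp only [Pi.add_apply, Pi.smul_apply, Pi.single_apply, Complex.real_smul]
    rw [Finset.sum_eq_single j]
    · simp [Complex.re_add_im]
    · intro b _ hb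
      simp [Ne.symm hb]
    · simp
  conv_lhs => rw [hz]
  rw [map_sum, Complex.re_sum]
  refine Finset.sum_congr rfl fun i _ => ?_
  rw [map_add, map_smul, map_smul]
  simp
  ring

/-- the linear polynomial `Σ c_i (z_i - x_i)` -/
def ql (c x : Fin N → ℂ) : QP N := (-∑ i, c i * x i, c, 0)

lemma qev_ql (c x z : Fin N → ℂ) : qev (ql c x) z = ∑ i, c i * (z i - x i) := by
  simp only [qev, ql, Pi.zero_apply, zero_mul, Finset.sum_const_zero, add_zero, mul_sub,
    Finset.sum_sub_distrib]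
  ring

/-- left inverse of the derivative of a chart -/
lemma RChart.left_inv {S : Set (Fin N → ℂ)} {x : Fin N → ℂ} (c : RChart r S x) {τ : Fin r → ℝ}
    (hτ : τ ∈ c.W) (v : Fin r → ℝ) :
    fderiv ℝ c.t (c.ι τ) (fderiv ℝ c.ι τ v) = v := by
  have h1 : HasFDerivAt c.ι (fderiv ℝ c.ι τ) τ :=
    ((c.hι.contDiffAt (c.hW.mem_nhds hτ)).differentiableAt (by simp)).hasFDerivAt
  have h2 : HasFDerivAt c.t (fderiv ℝ c.t (c.ι τ)) (c.ι τ) :=
    ((c.ht.contDiffAt (c.hO.mem_nhds (c.ι_mem τ hτ).2)).differentiableAt (by simp)).hasFDerivAt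
  have h3 := h2.comp τ h1
  have h4 : HasFDerivAt (fun τ => τ : (Fin r → ℝ) → (Fin r → ℝ))
      (ContinuousLinearMap.id ℝ (Fin r → ℝ)) τ := hasFDerivAt_id τ
  have h5 : (c.t ∘ c.ι) =ᶠ[𝓝 τ] fun τ => τ := by
    filter_upwards [c.hW.mem_nhds hτ] with s hs
    exact c.t_ι s hs
  have h6 := (h3.congr_of_eventuallyEq h5.symm).unique h4
  exact DFunLike.congr_fun h6 v

/-- every covector of `S` at `ι τ` is the differential of some `Re (g q')` with `q'` linear,
vanishing at `ι τ` -/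
lemma surj_Dt {g : (Fin N → ℂ) → ℂ} (hg : ContDiff ℝ ∞ g) {S : Set (Fin N → ℂ)} {x : Fin N → ℂ}
    (c : RChart r S x) {τ : Fin r → ℝ} (hτ : τ ∈ c.W) (hne : g (c.ι τ) ≠ 0)
    (l : (Fin r → ℝ) →L[ℝ] ℝ) : ∃ q' : QP N, Dt g c.ι (q', τ) = l := by
  obtain ⟨a, ha⟩ := exists_re_eq (l.comp (fderiv ℝ c.t (c.ι τ)))
  refine ⟨ql (fun i => a i / g (c.ι τ)) (c.ι τ), ?_⟩
  have h1 : HasFDerivAt c.ι (fderiv ℝ c.ι τ) τ :=
    ((c.hι.contDiffAt (c.hW.mem_nhds hτ)).differentiableAt (by simp)).hasFDerivAt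
  have hgd : HasFDerivAt (fun τ => g (c.ι τ)) ((fderiv ℝ g (c.ι τ)).comp (fderiv ℝ c.ι τ)) τ :=
    ((hg.differentiable (by simp)) (c.ι τ)).hasFDerivAt.comp τ h1
  have h2 : ∀ i, HasFDerivAt (fun τ' : Fin r → ℝ => c.ι τ' i - c.ι τ i)
      ((ContinuousLinearMap.proj (R := ℝ) (φ := fun _ : Fin N => ℂ) i).comp (fderiv ℝ c.ι τ)) τ :=
    fun i => ((hasFDerivAt_pi'.1 h1) i).sub_const _
  have h3 : HasFDerivAt (fun τ' : Fin r → ℝ => ∑ i, (a i / g (c.ι τ)) * (c.ι τ' i - c.ι τ i))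
      (∑ i, (a i / g (c.ι τ)) • ((ContinuousLinearMap.proj (R := ℝ) (φ := fun _ : Fin N => ℂ) i).comp
        (fderiv ℝ c.ι τ))) τ :=
    HasFDerivAt.fun_sum fun i _ => (h2 i).const_mul _
  have h4 := hgd.mul h3
  have h5 := Complex.reCLM.hasFDerivAt.comp τ h4
  unfold Dt
  have h6 : (fun τ' => Fg g (ql (fun i => a i / g (c.ι τ)) (c.ι τ)) (c.ι τ')) =
      (Complex.reCLM ∘ ((fun τ => g (c.ι τ)) *
        fun τ' => ∑ i, (a i / g (c.ι τ)) * (c.ι τ' i - c.ι τ i))) := by
    funext τ'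
    simp only [Fg, qev_ql, Function.comp_apply, Complex.reCLM_apply, Pi.mul_apply]
  simp only
  rw [h6, h5.fderiv]
  ext1 v
  have h7 := ha (fderiv ℝ c.ι τ v)
  rw [ContinuousLinearMap.comp_apply, RChart.left_inv c hτ] at h7
  rw [h7]
  have h8 : (∑ i, a i / g (c.ι τ) * (c.ι τ i - c.ι τ i)) = 0 := by simp
  rw [h8, ContinuousLinearMap.comp_apply, add_apply, smul_apply, smul_apply, sum_apply]
  simp only [smul_apply, ContinuousLinearMap.comp_apply, ContinuousLinearMap.proj_apply,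
    smul_eq_mul, zero_mul, add_zero, Finset.mul_sum, Complex.reCLM_apply]
  refine congrArg Complex.re (Finset.sum_congr rfl fun i _ => ?_)
  rw [← mul_assoc, mul_div_cancel₀ _ hne]

end Pk

end Crest.Agent.R264
end
end

-- ▼ part R264/Pk3
section

/-!
# Row 264, module PK (helper318), part 3: openness of the peak map and the peak criterion (A3)
-/

set_option autoImplicit false

open Set Filter Topology ContDiff

noncomputable section

namespace Crest.Agent.R264.Pk

variable {N r : ℕ}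

/-- hypotheses of A3: near `q1` the maximum is `C^2`, positive, the peaks lie in `S`, `S` is a
real submanifold near `x1 = peak q1` and `K ∩ S` is relatively open in `S` near `x1` -/
structure PkHyp (g : (Fin N → ℂ) → ℂ) (K S : Set (Fin N → ℂ)) (W2 : Set (QP N)) : Prop where
  hg : ContDiff ℝ ∞ g
  hK : IsCompact K
  hne : K.Nonempty
  hW2 : IsOpen W2
  hM : ContDiffOn ℝ 2 (Mg g K) W2
  hpos : ∀ q ∈ W2, 0 < Mg g K q
  hS : ∀ q ∈ W2, peak g K q ∈ S
  hKS : ∀ q ∈ W2, ∀ᶠ y in 𝓝[S] (peak g K q), y ∈ K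

section

variable {g : (Fin N → ℂ) → ℂ} {K S : Set (Fin N → ℂ)} {W2 : Set (QP N)} (H : PkHyp g K S W2)

include H

lemma PkHyp.hgc : Continuous g := H.hg.continuous

lemma PkHyp.diff {q : QP N} (hq : q ∈ W2) : DifferentiableAt ℝ (Mg g K) q :=
  (H.hM.differentiableOn (by simp)).differentiableAt (H.hW2.mem_nhds hq)

lemma PkHyp.contDiffOn : ContDiffOn ℝ 1 (peak g K) W2 :=
  contDiffOn_peak H.hgc H.hK H.hne H.hW2 (n := 1)
    (by have h := H.hM; rw [← one_add_one_eq_two] at h; exact h) H.hpos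

lemma PkHyp.contAt {q : QP N} (hq : q ∈ W2) : ContinuousAt (peak g K) q :=
  (H.contDiffOn.continuousOn).continuousAt (H.hW2.mem_nhds hq)

lemma PkHyp.spec {q : QP N} (hq : q ∈ W2) :
    peak g K q ∈ K ∧ Fg g q (peak g K q) = Mg g K q :=
  peak_spec H.hgc H.hK H.hne (H.diff hq) (H.hpos q hq)

lemma PkHyp.lt {q : QP N} (hq : q ∈ W2) {x : Fin N → ℂ} (hx : x ∈ K) (hxp : x ≠ peak g K q) :
    Fg g q x < Fg g q (peak g K q) := by
  rw [(H.spec hq).2]
  exact lt_peak H.hgc H.hK (H.diff hq) (H.hpos q hq) hx hxp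

lemma PkHyp.g_ne {q : QP N} (hq : q ∈ W2) : g (peak g K q) ≠ 0 :=
  g_peak_ne_zero H.hgc H.hK H.hne (H.diff hq) (H.hpos q hq)

variable {q1 : QP N} (hq1 : q1 ∈ W2) (c : RChart r S (peak g K q1))

include hq1

/-- first order condition at the peaks -/
lemma PkHyp.crit0 : ∀ᶠ q in 𝓝 q1, q ∈ W2 ∧ peak g K q ∈ c.O ∧ c.t (peak g K q) ∈ c.W ∧
    c.ι (c.t (peak g K q)) = peak g K q ∧ Dt g c.ι (q, c.t (peak g K q)) = 0 := by
  have h1 : ∀ᶠ q in 𝓝 q1, q ∈ W2 := H.hW2.mem_nhds hq1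
  have h2 : ∀ᶠ q in 𝓝 q1, peak g K q ∈ c.O := (H.contAt hq1) (c.hO.mem_nhds c.mem)
  filter_upwards [h1, h2] with q hq hqO
  have hqS := H.hS q hq
  have hτ := c.t_mem _ hqS hqO
  have hι := c.ι_t _ hqS hqO
  refine ⟨hq, hqO, hτ, hι, ?_⟩
  -- local maximum in the chart
  have hcont : ContinuousAt c.ι (c.t (peak g K q)) :=
    (c.hι.continuousOn).continuousAt (c.hW.mem_nhds hτ)
  have h3 : ∀ᶠ τ in 𝓝 (c.t (peak g K q)), c.ι τ ∈ K := by
    have h4 := eventually_nhdsWithin_iff.1 (H.hKS q hq)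
    rw [← hι] at h4
    filter_upwards [hcont.eventually h4, c.hW.mem_nhds hτ] with τ hτ1 hτ2
    exact hτ1 (c.ι_mem τ hτ2).1
  have h5 : IsLocalMax (fun τ => Fg g q (c.ι τ)) (c.t (peak g K q)) := by
    filter_upwards [h3] with τ hτ3
    rw [hι, (H.spec hq).2]
    exact Fg_le_Mg H.hgc H.hK q hτ3
  exact h5.fderiv_eq_zero

/-- the structure of the derivatives at `(q1, τ1)` -/
lemma PkHyp.key : Function.Bijective (fun v : Fin r → ℝ =>
      fderiv ℝ (Dt g c.ι) (q1, c.t (peak g K q1)) (0, v)) ∧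
    (∀ v : Fin r → ℝ, ∃ q' : QP N, fderiv ℝ (fun q => c.t (peak g K q)) q1 q' = v) ∧
    HasStrictFDerivAt (fun q => c.t (peak g K q)) (fderiv ℝ (fun q => c.t (peak g K q)) q1) q1 ∧
    HasStrictFDerivAt (Dt g c.ι) (fderiv ℝ (Dt g c.ι) (q1, c.t (peak g K q1)))
      (q1, c.t (peak g K q1)) := by
  set τ1 := c.t (peak g K q1) with hτ1
  have h0 := (H.crit0 hq1 c).self_of_nhds
  obtain ⟨-, -, hW1, hι1, -⟩ := h0
  -- smoothness
  have hτc : ContDiffAt ℝ 1 (fun q => c.t (peak g K q)) q1 := by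
    have h1 : ContDiffAt ℝ 1 (peak g K) q1 := H.contDiffOn.contDiffAt (H.hW2.mem_nhds hq1)
    have h2 : ContDiffAt ℝ 1 c.t (peak g K q1) :=
      (c.ht.contDiffAt (c.hO.mem_nhds c.mem)).of_le (by norm_cast)
    exact h2.comp q1 h1
  have hDc : ContDiffAt ℝ 1 (Dt g c.ι) (q1, τ1) :=
    ((contDiffOn_Dt H.hg c.hW c.hι).contDiffAt ((isOpen_univ.prod c.hW).mem_nhds
      ⟨mem_univ _, hW1⟩)).of_le (by norm_cast)
  have hs1 := hτc.hasStrictFDerivAt (by simp)
  have hs2 := hDc.hasStrictFDerivAt (by simp)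
  -- chain rule
  have hchain : ∀ q' : QP N, fderiv ℝ (Dt g c.ι) (q1, τ1)
      (0, fderiv ℝ (fun q => c.t (peak g K q)) q1 q') = - Dt g c.ι (q', τ1) := by
    intro q'
    have h1 : HasFDerivAt (fun q => (q, c.t (peak g K q)))
        ((ContinuousLinearMap.id ℝ (QP N)).prod (fderiv ℝ (fun q => c.t (peak g K q)) q1)) q1 :=
      (hasFDerivAt_id q1).prodMk hs1.hasFDerivAt
    have h2 := hs2.hasFDerivAt.comp q1 h1
    have h3 : (Dt g c.ι ∘ fun q => (q, c.t (peak g K q))) =ᶠ[𝓝 q1] fun _ => 0 := by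
      filter_upwards [H.crit0 hq1 c] with q hq
      exact hq.2.2.2.2
    have h4 := (h2.congr_of_eventuallyEq h3.symm).unique (hasFDerivAt_const _ _)
    have h5 := DFunLike.congr_fun h4 q'
    rw [ContinuousLinearMap.comp_apply, ContinuousLinearMap.prod_apply] at h5
    have h6 : ((ContinuousLinearMap.id ℝ (QP N)) q',
        (fderiv ℝ (fun q => c.t (peak g K q)) q1) q') =
        (q', (0 : Fin r → ℝ)) + ((0 : QP N), (fderiv ℝ (fun q => c.t (peak g K q)) q1) q') := by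
      simp
    rw [h6, map_add, fderiv_Dt_inl H.hg c.hW c.hι hW1] at h5
    exact eq_neg_of_add_eq_zero_right (by simpa using h5)
  -- A as a linear map
  let A : (Fin r → ℝ) →ₗ[ℝ] ((Fin r → ℝ) →L[ℝ] ℝ) :=
    ((fderiv ℝ (Dt g c.ι) (q1, τ1)).comp
      (ContinuousLinearMap.inr ℝ (QP N) (Fin r → ℝ))).toLinearMap
  have hA : ∀ v, A v = fderiv ℝ (Dt g c.ι) (q1, τ1) (0, v) := fun v => rfl
  have hgne : g (c.ι τ1) ≠ 0 := by rw [hι1]; exact H.g_ne hq1
  have hsurj' : ∀ l, ∃ q' : QP N, A (fderiv ℝ (fun q => c.t (peak g K q)) q1 q') = l := by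
    intro l
    obtain ⟨q', hq'⟩ := surj_Dt H.hg c hW1 hgne (-l)
    exact ⟨q', by rw [hA, hchain, hq', neg_neg]⟩
  have hsurj : Function.Surjective A := fun l => by
    obtain ⟨q', hq'⟩ := hsurj' l
    exact ⟨_, hq'⟩
  have hfr : Module.finrank ℝ (Fin r → ℝ) = Module.finrank ℝ ((Fin r → ℝ) →L[ℝ] ℝ) := by
    rw [← (LinearMap.toContinuousLinearMap (𝕜 := ℝ) (E := Fin r → ℝ) (F' := ℝ)).finrank_eq]
    exact (Subspace.dual_finrank_eq (K := ℝ) (V := Fin r → ℝ)).symm
  have hinj : Function.Injective A :=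
    (LinearMap.injective_iff_surjective_of_finrank_eq_finrank hfr).2 hsurj
  refine ⟨⟨hinj, hsurj⟩, fun v => ?_, hs1, hs2⟩
  obtain ⟨q', hq'⟩ := hsurj' (A v)
  exact ⟨q', hinj hq'⟩

include c in
/-- **A3**: the peak map is open near `q1` (as a map into `S`). -/
theorem PkHyp.peak_open {NN : Set (QP N)} (hNN : NN ∈ 𝓝 q1) :
    ∀ᶠ σ in 𝓝[S] (peak g K q1), ∃ q ∈ NN, q ∈ W2 ∧ peak g K q = σ := by
  obtain ⟨-, h2, h3, -⟩ := H.key hq1 c
  have h4 : map (fun q => c.t (peak g K q)) (𝓝 q1) = 𝓝 (c.t (peak g K q1)) :=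
    h3.map_nhds_eq_of_surj (LinearMap.range_eq_top.2 h2)
  have h5 : (fun q => c.t (peak g K q)) '' (NN ∩ {q | q ∈ W2 ∧ peak g K q ∈ c.O ∧
      c.t (peak g K q) ∈ c.W ∧ c.ι (c.t (peak g K q)) = peak g K q ∧
      Dt g c.ι (q, c.t (peak g K q)) = 0}) ∈ 𝓝 (c.t (peak g K q1)) := by
    rw [← h4]
    exact image_mem_map (inter_mem hNN (H.crit0 hq1 c))
  have h6 : ContinuousAt c.t (peak g K q1) :=
    (c.ht.continuousOn).continuousAt (c.hO.mem_nhds c.mem)
  rw [eventually_nhdsWithin_iff]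
  filter_upwards [h6 h5, c.hO.mem_nhds c.mem] with σ hσ hσO hσS
  obtain ⟨q, ⟨hqN, hq⟩, hqσ⟩ := hσ
  refine ⟨q, hqN, hq.1, ?_⟩
  rw [← hq.2.2.2.1, ← c.ι_t σ hσS hσO]
  exact congrArg c.ι hqσ

/-- **A3 (PK)**: critical points of `Re (g q)` on `S` near `x1` are peaks. -/
theorem PkHyp.peak_crit : ∃ NN ∈ 𝓝 q1, NN ⊆ W2 ∧ ∃ B ∈ 𝓝 (peak g K q1), ∀ q ∈ NN, ∀ σ ∈ S, σ ∈ B →
    fderiv ℝ (fun τ => Fg g q (c.ι τ)) (c.t σ) = 0 → σ = peak g K q := by
  obtain ⟨h1, -, h3, h4⟩ := H.key hq1 c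
  set τ1 := c.t (peak g K q1) with hτ1
  let A : (Fin r → ℝ) →L[ℝ] ((Fin r → ℝ) →L[ℝ] ℝ) :=
    (fderiv ℝ (Dt g c.ι) (q1, τ1)).comp (ContinuousLinearMap.inr ℝ (QP N) (Fin r → ℝ))
  have hA : ∀ v, A v = fderiv ℝ (Dt g c.ι) (q1, τ1) (0, v) := fun v => rfl
  have hinj : LinearMap.ker (A : (Fin r → ℝ) →ₗ[ℝ] ((Fin r → ℝ) →L[ℝ] ℝ)) = ⊥ :=
    LinearMap.ker_eq_bot.2 h1.1
  obtain ⟨κ, hκ0, hκ⟩ := (A : (Fin r → ℝ) →ₗ[ℝ] ((Fin r → ℝ) →L[ℝ] ℝ)).exists_antilipschitzWith hinj
  have hκ' : ∀ v, ‖v‖ ≤ κ * ‖A v‖ := fun v => by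
    simpa using hκ.le_mul_dist v 0
  -- strict differentiability
  have hlo := h4.isLittleO
  have hε : (0 : ℝ) < 1 / (2 * κ) := by positivity
  have h5 := hlo.def hε
  -- pull back to pairs
  have hcont : Tendsto (fun p : QP N × (Fin N → ℂ) =>
      (((p.1, c.t p.2), (p.1, c.t (peak g K p.1))) :
        (QP N × (Fin r → ℝ)) × (QP N × (Fin r → ℝ)))) (𝓝 (q1, peak g K q1))
      (𝓝 ((q1, τ1), (q1, τ1))) := by
    have ht : ContinuousAt c.t (peak g K q1) :=
      (c.ht.continuousOn).continuousAt (c.hO.mem_nhds c.mem)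
    have hp : ContinuousAt (fun q => c.t (peak g K q)) q1 := h3.continuousAt
    refine Tendsto.prodMk_nhds (Tendsto.prodMk_nhds ?_ ?_) (Tendsto.prodMk_nhds ?_ ?_)
    · exact continuous_fst.tendsto (q1, peak g K q1)
    · exact ContinuousAt.comp (f := fun p : QP N × (Fin N → ℂ) => p.2)
        (x := (q1, peak g K q1)) ht continuousAt_snd
    · exact continuous_fst.tendsto (q1, peak g K q1)
    · exact ContinuousAt.comp (f := fun p : QP N × (Fin N → ℂ) => p.1)
        (x := (q1, peak g K q1)) hp continuousAt_fst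
  have h6 := hcont.eventually h5
  rw [nhds_prod_eq] at h6
  obtain ⟨P, hP, Q, hQ, hPQ⟩ := eventually_prod_iff.1 h6
  refine ⟨{q | P q} ∩ {q | q ∈ W2 ∧ peak g K q ∈ c.O ∧ c.t (peak g K q) ∈ c.W ∧
      c.ι (c.t (peak g K q)) = peak g K q ∧ Dt g c.ι (q, c.t (peak g K q)) = 0},
    inter_mem hP (H.crit0 hq1 c), fun q hq => hq.2.1, {σ | Q σ} ∩ c.O,
    inter_mem hQ (c.hO.mem_nhds c.mem), ?_⟩
  rintro q ⟨hqP, hq⟩ σ hσS ⟨hσQ, hσO⟩ hcrit
  have h7 := hPQ hqP hσQ
  simp only at h7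
  have h8 : Dt g c.ι (q, c.t σ) = 0 := hcrit
  rw [h8, hq.2.2.2.2] at h7
  have h9 : ((q, c.t σ) - (q, c.t (peak g K q)) : QP N × (Fin r → ℝ)) =
      (0, c.t σ - c.t (peak g K q)) := by simp
  rw [h9, sub_zero, zero_sub, norm_neg, ← hA] at h7
  have h10 : ‖((0 : QP N), c.t σ - c.t (peak g K q))‖ = ‖c.t σ - c.t (peak g K q)‖ := by
    rw [Prod.norm_def]; simp
  rw [h10] at h7
  have h11 := hκ' (c.t σ - c.t (peak g K q))
  have hκ1 : (0 : ℝ) < κ := by exact_mod_cast hκ0
  have h12 : ‖c.t σ - c.t (peak g K q)‖ = 0 := by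
    have h13 : (κ : ℝ) * ‖A (c.t σ - c.t (peak g K q))‖ ≤ ‖c.t σ - c.t (peak g K q)‖ / 2 := by
      calc (κ : ℝ) * ‖A (c.t σ - c.t (peak g K q))‖
          ≤ κ * (1 / (2 * κ) * ‖c.t σ - c.t (peak g K q)‖) :=
            mul_le_mul_of_nonneg_left h7 hκ1.le
        _ = ‖c.t σ - c.t (peak g K q)‖ / 2 := by field_simp
    have h14 := norm_nonneg (c.t σ - c.t (peak g K q))
    linarith
  have h15 : c.t σ = c.t (peak g K q) := by
    rw [norm_eq_zero] at h12; exact sub_eq_zero.1 h12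
  rw [← hq.2.2.2.1, ← c.ι_t σ hσS hσO, h15]

end

end Crest.Agent.R264.Pk
end
end

-- ▼ part R264/Pk4
section

/-!
# Row 264, module PK (helper318), part 4

* `select` : a continuous map into a finite union of locally closed sets maps some open set into
  one of them;
* `PkHyp.not_interior` : the peak is not an interior point of `K` in a complex submanifold of
  positive dimension (this gives `r < 2n`);
* `taylor_EE` : anisotropic second order Taylor expansion on `EE m k`;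
* `lam_form` : complex linear forms with vanishing real part on `ℂ^m × ℝ^k`.
-/

set_option autoImplicit false

open Set Filter Topology ContDiff Metric

noncomputable section

namespace Crest.Agent.R264.Pk

/-! ### selection of a stratum -/

theorem select {X Y α : Type*} [TopologicalSpace X] [TopologicalSpace Y] (S : α → Set Y)
    (hS : ∀ a, IsLocallyClosed (S a)) (p : X → Y) (s : Finset α) :
    ∀ W : Set X, IsOpen W → W.Nonempty → ContinuousOn p W → (∀ q ∈ W, ∃ a ∈ s, p q ∈ S a) →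
    ∃ W' ⊆ W, IsOpen W' ∧ W'.Nonempty ∧ ∃ a ∈ s, ∀ q ∈ W', p q ∈ S a := by
  classical
  induction s using Finset.induction_on with
  | empty =>
    intro W _ hne _ hcov
    obtain ⟨q, hq⟩ := hne
    obtain ⟨a, ha, -⟩ := hcov q hq
    simp at ha
  | insert a s ha ih =>
    intro W hW hne hp hcov
    obtain ⟨U, C, hU, hC, hUC⟩ := hS a
    have h1 : IsOpen (W ∩ p ⁻¹' U) := hp.isOpen_inter_preimage hW hU
    have h2 : IsOpen (W ∩ p ⁻¹' Cᶜ) := hp.isOpen_inter_preimage hW hC.isOpen_compl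
    have lift : ∀ W1 ⊆ W, IsOpen W1 → W1.Nonempty → (∀ q ∈ W1, p q ∉ S a) →
        ∃ W' ⊆ W, IsOpen W' ∧ W'.Nonempty ∧ ∃ a' ∈ insert a s, ∀ q ∈ W', p q ∈ S a' := by
      intro W1 hW1 hW1o hW1n hW1a
      obtain ⟨W', hW', ho, hn, a', ha', h⟩ := ih W1 hW1o hW1n (hp.mono hW1) fun q hq => by
        obtain ⟨b, hb, hb'⟩ := hcov q (hW1 hq)
        rcases Finset.mem_insert.1 hb with rfl | hb
        · exact absurd hb' (hW1a q hq)
        · exact ⟨b, hb, hb'⟩
      exact ⟨W', hW'.trans hW1, ho, hn, a', Finset.mem_insert_of_mem ha', h⟩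
    by_cases h3 : ((W ∩ p ⁻¹' U) ∩ (W ∩ p ⁻¹' Cᶜ)).Nonempty
    · refine lift _ (fun q hq => hq.1.1) (h1.inter h2) h3 fun q hq hqa => ?_
      rw [hUC] at hqa
      exact hq.2.2 hqa.2
    · by_cases h4 : (W ∩ p ⁻¹' U).Nonempty
      · refine ⟨_, inter_subset_left, h1, h4, a, Finset.mem_insert_self _ _, fun q hq => ?_⟩
        rw [hUC]
        refine ⟨hq.2, ?_⟩
        by_contra hqC
        exact h3 ⟨q, hq, hq.1, hqC⟩
      · refine lift W subset_rfl hW hne fun q hq hqa => ?_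
        rw [hUC] at hqa
        exact h4 ⟨q, hq, hqa.1⟩

variable {N : ℕ}

/-- the function `g q` -/
def Gq (g : (Fin N → ℂ) → ℂ) (q : QP N) (x : Fin N → ℂ) : ℂ := g x * qev q x


lemma differentiable_qev (q : QP N) : Differentiable ℂ (qev q) := by
  unfold qev; fun_prop

lemma differentiable_Gq {g : (Fin N → ℂ) → ℂ} (hg : Differentiable ℂ g) (q : QP N) :
    Differentiable ℂ (Gq g q) := hg.mul (differentiable_qev q)


/-! ### Taylor expansion -/

variable {m k : ℕ}



end Crest.Agent.R264.Pk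
end
end

-- ▼ part R264/Pk5
section

/-!
# Row 264, module PK (helper318), part 5: control at the peak points (A8)
-/

set_option autoImplicit false

open Set Filter Topology ContDiff Metric

noncomputable section

namespace Crest.Agent.R264.Pk

variable {N m k r : ℕ}

/-- the quadratic polynomial `(Σ c_i (z_i - x_i))^2` -/
def qq (c x : Fin N → ℂ) : QP N :=
  ((∑ i, c i * x i) ^ 2, fun j => -2 * (∑ i, c i * x i) * c j, fun i j => c i * c j)




/-- the differential of `g q` at `σ` -/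
def lam (g : (Fin N → ℂ) → ℂ) (q : QP N) (σ : Fin N → ℂ) : (Fin N → ℂ) →L[ℂ] ℂ :=
  fderiv ℂ (Gq g q) σ

section

variable {g : (Fin N → ℂ) → ℂ} (hgh : Differentiable ℂ g)

include hgh

lemma hasFDerivAt_Gq (q : QP N) (σ : Fin N → ℂ) : HasFDerivAt (Gq g q) (lam g q σ) σ :=
  ((differentiable_Gq hgh q) σ).hasFDerivAt






/-- `d (Re (g q))|_S` in the chart through the complex differential -/
lemma Dt_eq_lam {S : Set (Fin N → ℂ)} {x1 : Fin N → ℂ} (c : RChart r S x1) {τ : Fin r → ℝ}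
    (hτ : τ ∈ c.W) (q : QP N) (v : Fin r → ℝ) :
    Dt g c.ι (q, τ) v = (lam g q (c.ι τ) (fderiv ℝ c.ι τ v)).re := by
  have h1 : HasFDerivAt c.ι (fderiv ℝ c.ι τ) τ :=
    ((c.hι.contDiffAt (c.hW.mem_nhds hτ)).differentiableAt (by simp)).hasFDerivAt
  have h2 : HasFDerivAt (Gq g q) ((lam g q (c.ι τ)).restrictScalars ℝ) (c.ι τ) :=
    (hasFDerivAt_Gq hgh q (c.ι τ)).restrictScalars ℝ
  have h3 := Complex.reCLM.hasFDerivAt.comp τ (h2.comp τ h1)
  have h4 : (fun τ' => Fg g q (c.ι τ')) = (Complex.reCLM ∘ (Gq g q ∘ c.ι)) := by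
    funext τ'; rfl
  unfold Dt
  simp only
  rw [h4, h3.fderiv]
  simp

end

/-- first order condition at a peak, in any chart -/
lemma PkHyp.crit_at {g : (Fin N → ℂ) → ℂ} {K S : Set (Fin N → ℂ)} {W2 : Set (QP N)}
    (H : PkHyp g K S W2) {x1 : Fin N → ℂ} (c : RChart r S x1) {q : QP N} (hq : q ∈ W2)
    (hqO : peak g K q ∈ c.O) : Dt g c.ι (q, c.t (peak g K q)) = 0 := by
  have hqS := H.hS q hq
  have hτ := c.t_mem _ hqS hqO
  have hι := c.ι_t _ hqS hqO
  have hcont : ContinuousAt c.ι (c.t (peak g K q)) :=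
    (c.hι.continuousOn).continuousAt (c.hW.mem_nhds hτ)
  have h3 : ∀ᶠ τ in 𝓝 (c.t (peak g K q)), c.ι τ ∈ K := by
    have h4 := eventually_nhdsWithin_iff.1 (H.hKS q hq)
    rw [← hι] at h4
    filter_upwards [hcont.eventually h4, c.hW.mem_nhds hτ] with τ hτ1 hτ2
    exact hτ1 (c.ι_mem τ hτ2).1
  have h5 : IsLocalMax (fun τ => Fg g q (c.ι τ)) (c.t (peak g K q)) := by
    filter_upwards [h3] with τ hτ3
    rw [hι, (H.spec hq).2]
    exact Fg_le_Mg H.hgc H.hK q hτ3
  exact h5.fderiv_eq_zero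



end Crest.Agent.R264.Pk
end
end

-- ▼ part R264/Pk6
section

/-!
# Row 264, module PK (helper318), part 6: `AI.PKCalc` (A2 + A3)
-/

set_option autoImplicit false

open Set Filter Topology ContDiff Metric

noncomputable section

namespace Crest.Agent.R264.Pk

open Crest.AlgGeometry.Semialg

variable {N : ℕ}

lemma contDiff_eval {σ 𝕜 : Type*} [Fintype σ] [RCLike 𝕜] (p : MvPolynomial σ 𝕜) :
    ContDiff 𝕜 ∞ (fun x : σ → 𝕜 => MvPolynomial.eval x p) := by
  induction p using MvPolynomial.induction_on with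
  | C a => simpa using contDiff_const
  | add p q hp hq => simpa using hp.add hq
  | mul_X p i hp => simpa using hp.mul (contDiff_apply 𝕜 𝕜 i)

lemma contDiff_realCoords : ContDiff ℝ ∞ (realCoords : (Fin N → ℂ) → (Fin N ⊕ Fin N → ℝ)) := by
  rw [contDiff_pi]
  rintro (i | i)
  · exact Complex.reCLM.contDiff.comp (contDiff_apply ℝ ℂ i)
  · exact Complex.imCLM.contDiff.comp (contDiff_apply ℝ ℂ i)

lemma differentiable_eval (g : MvPolynomial (Fin N) ℂ) :
    Differentiable ℂ (fun x : Fin N → ℂ => MvPolynomial.eval x g) :=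
  (contDiff_eval g).differentiable (by simp)

/-- charts of the interface as `RChart` -/
def toRChart {r : ℕ} {S : Set (Fin N → ℂ)} {t : Fin r → MvPolynomial (Fin N ⊕ Fin N) ℝ}
    {B : Set (Fin N → ℂ)} {T : Set (Fin r → ℝ)} {ε : (Fin r → ℝ) → (Fin N → ℂ)}
    (h : AI.IsRChart S (fun x i => MvPolynomial.eval (realCoords x) (t i)) B T ε)
    {x : Fin N → ℂ} (hx : x ∈ B) : RChart r S x where
  O := B
  W := T
  ι := ε
  t := fun x i => MvPolynomial.eval (realCoords x) (t i)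
  hO := h.hB
  hW := h.hT
  mem := hx
  hι := h.hε.contDiffOn h.hT.uniqueDiffOn
  ht := by
    apply ContDiff.contDiffOn
    rw [contDiff_pi]
    exact fun i => (contDiff_eval (t i)).comp contDiff_realCoords
  ι_mem := fun w hw => ⟨(h.maps w hw).2.1, (h.maps w hw).1⟩
  t_ι := fun w hw => (h.maps w hw).2.2
  t_mem := fun y hyS hyO => (h.back y hyO hyS).1
  ι_t := fun y hyS hyO => (h.back y hyO hyS).2

/-- **A2 + A3, analytic part.** -/
theorem pkCalc : AI.PKCalc := by
  intro N K g ν S W hK hne hW hWne hpos hM hcov hopen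
  set g' : (Fin N → ℂ) → ℂ := fun x => MvPolynomial.eval x g with hg'
  have hgh : Differentiable ℂ g' := differentiable_eval g
  have hgs : ContDiff ℝ ∞ g' := (contDiff_eval g).restrict_scalars ℝ
  have hMg : AI.Mfun K g = Mg g' K := rfl
  rw [hMg] at hM hpos
  have hdiff : ∀ q ∈ W, DifferentiableAt ℝ (Mg g' K) q := fun q hq =>
    (hM.differentiableOn (by simp)).differentiableAt (hW.mem_nhds hq)
  have hpc : ContDiffOn ℝ ∞ (peak g' K) W :=
    contDiffOn_peak hgs.continuous hK hne hW (n := ⊤) (by simpa using hM) hpos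
  -- select a stratum
  obtain ⟨W2, hW2, hW2o, hW2n, a, -, ha⟩ := select (fun a => (S a).S) (fun a => (S a).lc)
    (peak g' K) Finset.univ W hW hWne hpc.continuousOn (fun q _ => by
      obtain ⟨a, ha⟩ := hcov (peak g' K q)
      exact ⟨a, Finset.mem_univ _, ha⟩)
  obtain ⟨OK, hOK, hKS⟩ := hopen a
  have H : PkHyp g' K (S a).S W2 :=
    { hg := hgs
      hK := hK
      hne := hne
      hW2 := hW2o
      hM := (hM.mono hW2).of_le (by norm_cast)
      hpos := fun q hq => hpos q (hW2 hq)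
      hS := ha
      hKS := fun q hq => by
        have h1 : peak g' K q ∈ K := (peak_spec hgs.continuous hK hne (hdiff q (hW2 hq))
          (hpos q (hW2 hq))).1
        have h2 : peak g' K q ∈ OK ∩ (S a).S := by rw [← hKS]; exact ⟨h1, ha q hq⟩
        rw [eventually_nhdsWithin_iff]
        filter_upwards [hOK.mem_nhds h2.1] with y hy hyS
        have h3 : y ∈ K ∩ (S a).S := by rw [hKS]; exact ⟨hy, hyS⟩
        exact h3.1 }
  obtain ⟨q1, hq1⟩ := hW2n
  obtain ⟨B0, T0, ε0, hxB0, hch⟩ := (S a).chart (peak g' K q1) (ha q1 hq1)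
  let c : RChart (S a).r (S a).S (peak g' K q1) := toRChart hch hxB0
  obtain ⟨NN, hNN, hNNW, BB, hBB, hPK⟩ := H.peak_crit hq1 c
  -- interior of `NN`
  obtain ⟨NN', hNN'N, hNN'o, hq1N⟩ := _root_.mem_nhds_iff.1 hNN
  obtain ⟨BB', hBB'B, hBB'o, hx1B⟩ := _root_.mem_nhds_iff.1 hBB
  have hopenp := H.peak_open hq1 c (hNN'o.mem_nhds hq1N)
  rw [eventually_nhdsWithin_iff] at hopenp
  obtain ⟨O1, hO1s, hO1o, hx1O⟩ := _root_.mem_nhds_iff.1 hopenp
  refine ⟨a, peak g' K q1, O1 ∩ BB' ∩ c.O, ha q1 hq1, (hO1o.inter hBB'o).inter c.hO,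
    ⟨⟨hx1O, hx1B⟩, c.mem⟩, ?_⟩
  rintro x hxS ⟨⟨hxO1, hxBB⟩, hxO⟩
  obtain ⟨q0, hq0N, hq0W, hq0x⟩ := hO1s hxO1 hxS
  have hxK : x ∈ K := by rw [← hq0x]; exact (H.spec hq0W).1
  refine ⟨hxK, by rw [← hq0x]; exact H.g_ne hq0W, ?_⟩
  intro B T ε hc2 hxB
  -- the two charts agree near `tS x`
  have hτ1 : c.t x ∈ c.W := c.t_mem x hxS hxO
  have hιx : c.ι (c.t x) = x := c.ι_t x hxS hxO
  have hback := hc2.back x hxB hxS
  have hεcont : ContinuousAt ε (c.t x) := (hc2.hε _ hback.1).continuousAt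
  have heq : ε =ᶠ[𝓝 (c.t x)] c.ι := by
    have h1 : ∀ᶠ τ in 𝓝 (c.t x), ε τ ∈ c.O := by
      apply hεcont.eventually_mem
      have h2 : ε (c.t x) = x := hback.2
      rw [h2]
      exact c.hO.mem_nhds hxO
    filter_upwards [h1, hc2.hT.mem_nhds hback.1] with τ hτ hτT
    have h3 := hc2.maps τ hτT
    have h4 := c.ι_t (ε τ) h3.2.1 hτ
    have h5 : c.t (ε τ) = τ := h3.2.2
    rw [h5] at h4
    exact h4.symm
  have hfd : fderiv ℝ ε ((S a).tS x) = fderiv ℝ c.ι (c.t x) := heq.fderiv_eq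
  rw [hfd]
  -- criterion
  have hcrit : ∀ q : QP N, (∀ v ∈ range (fderiv ℝ c.ι (c.t x)),
      (fderiv ℂ (AI.gq g q) x v).re = 0) → Dt g' c.ι (q, c.t x) = 0 := by
    intro q hq
    ext1 v
    rw [Dt_eq_lam hgh c hτ1, hιx]
    exact hq _ ⟨v, rfl⟩
  obtain ⟨δ, hδ, hδN⟩ := Metric.isOpen_iff.1 hNN'o q0 hq0N
  refine ⟨q0, δ, hδ, ?_, ?_⟩
  · rintro _ ⟨v, rfl⟩
    have h1 := H.crit_at c hq0W (by rw [hq0x]; exact hxO)
    rw [hq0x] at h1
    have h2 := Dt_eq_lam hgh c hτ1 q0 v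
    rw [hιx, h1] at h2
    exact h2.symm
  · intro q hq hqT y hyK hyx
    have hqN : q ∈ NN := hNN'N (hδN (by rwa [mem_ball, dist_eq_norm]))
    have h1 := hPK q hqN x hxS (hBB'B hxBB) (hcrit q hqT)
    have h2 := H.lt (hNNW hqN) hyK (x := y) (by rw [← h1]; exact hyx)
    rw [← h1] at h2
    exact h2

end Crest.Agent.R264.Pk
end
end

-- ▼ part R264/LemJ1
section

/-!
Row 264, Part A, Lemma J (generic CR rank), algebraic part (helper599).
-/

set_option autoImplicit false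

open Set Function Algebra

namespace Crest.Agent.R264.LJ

variable {K A : Type*} [Field K] [CharZero K] [CommRing A] [IsDomain A] [Algebra K A]

omit [CharZero K] [IsDomain A] in
lemma der_adjoin {S : Set A} (D : Derivation K A A) (hS : ∀ s ∈ S, D s = 0) {a : A}
    (ha : a ∈ Algebra.adjoin K S) : D a = 0 := by
  have h := Derivation.eqOn_adjoin (D1 := D) (D2 := 0) (s := S) (fun s hs => by
    rw [hS s hs]; rfl) ha
  rw [h]; rfl

/-- a derivation which kills `S` kills every element algebraic over `K[S]`. -/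
lemma der_algebraic {S : Set A} (D : Derivation K A A) (hS : ∀ s ∈ S, D s = 0) {a : A}
    (ha : IsAlgebraic (Algebra.adjoin K S) a) : D a = 0 := by
  classical
  let D' : Derivation (Algebra.adjoin K S) A A :=
    { toFun := D
      map_add' := fun x y => map_add D x y
      map_smul' := fun c x => by
        simp only [RingHom.id_apply]
        rw [Algebra.smul_def, Derivation.leibniz]
        have : D (algebraMap (Algebra.adjoin K S) A c) = 0 := der_adjoin D hS c.2
        rw [this, smul_zero, add_zero]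
        rfl
      map_one_eq_zero' := D.map_one_eq_zero
      leibniz' := fun x y => D.leibniz x y }
  have hD' : ∀ x, D' x = D x := fun _ => rfl
  have hex : ∃ k : ℕ, ∃ q : Polynomial (Algebra.adjoin K S), q ≠ 0 ∧ Polynomial.aeval a q = 0 ∧
      q.natDegree = k := by
    obtain ⟨q, hq, hqa⟩ := ha
    exact ⟨_, q, hq, hqa, rfl⟩
  obtain ⟨q, hq, hqa, hqk⟩ := Nat.find_spec hex
  have hmin : ∀ p : Polynomial (Algebra.adjoin K S), p.natDegree < q.natDegree →
      Polynomial.aeval a p = 0 → p = 0 := by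
    intro p hp hpa
    by_contra hne
    exact Nat.find_min hex (hqk ▸ hp) ⟨p, hne, hpa, rfl⟩
  have hpos : 0 < q.natDegree := by
    rcases Nat.eq_zero_or_pos q.natDegree with h | h
    · exfalso
      rw [Polynomial.natDegree_eq_zero] at h
      obtain ⟨c, rfl⟩ := h
      rw [Polynomial.aeval_C] at hqa
      apply hq
      have : c = 0 := by
        apply Subtype.ext
        exact hqa
      rw [this, Polynomial.C_0]
    · exact h
  have hder : Polynomial.derivative q ≠ 0 := by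
    intro h
    have : CharZero (Algebra.adjoin K S) := charZero_of_injective_algebraMap
      (algebraMap K (Algebra.adjoin K S)).injective
    have := Polynomial.derivative_eq_zero.1 h
    omega
  have hda : Polynomial.aeval a (Polynomial.derivative q) ≠ 0 := by
    intro h
    exact hder (hmin _ (Polynomial.natDegree_derivative_lt hpos.ne') h)
  have h := D'.map_aeval q a
  rw [hqa, map_zero, smul_eq_mul] at h
  rcases mul_eq_zero.1 h.symm with h | h
  · exact absurd h hda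
  · exact h

/-- **algebraic core of Lemma J.** -/
theorem exists_det {r n : ℕ} (τ : Fin r → A) (D : Fin r → Derivation K A A)
    (hD : ∀ j k, D j (τ k) = if j = k then 1 else 0) (hτ : AlgebraicIndependent K τ)
    (f : Fin n → A) (hf : AlgebraicIndependent K f)
    (halg : ∀ i, IsAlgebraic (Algebra.adjoin K (range τ)) (f i)) :
    ∃ (g : Fin r → A) (σ : Fin n → Fin r), Injective σ ∧ (∀ i, g (σ i) = f i) ∧
      (Matrix.of fun i j => D j (g i)).det ≠ 0 := by
  classical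
  set M := AlgebraicIndependent.matroid K A with hM
  have hI : M.Indep (range τ) := hτ.to_subtype_range
  have hJ : M.Indep (range f) := hf.to_subtype_range
  have hcl : range f ⊆ M.closure (range τ) := by
    rintro _ ⟨i, rfl⟩
    rw [hM, AlgebraicIndependent.matroid_closure_eq]
    exact halg i
  have hIb : M.IsBasis (range τ) (range f ∪ range τ) :=
    hI.isBasis_of_subset_of_subset_closure subset_union_right
      (union_subset hcl (M.subset_closure (range τ)))
  obtain ⟨B, hB, hfB⟩ := hJ.subset_isBasis_of_subset (X := range f ∪ range τ) subset_union_left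
  have hcard : B.encard = r := by
    rw [hB.encard_eq_encard hIb, ← image_univ, hτ.injective.encard_image, encard_univ]
    simp
  have hBfin : B.Finite := finite_of_encard_eq_coe hcard
  have hnc : Nat.card B = r := by
    have h1 : (B.ncard : ℕ∞) = r := by rw [hBfin.cast_ncard_eq, hcard]
    exact_mod_cast h1
  have : Finite B := hBfin
  let e : B ≃ Fin r := Finite.equivFinOfCardEq hnc
  refine ⟨fun i => (e.symm i : A), fun i => e ⟨f i, hfB (mem_range_self i)⟩, ?_, ?_, ?_⟩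
  · intro i j hij
    have h1 := e.injective hij
    exact hf.injective (Subtype.ext_iff.1 h1)
  · intro i
    simp
  · intro hdet
    obtain ⟨v, hv, hv0⟩ := Matrix.exists_mulVec_eq_zero_iff.2 hdet
    apply hv
    set E : Derivation K A A := ∑ j, v j • D j with hE
    have hEa : ∀ a, E a = ∑ j, v j * D j a := by
      intro a
      have h1 : ∀ s : Finset (Fin r), (∑ j ∈ s, v j • D j) a = ∑ j ∈ s, v j * D j a := by
        intro s
        induction s using Finset.induction_on with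
        | empty => simp
        | insert j s hj ih =>
          rw [Finset.sum_insert hj, Finset.sum_insert hj, Derivation.add_apply, ih,
            Derivation.smul_apply, smul_eq_mul]
      rw [hE, h1]
    have hEB : ∀ b ∈ B, E b = 0 := by
      intro b hb
      have h1 := congrFun hv0 (e ⟨b, hb⟩)
      simp only [Matrix.mulVec, dotProduct, Matrix.of_apply, Equiv.symm_apply_apply,
        Pi.zero_apply] at h1
      rw [hEa, ← h1]
      exact Finset.sum_congr rfl fun j _ => mul_comm _ _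
    funext k
    have hk : IsAlgebraic (Algebra.adjoin K B) (τ k) := by
      have h1 : τ k ∈ M.closure B := by
        rw [hB.closure_eq_closure]
        exact M.mem_closure_of_mem (Or.inr (mem_range_self k)) (subset_univ _)
      rw [hM, AlgebraicIndependent.matroid_closure_eq] at h1
      exact h1
    have h2 := der_algebraic E hEB hk
    rw [hEa] at h2
    simp only [hD, mul_ite, mul_one, mul_zero, Finset.sum_ite_eq', Finset.mem_univ, if_true] at h2
    exact h2

end Crest.Agent.R264.LJ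
end

-- ▼ part R264/LemJ2
section

/-!
Row 264, Part A, Lemma J (generic CR rank), the algebra of real analytic functions (helper599).
-/

set_option autoImplicit false
set_option linter.unusedSectionVars false

open Set Function Filter Topology

namespace Crest.Agent.R264.LJ

noncomputable section

variable {V : Type*} [NormedAddCommGroup V] [NormedSpace ℝ V] {U : Set V}

open Classical in
/-- extension by zero. -/
def ext (U : Set V) (g : U → ℂ) (x : V) : ℂ := if h : x ∈ U then g ⟨x, h⟩ else 0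

lemma ext_of_mem (g : U → ℂ) {x : V} (h : x ∈ U) : ext U g x = g ⟨x, h⟩ := dif_pos h

/-- the algebra of real analytic functions on an open set. -/
def An (hU : IsOpen U) : Subalgebra ℂ (U → ℂ) where
  carrier := {g | AnalyticOnNhd ℝ (ext U g) U}
  mul_mem' := by
    intro a b ha hb
    refine (AnalyticOnNhd.mul ha hb).congr hU fun x hx => ?_
    simp only [Pi.mul_apply, ext_of_mem _ hx]
  add_mem' := by
    intro a b ha hb
    refine (AnalyticOnNhd.add ha hb).congr hU fun x hx => ?_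
    simp only [Pi.add_apply, ext_of_mem _ hx]
  algebraMap_mem' := by
    intro c
    refine (analyticOnNhd_const (v := c)).congr hU fun x hx => ?_
    simp only [ext_of_mem _ hx]
    rfl

variable {hU : IsOpen U}

/-- a function analytic on `U` as an element of the algebra. -/
def mk (hU : IsOpen U) (f : V → ℂ) (hf : AnalyticOnNhd ℝ f U) : An hU :=
  ⟨fun x => f x, hf.congr hU fun x hx => by rw [ext_of_mem _ hx]⟩

@[simp] lemma mk_apply (f : V → ℂ) (hf : AnalyticOnNhd ℝ f U) (x : U) :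
    (mk hU f hf : U → ℂ) x = f x := rfl

lemma gan (g : An hU) : AnalyticOnNhd ℝ (ext U (g : U → ℂ)) U := g.2

lemma gdiff (g : An hU) {x : V} (hx : x ∈ U) : DifferentiableAt ℝ (ext U (g : U → ℂ)) x :=
  ((gan g) x hx).differentiableAt

lemma ext_mk_eventuallyEq (f : V → ℂ) (hf : AnalyticOnNhd ℝ f U) {x : V} (hx : x ∈ U) :
    ext U (mk hU f hf : U → ℂ) =ᶠ[𝓝 x] f := by
  filter_upwards [hU.mem_nhds hx] with y hy
  rw [ext_of_mem _ hy]; rfl

/-- the directional derivative. -/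
def dir (v : V) : Derivation ℂ (An hU) (An hU) where
  toFun g := mk hU (fun x => fderiv ℝ (ext U (g : U → ℂ)) x v) 
    ((ContinuousLinearMap.apply ℝ ℂ v).comp_analyticOnNhd ((gan g).fderiv_of_isOpen hU))
  map_add' g h := by
    apply Subtype.ext
    funext x
    have h1 : ext U ((g + h : An hU) : U → ℂ) = ext U (g : U → ℂ) + ext U (h : U → ℂ) := by
      funext y
      by_cases hy : y ∈ U
      · simp [ext_of_mem _ hy]
      · simp [ext, hy]
    change fderiv ℝ (ext U ((g + h : An hU) : U → ℂ)) x v = _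
    rw [h1, fderiv_add (gdiff g x.2) (gdiff h x.2)]
    rfl
  map_smul' c g := by
    apply Subtype.ext
    funext x
    have h1 : ext U ((c • g : An hU) : U → ℂ) = c • ext U (g : U → ℂ) := by
      funext y
      by_cases hy : y ∈ U
      · simp [ext_of_mem _ hy]
      · simp [ext, hy]
    change fderiv ℝ (ext U ((c • g : An hU) : U → ℂ)) x v = _
    rw [h1, fderiv_const_smul (gdiff g x.2)]
    rfl
  map_one_eq_zero' := by
    apply Subtype.ext
    funext x
    change fderiv ℝ (ext U ((1 : An hU) : U → ℂ)) x v = 0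
    have h1 : ext U ((1 : An hU) : U → ℂ) =ᶠ[𝓝 (x : V)] fun _ => (1 : ℂ) := by
      filter_upwards [hU.mem_nhds x.2] with y hy
      rw [ext_of_mem _ hy]; rfl
    rw [h1.fderiv_eq]
    simp
  leibniz' g h := by
    apply Subtype.ext
    funext x
    have h1 : ext U ((g * h : An hU) : U → ℂ) = ext U (g : U → ℂ) * ext U (h : U → ℂ) := by
      funext y
      by_cases hy : y ∈ U
      · simp [ext_of_mem _ hy]
      · simp [ext, hy]
    change fderiv ℝ (ext U ((g * h : An hU) : U → ℂ)) x v = _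
    rw [h1, fderiv_mul (gdiff g x.2) (gdiff h x.2)]
    change (ext U (g : U → ℂ) x • fderiv ℝ (ext U (h : U → ℂ)) x +
      ext U (h : U → ℂ) x • fderiv ℝ (ext U (g : U → ℂ)) x) v = _
    rw [ext_of_mem _ x.2, ext_of_mem _ x.2]
    rfl

lemma dir_apply (v : V) (g : An hU) (x : U) :
    (dir v g : U → ℂ) x = fderiv ℝ (ext U (g : U → ℂ)) x v := rfl

lemma dir_mk (v : V) (f : V → ℂ) (hf : AnalyticOnNhd ℝ f U) (x : U) :
    (dir v (mk hU f hf) : U → ℂ) x = fderiv ℝ f x v := by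
  rw [dir_apply, (ext_mk_eventuallyEq f hf x.2).fderiv_eq]

/-- evaluation at a point -/
def ev (x : U) : An hU →ₐ[ℂ] ℂ := (Pi.evalAlgHom ℂ (fun _ : U => ℂ) x).comp (An hU).val

lemma ev_apply (x : U) (g : An hU) : ev x g = (g : U → ℂ) x := rfl

lemma an_ext_iff {g h : An hU} : g = h ↔ ∀ x, ev x g = ev x h :=
  ⟨fun e x => by rw [e], fun e => Subtype.ext (funext e)⟩

theorem isDomain_An (hc : IsPreconnected U) (hne : U.Nonempty) : IsDomain (An hU) := by
  have hnt : Nontrivial (An hU) := by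
    obtain ⟨x, hx⟩ := hne
    refine ⟨0, 1, fun h => ?_⟩
    have := congrArg (ev (⟨x, hx⟩ : U)) h
    rw [map_zero, map_one] at this
    exact zero_ne_one this
  have hnz : NoZeroDivisors (An hU) := by
    refine ⟨fun {g h} hgh => ?_⟩
    by_contra hcon
    push Not at hcon
    obtain ⟨hg, hh⟩ := hcon
    obtain ⟨x0, hx0⟩ : ∃ x : U, (g : U → ℂ) x ≠ 0 := by
      by_contra hall
      push Not at hall
      exact hg (Subtype.ext (funext hall))
    apply hh
    have h1 : ∀ᶠ y in 𝓝 (x0 : V), ext U (g : U → ℂ) y ≠ 0 := by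
      refine (gdiff g x0.2).continuousAt.eventually_ne ?_
      rwa [ext_of_mem _ x0.2]
    have h2 : ext U (h : U → ℂ) =ᶠ[𝓝 (x0 : V)] 0 := by
      filter_upwards [h1, hU.mem_nhds x0.2] with y hy hyU
      rw [ext_of_mem _ hyU] at hy ⊢
      have h3 := congrArg (ev (⟨y, hyU⟩ : U)) hgh
      rw [map_mul, map_zero] at h3
      rcases mul_eq_zero.1 h3 with h3 | h3
      · exact absurd h3 hy
      · exact h3
    have h4 := (gan h).eqOn_zero_of_preconnected_of_eventuallyEq_zero hc x0.2 h2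
    apply Subtype.ext
    funext x
    have h5 := h4 x.2
    rw [ext_of_mem _ x.2] at h5
    exact h5
  exact NoZeroDivisors.to_isDomain _

/-! ### coordinates -/

section Coord

variable {r : ℕ} {U : Set (Fin r → ℝ)} {hU : IsOpen U}

lemma coord_an (j : Fin r) : AnalyticOnNhd ℝ (fun x : Fin r → ℝ => ((x j : ℝ) : ℂ)) U := by
  intro x _
  exact (Complex.ofRealCLM.comp (ContinuousLinearMap.proj (R := ℝ) (φ := fun _ : Fin r => ℝ)
    j)).analyticAt x

/-- the coordinate functions -/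
def co (hU : IsOpen U) (j : Fin r) : An hU := mk hU _ (coord_an j)

/-- the coordinate derivations -/
def dj (hU : IsOpen U) (j : Fin r) : Derivation ℂ (An hU) (An hU) := dir (Pi.single j 1)

lemma dj_co (j k : Fin r) : dj hU j (co hU k) = if j = k then 1 else 0 := by
  apply Subtype.ext
  funext x
  rw [dj, co, dir_mk]
  have h : HasFDerivAt (fun x : Fin r → ℝ => ((x k : ℝ) : ℂ))
      (Complex.ofRealCLM.comp (ContinuousLinearMap.proj (R := ℝ) (φ := fun _ : Fin r => ℝ) k))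
      (x : Fin r → ℝ) :=
    (Complex.ofRealCLM.comp (ContinuousLinearMap.proj (R := ℝ) (φ := fun _ : Fin r => ℝ)
      k)).hasFDerivAt
  rw [h.fderiv]
  simp only [ContinuousLinearMap.comp_apply, ContinuousLinearMap.proj_apply,
    Complex.ofRealCLM_apply]
  by_cases hjk : j = k
  · subst hjk
    simp
  · rw [Pi.single_eq_of_ne (Ne.symm hjk), if_neg hjk]
    simp

lemma ev_aeval {σ : Type*} (g : σ → An hU) (p : MvPolynomial σ ℂ) (x : U) :
    ev x (MvPolynomial.aeval g p) = MvPolynomial.eval (fun s => ev x (g s)) p := by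
  rw [← MvPolynomial.coe_aeval_eq_eval]
  change ((ev x).comp (MvPolynomial.aeval g)) p = _
  rw [MvPolynomial.comp_aeval]
  rfl

/-- a complex polynomial vanishing on a nonempty real open set is zero. -/
lemma poly_zero {U : Set (Fin r → ℝ)} (hU : IsOpen U) (hne : U.Nonempty) {p : MvPolynomial (Fin r) ℂ}
    (hp : ∀ x ∈ U, MvPolynomial.eval (fun j => ((x j : ℝ) : ℂ)) p = 0) : p = 0 := by
  obtain ⟨x0, hx0⟩ := hne
  obtain ⟨ε, hε, hball⟩ := Metric.isOpen_iff.1 hU x0 hx0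
  refine MvPolynomial.funext_set (fun j => Complex.ofReal '' Ioo (x0 j - ε) (x0 j + ε))
    (fun j => ?_) fun y hy => ?_
  · refine Infinite.image Complex.ofReal_injective.injOn ?_
    exact Ioo_infinite (by linarith)
  · have h1 : ∀ j, ∃ t : ℝ, t ∈ Ioo (x0 j - ε) (x0 j + ε) ∧ (t : ℂ) = y j := fun j =>
      hy j (mem_univ j)
    choose t ht hty using h1
    have h2 : t ∈ Metric.ball x0 ε := by
      rw [Metric.mem_ball, dist_pi_lt_iff hε]
      intro j
      rw [Real.dist_eq, abs_lt]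
      exact ⟨by linarith [(ht j).1], by linarith [(ht j).2]⟩
    have h3 := hp t (hball h2)
    rw [map_zero]
    convert h3 using 2
    congr 1
    funext j
    exact (hty j).symm

lemma co_indep (hne : U.Nonempty) : AlgebraicIndependent ℂ (co hU) := by
  rw [algebraicIndependent_iff]
  intro p hp
  refine poly_zero hU hne fun x hx => ?_
  have h := congrArg (ev (⟨x, hx⟩ : U)) hp
  rw [ev_aeval, map_zero] at h
  exact h

end Coord

end

end Crest.Agent.R264.LJ
end

-- ▼ part R264/LemJ3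

/-!
Row 264, Part A, **Lemma J** (generic CR rank) (helper599): `theorem lemJ : AI.LemJ`.
-/

set_option autoImplicit false

open Set Function Filter Topology

namespace Crest.Agent.R264.LJ

noncomputable section

/-- columns span if the rows are independent. -/
lemma span_cols {n r : ℕ} (M : Matrix (Fin n) (Fin r) ℂ) (h : LinearIndependent ℂ M.row) :
    Submodule.span ℂ (range M.col) = ⊤ := by
  rw [← Matrix.range_mulVecLin]
  apply Submodule.eq_top_of_finrank_eq
  have h1 : M.rank = n := by simpa using h.rank_matrix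
  rw [Module.finrank_fintype_fun_eq_card, Fintype.card_fin]
  exact h1

theorem core {r n : ℕ} {T : Set (Fin r → ℝ)} {f : (Fin r → ℝ) → (Fin n → ℂ)} (hT : IsOpen T)
    (hne : T.Nonempty) (hc : IsPreconnected T) (hf : AnalyticOnNhd ℝ f T)
    (hind : ∀ R : MvPolynomial (Fin n) ℂ, (∀ τ ∈ T, MvPolynomial.eval (f τ) R = 0) → R = 0)
    (halg : ∀ i, ∃ q : Polynomial (MvPolynomial (Fin r) ℂ), q.Monic ∧
      ∀ τ ∈ T, q.eval₂ (MvPolynomial.eval fun i => (τ i : ℂ)) (f τ i) = 0) :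
    ∃ τ ∈ T, Submodule.span ℂ (range (fderiv ℝ f τ)) = ⊤ := by
  have hdom : IsDomain (An hT) := isDomain_An hc hne
  have hfi : ∀ i, AnalyticOnNhd ℝ (fun τ => f τ i) T := fun i =>
    (ContinuousLinearMap.proj (R := ℝ) (φ := fun _ : Fin n => ℂ) i).comp_analyticOnNhd hf
  set F : Fin n → An hT := fun i => mk hT (fun τ => f τ i) (hfi i) with hF
  have hFi : AlgebraicIndependent ℂ F := by
    rw [algebraicIndependent_iff]
    intro p hp
    refine hind p fun τ hτ => ?_
    have h := congrArg (ev (⟨τ, hτ⟩ : T)) hp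
    rw [ev_aeval, map_zero] at h
    exact h
  have hFa : ∀ i, IsAlgebraic (Algebra.adjoin ℂ (range (co hT))) (F i) := by
    intro i
    obtain ⟨q, hq, hq0⟩ := halg i
    let φ : MvPolynomial (Fin r) ℂ →ₐ[ℂ] Algebra.adjoin ℂ (range (co hT)) :=
      (MvPolynomial.aeval (co hT)).codRestrict _ (fun p => by
        have := (MvPolynomial.aeval (co hT) : MvPolynomial (Fin r) ℂ →ₐ[ℂ] An hT).mem_range_self p
        rw [← Algebra.adjoin_range_eq_range_aeval] at this
        exact this)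
    refine ⟨q.map φ.toRingHom, (hq.map φ.toRingHom).ne_zero, ?_⟩
    rw [an_ext_iff]
    intro x
    rw [Polynomial.aeval_def, Polynomial.eval₂_map, map_zero]
    have h1 : ev x (Polynomial.eval₂ ((algebraMap (Algebra.adjoin ℂ (range (co hT)))
        (An hT)).comp φ.toRingHom) (F i) q) =
        q.eval₂ (MvPolynomial.eval fun i => (((x : Fin r → ℝ) i : ℝ) : ℂ))
          (f (x : Fin r → ℝ) i) := by
      change (ev x).toRingHom _ = _
      rw [Polynomial.hom_eval₂]
      congr 1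
      apply RingHom.ext
      intro p
      exact ev_aeval (co hT) p x
    rw [h1]
    exact hq0 _ x.2
  obtain ⟨g, σ, hσ, hgσ, hdet⟩ := exists_det (co hT) (dj hT) dj_co (co_indep hne) F hFi hFa
  obtain ⟨x, hx⟩ : ∃ x : T, ev x (Matrix.of fun i j => dj hT j (g i)).det ≠ 0 := by
    by_contra hall
    push Not at hall
    apply hdet
    rw [an_ext_iff]
    intro x
    rw [hall x, map_zero]
  refine ⟨x, x.2, ?_⟩
  rw [AlgHom.map_det] at hx
  have hli : LinearIndependent ℂ (Matrix.of fun (i j : Fin r) => ev x (dj hT j (g i))).row := by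
    have h2 := Matrix.linearIndependent_rows_of_det_ne_zero (A := (ev x).mapMatrix
      (Matrix.of fun i j => dj hT j (g i))) hx
    exact h2
  have hli2 := hli.comp σ hσ
  have hfd : DifferentiableAt ℝ f (x : Fin r → ℝ) := (hf x x.2).differentiableAt
  set N : Matrix (Fin n) (Fin r) ℂ := Matrix.of fun i j => fderiv ℝ f x (Pi.single j 1) i with hN
  have hrow : LinearIndependent ℂ N.row := by
    convert hli2 using 1
    funext i j
    change fderiv ℝ f x (Pi.single j 1) i = ev x (dj hT j (g (σ i)))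
    rw [hgσ, ev_apply, hF, dj, dir_mk]
    have h3 : HasFDerivAt (fun τ => f τ i) ((ContinuousLinearMap.proj (R := ℝ)
        (φ := fun _ : Fin n => ℂ) i).comp (fderiv ℝ f x)) (x : Fin r → ℝ) :=
      (ContinuousLinearMap.proj (R := ℝ) (φ := fun _ : Fin n => ℂ) i).hasFDerivAt.comp _
        hfd.hasFDerivAt
    rw [h3.fderiv]
    rfl
  rw [eq_top_iff, ← span_cols N hrow]
  apply Submodule.span_mono
  rintro _ ⟨j, rfl⟩
  exact ⟨Pi.single j 1, rfl⟩

/-- **LEMMA J.** -/
theorem lemJ : AI.LemJ := fun _ _ _ _ hT hne hc hf hind halg =>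
  core hT hne hc.isPreconnected hf hind halg

end

end Crest.Agent.R264.LJ
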