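import Mathlib
import Crest.Agent.R264.TSProj

-- ▼ part R264/SAU1
section

/-!
Row 264, module SAU (helper264), part 1: (S5) nonzero polynomials in `(a, s)` near `s = 0`.
-/

set_option autoImplicit false

open Topology Filter Set MvPolynomial

namespace Crest.Agent.R264.SAU

/-- (S5), algebraic form. A nonzero polynomial `Δ(a, s)` is `s ^ l * (D0(a) + s * R(a, s))` with
`D0 ≠ 0`. -/
theorem s5_alg {ι : Type*} (Δ : MvPolynomial (Option ι) ℝ) (hΔ : Δ ≠ 0) :
    ∃ (l : ℕ) (D0 : MvPolynomial ι ℝ) (R : MvPolynomial (Option ι) ℝ), D0 ≠ 0 ∧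
      Δ = X none ^ l * (rename some D0 + X none * R) := by
  classical
  let e := MvPolynomial.optionEquivLeft ℝ ι
  have he0 : e Δ ≠ 0 := by
    intro h
    exact hΔ (by simpa using h)
  set p : Polynomial (MvPolynomial ι ℝ) := e Δ with hp
  obtain ⟨q, hq⟩ : (Polynomial.X : Polynomial (MvPolynomial ι ℝ)) ^ p.natTrailingDegree ∣ p := by
    rw [Polynomial.X_pow_dvd_iff]
    intro d hd
    exact Polynomial.coeff_eq_zero_of_lt_natTrailingDegree hd
  have hq0 : q.coeff 0 ≠ 0 := by
    have h1 : p.coeff p.natTrailingDegree ≠ 0 := by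
      have := Polynomial.trailingCoeff_nonzero_iff_nonzero.2 he0
      simpa [Polynomial.trailingCoeff] using this
    have h2 : (Polynomial.X ^ p.natTrailingDegree * q).coeff p.natTrailingDegree = q.coeff 0 := by
      simpa using Polynomial.coeff_X_pow_mul q p.natTrailingDegree 0
    rw [← hq] at h2
    rwa [← h2]
  refine ⟨p.natTrailingDegree, q.coeff 0, e.symm q.divX, hq0, ?_⟩
  have hq' : q = Polynomial.C (q.coeff 0) + Polynomial.X * q.divX := by
    conv_lhs => rw [← Polynomial.divX_mul_X_add q]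
    ring
  apply e.injective
  rw [← hp]
  conv_lhs => rw [hq, hq']
  rw [map_mul, map_pow, map_add, map_mul]
  have hX : e (X none) = Polynomial.X := by
    simp [e, MvPolynomial.optionEquivLeft_X_none]
  have hr : e (rename some (q.coeff 0)) = Polynomial.C (q.coeff 0) := by
    simp only [e, MvPolynomial.optionEquivLeft_apply, aeval_rename]
    generalize q.coeff 0 = r
    induction r using MvPolynomial.induction_on with
    | C a =>
      simp only [aeval_C]
      rfl
    | add p q hp hq => simp only [map_add, hp, hq]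
    | mul_X p i hp => simp only [map_mul, hp, aeval_X]; simp
  rw [hX, hr]
  simp

/-- A nonzero real polynomial does not vanish identically on a nonempty open set. -/
theorem exists_eval_ne_zero {ι : Type*} [Fintype ι] (p : MvPolynomial ι ℝ) (hp : p ≠ 0)
    (O : Set (ι → ℝ)) (hO : IsOpen O) (hne : O.Nonempty) : ∃ a ∈ O, eval a p ≠ 0 := by
  classical
  by_contra hcon
  push Not at hcon
  obtain ⟨a, ha⟩ := hne
  obtain ⟨r, hr, hball⟩ := Metric.isOpen_iff.1 hO a ha
  apply hp
  apply MvPolynomial.funext_set (fun i => Ioo (a i - r) (a i + r))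
    (fun i => Set.Ioo_infinite (by linarith))
  intro x hx
  rw [map_zero]
  apply hcon
  apply hball
  rw [Metric.mem_ball, dist_pi_lt_iff hr]
  intro i
  have := hx i (mem_univ i)
  rw [Real.dist_eq, abs_lt]
  constructor <;> linarith [this.1, this.2]

/-- the point `(b, s)` as a point of `Option ι → ℝ`. -/
def cons {ι : Type*} (b : ι → ℝ) (s : ℝ) : Option ι → ℝ := fun o => o.elim s b

@[simp] theorem cons_some {ι : Type*} (b : ι → ℝ) (s : ℝ) (i : ι) : cons b s (some i) = b i := rfl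

@[simp] theorem cons_none {ι : Type*} (b : ι → ℝ) (s : ℝ) : cons b s none = s := rfl

theorem continuous_cons {ι : Type*} : Continuous (fun p : (ι → ℝ) × ℝ => cons p.1 p.2) := by
  apply continuous_pi
  intro o
  cases o with
  | none => exact continuous_snd
  | some i => exact (continuous_apply i).comp continuous_fst

theorem eval_cons_rename {ι : Type*} (b : ι → ℝ) (s : ℝ) (p : MvPolynomial ι ℝ) :
    eval (cons b s) (rename some p) = eval b p := by
  rw [eval_rename]
  rfl

theorem s5_eval {ι : Type*} (Δ : MvPolynomial (Option ι) ℝ) (l : ℕ) (D0 : MvPolynomial ι ℝ)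
    (R : MvPolynomial (Option ι) ℝ) (hΔ' : Δ = X none ^ l * (rename some D0 + X none * R))
    (b : ι → ℝ) (s : ℝ) :
    eval (cons b s) Δ = s ^ l * (eval b D0 + s * eval (cons b s) R) := by
  rw [hΔ', map_mul, map_pow, map_add, map_mul, eval_X, eval_cons_rename, cons_none]

/-- (S5), open form. -/
theorem s5_open {ι : Type*} [Fintype ι] (Δ : MvPolynomial (Option ι) ℝ) (hΔ : Δ ≠ 0)
    (O : Set (ι → ℝ)) (hO : IsOpen O) (hne : O.Nonempty) :
    ∃ a ∈ O, ∃ r > 0, Metric.ball a r ⊆ O ∧ ∃ s1 > (0 : ℝ), ∀ b ∈ Metric.ball a r,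
      ∀ s, 0 < s → s < s1 → eval (cons b s) Δ ≠ 0 := by
  obtain ⟨l, D0, R, hD0, hΔ'⟩ := s5_alg Δ hΔ
  obtain ⟨a, ha, hane⟩ := exists_eval_ne_zero D0 hD0 O hO hne
  obtain ⟨r, hr, hball⟩ := Metric.isOpen_iff.1 hO a ha
  have hev := s5_eval Δ l D0 R hΔ'
  have hg : Continuous (fun p : (ι → ℝ) × ℝ => eval p.1 D0 + p.2 * eval (cons p.1 p.2) R) := by
    apply Continuous.add
    · exact (MvPolynomial.continuous_eval D0).comp continuous_fst
    · exact continuous_snd.mul ((MvPolynomial.continuous_eval R).comp continuous_cons)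
  have hg0 : eval a D0 + 0 * eval (cons a 0) R ≠ 0 := by rwa [zero_mul, add_zero]
  obtain ⟨e, he, hsub⟩ : ∃ e > 0, ∀ p : (ι → ℝ) × ℝ, dist p (a, 0) < e →
      eval p.1 D0 + p.2 * eval (cons p.1 p.2) R ≠ 0 := by
    have h1 := (hg.continuousAt (x := (a, (0 : ℝ)))).eventually_ne hg0
    obtain ⟨e, he, hsub⟩ := Metric.eventually_nhds_iff.1 h1
    exact ⟨e, he, fun p hp => hsub hp⟩
  refine ⟨a, ha, min r e, lt_min hr he, (Metric.ball_subset_ball (min_le_left _ _)).trans hball,
    e, he, ?_⟩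
  intro b hb s hs0 hs1
  rw [hev]
  apply mul_ne_zero (pow_ne_zero _ hs0.ne')
  have h1 : dist b a < e := lt_of_lt_of_le (Metric.mem_ball.1 hb) (min_le_right _ _)
  have h2 : dist s 0 < e := by rw [Real.dist_eq, sub_zero, abs_of_pos hs0]; exact hs1
  have : dist (b, s) (a, (0 : ℝ)) < e := by
    rw [Prod.dist_eq]
    exact max_lt h1 h2
  exact hsub (b, s) this

end Crest.Agent.R264.SAU
end

-- ▼ part R264/SAU2
section

/-!
Row 264, module SAU (helper264), part 2: calculus of total semialgebraic functions.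
-/

set_option autoImplicit false

open Topology Filter Set MvPolynomial

namespace Crest.Agent.R264.SAU

open Crest.Agent.R264.TS

variable {ι κ : Type*}

/-- total semialgebraic functions -/
def SAF (f : (ι → ℝ) → ℝ) : Prop := SA {x : Option ι → ℝ | f (fun i => x (some i)) = x none}

/-- `∃` over a real variable -/
theorem SA.exR {P : (ι → ℝ) → ℝ → Prop}
    (h : SA {x : Option ι → ℝ | P (fun i => x (some i)) (x none)}) :
    SA {x : ι → ℝ | ∃ t, P x t} := h.ex_option

/-- `∀` over a real variable -/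
theorem SA.allR {P : (ι → ℝ) → ℝ → Prop}
    (h : SA {x : Option ι → ℝ | P (fun i => x (some i)) (x none)}) :
    SA {x : ι → ℝ | ∀ t, P x t} := h.all_option

/-- `∃` over a real vector -/
theorem SA.exV [Finite κ] {P : (ι → ℝ) → (κ → ℝ) → Prop}
    (h : SA {x : ι ⊕ κ → ℝ | P (fun i => x (Sum.inl i)) (fun k => x (Sum.inr k))}) :
    SA {x : ι → ℝ | ∃ v, P x v} := h.ex

/-- `∀` over a real vector -/
theorem SA.allV [Finite κ] {P : (ι → ℝ) → (κ → ℝ) → Prop}
    (h : SA {x : ι ⊕ κ → ℝ | P (fun i => x (Sum.inl i)) (fun k => x (Sum.inr k))}) :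
    SA {x : ι → ℝ | ∀ v, P x v} := h.all

theorem SAF.poly (p : MvPolynomial ι ℝ) : SAF (fun x => eval x p) := by
  unfold SAF
  have h := SA.eq (rename some p) (X (none : Option ι) : MvPolynomial (Option ι) ℝ)
  convert h using 1
  ext x
  rw [mem_ofPred_eq, mem_ofPred_eq, eval_rename, eval_X]
  rfl

theorem SAF.coord (i : ι) : SAF (fun x : ι → ℝ => x i) := by
  simpa using SAF.poly (X i : MvPolynomial ι ℝ)

theorem SAF.const (c : ℝ) : SAF (fun _ : ι → ℝ => c) := by
  simpa using SAF.poly (C c : MvPolynomial ι ℝ)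

/-- substitution of SA functions in SA sets -/
theorem SAF.mem [Finite κ] {S : Set (κ → ℝ)} (hS : SA S) {f : κ → (ι → ℝ) → ℝ}
    (hf : ∀ k, SAF (f k)) : SA {x : ι → ℝ | (fun k => f k x) ∈ S} := by
  have h : SA {x : ι → ℝ | ∃ v : κ → ℝ, (∀ k, f k x = v k) ∧ v ∈ S} := by
    apply SA.exV
    apply SA.and
    · apply SA.forall_finite
      intro k
      have := (hf k).reindex (ι := ι ⊕ κ)
        (fun o : Option ι => o.elim (Sum.inr k) (fun i => Sum.inl i))
      exact this
    · exact hS.reindex (fun k => Sum.inr k)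
  convert h using 1
  ext x
  constructor
  · intro hx
    exact ⟨_, fun k => rfl, hx⟩
  · rintro ⟨v, hv, hvS⟩
    have : (fun k => f k x) = v := funext hv
    rw [mem_ofPred_eq, this]
    exact hvS

/-- restriction of variables -/
theorem SAF.reindex {f : (κ → ℝ) → ℝ} (hf : SAF f) (e : κ → ι) :
    SAF (fun x : ι → ℝ => f (fun k => x (e k))) := by
  have := TS.SA.reindex (ι := Option ι) hf (fun o : Option κ => o.elim none (fun k => some (e k)))
  exact this

/-- composition -/
theorem SAF.comp [Finite κ] {f : (κ → ℝ) → ℝ} (hf : SAF f) {g : κ → (ι → ℝ) → ℝ}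
    (hg : ∀ k, SAF (g k)) : SAF (fun x => f (fun k => g k x)) := by
  have h : SA {x : Option ι → ℝ | (fun o : Option κ =>
      (fun y : Option ι → ℝ => o.elim (y none) (fun k => g k (fun i => y (some i)))) x) ∈
        {x : Option κ → ℝ | f (fun i => x (some i)) = x none}} := by
    apply SAF.mem hf
    intro o
    cases o with
    | none => exact SAF.coord none
    | some k => exact (hg k).reindex some
  exact h

theorem SAF.comp2 {f : ℝ → ℝ → ℝ} (hf : SAF (fun x : Fin 2 → ℝ => f (x 0) (x 1)))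
    {g h : (ι → ℝ) → ℝ} (hg : SAF g) (hh : SAF h) : SAF (fun x => f (g x) (h x)) := by
  have := SAF.comp hf (g := fun k : Fin 2 => if k = 0 then g else h) (by
    intro k
    fin_cases k
    · simpa using hg
    · simpa using hh)
  simpa using this

theorem SAF.comp1 {f : ℝ → ℝ} (hf : SAF (fun x : Fin 1 → ℝ => f (x 0)))
    {g : (ι → ℝ) → ℝ} (hg : SAF g) : SAF (fun x => f (g x)) := by
  exact SAF.comp hf (g := fun _ : Fin 1 => g) (fun _ => hg)

theorem SAF.add {f g : (ι → ℝ) → ℝ} (hf : SAF f) (hg : SAF g) : SAF (fun x => f x + g x) := by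
  apply SAF.comp2 (f := fun a b => a + b) _ hf hg
  have h := SAF.poly (X 0 + X 1 : MvPolynomial (Fin 2) ℝ)
  convert h using 2 with x
  rw [map_add, eval_X, eval_X]

theorem SAF.sub {f g : (ι → ℝ) → ℝ} (hf : SAF f) (hg : SAF g) : SAF (fun x => f x - g x) := by
  apply SAF.comp2 (f := fun a b => a - b) _ hf hg
  have h := SAF.poly (X 0 - X 1 : MvPolynomial (Fin 2) ℝ)
  convert h using 2 with x
  rw [map_sub, eval_X, eval_X]

theorem SAF.mul {f g : (ι → ℝ) → ℝ} (hf : SAF f) (hg : SAF g) : SAF (fun x => f x * g x) := by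
  apply SAF.comp2 (f := fun a b => a * b) _ hf hg
  have h := SAF.poly (X 0 * X 1 : MvPolynomial (Fin 2) ℝ)
  convert h using 2 with x
  rw [map_mul, eval_X, eval_X]

theorem SAF.neg {f : (ι → ℝ) → ℝ} (hf : SAF f) : SAF (fun x => - f x) := by
  apply SAF.comp1 (f := fun a => - a) _ hf
  simpa using SAF.poly (- X 0 : MvPolynomial (Fin 1) ℝ)

/-- atoms -/
theorem SAF.lt {f g : (ι → ℝ) → ℝ} (hf : SAF f) (hg : SAF g) : SA {x | f x < g x} := by
  have h : SA {x : Fin 2 → ℝ | x 0 < x 1} := by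
    simpa using SA.lt (X 0 : MvPolynomial (Fin 2) ℝ) (X 1)
  have := SAF.mem h (f := fun k : Fin 2 => if k = 0 then f else g) (by
    intro k
    fin_cases k
    · simpa using hf
    · simpa using hg)
  simpa using this

theorem SAF.le {f g : (ι → ℝ) → ℝ} (hf : SAF f) (hg : SAF g) : SA {x | f x ≤ g x} := by
  simpa only [not_lt] using (SAF.lt hg hf).not

theorem SAF.eq {f g : (ι → ℝ) → ℝ} (hf : SAF f) (hg : SAF g) : SA {x | f x = g x} := by
  have := (SAF.le hf hg).and (SAF.le hg hf)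
  simpa only [← le_antisymm_iff] using this

theorem SAF.ne {f g : (ι → ℝ) → ℝ} (hf : SAF f) (hg : SAF g) : SA {x | f x ≠ g x} :=
  (SAF.eq hf hg).not

/-- functions defined by a formula -/
theorem SAF.of_iff {f : (ι → ℝ) → ℝ} {P : (ι → ℝ) → ℝ → Prop} (h : ∀ x t, f x = t ↔ P x t)
    (hP : SA {x : Option ι → ℝ | P (fun i => x (some i)) (x none)}) : SAF f := by
  unfold SAF
  simpa only [h] using hP

open Classical in
theorem SAF.ite {P : (ι → ℝ) → Prop} (hP : SA {x | P x}) {f g : (ι → ℝ) → ℝ} (hf : SAF f)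
    (hg : SAF g) : SAF (fun x => if P x then f x else g x) := by
  apply SAF.of_iff (P := fun x t => (P x ∧ f x = t) ∨ (¬ P x ∧ g x = t))
  · intro x t
    by_cases h : P x <;> simp [h]
  · have h1 : SA {x : Option ι → ℝ | P (fun i => x (some i))} := hP.reindex some
    exact (h1.and hf).or (h1.not.and hg)

theorem SAF.max {f g : (ι → ℝ) → ℝ} (hf : SAF f) (hg : SAF g) :
    SAF (fun x => max (f x) (g x)) := by
  classical
  have := SAF.ite (SAF.le hf hg) hg hf
  convert this using 1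
  funext x
  by_cases h : f x ≤ g x
  · simp [h]
  · simp [h, (not_le.1 h).le]

theorem SAF.abs {f : (ι → ℝ) → ℝ} (hf : SAF f) : SAF (fun x => |f x|) := by
  simpa only [← abs_eq_max_neg] using SAF.max hf hf.neg

theorem SAF.inv {f : (ι → ℝ) → ℝ} (hf : SAF f) : SAF (fun x => (f x)⁻¹) := by
  apply SAF.comp1 (f := fun a => a⁻¹) _ hf
  apply SAF.of_iff (P := fun x t => (x 0 ≠ 0 ∧ x 0 * t = 1) ∨ (x 0 = 0 ∧ t = 0))
  · intro x t
    by_cases h : x 0 = 0
    · simp [h, eq_comm]
    · simp only [ne_eq, h, not_false_eq_true, true_and, false_and, or_false]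
      constructor
      · rintro rfl
        exact mul_inv_cancel₀ h
      · intro h'
        exact (eq_inv_of_mul_eq_one_right h').symm
  · refine SA.or (SA.and (SAF.ne (SAF.coord _) (SAF.const 0))
      (SAF.eq ((SAF.coord _).mul (SAF.coord _)) (SAF.const 1)))
      (SA.and (SAF.eq (SAF.coord _) (SAF.const 0)) (SAF.eq (SAF.coord _) (SAF.const 0)))

theorem SAF.div {f g : (ι → ℝ) → ℝ} (hf : SAF f) (hg : SAF g) : SAF (fun x => f x / g x) := by
  simpa only [div_eq_mul_inv] using hf.mul hg.inv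

/-- sup norm -/
theorem SAF.norm [Fintype κ] {g : κ → (ι → ℝ) → ℝ} (hg : ∀ k, SAF (g k)) :
    SAF (fun x => ‖fun k => g k x‖) := by
  apply SAF.of_iff (P := fun x t => (0 ≤ t ∧ ∀ k, |g k x| ≤ t) ∧
    ∀ t', (0 ≤ t' ∧ ∀ k, |g k x| ≤ t') → t ≤ t')
  · intro x t
    have hle : ∀ t', (0 ≤ t' ∧ ∀ k, |g k x| ≤ t') ↔ ‖fun k => g k x‖ ≤ t' := by
      intro t'
      constructor
      · rintro ⟨h0, h⟩
        exact (pi_norm_le_iff_of_nonneg h0).2 h
      · intro h
        have h0 : 0 ≤ t' := (norm_nonneg _).trans h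
        exact ⟨h0, (pi_norm_le_iff_of_nonneg h0).1 h⟩
    simp only [hle]
    constructor
    · rintro rfl
      exact ⟨le_rfl, fun t' h => h⟩
    · rintro ⟨h1, h2⟩
      exact le_antisymm h1 (h2 _ le_rfl)
  · apply SA.and
    · apply SA.and
      · exact SAF.le (SAF.const 0) (SAF.coord _)
      · apply SA.forall_finite
        intro k
        exact SAF.le ((hg k).reindex some).abs (SAF.coord _)
    · apply SA.allR
      apply SA.imp
      · apply SA.and
        · exact SAF.le (SAF.const 0) (SAF.coord _)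
        · apply SA.forall_finite
          intro k
          exact SAF.le ((hg k).reindex (fun i => some (some i))).abs (SAF.coord _)
      · exact SAF.le (SAF.coord (some none)) (SAF.coord none)

end Crest.Agent.R264.SAU
end

-- ▼ part R264/SAU3

/-!
Row 264, module SAU (helper264), part 3: one-variable facts at `s = 0+` with parameters.
-/

set_option autoImplicit false

open Topology Filter Set MvPolynomial

namespace Crest.Agent.R264.SAU

open Crest.Agent.R264.TS

variable {ι κ : Type*}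

/-- semialgebraic function of `(a, s)` -/
def SAF2 (F : (ι → ℝ) → ℝ → ℝ) : Prop :=
  SAF (fun x : Option ι → ℝ => F (fun i => x (some i)) (x none))

/-- the sign of a real polynomial in one variable is constant near `0+` -/
theorem sign_poly (q : Polynomial ℝ) :
    ∃ e : SignType, ∀ᶠ s in 𝓝[>] (0 : ℝ), SignType.sign (q.eval s) = e := by
  by_cases hq : q = 0
  · exact ⟨0, by simp [hq]⟩
  obtain ⟨g, hg, hndvd⟩ := Polynomial.exists_eq_pow_rootMultiplicity_mul_and_not_dvd q hq 0
  have hg0 : g.eval 0 ≠ 0 := by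
    intro h
    exact hndvd (Polynomial.dvd_iff_isRoot.2 h)
  refine ⟨SignType.sign (g.eval 0), ?_⟩
  have hc : ContinuousAt (fun s : ℝ => SignType.sign (g.eval s)) 0 :=
    ContinuousAt.comp (f := fun s : ℝ => g.eval s) (continuousAt_sign_of_ne_zero hg0)
      g.continuous.continuousAt
  have h1 : ∀ᶠ s in 𝓝 (0 : ℝ), SignType.sign (g.eval s) = SignType.sign (g.eval 0) :=
    by
      rw [ContinuousAt, nhds_discrete SignType, tendsto_pure] at hc
      exact hc
  filter_upwards [nhdsWithin_le_nhds h1, self_mem_nhdsWithin] with s hs hs0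
  rw [hg, Polynomial.eval_mul, sign_mul, hs]
  have : SignType.sign (Polynomial.eval s ((Polynomial.X - Polynomial.C 0) ^
      Polynomial.rootMultiplicity 0 q)) = 1 := by
    rw [sign_eq_one_iff]
    simp only [Polynomial.eval_pow, Polynomial.eval_sub, Polynomial.eval_X, Polynomial.eval_C,
      sub_zero]
    exact pow_pos hs0 _
  rw [this, one_mul]

/-- (EV): near `s = 0+` a semialgebraic condition is eventually true or eventually false. -/
theorem ev {S : Set (Option ι → ℝ)} (hS : SA S) (a : ι → ℝ) :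
    (∀ᶠ s in 𝓝[>] (0 : ℝ), cons a s ∈ S) ∨ (∀ᶠ s in 𝓝[>] (0 : ℝ), cons a s ∉ S) := by
  obtain ⟨W, hW⟩ := hS
  have h1 : ∀ p : MvPolynomial (Option ι) ℝ, ∃ e : SignType,
      ∀ᶠ s in 𝓝[>] (0 : ℝ), SignType.sign (eval (cons a s) p) = e := by
    intro p
    obtain ⟨e, he⟩ := sign_poly ((optionEquivLeft ℝ ι p).map (eval a))
    refine ⟨e, ?_⟩
    filter_upwards [he] with s hs
    rw [← hs]
    congr 1
    exact (eval_optionEquivLeft a s p).symm
  choose e he using h1
  have h2 : ∀ᶠ s in 𝓝[>] (0 : ℝ), ∀ p ∈ W, SignType.sign (eval (cons a s) p) = e p := by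
    rw [Filter.eventually_all_finset]
    exact fun p _ => he p
  by_cases h : ∃ᶠ s in 𝓝[>] (0 : ℝ), cons a s ∈ S
  · left
    obtain ⟨s1, hs1, hs1'⟩ := (h.and_eventually h2).exists
    filter_upwards [h2] with s hs
    exact (hW (cons a s1) (cons a s) (fun p hp => (hs1' p hp).trans (hs p hp).symm)).1 hs1
  · right
    exact not_frequently.1 h

theorem ev' {P : (ι → ℝ) → ℝ → Prop}
    (hP : SA {x : Option ι → ℝ | P (fun i => x (some i)) (x none)}) (a : ι → ℝ) :
    (∀ᶠ s in 𝓝[>] (0 : ℝ), P a s) ∨ (∀ᶠ s in 𝓝[>] (0 : ℝ), ¬ P a s) := ev hP a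

/-- bounded SA functions have a limit at `0+` -/
theorem exists_lim {F : (ι → ℝ) → ℝ → ℝ} (hF : SAF2 F) (hb : ∀ a s, |F a s| ≤ 1) (a : ι → ℝ) :
    ∃ L : ℝ, Tendsto (F a) (𝓝[>] (0 : ℝ)) (𝓝 L) := by
  have hle : ∀ c : ℝ, (∀ᶠ s in 𝓝[>] (0 : ℝ), c ≤ F a s) ∨ (∀ᶠ s in 𝓝[>] (0 : ℝ), F a s < c) := by
    intro c
    have := ev' (P := fun a s => c ≤ F a s) (SAF.le (SAF.const c) hF) a
    simpa only [not_le] using this
  set C : Set ℝ := {c | ∀ᶠ s in 𝓝[>] (0 : ℝ), c ≤ F a s} with hC
  have hne : C.Nonempty := ⟨-1, by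
    show ∀ᶠ s in 𝓝[>] (0 : ℝ), (-1 : ℝ) ≤ F a s
    exact Eventually.of_forall fun s => (abs_le.1 (hb a s)).1⟩
  have hbd : BddAbove C := by
    refine ⟨1, fun c hc => ?_⟩
    obtain ⟨s, hs⟩ := (show ∀ᶠ s in 𝓝[>] (0 : ℝ), c ≤ F a s from hc).exists
    exact hs.trans (abs_le.1 (hb a s)).2
  refine ⟨sSup C, tendsto_order.2 ⟨fun c hc => ?_, fun c hc => ?_⟩⟩
  · obtain ⟨c', hc', hlt⟩ := exists_lt_of_lt_csSup hne hc
    filter_upwards [(show ∀ᶠ s in 𝓝[>] (0 : ℝ), c' ≤ F a s from hc')] with s hs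
    exact hlt.trans_le hs
  · rcases hle c with h | h
    · exact absurd (le_csSup hbd h) (not_le.2 hc)
    · exact h

/-- the limit of a bounded SA function is SA -/
theorem saf_lim {F : (ι → ℝ) → ℝ → ℝ} (hF : SAF2 F) {F0 : (ι → ℝ) → ℝ}
    (h0 : ∀ a, Tendsto (F a) (𝓝[>] (0 : ℝ)) (𝓝 (F0 a))) : SAF F0 := by
  apply SAF.of_iff (P := fun a t => ∀ ε : ℝ, 0 < ε → ∃ d : ℝ, 0 < d ∧ ∀ s : ℝ, 0 < s → s < d →
    |F a s - t| < ε)
  · intro a t
    have key : Tendsto (F a) (𝓝[>] (0 : ℝ)) (𝓝 t) ↔ ∀ ε : ℝ, 0 < ε → ∃ d : ℝ, 0 < d ∧ ∀ s : ℝ,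
        0 < s → s < d → |F a s - t| < ε := by
      rw [Metric.tendsto_nhds]
      refine forall_congr' fun ε => forall_congr' fun hε => ?_
      rw [(nhdsGT_basis (0 : ℝ)).eventually_iff]
      constructor
      · rintro ⟨d, hd, h⟩
        exact ⟨d, hd, fun s h1 h2 => h ⟨h1, h2⟩⟩
      · rintro ⟨d, hd, h⟩
        exact ⟨d, hd, fun s hs => h s hs.1 hs.2⟩
    rw [← key]
    constructor
    · rintro rfl
      exact h0 a
    · intro h
      exact tendsto_nhds_unique (h0 a) h
  · apply SA.allR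
    apply SA.imp (SAF.lt (SAF.const 0) (SAF.coord _))
    apply SA.exR
    apply SA.and (SAF.lt (SAF.const 0) (SAF.coord _))
    apply SA.allR
    apply SA.imp (SAF.lt (SAF.const 0) (SAF.coord _))
    apply SA.imp (SAF.lt (SAF.coord _) (SAF.coord _))
    apply SAF.lt
    · apply SAF.abs
      apply SAF.sub
      · have := SAF.reindex (ι := Option (Option (Option (Option ι)))) hF
          (fun o : Option ι => o.elim none (fun i => some (some (some (some i)))))
        exact this
      · exact SAF.coord _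
    · exact SAF.coord _

/-- `F(a', s)` has a (joint) limit as `a' → b`, `s → 0+`, for every `b ∈ O`. -/
def LimOn (F : (ι → ℝ) → ℝ → ℝ) (O : Set (ι → ℝ)) : Prop :=
  ∃ F0 : (ι → ℝ) → ℝ, ∀ b ∈ O,
    Tendsto (fun p : (ι → ℝ) × ℝ => F p.1 p.2) (𝓝 b ×ˢ 𝓝[>] (0 : ℝ)) (𝓝 (F0 b))

theorem LimOn.mono {F : (ι → ℝ) → ℝ → ℝ} {O O' : Set (ι → ℝ)} (h : LimOn F O) (hO : O' ⊆ O) :
    LimOn F O' := by
  obtain ⟨F0, h⟩ := h
  exact ⟨F0, fun b hb => h b (hO hb)⟩

end Crest.Agent.R264.SAU
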