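import Crest.Agent.R264.TopSetup

-- ▼ part R264/TopAsm
section

/-!
Row 264 (S0402): assembly of S0402 from `Part0`, `PartABC`, `ThmD` (helper369).
-/

set_option autoImplicit false

open Topology Filter Set

namespace Crest.Agent.R264

open Crest.AlgGeometry.Semialg

namespace Biholo

variable {N n : ℕ} {U : Set (Fin N → ℂ)} {D : Set (Fin n → ℂ)} {Ψ : U → (Fin n → ℂ)}
  {Θ : (Fin n → ℂ) → (Fin N → ℂ)}

/-- the point of `U` over `z` -/
noncomputable def pt (B : Biholo U D Ψ Θ) (z : Fin n → ℂ) (hz : z ∈ D) : U := (B.right z hz).choose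

theorem pt_coe (B : Biholo U D Ψ Θ) (z : Fin n → ℂ) (hz : z ∈ D) :
    ((B.pt z hz : U) : Fin N → ℂ) = Θ z := (B.right z hz).choose_spec.1

theorem Ψ_pt (B : Biholo U D Ψ Θ) (z : Fin n → ℂ) (hz : z ∈ D) :
    Ψ (B.pt z hz) = z := (B.right z hz).choose_spec.2

theorem inj (B : Biholo U D Ψ Θ) {y y' : U} (h : Ψ y = Ψ y') : y = y' :=
  Subtype.ext (by rw [← B.left y, ← B.left y', h])

theorem pt_Ψ (B : Biholo U D Ψ Θ) (y : U) (hz : Ψ y ∈ D) : B.pt (Ψ y) hz = y :=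
  B.inj (B.Ψ_pt _ _)


theorem continuousΨ (B : Biholo U D Ψ Θ) : Continuous Ψ := continuous_of_isHolomorphicMap B.hΨ

theorem range_eq (B : Biholo U D Ψ Θ) : range Ψ = D := by
  ext z
  constructor
  · rintro ⟨y, rfl⟩; exact B.mem y
  · intro hz; exact ⟨B.pt z hz, B.Ψ_pt z hz⟩

open Classical in
/-- transport of a self-map of `U` to `D` -/
noncomputable def tr (B : Biholo U D Ψ Θ) (γ : U → U) (z : Fin n → ℂ) : Fin n → ℂ :=
  if hz : z ∈ D then Ψ (γ (B.pt z hz)) else z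

theorem tr_of_mem (B : Biholo U D Ψ Θ) (γ : U → U) {z : Fin n → ℂ} (hz : z ∈ D) :
    B.tr γ z = Ψ (γ (B.pt z hz)) := by
  unfold tr; rw [dif_pos hz]

theorem tr_Ψ (B : Biholo U D Ψ Θ) (γ : U → U) (y : U) : B.tr γ (Ψ y) = Ψ (γ y) := by
  rw [B.tr_of_mem γ (B.mem y), B.pt_Ψ]

theorem tr_of_notMem (B : Biholo U D Ψ Θ) (γ : U → U) {z : Fin n → ℂ} (hz : z ∉ D) :
    B.tr γ z = z := by
  unfold tr; rw [dif_neg hz]

theorem tr_maps (B : Biholo U D Ψ Θ) (γ : U → U) : MapsTo (B.tr γ) D D := by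
  intro z hz
  rw [B.tr_of_mem γ hz]
  exact B.mem _

theorem tr_comp (B : Biholo U D Ψ Θ) (γ γ' : U → U) {z : Fin n → ℂ} (hz : z ∈ D) :
    B.tr (fun y => γ (γ' y)) z = B.tr γ (B.tr γ' z) := by
  rw [B.tr_of_mem _ hz, B.tr_of_mem γ' hz, B.tr_Ψ]

theorem tr_id (B : Biholo U D Ψ Θ) {z : Fin n → ℂ} (hz : z ∈ D) :
    B.tr (fun y => y) z = z := by
  rw [B.tr_of_mem _ hz, B.Ψ_pt]

/-- the transported map is holomorphic -/
theorem tr_diff (B : Biholo U D Ψ Θ) (hD : IsOpen D) {γ : U → U}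
    (hγ : IsHolomorphicMap U (fun y : U => ((γ y : U) : Fin N → ℂ))) :
    DifferentiableOn ℂ (B.tr γ) D := by
  intro z hz
  obtain ⟨O1, hO1, hx1, Φ1, hΦ1, he1⟩ := hγ (B.pt z hz)
  obtain ⟨O2, hO2, hx2, Φ2, hΦ2, he2⟩ := B.hΨ (γ (B.pt z hz))
  have hΘz : DifferentiableAt ℂ Θ z := (B.hΘ z hz).differentiableAt (hD.mem_nhds hz)
  have hp : ((B.pt z hz : U) : Fin N → ℂ) = Θ z := B.pt_coe z hz
  rw [hp] at hx1
  have h1 : DifferentiableAt ℂ Φ1 (Θ z) := (hΦ1 _ hx1).differentiableAt (hO1.mem_nhds hx1)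
  have e1 : ((γ (B.pt z hz) : U) : Fin N → ℂ) = Φ1 (Θ z) := by
    have := he1 (B.pt z hz) (by rw [hp]; exact hx1)
    rw [hp] at this
    exact this
  rw [e1] at hx2
  have h2 : DifferentiableAt ℂ Φ2 (Φ1 (Θ z)) := (hΦ2 _ hx2).differentiableAt (hO2.mem_nhds hx2)
  have h3 : DifferentiableAt ℂ (fun w => Φ2 (Φ1 (Θ w))) z := by
    have h12 : DifferentiableAt ℂ (fun w => Φ1 (Θ w)) z := DifferentiableAt.comp z h1 hΘz
    exact DifferentiableAt.comp z (g := Φ2) (f := fun w => Φ1 (Θ w)) h2 h12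
  refine (h3.congr_of_eventuallyEq ?_).differentiableWithinAt
  have hc1 : ∀ᶠ w in 𝓝 z, Θ w ∈ O1 := hΘz.continuousAt.eventually (hO1.mem_nhds hx1)
  have hc2 : ∀ᶠ w in 𝓝 z, Φ1 (Θ w) ∈ O2 :=
    (ContinuousAt.comp (g := Φ1) h1.continuousAt hΘz.continuousAt).eventually (hO2.mem_nhds hx2)
  filter_upwards [hc1, hc2, hD.mem_nhds hz] with w hw1 hw2 hwD
  rw [B.tr_of_mem γ hwD]
  have e3 : ((γ (B.pt w hwD) : U) : Fin N → ℂ) = Φ1 (Θ w) := by
    have := he1 (B.pt w hwD) (by rw [B.pt_coe]; exact hw1)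
    rw [B.pt_coe] at this
    exact this
  have := he2 (γ (B.pt w hwD)) (by rw [e3]; exact hw2)
  rw [this, e3]

/-- the transported group -/
def trGrp (B : Biholo U D Ψ Θ) (Γ : Subgroup (Equiv.Perm U)) : Set ((Fin n → ℂ) → (Fin n → ℂ)) :=
  {f | ∃ γ ∈ Γ, f = B.tr γ}

theorem autPair (B : Biholo U D Ψ Θ) (hD : IsOpen D) {Γ : Subgroup (Equiv.Perm U)}
    (S : Setup N U Γ) {γ : Equiv.Perm U} (hγ : γ ∈ Γ) :
    AutPair D (B.tr γ) (B.tr (γ⁻¹ : Equiv.Perm U)) where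
  hF := B.tr_diff hD (S.hol γ hγ)
  hG := B.tr_diff hD (S.hol _ (Γ.inv_mem hγ))
  mapsF := B.tr_maps _
  mapsG := B.tr_maps _
  left x hx := by
    rw [← B.tr_comp _ _ hx]
    have : (fun y : U => (γ⁻¹ : Equiv.Perm U) (γ y)) = fun y => y := by
      funext y; exact γ.symm_apply_apply y
    rw [this]
    exact B.tr_id hx
  right x hx := by
    rw [← B.tr_comp _ _ hx]
    have : (fun y : U => γ ((γ⁻¹ : Equiv.Perm U) y)) = fun y => y := by
      funext y; exact γ.apply_symm_apply y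
    rw [this]
    exact B.tr_id hx

theorem isCompact_pre (B : Biholo U D Ψ Θ) {K : Set (Fin n → ℂ)} (hKD : K ⊆ D)
    (hK : IsCompact K) : IsCompact {y : U | Ψ y ∈ K} := by
  rw [Topology.IsEmbedding.subtypeVal.isCompact_iff]
  have h : (Subtype.val '' {y : U | Ψ y ∈ K}) = Θ '' K := by
    ext x
    constructor
    · rintro ⟨y, hy, rfl⟩
      exact ⟨Ψ y, hy, B.left y⟩
    · rintro ⟨z, hz, rfl⟩
      refine ⟨B.pt z (hKD hz), ?_, B.pt_coe z (hKD hz)⟩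
      rw [Set.mem_ofPred_eq, B.Ψ_pt]
      exact hz
  rw [h]
  refine hK.image_of_continuousOn ?_
  exact (B.hΘ.continuousOn).mono hKD

theorem grp (B : Biholo U D Ψ Θ) (hD : IsOpen D) {Γ : Subgroup (Equiv.Perm U)}
    (S : Setup N U Γ) : Grp D (B.trGrp Γ) where
  one := ⟨B.tr (1 : Equiv.Perm U), ⟨1, Γ.one_mem, rfl⟩, fun x hx => B.tr_id hx⟩
  mul := by
    rintro f ⟨γ, hγ, rfl⟩ g ⟨γ', hγ', rfl⟩
    exact ⟨B.tr (γ * γ' : Equiv.Perm U), ⟨_, Γ.mul_mem hγ hγ', rfl⟩, fun x hx => B.tr_comp γ γ' hx⟩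
  inv := by
    rintro f ⟨γ, hγ, rfl⟩
    exact ⟨B.tr (γ⁻¹ : Equiv.Perm U), ⟨_, Γ.inv_mem hγ, rfl⟩, B.autPair hD S hγ⟩
  ext := by
    rintro f ⟨γ, hγ, rfl⟩ g ⟨γ', hγ', rfl⟩ h
    funext x
    by_cases hx : x ∈ D
    · exact h x hx
    · rw [B.tr_of_notMem _ hx, B.tr_of_notMem _ hx]
  pd := by
    intro K hK L hL hKc hLc
    have hfin := S.finite_inter (B.isCompact_pre hK hKc) (B.isCompact_pre hL hLc)
    have h2 := hfin.image (fun γ : Equiv.Perm U => B.tr γ)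
    refine h2.subset ?_
    rintro f ⟨⟨γ, hγ, rfl⟩, x, hx, hxL⟩
    refine ⟨γ, ⟨hγ, B.pt x (hK hx), ?_, ?_⟩, rfl⟩
    · rw [Set.mem_ofPred_eq, B.Ψ_pt]; exact hx
    · rw [Set.mem_ofPred_eq, ← B.tr_of_mem γ (hK hx)]; exact hxL
  cocpt := by
    obtain ⟨K, hK, hcov⟩ := S.exists_compact
    refine ⟨Ψ '' K, ?_, hK.image B.continuousΨ, ?_⟩
    · rintro _ ⟨y, -, rfl⟩; exact B.mem y
    · intro x hx
      obtain ⟨γ, hγ, k, hk, hkx⟩ := hcov (B.pt x hx)
      refine ⟨B.tr γ, ⟨γ, hγ, rfl⟩, Ψ k, ⟨k, hk, rfl⟩, ?_⟩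
      rw [B.tr_Ψ, hkx, B.Ψ_pt]

theorem isConnected (B : Biholo U D Ψ Θ) (hU : IsConnected U) : IsConnected D := by
  rw [← B.range_eq]
  have : ConnectedSpace U := isConnected_iff_connectedSpace.mp hU
  exact isConnected_range B.continuousΨ

end Biholo

/-- a nonempty subset of `ℂ^0` -/
theorem isBSD_zero (D : Set (Fin 0 → ℂ)) (hD : D.Nonempty) : IsBoundedSymmetricDomain D := by
  have hs : D = univ := by
    obtain ⟨x, hx⟩ := hD
    ext y
    rw [Subsingleton.elim y x]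
    simp [hx]
  subst hs
  refine ⟨isOpen_univ, isConnected_univ, ?_, ?_⟩
  · exact (Set.subsingleton_univ.finite).isBounded
  · intro p _
    refine ⟨id, differentiable_id.differentiableOn, fun _ _ => mem_univ _, fun _ _ => rfl, rfl, ?_⟩
    rw [eventually_nhdsWithin_iff]
    exact Eventually.of_forall fun x hx => absurd (Subsingleton.elim x p) hx

/-- zero-dimensional connected `U` is a point -/
theorem subsingleton_of_isSubmfd_zero {N : ℕ} {U : Set (Fin N → ℂ)} (hU : IsSubmfd 0 U)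
    (hc : IsConnected U) : U.Subsingleton := by
  have hloc : ∀ x ∈ U, ∃ O : Set (Fin N → ℂ), IsOpen O ∧ x ∈ O ∧ ∀ y ∈ U, y ∈ O → y = x := by
    intro x hx
    obtain ⟨C⟩ := hU x hx
    refine ⟨C.O, C.hO, C.mem, fun y hy hyO => ?_⟩
    have h1 := C.ψ_π y hy hyO
    have h2 := C.ψ_π x hx C.mem
    rw [Subsingleton.elim (C.π y) (C.π x)] at h1
    exact h1.symm.trans h2
  have hdisc : DiscreteTopology U := by
    rw [discreteTopology_iff_isOpen_singleton]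
    rintro ⟨x, hx⟩
    obtain ⟨O, hO, hxO, h⟩ := hloc x hx
    have : ({⟨x, hx⟩} : Set U) = Subtype.val ⁻¹' O := by
      ext ⟨y, hy⟩
      simp only [mem_singleton_iff, Subtype.mk.injEq, mem_preimage]
      exact ⟨fun e => e ▸ hxO, fun hyO => h y hy hyO⟩
    rw [this]
    exact hO.preimage continuous_subtype_val
  have : PreconnectedSpace U := isPreconnected_iff_preconnectedSpace.mp hc.isPreconnected
  have hsub : Subsingleton U := PreconnectedSpace.trivial_of_discrete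
  intro x hx y hy
  have := @Subsingleton.elim _ hsub (⟨x, hx⟩ : U) ⟨y, hy⟩
  exact congrArg Subtype.val this


end Crest.Agent.R264
end

-- ▼ part R264/TopAlg

/-!
Row 264 (S0402), TOP INTERFACE, part 2 (helper369): the algebraic data which Part 0 hands to
Part A, and the assembly with it.

`AlgData n V U`: prime ideal `I0` of `U`, polynomials `t_1..t_n` algebraically independent modulo
`I0` and a polynomial `D ∉ I0` such that at every `x ∈ V` with `D x ≠ 0` the map `t` is a chart of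
`V` near `x` and `V ⊆ Z(I0)` near `x`.
-/

set_option autoImplicit false

open Topology Filter Set

namespace Crest.Agent.R264

open Crest.AlgGeometry.Semialg

/-- the polynomial map `ℂ^N → ℂ^n` -/
noncomputable def polyMap {N n : ℕ} (t : Fin n → MvPolynomial (Fin N) ℂ) (y : Fin N → ℂ) :
    Fin n → ℂ := fun i => MvPolynomial.eval y (t i)

/-- Algebraic data of `U = O ∩ V` (output of Part 0, input of Part A). -/
structure AlgData {N : ℕ} (n : ℕ) (V U : Set (Fin N → ℂ)) where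
  /-- the ideal of `U` -/
  I0 : Ideal (MvPolynomial (Fin N) ℂ)
  prime : I0.IsPrime
  van : ∀ f, f ∈ I0 ↔ ∀ x ∈ U, MvPolynomial.eval x f = 0
  /-- `V₀ = Z(I0)` is contained in `V` -/
  V0_sub : ∀ x : Fin N → ℂ, (∀ f ∈ I0, MvPolynomial.eval x f = 0) → x ∈ V
  /-- the coordinates -/
  t : Fin n → MvPolynomial (Fin N) ℂ
  indep : ∀ R : MvPolynomial (Fin n) ℂ, MvPolynomial.bind₁ t R ∈ I0 → R = 0
  /-- the bad locus is in `{D = 0}` -/
  D : MvPolynomial (Fin N) ℂ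
  hD : D ∉ I0
  chart : ∀ x ∈ V, MvPolynomial.eval x D ≠ 0 → ∃ C : LocChart n V x, C.π = polyMap t ∧
    ∀ y ∈ V, y ∈ C.O → ∀ f ∈ I0, MvPolynomial.eval y f = 0

/-- PART 0 (with the algebraic data): for ANY representation `U = O ∩ V`. -/
def Part0A : Prop :=
  ∀ (N : ℕ) (U : Set (Fin N → ℂ)) (Γ : Subgroup (Equiv.Perm U)), Setup N U Γ →
    ∀ V O : Set (Fin N → ℂ), IsAlgebraicSet V → IsOpen O → U = O ∩ V →
    ∃ n : ℕ, IsSubmfd n U ∧ Nonempty (AlgData n V U)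

/-- PARTS A + B + C (with the algebraic data as input). -/
def PartABCA : Prop :=
  ∀ (N : ℕ) (U : Set (Fin N → ℂ)) (Γ : Subgroup (Equiv.Perm U)), Setup N U Γ →
    ∀ V O : Set (Fin N → ℂ), IsAlgebraicSet V → IsOpen O → U = O ∩ V →
    ∀ n : ℕ, 0 < n → IsSubmfd n U → AlgData n V U →
    ∃ (D : Set (Fin n → ℂ)) (Ψ : U → (Fin n → ℂ)) (Θ : (Fin n → ℂ) → (Fin N → ℂ)),
      IsOpen D ∧ Bornology.IsBounded D ∧ Biholo U D Ψ Θ ∧ Spans D

/-- S0402 from the three parts, with the algebraic data passed from Part 0 to Part A. -/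
theorem mainA_of (h0 : Part0A) (hABC : PartABCA) (hD : ThmD)
    (N : ℕ) (V U : Set (Fin N → ℂ)) (hV : IsAlgebraicSet V)
    (hUV : ∃ O : Set (Fin N → ℂ), IsOpen O ∧ U = O ∩ V)
    (hconn : IsConnected U) (hsa : IsSemialgebraic U)
    (hbd : Bornology.IsBounded U) (Γ : Subgroup (Equiv.Perm U))
    (hΓ : ∀ γ ∈ Γ, IsHolomorphicMap U (fun y : U => ((γ y : U) : Fin N → ℂ)))
    (hpd : ProperlyDiscontinuousSMul Γ U)
    (hcpt : CompactSpace (Quotient (MulAction.orbitRel Γ U))) :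
    ∃ (m : ℕ) (D : Set (Fin m → ℂ)), IsBoundedSymmetricDomain D ∧
      ∃ (Ψ : U → (Fin m → ℂ)) (Θ : (Fin m → ℂ) → (Fin N → ℂ)),
        IsHolomorphicMap U Ψ ∧ DifferentiableOn ℂ Θ D ∧
        (∀ y : U, Ψ y ∈ D ∧ Θ (Ψ y) = (y : Fin N → ℂ)) ∧
        (∀ z ∈ D, ∃ y : U, (y : Fin N → ℂ) = Θ z ∧ Ψ y = z) := by
  obtain ⟨O, hO, hUO⟩ := hUV
  have S : Setup N U Γ := ⟨⟨V, O, hV, hO, hUO⟩, hconn, hsa, hbd, hΓ, hpd, hcpt⟩
  obtain ⟨n, hn, ⟨A⟩⟩ := h0 N U Γ S V O hV hO hUO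
  rcases Nat.eq_zero_or_pos n with rfl | hpos
  · obtain ⟨x0, hx0⟩ := S.nonempty
    have hss := subsingleton_of_isSubmfd_zero hn hconn
    refine ⟨0, univ, isBSD_zero _ ⟨0, mem_univ _⟩, fun _ => 0, fun _ => x0, ?_, ?_, ?_, ?_⟩
    · intro x
      exact ⟨univ, isOpen_univ, mem_univ _, fun _ => 0, differentiableOn_const _, fun _ _ => rfl⟩
    · exact differentiableOn_const _
    · intro y
      exact ⟨mem_univ _, hss hx0 y.2⟩
    · intro z _
      exact ⟨⟨x0, hx0⟩, rfl, Subsingleton.elim _ _⟩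
  · obtain ⟨D, Ψ, Θ, hDo, hDb, B, hsp⟩ := hABC N U Γ S V O hV hO hUO n hpos hn A
    have hbsd : IsBoundedSymmetricDomain D :=
      hD n D (B.trGrp Γ) hpos hDo (B.isConnected hconn) hDb (B.grp hDo S) hsp
    exact ⟨n, D, hbsd, Ψ, Θ, B.hΨ, B.hΘ, fun y => ⟨B.mem y, B.left y⟩, B.right⟩

end Crest.Agent.R264
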