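import Crest.Agent.R264.AIface
import Crest.Agent.R264.Ctl
import Crest.Agent.R264.A9Main
import Crest.Agent.R264.JLAlg
import Crest.Agent.R264.TopDefs
import Crest.Agent.R264.TopSetup
import Mathlib
import Crest.Agent.R264.TopAlg
import Crest.Agent.R266.Osgood

-- ▼ part R264/CtlFin
section

/-!
Row 264, Part A, node A8 (helper399): `AI.CtrlStmt` from `Ctl.ctl`.
-/

set_option autoImplicit false
set_option linter.unusedSectionVars false

open Set Filter Topology Metric Complex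

noncomputable section

namespace Crest.Agent.R264.Ctl

open Crest.Agent.R264.Pk Crest.Agent.R266.SCV

lemma differentiable_eval {N : ℕ} (g : MvPolynomial (Fin N) ℂ) :
    Differentiable ℂ (fun x : Fin N → ℂ => MvPolynomial.eval x g) := by
  induction g using MvPolynomial.induction_on with
  | C a => simp
  | add p q hp hq =>
    simp only [map_add]
    exact hp.add hq
  | mul_X p n hp =>
    simp only [map_mul, MvPolynomial.eval_X]
    exact hp.mul (differentiable_apply n)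

theorem ctrlStmt : AI.CtrlStmt := by
  intro N m k U g W e B κ hW h0W he hB hκ heB hκe hg0 hpk
  obtain ⟨c₀, δ, hδ, hc₀, hPK⟩ := hpk
  have heat : ∀ y ∈ W, DifferentiableAt ℂ e y := fun y hy => he.differentiableAt (hW.mem_nhds hy)
  have hfd : ∀ c : QP N, ∀ v : EE m k,
      fderiv ℂ (fq (fun x => MvPolynomial.eval x g) e c) 0 v =
        fderiv ℂ (AI.gq g c) (e 0) (fderiv ℂ e 0 v) := by
    intro c v
    have h1 : DifferentiableAt ℂ (AI.gq g c) (e 0) := by
      have : Differentiable ℂ (AI.gq g c) :=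
        (differentiable_eval g).mul (differentiable_qev c)
      exact this _
    have h2 : fq (fun x => MvPolynomial.eval x g) e c = AI.gq g c ∘ e := rfl
    rw [h2, fderiv_comp _ h1 (heat 0 h0W)]
    rfl
  have hcv : ∀ u : Fin k → ℝ, (cvec u : Fin k → ℂ) = JL.ofR u := fun u => rfl
  have H : CtlHyp (fun x => MvPolynomial.eval x g) (closure U) (e 0) κ e c₀ (ball c₀ δ) :=
    { hg := differentiable_eval g
      hgp := hg0
      hκ := hκ.differentiableAt (hB.mem_nhds (heB 0 h0W))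
      hχ := by
        filter_upwards [hW.mem_nhds h0W] with y hy using heat y hy
      hχ0 := rfl
      hκχ := by
        filter_upwards [hW.mem_nhds h0W] with y hy using hκe y hy
      hNN := ball_mem_nhds _ hδ
      hcrit := by
        intro z u
        rw [hfd]
        exact hc₀ _ ⟨(z, u), rfl⟩
      hPK := by
        intro c hc hcr x hx hxp
        have := hPK c (by rwa [mem_ball, dist_eq_norm] at hc) ?_ x hx hxp
        · exact this
        · rintro v ⟨ξ, rfl⟩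
          have h3 := hcr ξ.1 ξ.2
          rw [hfd] at h3
          exact h3 }
  obtain ⟨h, M, ν, Q, Cp, hCp, hh, hM, hlt, hν, hev⟩ := ctl H
  have hev2 : ∀ᶠ y in 𝓝 (0 : EE m k), y ∈ W := hW.mem_nhds h0W
  obtain ⟨ρ, hρ, hball⟩ := Metric.eventually_nhds_iff_ball.1 (hev.and hev2)
  refine ⟨h, M, ν, Q, Cp, ρ, hρ, fun y hy => (hball y hy).2, hh, hM, hlt, hν, ?_, ?_⟩
  · intro i y hy
    exact ((hball y hy).1 i).1
  · intro i y hy hyU
    exact ((hball y hy).1 i).2 (subset_closure hyU)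

end Crest.Agent.R264.Ctl
end
end

-- ▼ part R264/A9Box
section

/-!
Row 264, Part A, node A9 (helper456): `boxStmt_of : Bsh.ThmB → AI.BoxStmt`.
-/

set_option autoImplicit false

open Topology Filter Set Metric Complex

namespace Crest.Agent.R264.A9

open JL

variable {m k : ℕ}

theorem continuous_Ainv (Ht : P m k → (Fin k → ℝ)) (a : P m k) : Continuous (Ainv Ht a) := by
  have h0 : Continuous fun y : E m k => alpha (fderiv ℝ Ht a) y.1 :=
    (alpha (fderiv ℝ Ht a)).continuous.comp continuous_fst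
  have h1 : Continuous fun y : E m k => (2 * I) • alpha (fderiv ℝ Ht a) y.1 :=
    (continuous_const_smul (2 * I)).comp h0
  have h2 : Continuous fun y : E m k =>
      XI (fderiv ℝ Ht a) (y.2 + (2 * I) • alpha (fderiv ℝ Ht a) y.1) :=
    (XI (fderiv ℝ Ht a)).continuous.comp (continuous_snd.add h1)
  exact (continuous_const.add continuous_fst).prodMk (continuous_const.add h2)

theorem Amap_image_eq {Ht : P m k → (Fin k → ℝ)} {a : P m k} (ha : ‖fderiv ℝ Ht a‖ ≤ 1 / 4)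
    (UU : Set (E m k)) : Amap Ht a '' UU = Ainv Ht a ⁻¹' UU := by
  ext y
  constructor
  · rintro ⟨p, hp, rfl⟩
    rwa [mem_preimage, Ainv_Amap ha]
  · intro hy
    exact ⟨_, hy, Amap_Ainv ha y⟩

theorem isOpen_Amap_image {Ht : P m k → (Fin k → ℝ)} {a : P m k} (ha : ‖fderiv ℝ Ht a‖ ≤ 1 / 4)
    {UU : Set (E m k)} (hUU : IsOpen UU) : IsOpen (Amap Ht a '' UU) := by
  rw [Amap_image_eq ha]
  exact hUU.preimage (continuous_Ainv Ht a)

/-- **A9** -/
theorem boxStmt_of (hB : Bsh.ThmB) : AI.BoxStmt := by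
  intro m k O Ht UU hO hC hsmall hUU A a₀ ha₀ ρ₁ hρ₁ hKS
  obtain ⟨R, hR, hRO⟩ := Metric.isOpen_iff.1 A.hO' a₀ ha₀
  have hsub : ∀ a ∈ ball a₀ R, a ∈ O := fun a ha => A.sub (hRO ha)
  have hA : ArcAt Ht a₀ (Amap Ht a₀ '' UU) R A.s₀ A.C₀ A.om A.vv :=
    { R_pos := hR
      s0_pos := A.hs₀
      C_nn := A.hC₀
      c2 := (hC.mono hsub).of_le (by norm_cast)
      small := fun a ha => hsmall a (hsub a ha)
      vv0 := fun a ha => A.zero a (hRO ha)
      om_lim := A.om_lim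
      lip := fun s hs a ha a' ha' => A.lipa a (hRO ha) a' (hRO ha') s hs.1.le hs.2
      lips := fun a ha s hs s' hs' => A.lips a (hRO ha) s s' hs.1 hs.2 hs'.1 hs'.2
      mem := fun a ha s hs => ⟨_, A.mem a (hRO ha) s hs.1 hs.2, rfl⟩ }
  obtain ⟨c, C, t₀, hc, ht₀, h⟩ := boxes hB hA
    (isOpen_Amap_image (hsmall a₀ (A.sub ha₀)) hUU) hρ₁ hKS
  refine ⟨c, C, t₀, hc, ht₀, fun t ht htt => ?_⟩
  obtain ⟨e, he, h'⟩ := h t ht htt
  exact ⟨e, he, fun y h1 h2 => h' y.1 y.2 h1 h2⟩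

end Crest.Agent.R264.A9
end

-- ▼ part R264/SmDefs
section

/-!
Row 264, PART 0 (U is smooth): interface (helper659).

* `LocHolo X f`    : `f : ℂ^N → ℂ` restricted to `X` is locally the restriction of an ambient
                     holomorphic function.
* `Cov Z`          : a finite branched covering `π : Z → ℂ^d` (from Noether normalisation), étale
                     with local holomorphic sections outside `{a = 0}`.
* `EQThm`          : equicontinuity of bounded holomorphic functions at a (possibly singular) point.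
* `CovThm`         : every zero locus of a prime ideal has a `Cov`.
-/

set_option autoImplicit false

open Topology Filter Set

namespace Crest.Agent.R264.Sm

open Crest.AlgGeometry.Semialg

variable {N : ℕ}

/-- `f` is holomorphic along `X`: near every point of `X` it agrees on `X` with an ambient
holomorphic function. -/
def LocHolo (X : Set (Fin N → ℂ)) (f : (Fin N → ℂ) → ℂ) : Prop :=
  ∀ x ∈ X, ∃ O : Set (Fin N → ℂ), IsOpen O ∧ x ∈ O ∧
    ∃ Φ : (Fin N → ℂ) → ℂ, DifferentiableOn ℂ Φ O ∧ ∀ y ∈ X, y ∈ O → f y = Φ y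

/-- A finite branched covering `π : Z → ℂ^d` with branch locus in `{a = 0}`. -/
structure Cov (Z : Set (Fin N → ℂ)) where
  d : ℕ
  π : (Fin N → ℂ) → (Fin d → ℂ)
  a : (Fin d → ℂ) → ℂ
  m : ℕ
  closed : IsClosed Z
  diff : Differentiable ℂ π
  /-- `a` restricted to a complex line through a point where it is nonzero has finitely many zeros -/
  line : ∀ t₀ t₁ : Fin d → ℂ, a t₁ ≠ 0 → {ζ : ℂ | a (t₀ + ζ • (t₁ - t₀)) = 0}.Finite
  /-- finite fibres with bounded cardinality -/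
  fib : ∀ t : Fin d → ℂ, {y | y ∈ Z ∧ π y = t}.Finite ∧ {y | y ∈ Z ∧ π y = t}.ncard ≤ m
  /-- local sections over `{a ≠ 0}` -/
  sec : ∀ y ∈ Z, a (π y) ≠ 0 → ∃ (O : Set (Fin N → ℂ)) (W : Set (Fin d → ℂ))
    (ψ : (Fin d → ℂ) → (Fin N → ℂ)), IsOpen O ∧ IsOpen W ∧ y ∈ O ∧ DifferentiableOn ℂ ψ W ∧
      (∀ w ∈ W, ψ w ∈ Z ∧ ψ w ∈ O ∧ π (ψ w) = w) ∧
      (∀ z ∈ Z, z ∈ O → π z ∈ W ∧ ψ (π z) = z)
  /-- `{a ∘ π ≠ 0}` is dense in `Z` -/
  dense : ∀ y ∈ Z, ∀ O : Set (Fin N → ℂ), IsOpen O → y ∈ O → ∃ z ∈ Z, z ∈ O ∧ a (π z) ≠ 0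

/-- (EQ) Equicontinuity at `k ∈ Z` of the holomorphic functions bounded by `1` on
`Z ∩ ball k r`. -/
def EQThm : Prop :=
  ∀ (N : ℕ) (Z : Set (Fin N → ℂ)), Nonempty (Cov Z) → ∀ k ∈ Z, ∀ r : ℝ, 0 < r →
    ∀ ε : ℝ, 0 < ε → ∃ δ : ℝ, 0 < δ ∧ ∀ f : (Fin N → ℂ) → ℂ,
      LocHolo (Z ∩ Metric.ball k r) f → (∀ y ∈ Z ∩ Metric.ball k r, ‖f y‖ ≤ 1) →
      ∀ y ∈ Z, dist y k < δ → ‖f y - f k‖ ≤ ε

/-- Zero loci of prime ideals are finite branched coverings. -/
def CovThm : Prop :=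
  ∀ (N : ℕ) (P : Ideal (MvPolynomial (Fin N) ℂ)), P.IsPrime →
    ∃ C : Cov (MvPolynomial.zeroLocus ℂ P), ∃ A : MvPolynomial (Fin N) ℂ, A ∉ P ∧
      ∀ x, MvPolynomial.eval x A = C.a (C.π x)

end Crest.Agent.R264.Sm
end

-- ▼ part R264/SmAlg
section

/-! Row 264, PART 0: algebra (helper659).  Lying over for one element, separability. -/

set_option autoImplicit false

namespace Crest.Agent.R264.Sm

open Polynomial

section General

variable {R A : Type*} [CommRing R] [IsDomain R] [IsIntegrallyClosed R] [CommRing A] [IsDomain A]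
  [Algebra R A] [Module.IsTorsionFree R A]

/-- Lying over for `R[s] ⊆ A`: a common zero of the minimal polynomial of `s` over a point `e` of
`R` lifts to a maximal ideal of `A`. -/
theorem lying_over [Algebra.IsIntegral R A] (s : A) {K : Type*} [Field K] (e : R →+* K)
    (he : Function.Surjective e) (τ : K) (h : ((minpoly R s).map e).eval τ = 0) :
    ∃ Q : Ideal A, Q.IsMaximal ∧ (∀ r : R, e r = 0 → algebraMap R A r ∈ Q) ∧
      (∀ r : R, e r = τ → s - algebraMap R A r ∈ Q) := by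
  have hs : IsIntegral R s := Algebra.IsIntegral.isIntegral s
  let φ : R[X] →+* A := (aeval s : R[X] →ₐ[R] A).toRingHom
  let _ : Algebra R[X] A := φ.toAlgebra
  have hφ : ∀ p : R[X], algebraMap R[X] A p = aeval s p := fun p => rfl
  have : IsScalarTower R R[X] A := IsScalarTower.of_algebraMap_eq' (by
    ext r
    simp [hφ, RingHom.comp_apply])
  have : Algebra.IsIntegral R[X] A := Algebra.IsIntegral.tower_top (R := R)
  let ε : R[X] →+* K := eval₂RingHom e τ
  have hε : Function.Surjective ε := by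
    intro k
    obtain ⟨r, hr⟩ := he k
    exact ⟨C r, by simp [ε, hr]⟩
  have : (RingHom.ker ε).IsMaximal := RingHom.ker_isMaximal_of_surjective ε hε
  have hker : RingHom.ker (algebraMap R[X] A) ≤ RingHom.ker ε := by
    intro p hp
    rw [RingHom.mem_ker, hφ] at hp
    obtain ⟨q, rfl⟩ := minpoly.isIntegrallyClosed_dvd hs hp
    rw [RingHom.mem_ker, map_mul]
    have : ε (minpoly R s) = 0 := by
      simpa [ε, eval_map] using h
    rw [this, zero_mul]
  obtain ⟨Q, hQ, hQc⟩ := Ideal.exists_ideal_over_maximal_of_isIntegral (RingHom.ker ε) hker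
  refine ⟨Q, hQ, ?_, ?_⟩
  · intro r hr
    have : C r ∈ RingHom.ker ε := by simp [RingHom.mem_ker, ε, hr]
    rw [← hQc, Ideal.mem_comap, hφ] at this
    simpa using this
  · intro r hr
    have : X - C r ∈ RingHom.ker ε := by simp [RingHom.mem_ker, ε, hr]
    rw [← hQc, Ideal.mem_comap, hφ] at this
    simpa using this

/-- Separability of the minimal polynomial in characteristic zero, with denominators cleared. -/
theorem exists_sep [CharZero R] (s : A) (hs : IsIntegral R s) :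
    ∃ (a : R) (u v : R[X]), a ≠ 0 ∧
      u * minpoly R s + v * derivative (minpoly R s) = C a := by
  let K := FractionRing R
  let L := FractionRing A
  let _ : Algebra K L := FractionRing.liftAlgebra R L
  have : CharZero K := IsFractionRing.charZero R
  have h1 := minpoly.isIntegrallyClosed_eq_field_fractions K L hs
  have hint : IsIntegral K (algebraMap A L s) := by
    have h2 : IsIntegral R (algebraMap A L s) := hs.algebraMap
    exact h2.tower_top
  have hirr : Irreducible (minpoly K (algebraMap A L s)) := minpoly.irreducible hint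
  have hsep : (minpoly K (algebraMap A L s)).Separable := hirr.separable
  rw [h1] at hsep
  obtain ⟨u, v, huv⟩ := hsep
  obtain ⟨b, hb0, hb⟩ := IsLocalization.integerNormalization_spec (nonZeroDivisors R) u
  obtain ⟨c, hc0, hc⟩ := IsLocalization.integerNormalization_spec (nonZeroDivisors R) v
  have hb1 : b ≠ 0 := nonZeroDivisors.ne_zero hb0
  have hc1 : c ≠ 0 := nonZeroDivisors.ne_zero hc0
  refine ⟨b * c, C c * IsLocalization.integerNormalization (nonZeroDivisors R) u,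
    C b * IsLocalization.integerNormalization (nonZeroDivisors R) v, mul_ne_zero hb1 hc1, ?_⟩
  apply Polynomial.map_injective (algebraMap R K) (IsFractionRing.injective R K)
  rw [Polynomial.map_add, Polynomial.map_mul, Polynomial.map_mul, Polynomial.map_mul,
    Polynomial.map_mul, hb, hc, ← derivative_map, map_C, map_C, map_C, map_mul]
  have e1 : b • u = C (algebraMap R K b) * u := by
    rw [← IsScalarTower.algebraMap_smul K b u, smul_eq_C_mul]
  have e2 : c • v = C (algebraMap R K c) * v := by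
    rw [← IsScalarTower.algebraMap_smul K c v, smul_eq_C_mul]
  rw [e1, e2, C_mul]
  linear_combination (C (algebraMap R K b) * C (algebraMap R K c)) * huv

/-- The constant coefficient of the minimal polynomial of a nonzero element is nonzero. -/
theorem coeff_zero_ne_zero (s : A) (hs : IsIntegral R s) (h : s ≠ 0) :
    (minpoly R s).coeff 0 ≠ 0 := by
  intro h0
  have h1 : (minpoly R s).divX * X = minpoly R s := by
    have := Polynomial.divX_mul_X_add (minpoly R s)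
    rwa [h0, C_0, add_zero] at this
  have h2 : aeval s (minpoly R s).divX = 0 := by
    have h3 := minpoly.aeval R s
    rw [← h1, map_mul, aeval_X] at h3
    exact (mul_eq_zero.mp h3).resolve_right h
  have h4 : minpoly R s ∣ (minpoly R s).divX := minpoly.isIntegrallyClosed_dvd hs h2
  have h5 : (minpoly R s).divX ≠ 0 := by
    intro h6
    rw [h6, zero_mul] at h1
    exact minpoly.ne_zero hs h1.symm
  have h7 := Polynomial.natDegree_le_of_dvd h4 h5
  rw [Polynomial.natDegree_divX_eq_natDegree_tsub_one] at h7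
  have h8 := minpoly.natDegree_pos hs
  omega

end General

/-- Noether normalisation data for a prime ideal. -/
structure Noe {N : ℕ} (P : Ideal (MvPolynomial (Fin N) ℂ)) where
  d : ℕ
  g : MvPolynomial (Fin d) ℂ →ₐ[ℂ] (MvPolynomial (Fin N) ℂ ⧸ P)
  inj : Function.Injective g
  int : g.IsIntegral
  p : Fin d → MvPolynomial (Fin N) ℂ
  hp : ∀ i, Ideal.Quotient.mk P (p i) = g (MvPolynomial.X i)

variable {N : ℕ} {P : Ideal (MvPolynomial (Fin N) ℂ)}

theorem exists_noe (P : Ideal (MvPolynomial (Fin N) ℂ)) (hP : P ≠ ⊤) : Nonempty (Noe P) := by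
  obtain ⟨s, -, g, hg, hint⟩ := exists_integral_inj_algHom_of_quotient P hP
  choose p hp using fun i => Ideal.Quotient.mk_surjective (g (MvPolynomial.X i))
  exact ⟨⟨s, g, hg, hint, p, hp⟩⟩

namespace Noe

variable (n : Noe P)

/-- The projection. -/
noncomputable def π (x : Fin N → ℂ) : Fin n.d → ℂ := fun i => MvPolynomial.eval x (n.p i)

/-- The minimal polynomial of (the class of) `s` over `ℂ[t]`. -/
noncomputable def F (s : MvPolynomial (Fin N) ℂ) : Polynomial (MvPolynomial (Fin n.d) ℂ) :=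
  letI := n.g.toRingHom.toAlgebra
  minpoly (MvPolynomial (Fin n.d) ℂ) (Ideal.Quotient.mk P s)

/-- Evaluation at a point of the zero locus. -/
noncomputable def evq {x : Fin N → ℂ} (hx : x ∈ MvPolynomial.zeroLocus ℂ P) :
    (MvPolynomial (Fin N) ℂ ⧸ P) →ₐ[ℂ] ℂ :=
  Ideal.Quotient.liftₐ P (MvPolynomial.aeval x) (fun a ha => hx a ha)

theorem evq_mk {x : Fin N → ℂ} (hx : x ∈ MvPolynomial.zeroLocus ℂ P)
    (s : MvPolynomial (Fin N) ℂ) :
    evq hx (Ideal.Quotient.mk P s) = MvPolynomial.eval x s := by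
  simp [evq]

theorem evq_g {x : Fin N → ℂ} (hx : x ∈ MvPolynomial.zeroLocus ℂ P)
    (q : MvPolynomial (Fin n.d) ℂ) : evq hx (n.g q) = MvPolynomial.eval (n.π x) q := by
  have : (evq hx).comp n.g = MvPolynomial.aeval (n.π x) := by
    apply MvPolynomial.algHom_ext
    intro i
    simp [← n.hp i, evq_mk, π]
  rw [← MvPolynomial.coe_aeval_eq_eval, ← this]
  rfl

variable [hP : P.IsPrime]

omit hP in
theorem F_monic (s : MvPolynomial (Fin N) ℂ) : (n.F s).Monic := by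
  let _ := n.g.toRingHom.toAlgebra
  exact minpoly.monic (n.int _)

omit hP in
theorem F_root (s : MvPolynomial (Fin N) ℂ) {x : Fin N → ℂ}
    (hx : x ∈ MvPolynomial.zeroLocus ℂ P) :
    ((n.F s).map (MvPolynomial.eval (n.π x))).eval (MvPolynomial.eval x s) = 0 := by
  let _ := n.g.toRingHom.toAlgebra
  have h : aeval (Ideal.Quotient.mk P s) (n.F s) = 0 := minpoly.aeval _ _
  have h2 := congrArg (evq hx) h
  rw [map_zero, aeval_def] at h2
  rw [eval_map]
  have h3 := Polynomial.hom_eval₂ (n.F s) (algebraMap (MvPolynomial (Fin n.d) ℂ)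
    (MvPolynomial (Fin N) ℂ ⧸ P)) (evq hx).toRingHom (Ideal.Quotient.mk P s)
  have h4 : ((evq hx).toRingHom.comp (algebraMap (MvPolynomial (Fin n.d) ℂ)
    (MvPolynomial (Fin N) ℂ ⧸ P))) = MvPolynomial.eval (n.π x) := by
    ext q
    · simp [RingHom.algebraMap_toAlgebra]
    · have := n.evq_g hx (MvPolynomial.X q)
      simpa [RingHom.algebraMap_toAlgebra] using this
  rw [h4] at h3
  have h5 : (evq hx).toRingHom (Ideal.Quotient.mk P s) = MvPolynomial.eval x s := evq_mk hx s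
  rw [h5] at h3
  rw [← h3]
  exact h2

theorem F_lift (s : MvPolynomial (Fin N) ℂ) (t : Fin n.d → ℂ) (τ : ℂ)
    (h : ((n.F s).map (MvPolynomial.eval t)).eval τ = 0) :
    ∃ x ∈ MvPolynomial.zeroLocus ℂ P, n.π x = t ∧ MvPolynomial.eval x s = τ := by
  let _ := n.g.toRingHom.toAlgebra
  have : Algebra.IsIntegral (MvPolynomial (Fin n.d) ℂ) (MvPolynomial (Fin N) ℂ ⧸ P) := ⟨n.int⟩
  have hinj : Function.Injective (algebraMap (MvPolynomial (Fin n.d) ℂ)
    (MvPolynomial (Fin N) ℂ ⧸ P)) := n.inj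
  have : FaithfulSMul (MvPolynomial (Fin n.d) ℂ) (MvPolynomial (Fin N) ℂ ⧸ P) :=
    (faithfulSMul_iff_algebraMap_injective _ _).mpr hinj
  obtain ⟨Q, hQ, hQ1, hQ2⟩ := lying_over (R := MvPolynomial (Fin n.d) ℂ)
    (Ideal.Quotient.mk P s) (MvPolynomial.eval t) (fun c => ⟨MvPolynomial.C c, by simp⟩) τ h
  have hQ' : (Q.comap (Ideal.Quotient.mk P)).IsMaximal :=
    Ideal.comap_isMaximal_of_surjective _ Ideal.Quotient.mk_surjective
  obtain ⟨x, hx⟩ := MvPolynomial.isMaximal_iff_eq_vanishingIdeal_singleton.mp hQ'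
  have hmem : ∀ q, Ideal.Quotient.mk P q ∈ Q → MvPolynomial.eval x q = 0 := by
    intro q hq
    have : q ∈ MvPolynomial.vanishingIdeal ℂ {x} := by
      rw [← hx]; exact hq
    have := (MvPolynomial.mem_vanishingIdeal_singleton_iff x q).mp this
    simpa [MvPolynomial.aeval_eq_eval] using this
  refine ⟨x, ?_, ?_, ?_⟩
  · intro q hq
    have := hmem q (by rw [Ideal.Quotient.eq_zero_iff_mem.mpr hq]; exact Q.zero_mem)
    simpa [MvPolynomial.aeval_eq_eval] using this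
  · funext i
    have h1 := hQ1 (MvPolynomial.X i - MvPolynomial.C (t i)) (by simp)
    have h2 : Ideal.Quotient.mk P (n.p i - MvPolynomial.C (t i)) ∈ Q := by
      rw [map_sub, n.hp i]
      have e : n.g (MvPolynomial.C (t i)) = Ideal.Quotient.mk P (MvPolynomial.C (t i)) := by
        have h := n.g.commutes (t i)
        rw [MvPolynomial.algebraMap_eq] at h
        rw [h]
        rfl
      have e2 : algebraMap (MvPolynomial (Fin n.d) ℂ) (MvPolynomial (Fin N) ℂ ⧸ P)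
        (MvPolynomial.X i - MvPolynomial.C (t i)) = n.g (MvPolynomial.X i) -
          n.g (MvPolynomial.C (t i)) := by
        rw [← map_sub]; rfl
      rw [e2, e] at h1
      exact h1
    have h3 := hmem _ h2
    simp only [map_sub, MvPolynomial.eval_C] at h3
    simpa [π, sub_eq_zero] using h3
  · have h1 := hQ2 (MvPolynomial.C τ) (by simp)
    have h2 : Ideal.Quotient.mk P (s - MvPolynomial.C τ) ∈ Q := by
      rw [map_sub]
      have e : n.g (MvPolynomial.C τ) = Ideal.Quotient.mk P (MvPolynomial.C τ) := by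
        have h := n.g.commutes τ
        rw [MvPolynomial.algebraMap_eq] at h
        rw [h]
        rfl
      rw [← e]
      exact h1
    have h3 := hmem _ h2
    simpa [sub_eq_zero] using h3

theorem F_sep (s : MvPolynomial (Fin N) ℂ) :
    ∃ (a : MvPolynomial (Fin n.d) ℂ) (u v : Polynomial (MvPolynomial (Fin n.d) ℂ)), a ≠ 0 ∧
      u * n.F s + v * derivative (n.F s) = C a := by
  let _ := n.g.toRingHom.toAlgebra
  have hinj : Function.Injective (algebraMap (MvPolynomial (Fin n.d) ℂ)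
    (MvPolynomial (Fin N) ℂ ⧸ P)) := n.inj
  have : FaithfulSMul (MvPolynomial (Fin n.d) ℂ) (MvPolynomial (Fin N) ℂ ⧸ P) :=
    (faithfulSMul_iff_algebraMap_injective _ _).mpr hinj
  exact exists_sep _ (n.int _)

omit hP in
/-- `a ∘ π` as a polynomial on `ℂ^N`. -/
theorem eval_pull (a : MvPolynomial (Fin n.d) ℂ) (x : Fin N → ℂ) :
    MvPolynomial.eval x (MvPolynomial.bind₁ n.p a) = MvPolynomial.eval (n.π x) a := by
  have : (MvPolynomial.aeval x).comp (MvPolynomial.bind₁ n.p) = MvPolynomial.aeval (n.π x) := by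
    apply MvPolynomial.algHom_ext
    intro i
    simp [π, MvPolynomial.aeval_eq_eval]
  have h := congrArg (fun f : MvPolynomial (Fin n.d) ℂ →ₐ[ℂ] ℂ => f a) this
  simpa [MvPolynomial.aeval_eq_eval] using h

omit hP in
theorem pull_notMem {a : MvPolynomial (Fin n.d) ℂ} (ha : a ≠ 0) :
    MvPolynomial.bind₁ n.p a ∉ P := by
  intro h
  apply ha
  apply n.inj
  rw [map_zero]
  have : (Ideal.Quotient.mkₐ ℂ P).comp (MvPolynomial.bind₁ n.p) = n.g := by
    apply MvPolynomial.algHom_ext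
    intro i
    simp [n.hp i]
  rw [← this]
  exact Ideal.Quotient.eq_zero_iff_mem.mpr h

end Noe

end Crest.Agent.R264.Sm
end

-- ▼ part R264/SmOp
section

/-! Row 264, PART 0: the covering `π : Z(P) → ℂ^d` (helper659): finite fibres, properness,
openness, density. -/

set_option autoImplicit false

namespace Crest.Agent.R264.Sm

open Polynomial Topology Filter

/-- A monic polynomial with a small constant coefficient has a small root. -/
theorem exists_small_root (p : ℂ[X]) (hp : p.Monic) (ε : ℝ) (hε : 0 < ε)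
    (h : ‖p.coeff 0‖ < ε ^ p.natDegree) : ∃ τ, p.eval τ = 0 ∧ ‖τ‖ < ε := by
  by_contra hcon
  push Not at hcon
  have hs : p.Splits := IsAlgClosed.splits p
  have h1 := hs.coeff_zero_eq_prod_roots_of_monic hp
  have h2 : ε ^ p.natDegree ≤ ‖p.roots.prod‖ := by
    have hcard : p.natDegree = Multiset.card p.roots := hs.natDegree_eq_card_roots
    rw [hcard]
    have : ∀ s : Multiset ℂ, (∀ z ∈ s, ε ≤ ‖z‖) → ε ^ Multiset.card s ≤ ‖s.prod‖ := by
      intro s
      induction s using Multiset.induction_on with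
      | empty => intro _; simp
      | cons a s ih =>
        intro hs'
        rw [Multiset.card_cons, Multiset.prod_cons, norm_mul, pow_succ, mul_comm]
        have h3 := ih (fun z hz => hs' z (Multiset.mem_cons_of_mem hz))
        have h4 := hs' a (Multiset.mem_cons_self a s)
        gcongr
    apply this
    intro z hz
    exact hcon z (Polynomial.isRoot_of_mem_roots hz)
  rw [h1, norm_mul, norm_pow, norm_neg, norm_one, one_pow, one_mul] at h
  linarith

/-- A nonzero polynomial does not vanish identically near a point. -/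
theorem exists_eval_ne_zero {d : ℕ} (a : MvPolynomial (Fin d) ℂ) (ha : a ≠ 0)
    (t : Fin d → ℂ) (s : Set (Fin d → ℂ)) (hs : s ∈ 𝓝 t) :
    ∃ u ∈ s, MvPolynomial.eval u a ≠ 0 := by
  by_contra hcon
  push Not at hcon
  apply ha
  obtain ⟨r, hr, hrs⟩ := Metric.mem_nhds_iff.mp hs
  apply MvPolynomial.funext_set (fun i => Metric.ball (t i) r)
  · intro i
    exact infinite_of_mem_nhds (t i) (Metric.ball_mem_nhds _ hr)
  · intro x hx
    rw [map_zero]
    apply hcon
    apply hrs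
    rw [Metric.mem_ball, dist_pi_lt_iff hr]
    intro i
    exact hx i (Set.mem_univ i)

/-- Monic polynomials with bounded coefficients have bounded roots. -/
theorem root_bound (p : ℂ[X]) (hp : p.Monic) (C : ℝ) (hC : ∀ i, ‖p.coeff i‖ ≤ C) (z : ℂ)
    (hz : p.eval z = 0) : ‖z‖ ≤ 1 + C * p.natDegree := by
  have hC0 : 0 ≤ C := (norm_nonneg _).trans (hC 0)
  by_contra hcon
  push Not at hcon
  have hn : p.natDegree ≠ 0 := by
    intro h0
    have : p = 1 := by
      rw [← Polynomial.eq_one_of_monic_natDegree_zero hp h0]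
    rw [this] at hz
    simp at hz
  have hz1 : 1 < ‖z‖ := by nlinarith [mul_nonneg hC0 (Nat.cast_nonneg (α := ℝ) p.natDegree)]
  rw [Polynomial.eval_eq_sum_range, Finset.sum_range_succ, hp.coeff_natDegree, one_mul] at hz
  have h1 : z ^ p.natDegree = - ∑ i ∈ Finset.range p.natDegree, p.coeff i * z ^ i := by
    linear_combination hz
  have h2 : ‖z‖ ^ p.natDegree ≤ C * p.natDegree * ‖z‖ ^ (p.natDegree - 1) := by
    rw [← norm_pow, h1, norm_neg]
    refine (norm_sum_le _ _).trans ?_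
    calc ∑ i ∈ Finset.range p.natDegree, ‖p.coeff i * z ^ i‖
        ≤ ∑ i ∈ Finset.range p.natDegree, C * ‖z‖ ^ (p.natDegree - 1) := by
          apply Finset.sum_le_sum
          intro i hi
          rw [norm_mul, norm_pow]
          have hi' : i ≤ p.natDegree - 1 := by
            have := Finset.mem_range.mp hi
            omega
          exact mul_le_mul (hC i) (pow_le_pow_right₀ hz1.le hi') (by positivity) hC0
      _ = C * p.natDegree * ‖z‖ ^ (p.natDegree - 1) := by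
          rw [Finset.sum_const, Finset.card_range, nsmul_eq_mul]; ring
  have h3 : ‖z‖ ^ p.natDegree = ‖z‖ * ‖z‖ ^ (p.natDegree - 1) := by
    rw [← pow_succ']
    congr 1
    omega
  rw [h3] at h2
  have h4 : 0 < ‖z‖ ^ (p.natDegree - 1) := by positivity
  have h5 := le_of_mul_le_mul_right h2 h4
  linarith

variable {N : ℕ} {P : Ideal (MvPolynomial (Fin N) ℂ)} [hP : P.IsPrime]

namespace Noe

variable (n : Noe P)

omit hP in
theorem continuous_π : Continuous n.π := by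
  unfold π
  exact continuous_pi fun i => MvPolynomial.continuous_eval _

omit hP in
theorem isClosed_Z : IsClosed (MvPolynomial.zeroLocus ℂ P) := by
  have : MvPolynomial.zeroLocus ℂ P = ⋂ f ∈ P, {x | MvPolynomial.eval x f = 0} := by
    ext x
    simp [MvPolynomial.mem_zeroLocus_iff, MvPolynomial.aeval_eq_eval]
  rw [this]
  exact isClosed_biInter fun f _ => isClosed_eq (MvPolynomial.continuous_eval f) continuous_const

/-- the coordinate polynomial `F_l` -/
noncomputable def FX (l : Fin N) : Polynomial (MvPolynomial (Fin n.d) ℂ) :=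
  n.F (MvPolynomial.X l)

omit hP in
theorem natDegree_map (s : MvPolynomial (Fin N) ℂ) (t : Fin n.d → ℂ) :
    ((n.F s).map (MvPolynomial.eval t)).natDegree = (n.F s).natDegree :=
  (n.F_monic s).natDegree_map _

omit hP in
/-- fibres are finite with bounded cardinality -/
theorem fib (t : Fin n.d → ℂ) :
    {y | y ∈ MvPolynomial.zeroLocus ℂ P ∧ n.π y = t}.Finite ∧
      {y | y ∈ MvPolynomial.zeroLocus ℂ P ∧ n.π y = t}.ncard ≤ ∏ l, (n.FX l).natDegree := by
  classical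
  let S : Finset (Fin N → ℂ) :=
    Fintype.piFinset fun l => ((n.FX l).map (MvPolynomial.eval t)).roots.toFinset
  have hsub : {y | y ∈ MvPolynomial.zeroLocus ℂ P ∧ n.π y = t} ⊆ (S : Set (Fin N → ℂ)) := by
    rintro y ⟨hy, hyt⟩
    rw [Finset.mem_coe, Fintype.mem_piFinset]
    intro l
    rw [Multiset.mem_toFinset, Polynomial.mem_roots']
    refine ⟨((n.F_monic _).map _).ne_zero, ?_⟩
    have := n.F_root (MvPolynomial.X l) hy
    rw [hyt, MvPolynomial.eval_X] at this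
    exact this
  refine ⟨S.finite_toSet.subset hsub, ?_⟩
  calc _ ≤ (S : Set (Fin N → ℂ)).ncard := Set.ncard_le_ncard hsub S.finite_toSet
    _ = S.card := Set.ncard_coe_finset S
    _ = ∏ l, (((n.FX l).map (MvPolynomial.eval t)).roots.toFinset).card := Fintype.card_piFinset _
    _ ≤ ∏ l, (n.FX l).natDegree := by
        apply Finset.prod_le_prod'
        intro l _
        refine (Multiset.toFinset_card_le _).trans ?_
        refine (Polynomial.card_roots' _).trans ?_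
        exact Polynomial.natDegree_map_le

omit hP in
/-- properness -/
theorem isCompact_preimage (K : Set (Fin n.d → ℂ)) (hK : IsCompact K) :
    IsCompact (MvPolynomial.zeroLocus ℂ P ∩ n.π ⁻¹' K) := by
  apply Metric.isCompact_of_isClosed_isBounded
  · exact isClosed_Z.inter (hK.isClosed.preimage n.continuous_π)
  · -- bound the coefficients
    have hcoef : ∀ l : Fin N, ∃ C : ℝ, ∀ t ∈ K, ∀ i,
        ‖((n.FX l).map (MvPolynomial.eval t)).coeff i‖ ≤ C := by
      intro l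
      have h1 : ∀ i, ∃ C : ℝ, ∀ t ∈ K, ‖MvPolynomial.eval t ((n.FX l).coeff i)‖ ≤ C := fun i =>
        hK.exists_bound_of_continuousOn (MvPolynomial.continuous_eval _).continuousOn
      choose C hC using h1
      refine ⟨∑ i ∈ (n.FX l).support, |C i|, ?_⟩
      intro t ht i
      rw [Polynomial.coeff_map]
      by_cases hi : i ∈ (n.FX l).support
      · refine (hC i t ht).trans ((le_abs_self _).trans ?_)
        exact Finset.single_le_sum (f := fun i => |C i|) (fun j _ => abs_nonneg _) hi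
      · rw [Polynomial.notMem_support_iff.mp hi, map_zero, norm_zero]
        exact Finset.sum_nonneg fun j _ => abs_nonneg _
    choose C hC using hcoef
    rw [isBounded_iff_forall_norm_le]
    refine ⟨∑ l, |1 + C l * (n.FX l).natDegree|, ?_⟩
    rintro y ⟨hy, hyK⟩
    rw [pi_norm_le_iff_of_nonneg (Finset.sum_nonneg fun j _ => abs_nonneg _)]
    intro l
    have h1 := n.F_root (MvPolynomial.X l) hy
    rw [MvPolynomial.eval_X] at h1
    have h2 := root_bound _ ((n.F_monic (MvPolynomial.X l)).map (MvPolynomial.eval (n.π y)))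
      (C l) (hC l _ hyK) (y l) h1
    rw [n.natDegree_map] at h2
    refine h2.trans ((le_abs_self _).trans ?_)
    exact Finset.single_le_sum (f := fun l => |1 + C l * (n.FX l).natDegree|)
      (fun j _ => abs_nonneg _) (Finset.mem_univ l)

omit hP in
/-- a polynomial separating `y` from finitely many points -/
theorem _root_.Crest.Agent.R264.Sm.exists_separating {N : ℕ} (S : Set (Fin N → ℂ)) (hS : S.Finite)
    (y : Fin N → ℂ) :
    ∃ s : MvPolynomial (Fin N) ℂ, MvPolynomial.eval y s = 0 ∧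
      ∀ z ∈ S, z ≠ y → MvPolynomial.eval z s = -1 := by
  classical
  have h1 : ∀ z : Fin N → ℂ, ∃ q : MvPolynomial (Fin N) ℂ, MvPolynomial.eval y q = 1 ∧
      (z ≠ y → MvPolynomial.eval z q = 0) := by
    intro z
    by_cases hz : z = y
    · exact ⟨1, by simp, fun h => absurd hz h⟩
    · obtain ⟨l, hl⟩ := Function.ne_iff.mp hz
      have hne : y l - z l ≠ 0 := sub_ne_zero.mpr (Ne.symm hl)
      refine ⟨MvPolynomial.C (y l - z l)⁻¹ * (MvPolynomial.X l - MvPolynomial.C (z l)), ?_, ?_⟩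
      · simp [inv_mul_cancel₀ hne]
      · intro _; simp
  choose q hq1 hq2 using h1
  refine ⟨(∏ z ∈ hS.toFinset.filter (· ≠ y), q z) - 1, ?_, ?_⟩
  · simp [map_prod, hq1]
  · intro z hz hzy
    rw [map_sub, map_prod, map_one, Finset.prod_eq_zero (i := z)]
    · simp
    · simp [hz, hzy]
    · exact hq2 z hzy

/-- openness of `π : Z → ℂ^d` -/
theorem open_at {y : Fin N → ℂ} (hy : y ∈ MvPolynomial.zeroLocus ℂ P) (O : Set (Fin N → ℂ))
    (hO : IsOpen O) (hyO : y ∈ O) :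
    ∀ᶠ t in 𝓝 (n.π y), ∃ z ∈ MvPolynomial.zeroLocus ℂ P, z ∈ O ∧ n.π z = t := by
  obtain ⟨s, hs0, hs1⟩ := exists_separating _ (n.fib (n.π y)).1 y
  set K : Set (Fin N → ℂ) := (MvPolynomial.zeroLocus ℂ P ∩
    n.π ⁻¹' (Metric.closedBall (n.π y) 1)) ∩ Oᶜ ∩ {z | ‖MvPolynomial.eval z s‖ ≤ 1 / 2} with hK
  have hKc : IsCompact K := by
    refine ((n.isCompact_preimage _ (isCompact_closedBall _ _)).inter_right hO.isClosed_compl
      ).inter_right ?_
    exact isClosed_le (MvPolynomial.continuous_eval s).norm continuous_const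
  have h1 : (n.π '' K)ᶜ ∈ 𝓝 (n.π y) := by
    apply (hKc.image n.continuous_π).isClosed.isOpen_compl.mem_nhds
    rintro ⟨z, hz, hzy⟩
    have hzne : z ≠ y := by
      rintro rfl
      exact hz.1.2 hyO
    have := hs1 z ⟨hz.1.1.1, hzy⟩ hzne
    have h2 := hz.2
    rw [Set.mem_ofPred_eq, this] at h2
    norm_num at h2
  -- small roots
  have h2 : ∀ᶠ t in 𝓝 (n.π y), ‖((n.F s).map (MvPolynomial.eval t)).coeff 0‖ <
      (1 / 2 : ℝ) ^ (n.F s).natDegree := by
    have hc : Continuous fun t : Fin n.d → ℂ => ‖((n.F s).map (MvPolynomial.eval t)).coeff 0‖ := by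
      simp only [Polynomial.coeff_map]
      exact (MvPolynomial.continuous_eval _).norm
    have h0 : ‖((n.F s).map (MvPolynomial.eval (n.π y))).coeff 0‖ <
      (1 / 2 : ℝ) ^ (n.F s).natDegree := by
      have := n.F_root s hy
      rw [hs0] at this
      rw [Polynomial.coeff_zero_eq_eval_zero, this, norm_zero]
      positivity
    exact hc.continuousAt.eventually_lt continuousAt_const h0
  have h3 : Metric.closedBall (n.π y) 1 ∈ 𝓝 (n.π y) := Metric.closedBall_mem_nhds _ one_pos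
  filter_upwards [h1, h2, h3] with t ht1 ht2 ht3
  rw [← n.natDegree_map s t] at ht2
  obtain ⟨τ, hτ, hτ2⟩ := exists_small_root _ ((n.F_monic s).map (MvPolynomial.eval t)) (1 / 2)
    (by norm_num) ht2
  obtain ⟨z, hz, hzt, hzτ⟩ := n.F_lift s t τ hτ
  refine ⟨z, hz, ?_, hzt⟩
  by_contra hzO
  apply ht1
  refine ⟨z, ⟨⟨⟨hz, ?_⟩, hzO⟩, ?_⟩, hzt⟩
  · rw [Set.mem_preimage, hzt]; exact ht3
  · rw [Set.mem_ofPred_eq, hzτ]; exact hτ2.le

/-- density of `{b ∘ π ≠ 0}` -/
theorem dense_pull {b : MvPolynomial (Fin n.d) ℂ} (hb : b ≠ 0) {y : Fin N → ℂ}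
    (hy : y ∈ MvPolynomial.zeroLocus ℂ P) (O : Set (Fin N → ℂ)) (hO : IsOpen O) (hyO : y ∈ O) :
    ∃ z ∈ MvPolynomial.zeroLocus ℂ P, z ∈ O ∧ MvPolynomial.eval (n.π z) b ≠ 0 := by
  obtain ⟨u, ⟨z, hz, hzO, hzu⟩, hu⟩ := exists_eval_ne_zero b hb (n.π y) _ (n.open_at hy O hO hyO)
  exact ⟨z, hz, hzO, by rw [hzu]; exact hu⟩

omit hP in
theorem F_coeff_zero {f : MvPolynomial (Fin N) ℂ} {x : Fin N → ℂ}
    (hx : x ∈ MvPolynomial.zeroLocus ℂ P) (hf : MvPolynomial.eval x f = 0) :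
    MvPolynomial.eval (n.π x) ((n.F f).coeff 0) = 0 := by
  have h := n.F_root f hx
  rw [hf, ← Polynomial.coeff_zero_eq_eval_zero, Polynomial.coeff_map] at h
  exact h

theorem F_coeff_zero_ne {f : MvPolynomial (Fin N) ℂ} (hf : f ∉ P) : (n.F f).coeff 0 ≠ 0 := by
  let _ := n.g.toRingHom.toAlgebra
  have hinj : Function.Injective (algebraMap (MvPolynomial (Fin n.d) ℂ)
    (MvPolynomial (Fin N) ℂ ⧸ P)) := n.inj
  have : FaithfulSMul (MvPolynomial (Fin n.d) ℂ) (MvPolynomial (Fin N) ℂ ⧸ P) :=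
    (faithfulSMul_iff_algebraMap_injective _ _).mpr hinj
  have hne : Ideal.Quotient.mk P f ≠ 0 := fun h => hf (Ideal.Quotient.eq_zero_iff_mem.mp h)
  have hint : IsIntegral (MvPolynomial (Fin n.d) ℂ) (Ideal.Quotient.mk P f) := n.int _
  exact coeff_zero_ne_zero _ hint hne

/-- DN: `{f ≠ 0}` is dense in `Z(P)` for `f ∉ P`. -/
theorem dense_ne {f : MvPolynomial (Fin N) ℂ} (hf : f ∉ P) {y : Fin N → ℂ}
    (hy : y ∈ MvPolynomial.zeroLocus ℂ P) (O : Set (Fin N → ℂ)) (hO : IsOpen O) (hyO : y ∈ O) :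
    ∃ z ∈ MvPolynomial.zeroLocus ℂ P, z ∈ O ∧ MvPolynomial.eval z f ≠ 0 := by
  obtain ⟨n⟩ := exists_noe P hP.ne_top
  obtain ⟨z, hz, hzO, hzb⟩ := n.dense_pull (n.F_coeff_zero_ne hf) hy O hO hyO
  exact ⟨z, hz, hzO, fun h => hzb (n.F_coeff_zero hz h)⟩

/-- the two-variable polynomial function `F_l(t, T)` -/
noncomputable def ev2 {d : ℕ} (F : Polynomial (MvPolynomial (Fin d) ℂ))
    (v : (Fin d → ℂ) × ℂ) : ℂ := (F.map (MvPolynomial.eval v.1)).eval v.2

omit hP in
theorem ev2_eq {d : ℕ} (F : Polynomial (MvPolynomial (Fin d) ℂ)) (v : (Fin d → ℂ) × ℂ) :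
    ev2 F v = ∑ i ∈ Finset.range (F.natDegree + 1), MvPolynomial.eval v.1 (F.coeff i) * v.2 ^ i := by
  unfold ev2
  rw [Polynomial.eval_eq_sum_range' (n := F.natDegree + 1)]
  · simp [Polynomial.coeff_map]
  · exact Nat.lt_succ_of_le Polynomial.natDegree_map_le

theorem contDiff_eval {d : ℕ} (q : MvPolynomial (Fin d) ℂ) :
    ContDiff ℂ 1 (fun t : Fin d → ℂ => MvPolynomial.eval t q) := by
  induction q using MvPolynomial.induction_on with
  | C a => simpa using contDiff_const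
  | add p q hp hq => simpa using hp.add hq
  | mul_X p i hp =>
    have : ContDiff ℂ 1 (fun t : Fin d → ℂ => t i) := contDiff_apply ℂ ℂ i
    simpa using hp.mul this

theorem contDiff_ev2 {d : ℕ} (F : Polynomial (MvPolynomial (Fin d) ℂ)) :
    ContDiff ℂ 1 (ev2 F) := by
  have : ev2 F = fun v => ∑ i ∈ Finset.range (F.natDegree + 1),
      MvPolynomial.eval v.1 (F.coeff i) * v.2 ^ i := funext (ev2_eq F)
  rw [this]
  apply ContDiff.sum
  intro i _
  exact ((contDiff_eval _).comp contDiff_fst).mul (contDiff_snd.pow i)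

/-- simple roots depend holomorphically on the parameters -/
theorem simple_root {d : ℕ} (F : Polynomial (MvPolynomial (Fin d) ℂ)) (t₀ : Fin d → ℂ) (T₀ : ℂ)
    (h0 : (F.map (MvPolynomial.eval t₀)).eval T₀ = 0)
    (h1 : ((derivative F).map (MvPolynomial.eval t₀)).eval T₀ ≠ 0) :
    ∃ r : (Fin d → ℂ) → ℂ, (∀ᶠ t in 𝓝 t₀, DifferentiableAt ℂ r t) ∧
      (∀ᶠ v in 𝓝 (t₀, T₀), (F.map (MvPolynomial.eval v.1)).eval v.2 = 0 → r v.1 = v.2) := by
  have hc : ContDiffAt ℂ 1 (ev2 F) (t₀, T₀) := (contDiff_ev2 F).contDiffAt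
  have hinv : (fderiv ℂ (ev2 F) (t₀, T₀) ∘L .inr ℂ (Fin d → ℂ) ℂ).IsInvertible := by
    have hd : HasDerivAt (fun T => ev2 F (t₀, T))
        (((derivative F).map (MvPolynomial.eval t₀)).eval T₀) T₀ := by
      have := (F.map (MvPolynomial.eval t₀)).hasDerivAt T₀
      rw [Polynomial.derivative_map] at this
      exact this
    have hd2 : HasDerivAt (fun T => ev2 F (t₀, T))
        ((fderiv ℂ (ev2 F) (t₀, T₀) ∘L .inr ℂ (Fin d → ℂ) ℂ) 1) T₀ := by
      have h := hc.differentiableAt one_ne_zero |>.hasFDerivAt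
      have h2 : HasFDerivAt (fun T : ℂ => (t₀, T)) (ContinuousLinearMap.inr ℂ (Fin d → ℂ) ℂ) T₀ :=
        hasFDerivAt_prodMk_right t₀ T₀
      have h3 := h.comp T₀ h2
      exact h3.hasDerivAt
    have he := hd.unique hd2
    set L := (fderiv ℂ (ev2 F) (t₀, T₀) ∘L .inr ℂ (Fin d → ℂ) ℂ)
    have hL : L 1 ≠ 0 := by rw [← he]; exact h1
    refine ⟨ContinuousLinearEquiv.unitsEquivAut ℂ (Units.mk0 (L 1) hL), ?_⟩
    ext
    simp
  refine ⟨hc.implicitFunction one_ne_zero hinv, ?_, ?_⟩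
  · have h := hc.contDiffAt_implicitFunction one_ne_zero hinv
    have h2 := h.eventually (by simp)
    filter_upwards [h2] with t ht
    exact ht.differentiableAt one_ne_zero
  · have h := hc.eventually_apply_eq_iff_implicitFunction one_ne_zero hinv
    filter_upwards [h] with v hv hv0
    apply hv.mp
    have e1 : ev2 F v = 0 := hv0
    have e2 : ev2 F (t₀, T₀) = 0 := h0
    rw [e1, e2]

end Noe

end Crest.Agent.R264.Sm
end

-- ▼ part R264/SmCov
section

/-! Row 264, PART 0: `CovThm` (helper659): local holomorphic sections of `π : Z(P) → ℂ^d`. -/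

set_option autoImplicit false

namespace Crest.Agent.R264.Sm

open Polynomial Topology Filter

variable {N : ℕ} {P : Ideal (MvPolynomial (Fin N) ℂ)} [hP : P.IsPrime]

namespace Noe

variable (n : Noe P)

/-- the branch polynomial -/
theorem exists_branch : ∃ a : MvPolynomial (Fin n.d) ℂ, a ≠ 0 ∧
    ∀ t, MvPolynomial.eval t a ≠ 0 → ∀ (l : Fin N) (T : ℂ),
      ((n.FX l).map (MvPolynomial.eval t)).eval T = 0 →
      ((derivative (n.FX l)).map (MvPolynomial.eval t)).eval T ≠ 0 := by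
  have h : ∀ l : Fin N, ∃ a : MvPolynomial (Fin n.d) ℂ, a ≠ 0 ∧
      ∀ t, MvPolynomial.eval t a ≠ 0 → ∀ (T : ℂ),
      ((n.FX l).map (MvPolynomial.eval t)).eval T = 0 →
      ((derivative (n.FX l)).map (MvPolynomial.eval t)).eval T ≠ 0 := by
    intro l
    obtain ⟨a, u, v, ha, huv⟩ := n.F_sep (MvPolynomial.X l)
    refine ⟨a, ha, ?_⟩
    intro t ht T hT hT'
    apply ht
    have h1 := congrArg (fun p => (p.map (MvPolynomial.eval t)).eval T) huv
    simp only [Polynomial.map_add, Polynomial.map_mul, Polynomial.eval_add, Polynomial.eval_mul,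
      Polynomial.map_C, Polynomial.eval_C] at h1
    rw [← h1]
    unfold FX at hT hT'
    rw [hT, hT']
    ring
  choose a ha hsep using h
  refine ⟨∏ l, a l, Finset.prod_ne_zero_iff.mpr fun l _ => ha l, ?_⟩
  intro t ht l
  apply hsep l t
  rw [map_prod] at ht
  exact Finset.prod_ne_zero_iff.mp ht l (Finset.mem_univ l)

/-- local holomorphic sections -/
theorem section_at {y : Fin N → ℂ} (hy : y ∈ MvPolynomial.zeroLocus ℂ P)
    (hsep : ∀ l : Fin N, ((derivative (n.FX l)).map (MvPolynomial.eval (n.π y))).eval (y l) ≠ 0) :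
    ∃ (O : Set (Fin N → ℂ)) (W : Set (Fin n.d → ℂ)) (ψ : (Fin n.d → ℂ) → (Fin N → ℂ)),
      IsOpen O ∧ IsOpen W ∧ y ∈ O ∧ DifferentiableOn ℂ ψ W ∧
      (∀ w ∈ W, ψ w ∈ MvPolynomial.zeroLocus ℂ P ∧ ψ w ∈ O ∧ n.π (ψ w) = w) ∧
      (∀ z ∈ MvPolynomial.zeroLocus ℂ P, z ∈ O → n.π z ∈ W ∧ ψ (n.π z) = z) := by
  have hroot : ∀ (l : Fin N) {z : Fin N → ℂ}, z ∈ MvPolynomial.zeroLocus ℂ P →
      ((n.FX l).map (MvPolynomial.eval (n.π z))).eval (z l) = 0 := by
    intro l z hz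
    have := n.F_root (MvPolynomial.X l) hz
    rwa [MvPolynomial.eval_X] at this
  choose r hr1 hr2 using fun l => simple_root (n.FX l) (n.π y) (y l) (hroot l hy) (hsep l)
  have G1 : ∀ᶠ t in 𝓝 (n.π y), ∀ l, DifferentiableAt ℂ (r l) t := eventually_all.mpr hr1
  have G2 : ∀ᶠ z in 𝓝 y, ∀ l, ((n.FX l).map (MvPolynomial.eval (n.π z))).eval (z l) = 0 →
      r l (n.π z) = z l := by
    rw [eventually_all]
    intro l
    have hc : ContinuousAt (fun z : Fin N → ℂ => (n.π z, z l)) y :=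
      (n.continuous_π.prodMk (continuous_apply l)).continuousAt
    exact hc.eventually (hr2 l)
  obtain ⟨O1, hO1, hO1o, hyO1⟩ := mem_nhds_iff.mp G2
  obtain ⟨W, hW, hWo, hyW⟩ := mem_nhds_iff.mp (G1.and (n.open_at hy O1 hO1o hyO1))
  have key : ∀ z ∈ MvPolynomial.zeroLocus ℂ P, z ∈ O1 → (fun l => r l (n.π z)) = z := by
    intro z hz hzO
    funext l
    exact hO1 hzO l (hroot l hz)
  refine ⟨O1 ∩ n.π ⁻¹' W, W, fun t l => r l t, hO1o.inter (hWo.preimage n.continuous_π), hWo,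
    ⟨hyO1, hyW⟩, ?_, ?_, ?_⟩
  · intro t ht
    apply DifferentiableAt.differentiableWithinAt
    exact differentiableAt_pi.mpr fun l => (hW ht).1 l
  · intro w hw
    obtain ⟨z, hz, hzO, hzw⟩ := (hW hw).2
    have h1 := key z hz hzO
    rw [hzw] at h1
    show (fun l => r l w) ∈ _ ∧ (fun l => r l w) ∈ _ ∧ n.π (fun l => r l w) = w
    rw [h1]
    exact ⟨hz, ⟨hzO, by rw [Set.mem_preimage, hzw]; exact hw⟩, hzw⟩
  · intro z hz hzO
    exact ⟨hzO.2, key z hz hzO.1⟩

/-- The covering structure with a chosen branch polynomial. -/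
theorem exists_cov : ∃ (a : MvPolynomial (Fin n.d) ℂ) (C : Cov (MvPolynomial.zeroLocus ℂ P)),
    a ≠ 0 ∧ ∃ e : C.d = n.d, ∀ x, C.a (C.π x) = MvPolynomial.eval (n.π x) a := by
  obtain ⟨a, ha, hsep⟩ := n.exists_branch
  refine ⟨a, ?_, ha, ?_⟩
  · refine
      { d := n.d
        π := n.π
        a := fun t => MvPolynomial.eval t a
        m := ∏ l, (n.FX l).natDegree
        closed := isClosed_Z
        diff := ?_
        line := ?_
        fib := n.fib
        sec := ?_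
        dense := ?_ }
    · unfold π
      rw [differentiable_pi]
      intro i
      exact (contDiff_eval (n.p i)).differentiable one_ne_zero
    · intro t₀ t₁ h1
      let q : ℂ[X] := MvPolynomial.aeval (fun i => C (t₀ i) + X * C (t₁ i - t₀ i)) a
      have hq : ∀ ζ : ℂ, q.eval ζ = MvPolynomial.eval (t₀ + ζ • (t₁ - t₀)) a := by
        intro ζ
        have : (Polynomial.aeval ζ : ℂ[X] →ₐ[ℂ] ℂ).comp
            (MvPolynomial.aeval (fun i => C (t₀ i) + X * C (t₁ i - t₀ i))) =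
            MvPolynomial.aeval (t₀ + ζ • (t₁ - t₀)) := by
          apply MvPolynomial.algHom_ext
          intro i
          simp
        have h2 := congrArg (fun f : MvPolynomial (Fin n.d) ℂ →ₐ[ℂ] ℂ => f a) this
        simpa [q, MvPolynomial.aeval_eq_eval, Polynomial.coe_aeval_eq_eval] using h2
      have hq0 : q ≠ 0 := by
        intro h0
        have := hq 1
        rw [h0, Polynomial.eval_zero] at this
        apply h1
        rw [this]
        congr 1
        simp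
      refine (q.roots.toFinset.finite_toSet).subset ?_
      intro ζ hζ
      rw [Finset.mem_coe, Multiset.mem_toFinset, Polynomial.mem_roots hq0]
      show q.eval ζ = 0
      rw [hq]
      exact hζ
    · intro y hy hya
      apply n.section_at hy
      intro l
      apply hsep _ hya l
      have := n.F_root (MvPolynomial.X l) hy
      rwa [MvPolynomial.eval_X] at this
    · intro y hy O hO hyO
      exact n.dense_pull ha hy O hO hyO
  · exact ⟨rfl, fun x => rfl⟩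

end Noe

theorem covThm : CovThm := by
  intro N P hP
  obtain ⟨n⟩ := exists_noe P hP.ne_top
  obtain ⟨a, C, ha, -, hC⟩ := n.exists_cov
  refine ⟨C, MvPolynomial.bind₁ n.p a, n.pull_notMem ha, ?_⟩
  intro x
  rw [n.eval_pull, hC]

end Crest.Agent.R264.Sm
end

-- ▼ part R264/SmFin
section

/-!
Row 264, PART 0: final argument (helper119).

* `sp_disc`, `sp_ball`, `exists_harnack_nhd` : Schwarz-Pick type inequality
* `LocChart.transport` : the regular locus is `Γ`-invariant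
* `EQU` : equicontinuity at every point of `U`
* `isSubmfd_of`
-/

set_option autoImplicit false

open Topology Filter Set

namespace Crest.Agent.R264.Sm

open Crest.AlgGeometry.Semialg

variable {N : ℕ}

/-- Schwarz-Pick/Harnack on the disc. -/
theorem sp_disc {g : ℂ → ℂ} {R c : ℝ} (hR : 0 < R) (hg : DifferentiableOn ℂ g (Metric.ball 0 R))
    (hc : ∀ z ∈ Metric.ball (0 : ℂ) R, ‖g z‖ ≤ c) {z : ℂ} (hz : ‖z‖ ≤ R / 2) :
    c - ‖g z‖ ≤ 3 * (c - ‖g 0‖) := by
  have h0 : ‖g 0‖ ≤ c := hc 0 (by simpa using hR)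
  have hzR : z ∈ Metric.ball (0 : ℂ) R := by
    rw [mem_ball_zero_iff]; linarith
  obtain ⟨θ, hθ1, hθ2⟩ : ∃ θ : ℂ, ‖θ‖ = 1 ∧ θ * g 0 = (‖g 0‖ : ℂ) := by
    by_cases h : g 0 = 0
    · exact ⟨1, by simp, by simp [h]⟩
    · have hn : (‖g 0‖ : ℂ) ≠ 0 := by
        simpa using h
      refine ⟨(starRingEnd ℂ) (g 0) / ‖g 0‖, ?_, ?_⟩
      · rw [norm_div, Complex.norm_conj, Complex.norm_real, norm_norm, div_self]
        simpa using h
      · rw [div_mul_eq_mul_div, div_eq_iff hn, Complex.conj_mul', pow_two]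
  -- `f z = θ (g z - g 0)`
  have key : ∀ ε : ℝ, 0 < ε → c - ‖g z‖ ≤ 3 * (c - ‖g 0‖) + 2 * ε := by
    intro ε hε
    have hM : 0 < c - ‖g 0‖ + ε := by linarith
    have hf : DifferentiableOn ℂ (fun z => θ * (g z - g 0)) (Metric.ball 0 R) :=
      (hg.sub_const _).const_mul θ
    have hmaps : Set.MapsTo (fun z => θ * (g z - g 0)) (Metric.ball 0 R)
        {z | z.re ≤ c - ‖g 0‖ + ε} := by
      intro y hy
      have h1 : (θ * (g y - g 0)).re = (θ * g y).re - ‖g 0‖ := by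
        rw [mul_sub, hθ2, Complex.sub_re, Complex.ofReal_re]
      have h2 : (θ * g y).re ≤ c := by
        refine (Complex.re_le_norm _).trans ?_
        rw [norm_mul, hθ1, one_mul]
        exact hc y hy
      show (θ * (g y - g 0)).re ≤ _
      rw [h1]
      linarith
    have hb := Complex.borelCaratheodory_zero hM hf hmaps hR hzR (by simp)
    have h3 : 2 * (c - ‖g 0‖ + ε) * ‖z‖ / (R - ‖z‖) ≤ 2 * (c - ‖g 0‖ + ε) := by
      rw [div_le_iff₀ (by linarith)]
      have : ‖z‖ ≤ R - ‖z‖ := by linarith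
      gcongr
    have h4 : ‖g z - g 0‖ ≤ 2 * (c - ‖g 0‖ + ε) := by
      have : ‖θ * (g z - g 0)‖ = ‖g z - g 0‖ := by rw [norm_mul, hθ1, one_mul]
      rw [← this]
      exact hb.trans h3
    have h5 : ‖g 0‖ ≤ ‖g z‖ + ‖g z - g 0‖ := by
      have := norm_sub_norm_le (g 0) (g z)
      rw [norm_sub_rev] at this
      linarith
    linarith
  by_contra hcon
  push Not at hcon
  have := key ((c - ‖g z‖ - 3 * (c - ‖g 0‖)) / 4) (by linarith)
  linarith

/-- The same in a ball of a normed space. -/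
theorem sp_ball {E : Type*} [NormedAddCommGroup E] [NormedSpace ℂ E] {F : E → ℂ} {w : E}
    {R c : ℝ} (hR : 0 < R) (hF : DifferentiableOn ℂ F (Metric.ball w R))
    (hc : ∀ z ∈ Metric.ball w R, ‖F z‖ ≤ c) {w' : E} (hw : dist w' w ≤ R / 2) :
    c - ‖F w'‖ ≤ 3 * (c - ‖F w‖) := by
  have hmap : MapsTo (fun ζ : ℂ => w + ζ • (w' - w)) (Metric.ball 0 2) (Metric.ball w R) := by
    intro ζ hζ
    rw [mem_ball_zero_iff] at hζ
    rw [Metric.mem_ball, dist_eq_norm, add_sub_cancel_left, norm_smul]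
    rw [dist_eq_norm] at hw
    rcases eq_or_lt_of_le (norm_nonneg (w' - w)) with h | h
    · rw [← h, mul_zero]; exact hR
    · calc ‖ζ‖ * ‖w' - w‖ < 2 * ‖w' - w‖ := by gcongr
        _ ≤ R := by linarith
  have hd : DifferentiableOn ℂ (fun ζ : ℂ => F (w + ζ • (w' - w))) (Metric.ball 0 2) := by
    refine hF.comp ?_ hmap
    fun_prop
  have := sp_disc (g := fun ζ : ℂ => F (w + ζ • (w' - w))) (c := c) (by norm_num : (0:ℝ) < 2) hd
    (fun z hz => hc _ (hmap hz)) (z := 1) (by simp)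
  simpa using this

theorem LocHolo.comp_chart {n : ℕ} {U : Set (Fin N → ℂ)} {x : Fin N → ℂ} (C : LocChart n U x)
    {f : (Fin N → ℂ) → ℂ} (hf : LocHolo U f) : DifferentiableOn ℂ (f ∘ C.ψ) C.W := by
  intro w hw
  obtain ⟨O, hO, hxO, Φ, hΦ, he⟩ := hf (C.ψ w) (C.ψ_mem w hw).1
  have hd : DifferentiableAt ℂ C.ψ w := (C.hψ w hw).differentiableAt (C.hW.mem_nhds hw)
  have h1 : DifferentiableAt ℂ (Φ ∘ C.ψ) w :=
    ((hΦ _ hxO).differentiableAt (hO.mem_nhds hxO)).comp w hd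
  refine (h1.congr_of_eventuallyEq ?_).differentiableWithinAt
  have h2 : ∀ᶠ v in 𝓝 w, C.ψ v ∈ O := hd.continuousAt.eventually (hO.mem_nhds hxO)
  filter_upwards [h2, C.hW.mem_nhds hw] with v hv hvW
  exact he _ (C.ψ_mem v hvW).1 hv

/-- Near a regular point. -/
theorem exists_harnack_nhd {n : ℕ} {U : Set (Fin N → ℂ)} {x : Fin N → ℂ} (hx : x ∈ U)
    (C : LocChart n U x) : ∃ O : Set (Fin N → ℂ), IsOpen O ∧ x ∈ O ∧
      (∀ y ∈ U, y ∈ O → Nonempty (LocChart n U y)) ∧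
      ∀ (f : (Fin N → ℂ) → ℂ) (c : ℝ), LocHolo U f → (∀ y ∈ U, ‖f y‖ ≤ c) →
        ∀ y ∈ U, y ∈ O → ∀ y' ∈ U, y' ∈ O → c - ‖f y'‖ ≤ 3 * (c - ‖f y‖) := by
  obtain ⟨R, hR, hRW⟩ := Metric.isOpen_iff.mp C.hW (C.π x) (C.π_mem x hx C.mem)
  refine ⟨C.O ∩ C.π ⁻¹' Metric.ball (C.π x) (R / 5), ?_, ⟨C.mem, ?_⟩, ?_, ?_⟩
  · exact C.hπ.continuousOn.isOpen_inter_preimage C.hO Metric.isOpen_ball
  · exact Metric.mem_ball_self (by positivity)
  · rintro y hy ⟨hyO, -⟩
    exact ⟨{ C with mem := hyO }⟩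
  · rintro f c hf hc y hy ⟨hyO, hyB⟩ y' hy' ⟨hyO', hyB'⟩
    have hb : Metric.ball (C.π y) (4 * (R / 5)) ⊆ C.W := by
      refine (Metric.ball_subset_ball' ?_).trans hRW
      rw [mem_preimage, Metric.mem_ball] at hyB
      linarith
    have hd : dist (C.π y') (C.π y) ≤ 4 * (R / 5) / 2 := by
      rw [mem_preimage, Metric.mem_ball] at hyB hyB'
      have := dist_triangle_right (C.π y') (C.π y) (C.π x)
      linarith
    have := sp_ball (F := f ∘ C.ψ) (c := c) (by positivity)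
      ((hf.comp_chart C).mono hb) (fun z hz => hc _ (C.ψ_mem z (hb hz)).1) hd
    simpa [Function.comp, C.ψ_π y hy hyO, C.ψ_π y' hy' hyO'] using this


/-- Transport of a chart by a holomorphic bijection (given with a holomorphic inverse near the
two points). -/
theorem transport {n : ℕ} {U : Set (Fin N → ℂ)} {x : U} (C : LocChart n U (x : Fin N → ℂ))
    (γ : Equiv.Perm U) (h1 : IsHolomorphicMap U (fun y : U => ((γ y : U) : Fin N → ℂ)))
    (h2 : IsHolomorphicMap U (fun y : U => ((γ.symm y : U) : Fin N → ℂ))) :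
    Nonempty (LocChart n U ((γ x : U) : Fin N → ℂ)) := by
  obtain ⟨O₁, hO₁, hx₁, Φ, hΦ, eΦ⟩ := h1 x
  obtain ⟨O₂, hO₂, hx₂, Φ', hΦ', eΦ'⟩ := h2 (γ x)
  have eΦ1 : ∀ y : U, (y : Fin N → ℂ) ∈ O₁ → ((γ y : U) : Fin N → ℂ) = Φ y := eΦ
  have eΦ2 : ∀ y : U, (y : Fin N → ℂ) ∈ O₂ → ((γ.symm y : U) : Fin N → ℂ) = Φ' y := eΦ'
  set O' : Set (Fin N → ℂ) := O₂ ∩ Φ' ⁻¹' (C.O ∩ O₁) with hO'
  have hO'o : IsOpen O' := hΦ'.continuousOn.isOpen_inter_preimage hO₂ (C.hO.inter hO₁)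
  -- parameter domain
  set W₁ : Set (Fin n → ℂ) := C.W ∩ C.ψ ⁻¹' O₁ with hW₁
  have hW₁o : IsOpen W₁ := C.hψ.continuousOn.isOpen_inter_preimage C.hW hO₁
  have hψ1 : DifferentiableOn ℂ (fun w => Φ (C.ψ w)) W₁ :=
    hΦ.comp (C.hψ.mono inter_subset_left) (fun w hw => hw.2)
  set W' : Set (Fin n → ℂ) := W₁ ∩ (fun w => Φ (C.ψ w)) ⁻¹' O' with hW'
  have hW'o : IsOpen W' := hψ1.continuousOn.isOpen_inter_preimage hW₁o hO'o
  have hπ' : DifferentiableOn ℂ (fun z => C.π (Φ' z)) O' :=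
    C.hπ.comp (hΦ'.mono inter_subset_left) (fun z hz => hz.2.1)
  have hmem : ((γ x : U) : Fin N → ℂ) ∈ O' := by
    refine ⟨hx₂, ?_⟩
    have : Φ' ((γ x : U) : Fin N → ℂ) = x := by
      rw [← eΦ2 (γ x) hx₂, Equiv.symm_apply_apply]
    rw [mem_preimage, this]
    exact ⟨C.mem, hx₁⟩
  refine ⟨{ O := O', W := W', ψ := fun w => Φ (C.ψ w), π := fun z => C.π (Φ' z),
            hO := hO'o, hW := hW'o, mem := hmem, hψ := hψ1.mono inter_subset_left, hπ := hπ',
            ψ_mem := ?_, π_ψ := ?_, π_mem := ?_, ψ_π := ?_ }⟩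
  · rintro w ⟨⟨hw, hw1⟩, hw2⟩
    refine ⟨?_, hw2⟩
    have hu := (C.ψ_mem w hw).1
    have e := eΦ1 ⟨C.ψ w, hu⟩ hw1
    simp only at e
    rw [← e]
    exact (γ ⟨C.ψ w, hu⟩).2
  · rintro w ⟨⟨hw, hw1⟩, hw2⟩
    have hu := (C.ψ_mem w hw).1
    have e := eΦ1 ⟨C.ψ w, hu⟩ hw1
    simp only at e
    have hmem2 : ((γ ⟨C.ψ w, hu⟩ : U) : Fin N → ℂ) ∈ O₂ := by
      rw [e]; exact hw2.1
    have e2 := eΦ2 (γ ⟨C.ψ w, hu⟩) hmem2
    rw [Equiv.symm_apply_apply, e] at e2
    simp only at e2 ⊢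
    rw [← e2, C.π_ψ w hw]
  · rintro y hy ⟨hy2, hyC, hy1⟩
    have e2 := eΦ2 ⟨y, hy⟩ hy2
    simp only at e2
    have hu : Φ' y ∈ U := by rw [← e2]; exact (γ.symm ⟨y, hy⟩).2
    have hψπ : C.ψ (C.π (Φ' y)) = Φ' y := C.ψ_π _ hu hyC
    have e1 := eΦ1 (γ.symm ⟨y, hy⟩) (by rw [e2]; exact hy1)
    rw [Equiv.apply_symm_apply, e2] at e1
    simp only at e1
    refine ⟨⟨C.π_mem _ hu hyC, ?_⟩, ?_⟩
    · rw [mem_preimage, hψπ]; exact hy1
    · rw [mem_preimage, hψπ, ← e1]
      exact ⟨hy2, hyC, hy1⟩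
  · rintro y hy ⟨hy2, hyC, hy1⟩
    have e2 := eΦ2 ⟨y, hy⟩ hy2
    simp only at e2
    have hu : Φ' y ∈ U := by rw [← e2]; exact (γ.symm ⟨y, hy⟩).2
    have hψπ : C.ψ (C.π (Φ' y)) = Φ' y := C.ψ_π _ hu hyC
    have e1 := eΦ1 (γ.symm ⟨y, hy⟩) (by rw [e2]; exact hy1)
    rw [Equiv.apply_symm_apply, e2] at e1
    simp only at e1 ⊢
    rw [hψπ, ← e1]

/-- Equicontinuity at every point of `U` of the bounded holomorphic functions on `U`. -/
def EQU (U : Set (Fin N → ℂ)) : Prop :=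
  ∀ k ∈ U, ∀ ε : ℝ, 0 < ε → ∃ δ : ℝ, 0 < δ ∧ ∀ f : (Fin N → ℂ) → ℂ, LocHolo U f →
    (∀ y ∈ U, ‖f y‖ ≤ 1) → ∀ y ∈ U, dist y k < δ → ‖f y - f k‖ ≤ ε

theorem LocHolo.mono {X Y : Set (Fin N → ℂ)} {f : (Fin N → ℂ) → ℂ} (h : LocHolo Y f)
    (hXY : X ⊆ Y) : LocHolo X f := by
  intro x hx
  obtain ⟨O, hO, hxO, Φ, hΦ, he⟩ := h x (hXY hx)
  exact ⟨O, hO, hxO, Φ, hΦ, fun y hy hyO => he y (hXY hy) hyO⟩

/-- `EQU` from `EQThm`, for a finite union of coverings. -/
theorem equ_of {U V O : Set (Fin N → ℂ)} (hEQ : EQThm) (hO : IsOpen O) (hU : U = O ∩ V)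
    {ι : Type*} [Finite ι] (Z : ι → Set (Fin N → ℂ)) (hZ : ∀ i, Nonempty (Cov (Z i)))
    (hV : V = ⋃ i, Z i) : EQU U := by
  intro k hk ε hε
  have hkO : k ∈ O := by rw [hU] at hk; exact hk.1
  obtain ⟨r, hr, hrO⟩ := Metric.isOpen_iff.mp hO k hkO
  have hsub : ∀ i, Z i ∩ Metric.ball k r ⊆ U := by
    rintro i y ⟨hy, hyB⟩
    rw [hU, hV]
    exact ⟨hrO hyB, mem_iUnion.mpr ⟨i, hy⟩⟩
  have h1 : ∀ i, ∃ δ : ℝ, 0 < δ ∧ ∀ f : (Fin N → ℂ) → ℂ, LocHolo U f →
    (∀ y ∈ U, ‖f y‖ ≤ 1) → ∀ y ∈ Z i, dist y k < δ → ‖f y - f k‖ ≤ ε := by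
    intro i
    by_cases hki : k ∈ Z i
    · obtain ⟨δ, hδ, h⟩ := hEQ N (Z i) (hZ i) k hki r hr ε hε
      exact ⟨δ, hδ, fun f hf hb y hy hyk =>
        h f (hf.mono (hsub i)) (fun y hy => hb y (hsub i hy)) y hy hyk⟩
    · obtain ⟨C⟩ := hZ i
      obtain ⟨δ, hδ, h⟩ := Metric.isOpen_iff.mp C.closed.isOpen_compl k hki
      exact ⟨δ, hδ, fun f _ _ y hy hyk => absurd hy (h hyk)⟩
  choose δ hδ h using h1
  obtain ⟨e, he, hle⟩ : ∃ e : ℝ, 0 < e ∧ ∀ i, e ≤ δ i := by
    have := Fintype.ofFinite ι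
    rcases isEmpty_or_nonempty ι with h | h
    · exact ⟨1, one_pos, fun i => (h.false i).elim⟩
    · refine ⟨Finset.univ.inf' Finset.univ_nonempty δ, ?_, fun i => Finset.inf'_le _ (Finset.mem_univ i)⟩
      rw [Finset.lt_inf'_iff]
      exact fun i _ => hδ i
  refine ⟨e, he, fun f hf hb y hy hyk => ?_⟩
  have hyV : y ∈ ⋃ i, Z i := by rw [← hV]; rw [hU] at hy; exact hy.2
  obtain ⟨i, hi⟩ := mem_iUnion.mp hyV
  exact h i f hf hb y hi (lt_of_lt_of_le hyk (hle i))

/-- pull back of a function by `γ`, extended by `0`. -/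
noncomputable def pull {U : Set (Fin N → ℂ)} (D : (Fin N → ℂ) → ℂ) (γ : Equiv.Perm U)
    (y : Fin N → ℂ) : ℂ :=
  open Classical in if h : y ∈ U then D (γ ⟨y, h⟩ : U) else 0

theorem pull_coe {U : Set (Fin N → ℂ)} (D : (Fin N → ℂ) → ℂ) (γ : Equiv.Perm U) (y : U) :
    pull D γ y = D (γ y : U) := by
  simp [pull, y.2]

theorem locHolo_pull {U : Set (Fin N → ℂ)} {D : (Fin N → ℂ) → ℂ} (hD : Differentiable ℂ D)
    {γ : Equiv.Perm U} (h1 : IsHolomorphicMap U (fun y : U => ((γ y : U) : Fin N → ℂ))) :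
    LocHolo U (pull D γ) := by
  intro x hx
  obtain ⟨O, hO, hxO, Φ, hΦ, he⟩ := h1 ⟨x, hx⟩
  refine ⟨O, hO, hxO, D ∘ Φ, hD.comp_differentiableOn hΦ, fun y hy hyO => ?_⟩
  have := he ⟨y, hy⟩ hyO
  simp only at this
  rw [show pull D γ y = D (γ ⟨y, hy⟩ : U) from pull_coe D γ ⟨y, hy⟩, this]
  rfl

theorem LocHolo.div_const {X : Set (Fin N → ℂ)} {f : (Fin N → ℂ) → ℂ} (h : LocHolo X f) (c : ℂ) :
    LocHolo X (fun y => f y / c) := by
  intro x hx
  obtain ⟨O, hO, hxO, Φ, hΦ, he⟩ := h x hx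
  refine ⟨O, hO, hxO, fun y => Φ y / c, ?_, fun y hy hyO => ?_⟩
  · simpa only [div_eq_mul_inv] using hΦ.mul_const c⁻¹
  · show f y / c = Φ y / c
    rw [he y hy hyO]

/-- **Final argument of Part 0.** -/
theorem isSubmfd_of {U : Set (Fin N → ℂ)} {Γ : Subgroup (Equiv.Perm U)} (S : Setup N U Γ)
    (hEQ : EQU U) {n : ℕ} (D : (Fin N → ℂ) → ℂ) (hD : Differentiable ℂ D)
    (hreg : ∀ x ∈ U, D x ≠ 0 → Nonempty (LocChart n U x)) (hne : ∃ x ∈ U, D x ≠ 0) :
    IsSubmfd n U := by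
  -- the supremum
  obtain ⟨M, hM⟩ : ∃ M : ℝ, ∀ x ∈ U, ‖D x‖ ≤ M := by
    have hcpt : IsCompact (closure U) := S.bdd.isCompact_closure
    obtain ⟨M, hM⟩ := (hcpt.image_of_continuousOn hD.continuous.norm.continuousOn).isBounded.subset_closedBall 0
    refine ⟨M, fun x hx => ?_⟩
    have := hM (mem_image_of_mem _ (subset_closure hx))
    rw [mem_closedBall_zero_iff, norm_norm] at this
    exact this
  let A : Set ℝ := (fun x => ‖D x‖) '' U
  have hAne : A.Nonempty := S.nonempty.image _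
  have hAbdd : BddAbove A := ⟨M, by rintro _ ⟨x, hx, rfl⟩; exact hM x hx⟩
  set c : ℝ := sSup A with hc
  have hle : ∀ x ∈ U, ‖D x‖ ≤ c := fun x hx => le_csSup hAbdd (mem_image_of_mem _ hx)
  have hcpos : 0 < c := by
    obtain ⟨x, hx, hx0⟩ := hne
    exact lt_of_lt_of_le (norm_pos_iff.mpr hx0) (hle x hx)
  obtain ⟨a, -, ha, haA⟩ := exists_seq_tendsto_sSup hAne hAbdd
  choose x hxU hxa using haA
  obtain ⟨K, hK, hcov⟩ := S.exists_compact
  choose g hg κ hκK hgκ using fun k => hcov ⟨x k, hxU k⟩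
  obtain ⟨k0, hk0K, φ, hφ, hlim⟩ := hK.tendsto_subseq hκK
  -- rename
  let γ : ℕ → Equiv.Perm U := fun j => g (φ j)
  let u : ℕ → U := fun j => κ (φ j)
  have hγ : ∀ j, γ j ∈ Γ := fun j => hg _
  have hγi : ∀ j, (γ j).symm ∈ Γ := fun j => Γ.inv_mem (hγ j)
  have hulim : Tendsto u atTop (𝓝 k0) := hlim
  have hDlim : Tendsto (fun j => ‖D ((γ j (u j) : U) : Fin N → ℂ)‖) atTop (𝓝 c) := by
    have h := ha.comp hφ.tendsto_atTop
    refine h.congr fun j => ?_
    have h1 : γ j (u j) = ⟨x (φ j), hxU (φ j)⟩ := hgκ (φ j)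
    rw [h1]
    exact (hxa (φ j)).symm
  let F : ℕ → (Fin N → ℂ) → ℂ := fun j => pull D (γ j)
  have hFh : ∀ j, LocHolo U (F j) := fun j => locHolo_pull hD (S.hol _ (hγ j))
  have hFc : ∀ j, ∀ y ∈ U, ‖F j y‖ ≤ c := by
    intro j y hy
    show ‖pull D (γ j) ((⟨y, hy⟩ : U) : Fin N → ℂ)‖ ≤ c
    rw [pull_coe]
    exact hle _ (Subtype.coe_prop _)
  have hF0 : ∀ j, ∀ y : U, ¬ Nonempty (LocChart n U (y : Fin N → ℂ)) → F j y = 0 := by
    intro j y hy
    show pull D (γ j) y = 0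
    rw [pull_coe]
    by_contra h0
    obtain ⟨C⟩ := hreg _ (Subtype.coe_prop (γ j y)) h0
    have := transport C (γ j).symm (S.hol _ (hγi j)) (by
      rw [Equiv.symm_symm]; exact S.hol _ (hγ j))
    rw [Equiv.symm_apply_apply] at this
    exact hy this
  -- equicontinuity at singular points
  have hsing : ∀ y : U, ¬ Nonempty (LocChart n U (y : Fin N → ℂ)) →
      ∃ δ : ℝ, 0 < δ ∧ ∀ j, ∀ z : U, dist (z : Fin N → ℂ) y < δ → ‖F j z‖ ≤ c / 2 := by
    intro y hy
    obtain ⟨δ, hδ, h⟩ := hEQ y y.2 (1 / 2) (by norm_num)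
    refine ⟨δ, hδ, fun j z hz => ?_⟩
    have h1 := h (fun w => F j w / (c : ℂ)) ((hFh j).div_const _) (fun w hw => by
      rw [norm_div, Complex.norm_real, Real.norm_eq_abs, abs_of_pos hcpos, div_le_one hcpos]
      exact hFc j w hw) z z.2 hz
    rw [hF0 j y hy, zero_div, sub_zero, norm_div, Complex.norm_real, Real.norm_eq_abs,
      abs_of_pos hcpos, div_le_iff₀ hcpos] at h1
    linarith
  -- propagation
  have hprop : ∀ (a b : ℕ → ℝ), (∀ j, a j ≤ c) → (∀ᶠ j in atTop, c - a j ≤ 3 * (c - b j)) →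
      Tendsto b atTop (𝓝 c) → Tendsto a atTop (𝓝 c) := by
    intro a b ha hab hb
    have h3 : Tendsto (fun j => c - 3 * (c - b j)) atTop (𝓝 c) := by
      have : Tendsto (fun j => c - 3 * (c - b j)) atTop (𝓝 (c - 3 * (c - c))) :=
        tendsto_const_nhds.sub ((tendsto_const_nhds.sub hb).const_mul 3)
      simpa using this
    refine tendsto_of_tendsto_of_tendsto_of_le_of_le' h3 tendsto_const_nhds ?_
      (Eventually.of_forall ha)
    filter_upwards [hab] with j hj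
    linarith
  let G : Set U := {y | Tendsto (fun j => ‖F j y‖) atTop (𝓝 c)}
  have hGreg : ∀ y ∈ G, Nonempty (LocChart n U (y : Fin N → ℂ)) := by
    intro y hy
    by_contra h
    have h1 : Tendsto (fun j => ‖F j y‖) atTop (𝓝 0) := by
      simp [hF0 _ y h]
    exact hcpos.ne (tendsto_nhds_unique h1 hy)
  have hGopen : IsOpen G := by
    rw [isOpen_iff_mem_nhds]
    intro y hy
    obtain ⟨C⟩ := hGreg y hy
    obtain ⟨O, hO, hyO, -, hH⟩ := exists_harnack_nhd y.2 C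
    have h1 : (Subtype.val : U → _) ⁻¹' O ∈ 𝓝 y :=
      continuous_subtype_val.continuousAt.preimage_mem_nhds (hO.mem_nhds hyO)
    filter_upwards [h1] with z hz
    exact hprop _ _ (fun j => hFc j z z.2)
      (Eventually.of_forall fun j => hH (F j) c (hFh j) (hFc j) y y.2 hyO z z.2 hz) hy
  have hGclosed : IsClosed G := by
    rw [← isOpen_compl_iff, isOpen_iff_mem_nhds]
    intro y hy
    by_cases hr : Nonempty (LocChart n U (y : Fin N → ℂ))
    · obtain ⟨C⟩ := hr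
      obtain ⟨O, hO, hyO, -, hH⟩ := exists_harnack_nhd y.2 C
      have h1 : (Subtype.val : U → _) ⁻¹' O ∈ 𝓝 y :=
        continuous_subtype_val.continuousAt.preimage_mem_nhds (hO.mem_nhds hyO)
      filter_upwards [h1] with z hz hzG
      exact hy (hprop _ _ (fun j => hFc j y y.2)
        (Eventually.of_forall fun j => hH (F j) c (hFh j) (hFc j) z z.2 hz y y.2 hyO) hzG)
    · obtain ⟨δ, hδ, h⟩ := hsing y hr
      filter_upwards [Metric.ball_mem_nhds y hδ] with z hz hzG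
      have h1 : ∀ j, ‖F j z‖ ≤ c / 2 := fun j => h j z hz
      have h2 : c ≤ c / 2 := le_of_tendsto hzG (Eventually.of_forall h1)
      linarith
  have hGne : G.Nonempty := by
    refine ⟨k0, ?_⟩
    have hFu : Tendsto (fun j => ‖F j (u j)‖) atTop (𝓝 c) := by
      refine hDlim.congr fun j => ?_
      show _ = ‖pull D (γ j) (u j)‖
      rw [pull_coe]
    by_cases hr : Nonempty (LocChart n U (k0 : Fin N → ℂ))
    · obtain ⟨C⟩ := hr
      obtain ⟨O, hO, hyO, -, hH⟩ := exists_harnack_nhd k0.2 C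
      have h1 : ∀ᶠ j in atTop, ((u j : U) : Fin N → ℂ) ∈ O :=
        hulim.eventually (continuous_subtype_val.continuousAt.preimage_mem_nhds (hO.mem_nhds hyO))
      refine hprop _ (fun j => ‖F j (u j)‖) (fun j => hFc j k0 k0.2) ?_ hFu
      filter_upwards [h1] with j hj
      exact hH (F j) c (hFh j) (hFc j) (u j) (u j).2 hj k0 k0.2 hyO
    · exfalso
      obtain ⟨δ, hδ, h⟩ := hsing k0 hr
      have h1 : ∀ᶠ j in atTop, ‖F j (u j)‖ ≤ c / 2 := by
        filter_upwards [hulim.eventually (Metric.ball_mem_nhds k0 hδ)] with j hj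
        exact h j (u j) hj
      have h2 : c ≤ c / 2 := le_of_tendsto hFu h1
      linarith
  have : PreconnectedSpace U := isPreconnected_iff_preconnectedSpace.mp S.conn.isPreconnected
  have huniv : G = univ := IsClopen.eq_univ ⟨hGclosed, hGopen⟩ hGne
  intro x hx
  exact hGreg ⟨x, hx⟩ (by rw [huniv]; exact mem_univ _)

end Crest.Agent.R264.Sm
end

-- ▼ part R264/SmRem
section

/-! Row 264, PART 0: removable finite set + Schwarz (helper659). -/

set_option autoImplicit false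

open Topology Filter Set

namespace Crest.Agent.R264.Sm

open scoped Classical in
theorem removable_schwarz {R B : ℝ} (hR : 1 < R) {E : Set ℂ} (hE : E.Finite) {NN : ℂ → ℂ}
    (hd : ∀ ζ ∈ Metric.ball (0 : ℂ) R, ζ ∉ E → DifferentiableAt ℂ NN ζ)
    (hb : ∀ ζ ∈ Metric.ball (0 : ℂ) R, ζ ∉ E → ‖NN ζ‖ ≤ B) (h1 : (1 : ℂ) ∉ E) (hN1 : NN 1 = 0) :
    ∃ g₀ : ℂ, Filter.Tendsto NN (nhdsWithin 0 ((insert 0 E)ᶜ)) (nhds g₀) ∧ ‖g₀‖ ≤ 2 * B / R := by
  set D := Metric.ball (0 : ℂ) R with hD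
  have hDo : IsOpen D := Metric.isOpen_ball
  have hR0 : 0 < R := by linarith
  let G : ℂ → ℂ := fun ζ => if ζ ∈ E then limUnder (𝓝[≠] ζ) NN else NN ζ
  have hGE : ∀ ζ, ζ ∉ E → G ζ = NN ζ := fun ζ h => if_neg h
  have hGd : DifferentiableOn ℂ G D := by
    intro ζ₀ hζ₀
    have hs : D ∩ (E \ {ζ₀})ᶜ ∈ 𝓝 ζ₀ :=
      inter_mem (hDo.mem_nhds hζ₀)
        ((hE.subset sdiff_subset).isClosed.isOpen_compl.mem_nhds fun h => h.2 rfl)
    by_cases hζE : ζ₀ ∈ E
    · have h2 : DifferentiableOn ℂ (Function.update NN ζ₀ (limUnder (𝓝[≠] ζ₀) NN))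
          (D ∩ (E \ {ζ₀})ᶜ) := by
        apply Complex.differentiableOn_update_limUnder_of_bddAbove hs
        · intro ζ hζ
          apply DifferentiableAt.differentiableWithinAt
          exact hd ζ hζ.1.1 (fun h => hζ.1.2 ⟨h, hζ.2⟩)
        · refine ⟨B, ?_⟩
          rintro _ ⟨ζ, hζ, rfl⟩
          exact hb ζ hζ.1.1 (fun h => hζ.1.2 ⟨h, hζ.2⟩)
      have h3 : G =ᶠ[𝓝 ζ₀] Function.update NN ζ₀ (limUnder (𝓝[≠] ζ₀) NN) := by
        filter_upwards [hs] with ζ hζ
        by_cases he : ζ = ζ₀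
        · subst he
          simp [G, hζE]
        · rw [Function.update_of_ne he]
          exact hGE ζ (fun h => hζ.2 ⟨h, he⟩)
      exact ((h2.differentiableAt hs).congr_of_eventuallyEq h3).differentiableWithinAt
    · have h3 : G =ᶠ[𝓝 ζ₀] NN := by
        filter_upwards [hE.isClosed.isOpen_compl.mem_nhds hζE] with ζ hζ
        exact hGE ζ hζ
      exact ((hd ζ₀ hζ₀ hζE).congr_of_eventuallyEq h3).differentiableWithinAt
  have hdense : Dense Eᶜ := hE.countable.dense_compl ℂ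
  have hGb : ∀ ζ ∈ D, ‖G ζ‖ ≤ B := by
    intro ζ hζ
    have hc : ContinuousAt G ζ := (hGd.differentiableAt (hDo.mem_nhds hζ)).continuousAt
    have hne : (𝓝[Eᶜ] ζ).NeBot := mem_closure_iff_nhdsWithin_neBot.mp (hdense ζ)
    have ht : Tendsto (fun z => ‖G z‖) (𝓝[Eᶜ] ζ) (𝓝 ‖G ζ‖) := hc.norm.mono_left nhdsWithin_le_nhds
    apply le_of_tendsto ht
    filter_upwards [self_mem_nhdsWithin, nhdsWithin_le_nhds (hDo.mem_nhds hζ)] with z hz hzD
    rw [hGE z hz]
    exact hb z hzD hz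
  have h0D : (0 : ℂ) ∈ D := Metric.mem_ball_self hR0
  have h1D : (1 : ℂ) ∈ D := by
    rw [hD, mem_ball_zero_iff, norm_one]; exact hR
  refine ⟨G 0, ?_, ?_⟩
  · have hc : ContinuousAt G 0 := (hGd.differentiableAt (hDo.mem_nhds h0D)).continuousAt
    have ht : Tendsto G (𝓝[(insert 0 E)ᶜ] 0) (𝓝 (G 0)) := hc.mono_left nhdsWithin_le_nhds
    apply ht.congr'
    filter_upwards [self_mem_nhdsWithin] with z hz
    exact hGE z (fun h => hz (mem_insert_of_mem _ h))
  · have hmaps : MapsTo G D (Metric.closedBall (G 0) (2 * B)) := by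
      intro z hz
      rw [mem_closedBall_iff_norm]
      have := hGb z hz
      have := hGb 0 h0D
      exact (norm_sub_le _ _).trans (by linarith)
    have h2 := Complex.dist_le_div_mul_dist_of_mapsTo_ball hGd hmaps h1D
    rw [hGE 1 h1, hN1] at h2
    simpa using h2

end Crest.Agent.R264.Sm
end

-- ▼ part R264/SmEQ
section

/-! Row 264, PART 0: `EQThm` (helper659). -/

set_option autoImplicit false

open Topology Filter Set

namespace Crest.Agent.R264.Sm

variable {N : ℕ}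

/-- continuity along `X` of a holomorphic function on `X` -/
theorem LocHolo.cont {X : Set (Fin N → ℂ)} {f : (Fin N → ℂ) → ℂ} (h : LocHolo X f)
    {x : Fin N → ℂ} (hx : x ∈ X) (ε : ℝ) (hε : 0 < ε) :
    ∃ G : Set (Fin N → ℂ), IsOpen G ∧ x ∈ G ∧ ∀ y ∈ X, y ∈ G → ‖f y - f x‖ < ε := by
  obtain ⟨O, hO, hxO, Φ, hΦ, hfΦ⟩ := h x hx
  refine ⟨O ∩ Φ ⁻¹' Metric.ball (Φ x) ε, ?_, ?_, ?_⟩
  · exact hΦ.continuousOn.isOpen_inter_preimage hO Metric.isOpen_ball
  · exact ⟨hxO, Metric.mem_ball_self hε⟩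
  · intro y hy hyG
    rw [hfΦ y hy hyG.1, hfΦ x hx hxO, ← dist_eq_norm]
    exact hyG.2

theorem diffAt_prod {E ι : Type*} [NormedAddCommGroup E] [NormedSpace ℂ E] (s : Finset ι)
    (g : ι → E → ℂ) (x : E) (h : ∀ i ∈ s, DifferentiableAt ℂ (g i) x) :
    DifferentiableAt ℂ (fun t => ∏ i ∈ s, g i t) x := by
  classical
  induction s using Finset.induction_on with
  | empty => simp
  | insert a s ha ih =>
    simp only [Finset.prod_insert ha]
    exact (h a (Finset.mem_insert_self a s)).mul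
      (ih fun i hi => h i (Finset.mem_insert_of_mem hi))

section Fib

variable {Z : Set (Fin N → ℂ)} (C : Cov Z) (k : Fin N → ℂ) (ρ : ℝ)

/-- the fibre over `t` inside the ball -/
def Fb (t : Fin C.d → ℂ) : Set (Fin N → ℂ) := {y | y ∈ Z ∧ y ∈ Metric.ball k ρ ∧ C.π y = t}

theorem Fb_finite (t : Fin C.d → ℂ) : (Fb C k ρ t).Finite :=
  (C.fib t).1.subset fun _ hy => ⟨hy.1, hy.2.2⟩

theorem Fb_ncard (t : Fin C.d → ℂ) : (Fb_finite C k ρ t).toFinset.card ≤ C.m := by
  have h1 : (Fb_finite C k ρ t).toFinset.card = (Fb C k ρ t).ncard :=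
    (Set.ncard_eq_toFinset_card _ (Fb_finite C k ρ t)).symm
  rw [h1]
  have h2 : Fb C k ρ t ⊆ {y | y ∈ Z ∧ C.π y = t} := fun _ hy => ⟨hy.1, hy.2.2⟩
  exact (Set.ncard_le_ncard h2 (C.fib t).1).trans (C.fib t).2

/-- the product over the fibre -/
noncomputable def PP (f : (Fin N → ℂ) → ℂ) (T : ℂ) (t : Fin C.d → ℂ) : ℂ :=
  ∏ y ∈ (Fb_finite C k ρ t).toFinset, (T - f y)

variable {k ρ}

theorem compact_KK (C : Cov Z) : IsCompact (Z ∩ Metric.closedBall k ρ) :=
  (isCompact_closedBall k ρ).inter_left C.closed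

/-- no fibre points outside an open set containing the fibre over `t₁` -/
theorem eventually_sub (G : Set (Fin N → ℂ)) (hG : IsOpen G) (t₁ : Fin C.d → ℂ)
    (h : ∀ z ∈ Z, z ∈ Metric.closedBall k ρ → C.π z = t₁ → z ∈ G) :
    ∀ᶠ t in 𝓝 t₁, ∀ z ∈ Fb C k ρ t, z ∈ G := by
  have hK : IsCompact ((Z ∩ Metric.closedBall k ρ) ∩ Gᶜ) :=
    (compact_KK C).inter_right hG.isClosed_compl
  have h1 : (C.π '' ((Z ∩ Metric.closedBall k ρ) ∩ Gᶜ))ᶜ ∈ 𝓝 t₁ := by
    apply (hK.image C.diff.continuous).isClosed.isOpen_compl.mem_nhds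
    rintro ⟨z, hz, hzt⟩
    exact hz.2 (h z hz.1.1 hz.1.2 hzt)
  filter_upwards [h1] with t ht z hz
  by_contra hzG
  exact ht ⟨z, ⟨⟨hz.1, Metric.ball_subset_closedBall hz.2.1⟩, hzG⟩, hz.2.2⟩

/-- local form of the product -/
theorem PP_local {r : ℝ} (hρr : ρ < r) {f : (Fin N → ℂ) → ℂ}
    (hf : LocHolo (Z ∩ Metric.ball k r) f) (T : ℂ) (t₁ : Fin C.d → ℂ) (ha : C.a t₁ ≠ 0)
    (hsph : ∀ z ∈ Z, z ∈ Metric.closedBall k ρ → C.π z = t₁ → z ∈ Metric.ball k ρ) :
    ∃ g : (Fin C.d → ℂ) → ℂ, DifferentiableAt ℂ g t₁ ∧ PP C k ρ f T =ᶠ[𝓝 t₁] g := by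
  classical
  set F₁ := (Fb_finite C k ρ t₁).toFinset with hF₁
  have hmem : ∀ y ∈ F₁, y ∈ Z ∧ y ∈ Metric.ball k ρ ∧ C.π y = t₁ := by
    intro y hy
    exact (Fb_finite C k ρ t₁).mem_toFinset.mp hy
  obtain ⟨G, hG, hGd⟩ := (Fb_finite C k ρ t₁).t2_separation
  -- sections
  have hsec : ∀ y : Fin N → ℂ, ∃ (B : Set (Fin N → ℂ)) (W : Set (Fin C.d → ℂ))
      (ψ : (Fin C.d → ℂ) → (Fin N → ℂ)) (Φ : (Fin N → ℂ) → ℂ), y ∈ F₁ →
        IsOpen B ∧ IsOpen W ∧ t₁ ∈ W ∧ y ∈ B ∧ DifferentiableOn ℂ ψ W ∧ DifferentiableOn ℂ Φ B ∧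
        ψ t₁ = y ∧ B ⊆ G y ∧ B ⊆ Metric.ball k ρ ∧ (∀ z ∈ Z, z ∈ B → f z = Φ z) ∧
        (∀ w ∈ W, ψ w ∈ Z ∧ C.π (ψ w) = w) ∧
        (∀ z ∈ Z, z ∈ B → ψ (C.π z) = z) := by
    intro y
    by_cases hy : y ∈ F₁
    · obtain ⟨hyZ, hyb, hyt⟩ := hmem y hy
      obtain ⟨O, W, ψ, hO, hW, hyO, hψ, h1, h2⟩ := C.sec y hyZ (by rw [hyt]; exact ha)
      have hyr : y ∈ Z ∩ Metric.ball k r := ⟨hyZ, Metric.ball_subset_ball hρr.le hyb⟩
      obtain ⟨A, hA, hyA, Φ, hΦ, hfΦ⟩ := hf y hyr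
      refine ⟨O ∩ A ∩ G y ∩ Metric.ball k ρ, W, ψ, Φ, fun _ => ?_⟩
      have h3 := h2 y hyZ hyO
      rw [hyt] at h3
      refine ⟨((hO.inter hA).inter (hG y).2).inter Metric.isOpen_ball, hW, h3.1,
        ⟨⟨⟨hyO, hyA⟩, (hG y).1⟩, hyb⟩, hψ, hΦ.mono ?_, h3.2, ?_, ?_, ?_, ?_, ?_⟩
      · exact fun z hz => hz.1.1.2
      · exact fun z hz => hz.1.2
      · exact fun z hz => hz.2
      · intro z hz hzB
        exact hfΦ z ⟨hz, Metric.ball_subset_ball hρr.le hzB.2⟩ hzB.1.1.2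
      · intro w hw
        exact ⟨(h1 w hw).1, (h1 w hw).2.2⟩
      · intro z hz hzB
        exact (h2 z hz hzB.1.1.1).2
    · exact ⟨∅, ∅, 0, 0, fun h => absurd h hy⟩
  choose B W ψ Φ hS using hsec
  refine ⟨fun t => ∏ y ∈ F₁, (T - Φ y (ψ y t)), ?_, ?_⟩
  · apply diffAt_prod
    intro y hy
    obtain ⟨hB, hW, htW, hyB, hψ, hΦ, hψy, -⟩ := hS y hy
    apply (differentiableAt_const T).sub
    have h1 : DifferentiableAt ℂ (ψ y) t₁ := hψ.differentiableAt (hW.mem_nhds htW)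
    have h2 : DifferentiableAt ℂ (Φ y) (ψ y t₁) := by
      rw [hψy]; exact hΦ.differentiableAt (hB.mem_nhds hyB)
    exact h2.comp t₁ h1
  · -- eventual description of the fibre
    have e1 : ∀ᶠ t in 𝓝 t₁, ∀ y ∈ F₁, t ∈ W y ∧ ψ y t ∈ B y := by
      rw [Filter.eventually_all_finset]
      intro y hy
      obtain ⟨hB, hW, htW, hyB, hψ, -, hψy, -⟩ := hS y hy
      have h1 : ContinuousAt (ψ y) t₁ := (hψ.differentiableAt (hW.mem_nhds htW)).continuousAt
      have h2 : ∀ᶠ t in 𝓝 t₁, ψ y t ∈ B y := by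
        apply h1
        rw [hψy]
        exact hB.mem_nhds hyB
      have h3 : ∀ᶠ t in 𝓝 t₁, t ∈ W y := hW.mem_nhds htW
      exact h3.and h2
    have e2 : ∀ᶠ t in 𝓝 t₁, ∀ z ∈ Fb C k ρ t, z ∈ ⋃ y ∈ F₁, B y := by
      apply eventually_sub C (⋃ y ∈ F₁, B y)
      · exact isOpen_biUnion fun y hy => (hS y hy).1
      · intro z hz hzb hzt
        have hzF : z ∈ F₁ := (Fb_finite C k ρ t₁).mem_toFinset.mpr ⟨hz, hsph z hz hzb hzt, hzt⟩
        exact mem_biUnion hzF (hS z hzF).2.2.2.1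
    filter_upwards [e1, e2] with t ht1 ht2
    have himg : (Fb_finite C k ρ t).toFinset = F₁.image (fun y => ψ y t) := by
      ext z
      rw [(Fb_finite C k ρ t).mem_toFinset, Finset.mem_image]
      constructor
      · intro hz
        obtain ⟨y, hy, hzy⟩ := mem_iUnion₂.mp (ht2 z hz)
        refine ⟨y, hy, ?_⟩
        have := (hS y hy).2.2.2.2.2.2.2.2.2.2.2 z hz.1 hzy
        rwa [hz.2.2] at this
      · rintro ⟨y, hy, rfl⟩
        obtain ⟨-, -, -, -, -, -, -, -, hBb, -, hW, -⟩ := hS y hy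
        exact ⟨(hW t (ht1 y hy).1).1, hBb (ht1 y hy).2, (hW t (ht1 y hy).1).2⟩
    have hinj : ∀ y ∈ F₁, ∀ y' ∈ F₁, ψ y t = ψ y' t → y = y' := by
      intro y hy y' hy' he
      by_contra hne
      have hd := hGd ((Fb_finite C k ρ t₁).mem_toFinset.mp hy)
        ((Fb_finite C k ρ t₁).mem_toFinset.mp hy') hne
      have h1 := (hS y hy).2.2.2.2.2.2.2.1 (ht1 y hy).2
      have h2 := (hS y' hy').2.2.2.2.2.2.2.1 (ht1 y' hy').2
      rw [← he] at h2
      exact Set.disjoint_left.mp hd h1 h2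
    unfold PP
    rw [himg, Finset.prod_image hinj]
    apply Finset.prod_congr rfl
    intro y hy
    obtain ⟨-, -, -, -, -, -, -, -, -, hfΦ, hW, -⟩ := hS y hy
    rw [hfΦ _ (hW t (ht1 y hy).1).1 (ht1 y hy).2]

end Fib

/-- The key estimate at a good point. -/
theorem key_est {Z : Set (Fin N → ℂ)} (C : Cov Z) {k : Fin N → ℂ} (hk : k ∈ Z) {r ρ r' : ℝ}
    (hρ : 0 < ρ) (hρr : ρ < r) (hr' : 0 < r')
    (hiso : ∀ z ∈ Z, z ∈ Metric.closedBall k ρ → C.π z = C.π k → z = k)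
    (hsph : ∀ t ∈ Metric.ball (C.π k) r', ∀ z ∈ Z, z ∈ Metric.closedBall k ρ → C.π z = t →
      z ∈ Metric.ball k ρ)
    (f : (Fin N → ℂ) → ℂ) (hf : LocHolo (Z ∩ Metric.ball k r) f)
    (hf1 : ∀ y ∈ Z ∩ Metric.ball k r, ‖f y‖ ≤ 1)
    (y : Fin N → ℂ) (hy : y ∈ Z) (hyρ : y ∈ Metric.ball k ρ) (hya : C.a (C.π y) ≠ 0)
    (hyr : ‖C.π y - C.π k‖ < r') :
    (‖f y - f k‖ / 2) ^ C.m ≤ 2 * 2 ^ C.m * ‖C.π y - C.π k‖ / r' := by
  by_cases h0 : C.π y = C.π k
  · have hyk := hiso y hy (Metric.ball_subset_closedBall hyρ) h0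
    have hm : C.m ≠ 0 := by
      intro hm0
      have h1 := (C.fib (C.π k)).2
      have h2 : 0 < {z | z ∈ Z ∧ C.π z = C.π k}.ncard :=
        (Set.ncard_pos (C.fib (C.π k)).1).mpr ⟨k, hk, rfl⟩
      omega
    rw [hyk]
    simp [hm]
  · set η := ‖C.π y - C.π k‖ with hη
    have hη0 : 0 < η := norm_pos_iff.mpr (sub_ne_zero.mpr h0)
    set t₀ := C.π k with ht₀
    set t₁ := C.π y with ht₁
    set R := r' / η with hRdef
    have hR1 : 1 < R := (one_lt_div hη0).mpr hyr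
    let tt : ℂ → (Fin C.d → ℂ) := fun ζ => t₀ + ζ • (t₁ - t₀)
    have htt1 : tt 1 = t₁ := by simp [tt]
    have htt0 : tt 0 = t₀ := by simp [tt]
    have httd : Differentiable ℂ tt := by
      intro ζ
      exact (differentiableAt_const t₀).add (differentiableAt_id.smul_const (t₁ - t₀))
    have httball : ∀ ζ ∈ Metric.ball (0 : ℂ) R, tt ζ ∈ Metric.ball t₀ r' := by
      intro ζ hζ
      rw [mem_ball_zero_iff] at hζ
      rw [Metric.mem_ball, dist_eq_norm]
      simp only [tt, add_sub_cancel_left, norm_smul]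
      rw [← hη]
      calc ‖ζ‖ * η < R * η := by gcongr
        _ = r' := by rw [hRdef]; field_simp
    set E : Set ℂ := {ζ | C.a (t₀ + ζ • (t₁ - t₀)) = 0} with hE
    have hEfin : E.Finite := C.line t₀ t₁ hya
    have h1E : (1 : ℂ) ∉ E := by
      intro h
      have : C.a (tt 1) = 0 := h
      rw [htt1] at this
      exact hya this
    have hmemZ : ∀ t, ∀ z ∈ (Fb_finite C k ρ t).toFinset, z ∈ Z ∩ Metric.ball k r := by
      intro t z hz
      have := (Fb_finite C k ρ t).mem_toFinset.mp hz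
      exact ⟨this.1, Metric.ball_subset_ball hρr.le this.2.1⟩
    have hyZ : y ∈ Z ∩ Metric.ball k r := ⟨hy, Metric.ball_subset_ball hρr.le hyρ⟩
    have hkZ : k ∈ Z ∩ Metric.ball k r := ⟨hk, Metric.mem_ball_self (hρ.trans hρr)⟩
    obtain ⟨g₀, hg₀, hg₀b⟩ := removable_schwarz (R := R) (B := 2 ^ C.m) hR1 hEfin
      (NN := fun ζ => PP C k ρ f (f y) (tt ζ)) (by
        intro ζ hζ hζE
        obtain ⟨g, hg, hge⟩ := PP_local C hρr hf (f y) (tt ζ) hζE
          (hsph (tt ζ) (httball ζ hζ))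
        have h1 : DifferentiableAt ℂ (PP C k ρ f (f y)) (tt ζ) := hg.congr_of_eventuallyEq hge
        exact h1.comp ζ (httd ζ)) (by
        intro ζ hζ _
        unfold PP
        rw [norm_prod]
        calc ∏ z ∈ (Fb_finite C k ρ (tt ζ)).toFinset, ‖f y - f z‖
            ≤ ∏ z ∈ (Fb_finite C k ρ (tt ζ)).toFinset, (2 : ℝ) := by
              apply Finset.prod_le_prod (fun _ _ => norm_nonneg _)
              intro z hz
              have h1 := hf1 y hyZ
              have h2 := hf1 z (hmemZ _ z hz)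
              exact (norm_sub_le _ _).trans (by linarith)
          _ = 2 ^ (Fb_finite C k ρ (tt ζ)).toFinset.card := Finset.prod_const _
          _ ≤ 2 ^ C.m := pow_le_pow_right₀ (by norm_num) (Fb_ncard C k ρ (tt ζ))) h1E (by
        show PP C k ρ f (f y) (tt 1) = 0
        unfold PP
        apply Finset.prod_eq_zero (i := y)
        · rw [(Fb_finite C k ρ (tt 1)).mem_toFinset]
          exact ⟨hy, hyρ, by rw [htt1]⟩
        · exact sub_self _)
    have h2 : 2 * 2 ^ C.m / R = 2 * 2 ^ C.m * η / r' := by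
      rw [hRdef]; field_simp
    rw [h2] at hg₀b
    refine le_trans ?_ hg₀b
    -- lower bound for the limit
    have hlow : ∀ c : ℝ, 0 ≤ c → c < ‖f y - f k‖ → (c / 2) ^ C.m ≤ ‖g₀‖ := by
      intro c hc0 hc
      have hd0 : 0 < ‖f y - f k‖ - c := by linarith
      obtain ⟨G, hG, hkG, hGf⟩ := hf.cont hkZ _ hd0
      have h3 : ∀ᶠ t in 𝓝 t₀, ∀ z ∈ Fb C k ρ t, z ∈ G := by
        apply eventually_sub C G hG t₀
        intro z hz hzb hzt
        rw [hiso z hz hzb hzt]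
        exact hkG
      have h4 : ∀ᶠ ζ in 𝓝[(insert 0 E)ᶜ] (0 : ℂ), ∀ z ∈ Fb C k ρ (tt ζ), z ∈ G := by
        apply Filter.Eventually.filter_mono nhdsWithin_le_nhds
        have h5 : Tendsto tt (𝓝 0) (𝓝 t₀) := by
          have := (httd 0).continuousAt.tendsto
          rwa [htt0] at this
        exact h5.eventually h3
      have hne : (𝓝[(insert 0 E)ᶜ] (0 : ℂ)).NeBot := by
        have hfin : (insert (0 : ℂ) E).Finite := hEfin.insert 0
        have hdense : Dense ((insert (0 : ℂ) E)ᶜ) := hfin.countable.dense_compl ℂ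
        exact mem_closure_iff_nhdsWithin_neBot.mp (hdense 0)
      apply ge_of_tendsto hg₀.norm
      filter_upwards [h4] with ζ hζ
      unfold PP
      rw [norm_prod]
      have hc2 : c / 2 ≤ 1 := by
        have h1 := hf1 y hyZ
        have h2 := hf1 k hkZ
        have h3 : ‖f y - f k‖ ≤ 2 := (norm_sub_le _ _).trans (by linarith)
        linarith
      calc (c / 2) ^ C.m ≤ (c / 2) ^ (Fb_finite C k ρ (tt ζ)).toFinset.card :=
            pow_le_pow_of_le_one (by positivity) hc2 (Fb_ncard C k ρ (tt ζ))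
        _ = ∏ z ∈ (Fb_finite C k ρ (tt ζ)).toFinset, (c / 2) := (Finset.prod_const _).symm
        _ ≤ ∏ z ∈ (Fb_finite C k ρ (tt ζ)).toFinset, ‖f y - f z‖ := by
            apply Finset.prod_le_prod (fun _ _ => by positivity)
            intro z hz
            have hzF := (Fb_finite C k ρ (tt ζ)).mem_toFinset.mp hz
            have h6 := hGf z (hmemZ _ z hz) (hζ z hzF)
            have h7 : ‖f y - f k‖ ≤ ‖f y - f z‖ + ‖f z - f k‖ := norm_sub_le_norm_sub_add_norm_sub _ _ _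
            linarith
    by_cases hpos : ‖f y - f k‖ = 0
    · by_cases hm : C.m = 0
      · have : (0 : ℝ) ≤ ‖g₀‖ := norm_nonneg _
        rw [hpos, hm]
        exfalso
        have h1 := (C.fib (C.π k)).2
        have h2 : 0 < {z | z ∈ Z ∧ C.π z = C.π k}.ncard :=
          (Set.ncard_pos (C.fib (C.π k)).1).mpr ⟨k, hk, rfl⟩
        omega
      · rw [hpos]
        simp [hm]
    · have hp : 0 < ‖f y - f k‖ := lt_of_le_of_ne (norm_nonneg _) (Ne.symm hpos)
      have hcont : Tendsto (fun c : ℝ => (c / 2) ^ C.m) (𝓝[<] ‖f y - f k‖)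
          (𝓝 ((‖f y - f k‖ / 2) ^ C.m)) := by
        apply Tendsto.mono_left _ nhdsWithin_le_nhds
        exact ((continuous_id.div_const 2).pow C.m).tendsto _
      apply le_of_tendsto hcont
      have h5 : ∀ᶠ c in 𝓝[<] ‖f y - f k‖, 0 < c :=
        Filter.Eventually.filter_mono nhdsWithin_le_nhds (lt_mem_nhds hp)
      filter_upwards [h5, self_mem_nhdsWithin] with c hc1 hc2
      exact hlow c hc1.le hc2

theorem eqThm : EQThm := by
  rintro N Z ⟨C⟩ k hk r hr ε hε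
  -- choice of ρ
  obtain ⟨ρ₀, hρ₀, hρ₀b⟩ : ∃ ρ₀ > 0, ∀ z ∈ Metric.ball k ρ₀, z ∈ Z → C.π z = C.π k → z = k := by
    have hfin : ({z | z ∈ Z ∧ C.π z = C.π k} \ {k}).Finite := (C.fib (C.π k)).1.subset sdiff_subset
    have h1 : ({z | z ∈ Z ∧ C.π z = C.π k} \ {k})ᶜ ∈ 𝓝 k :=
      hfin.isClosed.isOpen_compl.mem_nhds (fun h => h.2 rfl)
    obtain ⟨ρ₀, hρ₀, hb⟩ := Metric.mem_nhds_iff.mp h1
    refine ⟨ρ₀, hρ₀, fun z hz hzZ hzt => ?_⟩
    by_contra hne
    exact hb hz ⟨⟨hzZ, hzt⟩, hne⟩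
  set ρ := min ρ₀ r / 2 with hρdef
  have hmin : 0 < min ρ₀ r := lt_min hρ₀ hr
  have hρ : 0 < ρ := by positivity
  have hρρ₀ : ρ < ρ₀ := by
    have := min_le_left ρ₀ r
    linarith
  have hρr : ρ < r := by
    have := min_le_right ρ₀ r
    linarith
  have hiso : ∀ z ∈ Z, z ∈ Metric.closedBall k ρ → C.π z = C.π k → z = k := fun z hz hzb hzt =>
    hρ₀b z (Metric.closedBall_subset_ball hρρ₀ hzb) hz hzt
  -- choice of r'
  obtain ⟨r', hr', hsph⟩ : ∃ r' > 0, ∀ t ∈ Metric.ball (C.π k) r', ∀ z ∈ Z,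
      z ∈ Metric.closedBall k ρ → C.π z = t → z ∈ Metric.ball k ρ := by
    have hK : IsCompact (Z ∩ Metric.sphere k ρ) := (isCompact_sphere k ρ).inter_left C.closed
    have h1 : (C.π '' (Z ∩ Metric.sphere k ρ))ᶜ ∈ 𝓝 (C.π k) := by
      apply (hK.image C.diff.continuous).isClosed.isOpen_compl.mem_nhds
      rintro ⟨z, hz, hzt⟩
      have := hiso z hz.1 (Metric.sphere_subset_closedBall hz.2) hzt
      rw [this] at hz
      have h2 := hz.2
      rw [Metric.mem_sphere, dist_self] at h2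
      exact hρ.ne h2
    obtain ⟨r', hr', hb⟩ := Metric.mem_nhds_iff.mp h1
    refine ⟨r', hr', fun t ht z hz hzb hzt => ?_⟩
    rw [Metric.mem_ball]
    refine lt_of_le_of_ne hzb ?_
    intro he
    exact hb ht ⟨z, ⟨hz, he⟩, hzt⟩
  -- choice of δ
  set η := min r' (r' * (ε / 4) ^ C.m / (2 * 2 ^ C.m)) with hηdef
  have hη : 0 < η := lt_min hr' (by positivity)
  obtain ⟨δ₀, hδ₀, hδ⟩ := Metric.continuousAt_iff.mp (C.diff.continuous.continuousAt (x := k)) η hη
  refine ⟨min δ₀ ρ, lt_min hδ₀ hρ, ?_⟩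
  intro f hf hf1 y hy hyd
  have hyδ : dist y k < δ₀ := lt_of_lt_of_le hyd (min_le_left _ _)
  have hyρ : dist y k < ρ := lt_of_lt_of_le hyd (min_le_right _ _)
  have hyZ : y ∈ Z ∩ Metric.ball k r := ⟨hy, hyρ.trans hρr⟩
  obtain ⟨G, hG, hyG, hGf⟩ := hf.cont hyZ (ε / 2) (by positivity)
  obtain ⟨y₁, hy₁, hy₁O, hy₁a⟩ := C.dense y hy (G ∩ Metric.ball k (min δ₀ ρ))
    (hG.inter Metric.isOpen_ball) ⟨hyG, hyd⟩
  have hy₁ρ : y₁ ∈ Metric.ball k ρ := Metric.ball_subset_ball (min_le_right _ _) hy₁O.2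
  have hy₁η : ‖C.π y₁ - C.π k‖ < η := by
    rw [← dist_eq_norm]
    exact hδ (lt_of_lt_of_le hy₁O.2 (min_le_left _ _))
  have h1 := key_est C hk hρ hρr hr' hiso hsph f hf hf1 y₁ hy₁ hy₁ρ hy₁a
    (hy₁η.trans_le (min_le_left _ _))
  have h2 : ‖f y₁ - f k‖ ≤ ε / 2 := by
    by_contra hcon
    push Not at hcon
    have h3 : (ε / 4) ^ C.m ≤ (‖f y₁ - f k‖ / 2) ^ C.m := by
      apply pow_le_pow_left₀ (by positivity)
      linarith
    have h4 : 2 * 2 ^ C.m * ‖C.π y₁ - C.π k‖ / r' < (ε / 4) ^ C.m := by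
      have h5 : ‖C.π y₁ - C.π k‖ < r' * (ε / 4) ^ C.m / (2 * 2 ^ C.m) :=
        hy₁η.trans_le (min_le_right _ _)
      rw [lt_div_iff₀ (by positivity)] at h5
      rw [div_lt_iff₀ hr']
      linarith
    linarith
  have h3 := hGf y₁ ⟨hy₁, Metric.ball_subset_ball hρr.le hy₁ρ⟩ hy₁O.1
  have h4 : ‖f y - f k‖ ≤ ‖f y - f y₁‖ + ‖f y₁ - f k‖ := norm_sub_le_norm_sub_add_norm_sub _ _ _
  rw [norm_sub_rev (f y) (f y₁)] at h4
  linarith

end Crest.Agent.R264.Sm
end

-- ▼ part R264/SmMain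

/-! Row 264, PART 0: the algebraic data and the assembly (helper659). -/

set_option autoImplicit false

open Topology Filter Set

namespace Crest.Agent.R264.Sm

open Crest.AlgGeometry.Semialg

variable {N : ℕ}

theorem mem_zl {I : Ideal (MvPolynomial (Fin N) ℂ)} {x : Fin N → ℂ} :
    x ∈ MvPolynomial.zeroLocus ℂ I ↔ ∀ f ∈ I, MvPolynomial.eval x f = 0 := by
  simp [MvPolynomial.mem_zeroLocus_iff, MvPolynomial.aeval_eq_eval]

theorem mem_vs {x : Fin N → ℂ} {f : MvPolynomial (Fin N) ℂ} :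
    f ∈ MvPolynomial.vanishingIdeal ℂ {x} ↔ MvPolynomial.eval x f = 0 := by
  simp [MvPolynomial.aeval_eq_eval]

/-- every point of the zero locus lies on the zero locus of a minimal prime -/
theorem exists_minimal (I : Ideal (MvPolynomial (Fin N) ℂ)) {x : Fin N → ℂ}
    (hx : x ∈ MvPolynomial.zeroLocus ℂ I) :
    ∃ P ∈ I.minimalPrimes, x ∈ MvPolynomial.zeroLocus ℂ P := by
  have h1 : I ≤ MvPolynomial.vanishingIdeal ℂ {x} := fun f hf => mem_vs.mpr (mem_zl.mp hx f hf)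
  have : (MvPolynomial.vanishingIdeal ℂ {x} : Ideal (MvPolynomial (Fin N) ℂ)).IsPrime :=
    (MvPolynomial.isMaximal_iff_eq_vanishingIdeal_singleton.mpr ⟨x, rfl⟩).isPrime
  obtain ⟨P, hP, hPx⟩ := Ideal.exists_minimalPrimes_le h1
  exact ⟨P, hP, mem_zl.mpr fun f hf => mem_vs.mp (hPx hf)⟩

theorem zl_eq_iUnion (I : Ideal (MvPolynomial (Fin N) ℂ)) :
    MvPolynomial.zeroLocus ℂ I =
      ⋃ P : {P // P ∈ I.minimalPrimes}, MvPolynomial.zeroLocus ℂ P.1 := by
  ext x
  rw [mem_iUnion]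
  constructor
  · intro hx
    obtain ⟨P, hP, hxP⟩ := exists_minimal I hx
    exact ⟨⟨P, hP⟩, hxP⟩
  · rintro ⟨P, hP⟩
    exact mem_zl.mpr fun f hf => mem_zl.mp hP f (P.2.1.2 hf)

theorem finite_minimal (I : Ideal (MvPolynomial (Fin N) ℂ)) : I.minimalPrimes.Finite :=
  Ideal.finite_minimalPrimes_of_isNoetherianRing _ I

/-- a polynomial isolating one component -/
theorem exists_isolating (I P : Ideal (MvPolynomial (Fin N) ℂ)) (hP : P ∈ I.minimalPrimes) :
    ∃ h : MvPolynomial (Fin N) ℂ, h ∉ P ∧ ∀ x ∈ MvPolynomial.zeroLocus ℂ I,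
      MvPolynomial.eval x h ≠ 0 → x ∈ MvPolynomial.zeroLocus ℂ P := by
  classical
  have hPp : P.IsPrime := hP.1.1
  have h1 : ∀ Q : Ideal (MvPolynomial (Fin N) ℂ), ∃ q : MvPolynomial (Fin N) ℂ,
      q ∉ P ∧ (Q ∈ I.minimalPrimes → Q ≠ P → q ∈ Q) := by
    intro Q
    by_cases hQ : Q ∈ I.minimalPrimes ∧ Q ≠ P
    · have : ¬ Q ≤ P := by
        intro hle
        exact hQ.2 (le_antisymm hle (hP.2 hQ.1.1 hle))
      obtain ⟨q, hq, hqP⟩ := SetLike.not_le_iff_exists.mp this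
      exact ⟨q, hqP, fun _ _ => hq⟩
    · refine ⟨1, fun h => hPp.ne_top ((Ideal.eq_top_iff_one P).mpr h), ?_⟩
      intro h2 h3
      exact absurd ⟨h2, h3⟩ hQ
  choose q hqP hqQ using h1
  refine ⟨∏ Q ∈ (finite_minimal I).toFinset, q Q, ?_, ?_⟩
  · intro h
    obtain ⟨Q, -, hQ⟩ := (hPp.prod_mem_iff).mp h
    exact hqP Q hQ
  · intro x hx hne
    obtain ⟨Q, hQ, hxQ⟩ := exists_minimal I hx
    by_cases hQP : Q = P
    · rw [← hQP]; exact hxQ
    · exfalso
      apply hne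
      rw [map_prod]
      exact Finset.prod_eq_zero ((finite_minimal I).mem_toFinset.mpr hQ)
        (mem_zl.mp hxQ _ (hqQ Q hQ hQP))

/-- restriction of a chart -/
def _root_.Crest.Agent.R264.LocChart.restr {n : ℕ} {V : Set (Fin N → ℂ)} {x : Fin N → ℂ}
    (C : LocChart n V x) (O : Set (Fin N → ℂ)) (hO : IsOpen O) (hx : x ∈ O) :
    LocChart n (O ∩ V) x where
  O := C.O ∩ O
  W := C.W ∩ C.ψ ⁻¹' O
  ψ := C.ψ
  π := C.π
  hO := C.hO.inter hO
  hW := C.hψ.continuousOn.isOpen_inter_preimage C.hW hO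
  mem := ⟨C.mem, hx⟩
  hψ := C.hψ.mono inter_subset_left
  hπ := C.hπ.mono inter_subset_left
  ψ_mem := fun w hw => ⟨⟨hw.2, (C.ψ_mem w hw.1).1⟩, ⟨(C.ψ_mem w hw.1).2, hw.2⟩⟩
  π_ψ := fun w hw => C.π_ψ w hw.1
  π_mem := fun y hy hyO => ⟨C.π_mem y hy.2 hyO.1, by
    rw [mem_preimage, C.ψ_π y hy.2 hyO.1]; exact hyO.2⟩
  ψ_π := fun y hy hyO => C.ψ_π y hy.2 hyO.1

/-- identity theorem on a connected submanifold -/
theorem identity_alg {n : ℕ} {U : Set (Fin N → ℂ)} (hU : IsSubmfd n U) (hc : IsConnected U)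
    (f : (Fin N → ℂ) → ℂ) (hf : Differentiable ℂ f) (x₀ : U)
    (h0 : ∀ᶠ y : U in 𝓝 x₀, f y = 0) : ∀ x ∈ U, f x = 0 := by
  have : ConnectedSpace U := isConnected_iff_connectedSpace.mp hc
  let A : Set U := {x | ∀ᶠ y : U in 𝓝 x, f y = 0}
  have hAo : IsOpen A := isOpen_iff_mem_nhds.mpr fun x hx => by
    have h1 : ∀ᶠ z : U in 𝓝 x, ∀ᶠ y : U in 𝓝 z, f y = 0 := eventually_eventually_nhds.mpr hx
    exact h1
  have hAc : IsClosed A := by
    rw [← closure_subset_iff_isClosed]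
    intro x hx
    obtain ⟨C⟩ := hU x x.2
    have hw0 : C.π x ∈ C.W := C.π_mem x x.2 C.mem
    obtain ⟨ρ, hρ, hball⟩ := Metric.isOpen_iff.mp C.hW _ hw0
    have hπc : ContinuousOn C.π C.O := C.hπ.continuousOn
    have hNo : IsOpen (C.O ∩ C.π ⁻¹' Metric.ball (C.π x) ρ) :=
      hπc.isOpen_inter_preimage C.hO Metric.isOpen_ball
    let NN : Set U := Subtype.val ⁻¹' (C.O ∩ C.π ⁻¹' Metric.ball (C.π x) ρ)
    have hNN : NN ∈ 𝓝 x := (hNo.preimage continuous_subtype_val).mem_nhds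
      ⟨C.mem, Metric.mem_ball_self hρ⟩
    obtain ⟨y, hyN, hyA⟩ := mem_closure_iff_nhds.mp hx NN hNN
    -- `f ∘ ψ` vanishes near `π y`
    have han : AnalyticOnNhd ℂ (fun w => f (C.ψ w)) (Metric.ball (C.π x) ρ) := by
      apply Crest.Agent.R266.SCV.analyticOnNhd_of_differentiableOn Metric.isOpen_ball
      exact hf.comp_differentiableOn (C.hψ.mono hball)
    have hψy : C.ψ (C.π y) = y := C.ψ_π y y.2 hyN.1
    have hev : (fun w => f (C.ψ w)) =ᶠ[𝓝 (C.π y)] 0 := by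
      have h1 : ∀ᶠ w in 𝓝 (C.π y), w ∈ C.W := C.hW.mem_nhds (C.π_mem y y.2 hyN.1)
      obtain ⟨G, hG, hGe⟩ : ∃ G ∈ 𝓝 (y : Fin N → ℂ), ∀ z : U, (z : Fin N → ℂ) ∈ G → f z = 0 := by
        have h2 : {z : U | f z = 0} ∈ 𝓝 y := hyA
        rw [nhds_subtype_eq_comap, mem_comap] at h2
        obtain ⟨G, hG, hGs⟩ := h2
        exact ⟨G, hG, fun z hz => hGs hz⟩
      have h3 : ∀ᶠ w in 𝓝 (C.π y), C.ψ w ∈ G := by
        have hct : ContinuousAt C.ψ (C.π y) :=
          (C.hψ.continuousOn).continuousAt (C.hW.mem_nhds (C.π_mem y y.2 hyN.1))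
        apply hct
        rw [hψy]
        exact hG
      filter_upwards [h1, h3] with w hw1 hw3
      exact hGe ⟨C.ψ w, (C.ψ_mem w hw1).1⟩ hw3
    have hz := han.eqOn_zero_of_preconnected_of_eventuallyEq_zero
      (convex_ball _ _).isPreconnected hyN.2 hev
    have : ∀ᶠ z : U in 𝓝 x, f z = 0 := by
      filter_upwards [hNN] with z hzN
      have := hz hzN.2
      simp only [Pi.zero_apply] at this
      rwa [C.ψ_π z z.2 hzN.1] at this
    exact this
  have huniv : A = univ := IsClopen.eq_univ ⟨hAc, hAo⟩ ⟨x₀, h0⟩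
  intro x hx
  have : (⟨x, hx⟩ : U) ∈ A := by rw [huniv]; trivial
  exact (show ∀ᶠ y : U in 𝓝 (⟨x, hx⟩ : U), f y = 0 from this).self_of_nhds

/-- charts of `V = Z(I)` at the points where the isolating polynomial and the branch polynomial
do not vanish -/
theorem chart_at (I P : Ideal (MvPolynomial (Fin N) ℂ)) [hPp : P.IsPrime] (hIP : I ≤ P)
    (n : Noe P) (h : MvPolynomial (Fin N) ℂ)
    (hh : ∀ x ∈ MvPolynomial.zeroLocus ℂ I, MvPolynomial.eval x h ≠ 0 →
      x ∈ MvPolynomial.zeroLocus ℂ P)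
    (a : MvPolynomial (Fin n.d) ℂ)
    (hsep : ∀ t, MvPolynomial.eval t a ≠ 0 → ∀ (l : Fin N) (T : ℂ),
      ((n.FX l).map (MvPolynomial.eval t)).eval T = 0 →
      ((Polynomial.derivative (n.FX l)).map (MvPolynomial.eval t)).eval T ≠ 0)
    (x : Fin N → ℂ) (hx : x ∈ MvPolynomial.zeroLocus ℂ I)
    (hD : MvPolynomial.eval x (h * MvPolynomial.bind₁ n.p a) ≠ 0) :
    ∃ C : LocChart n.d (MvPolynomial.zeroLocus ℂ I) x, C.π = polyMap n.p ∧
      ∀ y ∈ MvPolynomial.zeroLocus ℂ I, y ∈ C.O → ∀ f ∈ P, MvPolynomial.eval y f = 0 := by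
  rw [map_mul, n.eval_pull] at hD
  have hhx := left_ne_zero_of_mul hD
  have hax := right_ne_zero_of_mul hD
  have hxP := hh x hx hhx
  have hs : ∀ l : Fin N, ((Polynomial.derivative (n.FX l)).map
      (MvPolynomial.eval (n.π x))).eval (x l) ≠ 0 := by
    intro l
    apply hsep _ hax l
    have := n.F_root (MvPolynomial.X l) hxP
    rwa [MvPolynomial.eval_X] at this
  obtain ⟨O, W, ψ, hO, hW, hxO, hψ, h1, h2⟩ := n.section_at hxP hs
  have hne : IsOpen {z : Fin N → ℂ | MvPolynomial.eval z h ≠ 0} :=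
    isOpen_ne_fun (MvPolynomial.continuous_eval h) continuous_const
  refine ⟨
    { O := O ∩ {z | MvPolynomial.eval z h ≠ 0}
      W := W ∩ ψ ⁻¹' {z | MvPolynomial.eval z h ≠ 0}
      ψ := ψ
      π := n.π
      hO := hO.inter hne
      hW := hψ.continuousOn.isOpen_inter_preimage hW hne
      mem := ⟨hxO, hhx⟩
      hψ := hψ.mono inter_subset_left
      hπ := ?_
      ψ_mem := ?_
      π_ψ := fun w hw => (h1 w hw.1).2.2
      π_mem := ?_
      ψ_π := fun y hy hyO => (h2 y (hh y hy hyO.2) hyO.1).2 }, rfl, ?_⟩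
  · apply Differentiable.differentiableOn
    unfold Noe.π
    rw [differentiable_pi]
    intro i
    exact (Noe.contDiff_eval (n.p i)).differentiable one_ne_zero
  · intro w hw
    refine ⟨?_, (h1 w hw.1).2.1, hw.2⟩
    exact mem_zl.mpr fun f hf => mem_zl.mp (h1 w hw.1).1 f (hIP hf)
  · intro y hy hyO
    have h3 := h2 y (hh y hy hyO.2) hyO.1
    refine ⟨h3.1, ?_⟩
    rw [mem_preimage, h3.2]
    exact hyO.2
  · intro y hy hyO
    exact mem_zl.mp (hh y hy hyO.2)

/-- the ideal of `U` is `P` -/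
theorem van_of {n : ℕ} (I P : Ideal (MvPolynomial (Fin N) ℂ)) [hPp : P.IsPrime] (hIP : I ≤ P)
    (h : MvPolynomial (Fin N) ℂ) (hhP : h ∉ P)
    (hh : ∀ x ∈ MvPolynomial.zeroLocus ℂ I, MvPolynomial.eval x h ≠ 0 →
      x ∈ MvPolynomial.zeroLocus ℂ P)
    (U O : Set (Fin N → ℂ)) (hO : IsOpen O) (hU : U = O ∩ MvPolynomial.zeroLocus ℂ I)
    (hsub : IsSubmfd n U) (hconn : IsConnected U)
    (x₀ : Fin N → ℂ) (hx₀ : x₀ ∈ MvPolynomial.zeroLocus ℂ P) (hx₀O : x₀ ∈ O)
    (f : MvPolynomial (Fin N) ℂ) : f ∈ P ↔ ∀ x ∈ U, MvPolynomial.eval x f = 0 := by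
  have hPI : ∀ x ∈ MvPolynomial.zeroLocus ℂ P, x ∈ MvPolynomial.zeroLocus ℂ I := fun x hx =>
    mem_zl.mpr fun g hg => mem_zl.mp hx g (hIP hg)
  constructor
  · intro hf
    obtain ⟨z₀, hz₀P, hz₀O, hz₀⟩ := Noe.dense_ne hhP hx₀ O hO hx₀O
    have hz₀U : z₀ ∈ U := by rw [hU]; exact ⟨hz₀O, hPI _ hz₀P⟩
    have hdiff : Differentiable ℂ fun x : Fin N → ℂ => MvPolynomial.eval x f :=
      (Noe.contDiff_eval f).differentiable one_ne_zero
    refine identity_alg hsub hconn (fun x => MvPolynomial.eval x f) hdiff ⟨z₀, hz₀U⟩ ?_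
    have hc : Continuous fun y : U => MvPolynomial.eval (y : Fin N → ℂ) h :=
      (MvPolynomial.continuous_eval h).comp continuous_subtype_val
    have h2 : ∀ᶠ y : U in 𝓝 ⟨z₀, hz₀U⟩, MvPolynomial.eval (y : Fin N → ℂ) h ≠ 0 :=
      hc.continuousAt.eventually_ne hz₀
    filter_upwards [h2] with y hy
    have hyI : (y : Fin N → ℂ) ∈ MvPolynomial.zeroLocus ℂ I := (hU.subset y.2).2
    exact mem_zl.mp (hh y hyI hy) f hf
  · intro hf
    by_contra hfP
    obtain ⟨z, hzP, hzO, hz⟩ := Noe.dense_ne hfP hx₀ O hO hx₀O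
    exact hz (hf z (by rw [hU]; exact ⟨hzO, hPI z hzP⟩))

/-- Assembly of Part 0. -/
theorem part0A_of (hEQ : EQThm) : Part0A := by
  intro N U Γ S V O hV hO hUO
  obtain ⟨I, rfl⟩ := hV
  obtain ⟨x₀, hx₀⟩ := S.nonempty
  have hx₀' : x₀ ∈ O ∩ MvPolynomial.zeroLocus ℂ I := by rw [← hUO]; exact hx₀
  obtain ⟨P, hP, hx₀P⟩ := exists_minimal I hx₀'.2
  have hPp : P.IsPrime := hP.1.1
  have hIP : I ≤ P := hP.1.2
  obtain ⟨n⟩ := exists_noe P hPp.ne_top
  obtain ⟨h, hhP, hh⟩ := exists_isolating I P hP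
  obtain ⟨a, ha, hsep⟩ := n.exists_branch
  have hDP : h * MvPolynomial.bind₁ n.p a ∉ P := fun hmem =>
    (hPp.mem_or_mem hmem).elim hhP (n.pull_notMem ha)
  have hchart := chart_at I P hIP n h hh a hsep
  generalize h * MvPolynomial.bind₁ n.p a = D at hDP hchart
  obtain ⟨z₀, hz₀P, hz₀O, hz₀⟩ := Noe.dense_ne hDP hx₀P O hO hx₀'.1
  have hz₀V : z₀ ∈ MvPolynomial.zeroLocus ℂ I :=
    mem_zl.mpr fun f hf => mem_zl.mp hz₀P f (hIP hf)
  have hE : EQU U := by
    have hfin : Finite {P // P ∈ I.minimalPrimes} := (finite_minimal I).to_subtype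
    exact equ_of hEQ hO hUO (fun P : {P // P ∈ I.minimalPrimes} => MvPolynomial.zeroLocus ℂ P.1)
      (fun P => by
        obtain ⟨C, -⟩ := covThm N P.1 P.2.1.1
        exact ⟨C⟩) (zl_eq_iUnion I)
  have hsub : IsSubmfd n.d U := by
    refine isSubmfd_of S hE (fun x => MvPolynomial.eval x D)
      ((Noe.contDiff_eval D).differentiable one_ne_zero) ?_
      ⟨z₀, by rw [hUO]; exact ⟨hz₀O, hz₀V⟩, hz₀⟩
    intro x hx hxD
    rw [hUO] at hx
    obtain ⟨C, -, -⟩ := hchart x hx.2 hxD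
    rw [hUO]
    exact ⟨C.restr O hO hx.1⟩
  exact ⟨n.d, hsub, ⟨
    { I0 := P
      prime := hPp
      van := van_of I P hIP h hhP hh U O hO hUO hsub S.conn x₀ hx₀P hx₀'.1
      V0_sub := fun x hx => mem_zl.mpr fun f hf => hx f (hIP hf)
      t := n.p
      indep := fun R hR => by
        by_contra hne
        exact n.pull_notMem hne hR
      D := D
      hD := hDP
      chart := hchart }⟩⟩

/-- PART 0 of row 264. -/
theorem part0A : Part0A := part0A_of eqThm

end Crest.Agent.R264.Sm
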