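import Mathlib
import Crest.Agent.R264.TSDefs
import Crest.Agent.R264.TSProj

-- ▼ part R264/TS0
section

/-!
Row 264, module TS (Tarski-Seidenberg), part 0: the one variable core lemma.

Two finite families of real polynomials `P`, `Q` with the same sign diagram (witnessed by an order
isomorphism of the line), together with two further polynomials `p`, `q` whose derivatives belong
to the families and whose signs match at the zeros of the members of the families: then the
enlarged families have the same sign diagram.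
-/

set_option autoImplicit false
set_option linter.unusedSectionVars false

open Polynomial Set

namespace Crest.Agent.R264.TS

/-! ### Piecewise linear order isomorphisms -/

/-- the piecewise linear map fixing the complement of `(c, d)` and mapping `u` to `v`. -/
noncomputable def bumpFun (c u v d t : ℝ) : ℝ :=
  if t ≤ c then t else if t ≤ u then c + (t - c) * ((v - c) / (u - c))
  else if t < d then d - (d - t) * ((d - v) / (d - u)) else t

section

variable {c u v d : ℝ} (h1 : c < u) (h2 : u < d) (h3 : c < v) (h4 : v < d)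

include h1 h2 h3 h4

lemma bumpFun_of_le_c {t : ℝ} (ht : t ≤ c) : bumpFun c u v d t = t := by
  simp [bumpFun, ht]

lemma bumpFun_of_mem_left {t : ℝ} (ht : c < t) (ht' : t ≤ u) :
    bumpFun c u v d t = c + (t - c) * ((v - c) / (u - c)) := by
  simp [bumpFun, not_le.2 ht, ht']

lemma bumpFun_of_mem_right {t : ℝ} (ht : u < t) (ht' : t < d) :
    bumpFun c u v d t = d - (d - t) * ((d - v) / (d - u)) := by
  have : ¬ t ≤ c := by linarith
  simp [bumpFun, not_le.2 ht, ht', this]

lemma bumpFun_of_d_le {t : ℝ} (ht : d ≤ t) : bumpFun c u v d t = t := by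
  have : ¬ t ≤ c := by linarith
  have : ¬ t ≤ u := by linarith
  simp [bumpFun, not_lt.2 ht, *]

lemma bumpFun_left_mem {t : ℝ} (ht : c < t) (ht' : t ≤ u) :
    c < bumpFun c u v d t ∧ bumpFun c u v d t ≤ v := by
  rw [bumpFun_of_mem_left h1 h2 h3 h4 ht ht']
  have hcu : 0 < u - c := by linarith
  have hcv : 0 < v - c := by linarith
  constructor
  · have : 0 < (t - c) * ((v - c) / (u - c)) := mul_pos (by linarith) (div_pos hcv hcu)
    linarith
  · have : (t - c) * ((v - c) / (u - c)) ≤ (u - c) * ((v - c) / (u - c)) :=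
      mul_le_mul_of_nonneg_right (by linarith) (div_pos hcv hcu).le
    rw [mul_div_cancel₀ _ hcu.ne'] at this
    linarith

lemma bumpFun_right_mem {t : ℝ} (ht : u < t) (ht' : t < d) :
    v < bumpFun c u v d t ∧ bumpFun c u v d t < d := by
  rw [bumpFun_of_mem_right h1 h2 h3 h4 ht ht']
  have hdu : 0 < d - u := by linarith
  have hdv : 0 < d - v := by linarith
  constructor
  · have : (d - t) * ((d - v) / (d - u)) < (d - u) * ((d - v) / (d - u)) :=
      mul_lt_mul_of_pos_right (by linarith) (div_pos hdv hdu)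
    rw [mul_div_cancel₀ _ hdu.ne'] at this
    linarith
  · have : 0 < (d - t) * ((d - v) / (d - u)) := mul_pos (by linarith) (div_pos hdv hdu)
    linarith

lemma bumpFun_inv (t : ℝ) : bumpFun c v u d (bumpFun c u v d t) = t := by
  have hcu : 0 < u - c := by linarith
  have hdu : 0 < d - u := by linarith
  have hcv : 0 < v - c := by linarith
  have hdv : 0 < d - v := by linarith
  rcases le_or_gt t c with a | a
  · rw [bumpFun_of_le_c h1 h2 h3 h4 a, bumpFun_of_le_c h3 h4 h1 h2 a]
  rcases le_or_gt t u with b | b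
  · have := bumpFun_left_mem h1 h2 h3 h4 a b
    rw [bumpFun_of_mem_left h3 h4 h1 h2 this.1 this.2, bumpFun_of_mem_left h1 h2 h3 h4 a b]
    field_simp
    ring
  rcases lt_or_ge t d with e | e
  · have := bumpFun_right_mem h1 h2 h3 h4 b e
    rw [bumpFun_of_mem_right h3 h4 h1 h2 this.1 this.2, bumpFun_of_mem_right h1 h2 h3 h4 b e]
    field_simp
    ring
  · rw [bumpFun_of_d_le h1 h2 h3 h4 e, bumpFun_of_d_le h3 h4 h1 h2 e]

lemma bumpFun_u : bumpFun c u v d u = v := by
  rw [bumpFun_of_mem_left h1 h2 h3 h4 h1 le_rfl]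
  have hcu : 0 < u - c := by linarith
  field_simp
  ring

lemma bumpFun_strictMono : StrictMono (bumpFun c u v d) := by
  have hcu : 0 < u - c := by linarith
  have hdu : 0 < d - u := by linarith
  have hcv : 0 < v - c := by linarith
  have hdv : 0 < d - v := by linarith
  have hL : 0 < (v - c) / (u - c) := div_pos hcv hcu
  have hR : 0 < (d - v) / (d - u) := div_pos hdv hdu
  intro s t hst
  rcases le_or_gt s c with a | a
  · rw [bumpFun_of_le_c h1 h2 h3 h4 a]
    rcases le_or_gt t c with a' | a'
    · rw [bumpFun_of_le_c h1 h2 h3 h4 a']; exact hst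
    rcases le_or_gt t u with b' | b'
    · linarith [(bumpFun_left_mem h1 h2 h3 h4 a' b').1]
    rcases lt_or_ge t d with e' | e'
    · linarith [(bumpFun_right_mem h1 h2 h3 h4 b' e').1]
    · rw [bumpFun_of_d_le h1 h2 h3 h4 e']; exact hst
  rcases le_or_gt s u with b | b
  · rcases le_or_gt t u with b' | b'
    · rw [bumpFun_of_mem_left h1 h2 h3 h4 a b, bumpFun_of_mem_left h1 h2 h3 h4 (a.trans hst) b']
      have := mul_lt_mul_of_pos_right (show s - c < t - c by linarith) hL
      linarith
    rcases lt_or_ge t d with e' | e'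
    · linarith [(bumpFun_right_mem h1 h2 h3 h4 b' e').1, (bumpFun_left_mem h1 h2 h3 h4 a b).2]
    · rw [bumpFun_of_d_le h1 h2 h3 h4 e']
      linarith [(bumpFun_left_mem h1 h2 h3 h4 a b).2]
  rcases lt_or_ge s d with e | e
  · rcases lt_or_ge t d with e' | e'
    · rw [bumpFun_of_mem_right h1 h2 h3 h4 b e, bumpFun_of_mem_right h1 h2 h3 h4 (b.trans hst) e']
      have := mul_lt_mul_of_pos_right (show d - t < d - s by linarith) hR
      linarith
    · rw [bumpFun_of_d_le h1 h2 h3 h4 e']
      linarith [(bumpFun_right_mem h1 h2 h3 h4 b e).2]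
  · rw [bumpFun_of_d_le h1 h2 h3 h4 e, bumpFun_of_d_le h1 h2 h3 h4 (e.trans hst.le)]
    exact hst

end

/-- order isomorphism of the line fixing the complement of `(c, d)` and mapping `u` to `v`. -/
lemma exists_bump {c u v d : ℝ} (h1 : c < u) (h2 : u < d) (h3 : c < v) (h4 : v < d) :
    ∃ θ : ℝ ≃o ℝ, θ u = v ∧ (∀ t, t ≤ c → θ t = t) ∧ (∀ t, d ≤ t → θ t = t) := by
  refine ⟨(bumpFun_strictMono h1 h2 h3 h4).orderIsoOfRightInverse _ (bumpFun c v u d)
    (fun t => bumpFun_inv h3 h4 h1 h2 t), ?_, ?_, ?_⟩
  · exact bumpFun_u h1 h2 h3 h4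
  · intro t ht; exact bumpFun_of_le_c h1 h2 h3 h4 ht
  · intro t ht; exact bumpFun_of_d_le h1 h2 h3 h4 ht

/-! ### Sign of a polynomial on root free intervals -/

lemma sign_eq_of_no_root {p : ℝ[X]} {s t : ℝ} (hst : s ≤ t)
    (h : ∀ r ∈ Icc s t, p.eval r ≠ 0) :
    SignType.sign (p.eval s) = SignType.sign (p.eval t) := by
  have hs := h s ⟨le_rfl, hst⟩
  have ht := h t ⟨hst, le_rfl⟩
  rcases lt_or_gt_of_ne hs with a | a <;> rcases lt_or_gt_of_ne ht with b | b
  · rw [sign_neg a, sign_neg b]
  · exfalso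
    obtain ⟨r, hr, hr'⟩ := intermediate_value_Icc hst (p.continuous.continuousOn (s := Icc s t))
      (show (0 : ℝ) ∈ Icc _ _ from ⟨a.le, b.le⟩)
    exact h r hr hr'
  · exfalso
    obtain ⟨r, hr, hr'⟩ := intermediate_value_Icc' hst (p.continuous.continuousOn (s := Icc s t))
      (show (0 : ℝ) ∈ Icc _ _ from ⟨b.le, a.le⟩)
    exact h r hr hr'
  · rw [sign_pos a, sign_pos b]

end Crest.Agent.R264.TS
end

-- ▼ part R264/TS1
section

/-!
Row 264, module TS (Tarski-Seidenberg), part 1: the core lemma in one variable.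
-/

set_option autoImplicit false

open Polynomial Set

namespace Crest.Agent.R264.TS

/-! ### monotonicity and behaviour at infinity -/

lemma strictMonoOn_of_deriv {p : ℝ[X]} {a b : ℝ} (h : ∀ x ∈ Ioo a b, 0 < p.derivative.eval x) :
    StrictMonoOn (fun x => p.eval x) (Icc a b) := by
  refine strictMonoOn_of_deriv_pos (convex_Icc a b) p.continuous.continuousOn ?_
  intro x hx
  rw [interior_Icc] at hx
  rw [Polynomial.deriv]
  exact h x hx

lemma exists_pos_right {p : ℝ[X]} {t : ℝ} (h : ∀ s, t ≤ s → 0 < p.derivative.eval s) :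
    ∃ s, t < s ∧ 0 < p.eval s := by
  have hdeg : 0 < p.degree := by
    by_contra hcon
    have h1 : p.degree ≤ 0 := not_lt.1 hcon
    have h2 := h t le_rfl
    rw [Polynomial.eq_C_of_degree_le_zero h1] at h2
    simp at h2
  have hT := Polynomial.abs_tendsto_atTop p hdeg
  obtain ⟨s, hs1, hs2⟩ := ((hT.eventually_gt_atTop |p.eval t|).and
    (Filter.eventually_gt_atTop t)).exists
  refine ⟨s, hs2, ?_⟩
  have hm : p.eval t < p.eval s :=
    (strictMonoOn_of_deriv (p := p) (a := t) (b := s) fun x hx => h x hx.1.le)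
      ⟨le_rfl, hs2.le⟩ ⟨hs2.le, le_rfl⟩ hs2
  by_contra hcon
  have h3 : p.eval s ≤ 0 := not_lt.1 hcon
  rw [abs_of_nonpos h3, abs_of_nonpos (hm.le.trans h3)] at hs1
  linarith

lemma exists_neg_left {p : ℝ[X]} {t : ℝ} (h : ∀ s, s ≤ t → 0 < p.derivative.eval s) :
    ∃ s, s < t ∧ p.eval s < 0 := by
  obtain ⟨s, hs1, hs2⟩ := exists_pos_right (p := - p.comp (-X)) (t := -t) (by
    intro s hs
    have := h (-s) (by linarith)
    simpa [Polynomial.derivative_comp] using this)
  refine ⟨-s, by linarith, ?_⟩
  simpa using hs2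

/-! ### The data -/

/-- `φ` matches the signs of the derivatives of `p`, `q` and the signs of `p`, `q` on the finite
set `Z`, which contains the zeros of `p'`. -/
structure Dat (Z : Set ℝ) (p q : ℝ[X]) (φ : ℝ ≃o ℝ) : Prop where
  fin : Z.Finite
  dsgn : ∀ t, SignType.sign (p.derivative.eval t) = SignType.sign (q.derivative.eval (φ t))
  droot : ∀ t, p.derivative.eval t = 0 → t ∈ Z
  zsgn : ∀ t ∈ Z, SignType.sign (p.eval t) = SignType.sign (q.eval (φ t))

lemma sign_neg_eq (a b : ℝ) (h : SignType.sign a = SignType.sign b) :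
    SignType.sign (-a) = SignType.sign (-b) := by
  rw [Left.sign_neg, Left.sign_neg, h]

lemma Dat.neg {Z : Set ℝ} {p q : ℝ[X]} {φ : ℝ ≃o ℝ} (h : Dat Z p q φ) : Dat Z (-p) (-q) φ where
  fin := h.fin
  dsgn t := by
    simp only [derivative_neg, eval_neg]
    exact sign_neg_eq _ _ (h.dsgn t)
  droot t ht := h.droot t (by simpa using ht)
  zsgn t ht := by
    simp only [eval_neg]
    exact sign_neg_eq _ _ (h.zsgn t ht)

/-- the nearest point to the left -/
lemma left_end {Z : Set ℝ} (hZ : Z.Finite) (t : ℝ) :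
    (∃ a ∈ Z, a < t ∧ ∀ z ∈ Z, z < t → z ≤ a) ∨ ∀ z ∈ Z, t ≤ z := by
  by_cases h : (Z ∩ Iio t).Nonempty
  · left
    obtain ⟨a, ha, ha'⟩ := (hZ.subset inter_subset_left).exists_maximal h
    refine ⟨a, ha.1, ha.2, fun z hz hzt => ?_⟩
    by_contra hcon
    exact hcon (ha' ⟨hz, hzt⟩ (not_le.1 hcon).le)
  · right
    intro z hz
    by_contra hcon
    exact h ⟨z, hz, not_le.1 hcon⟩

/-- the nearest point to the right -/
lemma right_end {Z : Set ℝ} (hZ : Z.Finite) (t : ℝ) :
    (∃ a ∈ Z, t < a ∧ ∀ z ∈ Z, t < z → a ≤ z) ∨ ∀ z ∈ Z, z ≤ t := by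
  by_cases h : (Z ∩ Ioi t).Nonempty
  · left
    obtain ⟨a, ha, ha'⟩ := (hZ.subset inter_subset_left).exists_minimal h
    refine ⟨a, ha.1, ha.2, fun z hz hzt => ?_⟩
    by_contra hcon
    exact hcon (ha' ⟨hz, hzt⟩ (not_le.1 hcon).le)
  · right
    intro z hz
    by_contra hcon
    exact h ⟨z, hz, not_le.1 hcon⟩

section

variable {Z : Set ℝ} {p q : ℝ[X]} {φ : ℝ ≃o ℝ}


/-- positivity of the derivative on the left part of the interval of the complement of `Z` -/
lemma Dat.pos_left (h : Dat Z p q φ) {t : ℝ} (ht : 0 < p.derivative.eval t) {a : ℝ}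
    (ha : ∀ z ∈ Z, z < t → z ≤ a) {x : ℝ} (hx : a < x) (hxt : x ≤ t) :
    0 < p.derivative.eval x := by
  have : SignType.sign (p.derivative.eval x) = SignType.sign (p.derivative.eval t) := by
    refine sign_eq_of_no_root hxt fun r hr h0 => ?_
    rcases hr.2.lt_or_eq with h1 | h1
    · have := ha r (h.droot r h0) h1
      linarith [hr.1]
    · rw [h1] at h0; exact ht.ne' h0
  rw [sign_pos ht, sign_eq_one_iff] at this
  exact this

lemma Dat.pos_right (h : Dat Z p q φ) {t : ℝ} (ht : 0 < p.derivative.eval t) {a : ℝ}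
    (ha : ∀ z ∈ Z, t < z → a ≤ z) {x : ℝ} (hx : x < a) (hxt : t ≤ x) :
    0 < p.derivative.eval x := by
  have : SignType.sign (p.derivative.eval t) = SignType.sign (p.derivative.eval x) := by
    refine sign_eq_of_no_root hxt fun r hr h0 => ?_
    rcases hr.1.lt_or_eq with h1 | h1
    · have := ha r (h.droot r h0) h1
      linarith [hr.2]
    · rw [← h1] at h0; exact ht.ne' h0
  rw [sign_pos ht] at this
  exact sign_eq_one_iff.1 this.symm

lemma Dat.dq_pos (h : Dat Z p q φ) {x : ℝ} (hx : 0 < p.derivative.eval x) :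
    0 < q.derivative.eval (φ x) := by
  have := h.dsgn x
  rw [sign_pos hx] at this
  exact sign_eq_one_iff.1 this.symm

lemma Dat.dq_pos' (h : Dat Z p q φ) {y : ℝ} (hx : 0 < p.derivative.eval (φ.symm y)) :
    0 < q.derivative.eval y := by
  simpa using h.dq_pos hx

/-- one case of Lemma A -/
lemma Dat.signA_pos (h : Dat Z p q φ) (hm : ∀ t, p.eval t = 0 → q.eval (φ t) = 0) {t : ℝ}
    (ht : 0 < p.derivative.eval t) (hp : 0 < p.eval t) : 0 < q.eval (φ t) := by
  -- a point `t₁ < t` with `p t₁ ≥ 0`, matched signs, and `p' > 0` on `(t₁, t]`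
  obtain ⟨t1, h1, h2, h3, h4⟩ : ∃ t1, t1 < t ∧ 0 ≤ p.eval t1 ∧
      SignType.sign (p.eval t1) = SignType.sign (q.eval (φ t1)) ∧
      ∀ x, t1 < x → x ≤ t → 0 < p.derivative.eval x := by
    have root : ∀ a, a < t → p.eval a < 0 → (∀ x, a < x → x ≤ t → 0 < p.derivative.eval x) →
        ∃ t1, t1 < t ∧ 0 ≤ p.eval t1 ∧
        SignType.sign (p.eval t1) = SignType.sign (q.eval (φ t1)) ∧
        ∀ x, t1 < x → x ≤ t → 0 < p.derivative.eval x := by
      intro a ha hpa hder
      obtain ⟨r, hr, hr'⟩ := intermediate_value_Ioo ha.le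
        (p.continuous.continuousOn (s := Icc a t)) (show (0 : ℝ) ∈ Ioo _ _ from ⟨hpa, hp⟩)
      have hr'' : p.eval r = 0 := hr'
      refine ⟨r, hr.2, hr''.ge, ?_, fun x hx => hder x (hr.1.trans hx)⟩
      rw [hr'', hm r hr'']
    rcases left_end h.fin t with ⟨a, haZ, hat, ha⟩ | ha
    · by_cases hpa : 0 ≤ p.eval a
      · exact ⟨a, hat, hpa, h.zsgn a haZ, fun x hx hxt => h.pos_left ht ha hx hxt⟩
      · exact root a hat (not_le.1 hpa) (fun x hx hxt => h.pos_left ht ha hx hxt)
    · have hd : ∀ s, s ≤ t → 0 < p.derivative.eval s := fun s hs =>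
        h.pos_left ht (a := s - 1) (fun z hz hzt => absurd (ha z hz) (not_le.2 hzt))
          (by linarith) hs
      obtain ⟨s, hs1, hs2⟩ := exists_neg_left hd
      exact root s hs1 hs2 (fun x _ hxt => hd x hxt)
  have hq1 : 0 ≤ q.eval (φ t1) := by
    rcases h2.lt_or_eq with h5 | h5
    · rw [sign_pos h5] at h3
      exact (sign_eq_one_iff.1 h3.symm).le
    · rw [← h5, sign_zero] at h3
      exact (sign_eq_zero_iff.1 h3.symm).ge
  have hlt : φ t1 < φ t := φ.lt_iff_lt.2 h1
  have hmono := strictMonoOn_of_deriv (p := q) (a := φ t1) (b := φ t) (fun y hy => by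
    apply h.dq_pos'
    apply h4
    · rw [← φ.lt_iff_lt]; simpa using hy.1
    · rw [← φ.le_iff_le]; simpa using hy.2.le)
  exact lt_of_le_of_lt hq1 (hmono ⟨le_rfl, hlt.le⟩ ⟨hlt.le, le_rfl⟩ hlt)

lemma Dat.signA_neg (h : Dat Z p q φ) (hm : ∀ t, p.eval t = 0 → q.eval (φ t) = 0) {t : ℝ}
    (ht : 0 < p.derivative.eval t) (hp : p.eval t < 0) : q.eval (φ t) < 0 := by
  obtain ⟨t1, h1, h2, h3, h4⟩ : ∃ t1, t < t1 ∧ p.eval t1 ≤ 0 ∧
      SignType.sign (p.eval t1) = SignType.sign (q.eval (φ t1)) ∧
      ∀ x, x < t1 → t ≤ x → 0 < p.derivative.eval x := by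
    have root : ∀ a, t < a → 0 < p.eval a → (∀ x, x < a → t ≤ x → 0 < p.derivative.eval x) →
        ∃ t1, t < t1 ∧ p.eval t1 ≤ 0 ∧
        SignType.sign (p.eval t1) = SignType.sign (q.eval (φ t1)) ∧
        ∀ x, x < t1 → t ≤ x → 0 < p.derivative.eval x := by
      intro a ha hpa hder
      obtain ⟨r, hr, hr'⟩ := intermediate_value_Ioo ha.le
        (p.continuous.continuousOn (s := Icc t a)) (show (0 : ℝ) ∈ Ioo _ _ from ⟨hp, hpa⟩)
      have hr'' : p.eval r = 0 := hr'
      refine ⟨r, hr.1, hr''.le, ?_, fun x hx => hder x (hx.trans hr.2)⟩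
      rw [hr'', hm r hr'']
    rcases right_end h.fin t with ⟨a, haZ, hat, ha⟩ | ha
    · by_cases hpa : p.eval a ≤ 0
      · exact ⟨a, hat, hpa, h.zsgn a haZ, fun x hx hxt => h.pos_right ht ha hx hxt⟩
      · exact root a hat (not_le.1 hpa) (fun x hx hxt => h.pos_right ht ha hx hxt)
    · have hd : ∀ s, t ≤ s → 0 < p.derivative.eval s := fun s hs =>
        h.pos_right ht (a := s + 1) (fun z hz hzt => absurd (ha z hz) (not_le.2 hzt))
          (by linarith) hs
      obtain ⟨s, hs1, hs2⟩ := exists_pos_right hd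
      exact root s hs1 hs2 (fun x _ hxt => hd x hxt)
  have hq1 : q.eval (φ t1) ≤ 0 := by
    rcases h2.lt_or_eq with h5 | h5
    · rw [sign_neg h5] at h3
      exact (sign_eq_neg_one_iff.1 h3.symm).le
    · rw [h5, sign_zero] at h3
      exact (sign_eq_zero_iff.1 h3.symm).le
  have hlt : φ t < φ t1 := φ.lt_iff_lt.2 h1
  have hmono := strictMonoOn_of_deriv (p := q) (a := φ t) (b := φ t1) (fun y hy => by
    apply h.dq_pos'
    apply h4
    · rw [← φ.lt_iff_lt]; simpa using hy.2
    · rw [← φ.le_iff_le]; simpa using hy.1.le)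
  exact lt_of_lt_of_le (hmono ⟨le_rfl, hlt.le⟩ ⟨hlt.le, le_rfl⟩ hlt) hq1

lemma Dat.signA_of_pos (h : Dat Z p q φ) (hm : ∀ t, p.eval t = 0 → q.eval (φ t) = 0) {t : ℝ}
    (ht : 0 < p.derivative.eval t) :
    SignType.sign (p.eval t) = SignType.sign (q.eval (φ t)) := by
  rcases lt_trichotomy (p.eval t) 0 with h0 | h0 | h0
  · rw [sign_neg h0, sign_neg (h.signA_neg hm ht h0)]
  · rw [h0, hm t h0]
  · rw [sign_pos h0, sign_pos (h.signA_pos hm ht h0)]

/-- Lemma A: if all zeros are matched then all signs are matched -/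
lemma Dat.signA (h : Dat Z p q φ) (hm : ∀ t, p.eval t = 0 → q.eval (φ t) = 0) (t : ℝ) :
    SignType.sign (p.eval t) = SignType.sign (q.eval (φ t)) := by
  rcases lt_trichotomy (p.derivative.eval t) 0 with h0 | h0 | h0
  · have := h.neg.signA_of_pos (t := t) (by simpa using hm) (by simpa using h0)
    simp only [eval_neg] at this
    simpa using sign_neg_eq _ _ this
  · exact h.zsgn t (h.droot t h0)
  · exact h.signA_of_pos hm h0

/-! ### Lemma B -/

/-- `θ` preserves the sign of a polynomial without zeros on the interval moved by `θ` -/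
lemma sign_stable {r : ℝ[X]} {c d : ℝ} {θ : ℝ ≃o ℝ} (hc : ∀ t, t ≤ c → θ t = t)
    (hd : ∀ t, d ≤ t → θ t = t) (hr : r = 0 ∨ ∀ s, c < s → s < d → r.eval s ≠ 0) (s : ℝ) :
    SignType.sign (r.eval (θ s)) = SignType.sign (r.eval s) := by
  rcases hr with hr | hr
  · simp [hr]
  rcases le_or_gt s c with h1 | h1
  · rw [hc s h1]
  rcases le_or_gt d s with h2 | h2
  · rw [hd s h2]
  have h3 : c < θ s := by
    have := θ.lt_iff_lt.2 h1; rwa [hc c le_rfl] at this
  have h4 : θ s < d := by
    have := θ.lt_iff_lt.2 h2; rwa [hd d le_rfl] at this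
  rcases le_total s (θ s) with h5 | h5
  · exact (sign_eq_of_no_root h5 fun x hx => hr x (by linarith [hx.1]) (by linarith [hx.2])).symm
  · exact sign_eq_of_no_root h5 fun x hx => hr x (by linarith [hx.1]) (by linarith [hx.2])

/-- one case of Lemma B: an unmatched zero `t0` of `p` with `p' (t0) > 0`.  There is an open
interval around `φ t0` not meeting `φ '' Z` containing a zero `s0` of `q`. -/
lemma Dat.exists_s0 (h : Dat Z p q φ) {t0 : ℝ} (ht : 0 < p.derivative.eval t0)
    (h0 : p.eval t0 = 0) (hq : q.eval (φ t0) ≠ 0) :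
    ∃ c d s0, c < φ t0 ∧ φ t0 < d ∧ c < s0 ∧ s0 < d ∧ q.eval s0 = 0 ∧
      (∀ s, c < s → s < d → φ.symm s ∉ Z) ∧
      (∀ x, c < φ x → φ x < d → 0 < p.derivative.eval x) := by
  have ht0Z : t0 ∉ Z := fun hZ => by
    have := h.zsgn t0 hZ
    rw [h0, sign_zero] at this
    exact hq (sign_eq_zero_iff.1 this.symm)
  -- the ends
  obtain ⟨c0, hc0, hc0Z⟩ : ∃ c0, c0 < t0 ∧ ∀ z ∈ Z, z < t0 → z ≤ c0 := by
    rcases left_end h.fin t0 with ⟨a, haZ, hat, ha⟩ | ha
    · exact ⟨a, hat, ha⟩
    · exact ⟨t0 - 1, by linarith, fun z hz hzt => absurd (ha z hz) (not_le.2 hzt)⟩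
  obtain ⟨d0, hd0, hd0Z⟩ : ∃ d0, t0 < d0 ∧ ∀ z ∈ Z, t0 < z → d0 ≤ z := by
    rcases right_end h.fin t0 with ⟨a, haZ, hat, ha⟩ | ha
    · exact ⟨a, hat, ha⟩
    · exact ⟨t0 + 1, by linarith, fun z hz hzt => absurd (ha z hz) (not_le.2 hzt)⟩
  rcases lt_or_gt_of_ne hq with hq | hq
  · -- the zero is on the right
    obtain ⟨a, hat, hqa, ha⟩ : ∃ a, t0 < a ∧ 0 < q.eval (φ a) ∧ ∀ z ∈ Z, t0 < z → a ≤ z := by
      rcases right_end h.fin t0 with ⟨a, haZ, hat, ha⟩ | ha
      · refine ⟨a, hat, ?_, ha⟩
        have h1 : p.eval t0 < p.eval a :=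
          (strictMonoOn_of_deriv (p := p) (a := t0) (b := a) fun x hx =>
            h.pos_right ht ha hx.2 hx.1.le) ⟨le_rfl, hat.le⟩ ⟨hat.le, le_rfl⟩ hat
        rw [h0] at h1
        have := h.zsgn a haZ
        rw [sign_pos h1] at this
        exact sign_eq_one_iff.1 this.symm
      · have hd : ∀ s, φ t0 ≤ s → 0 < q.derivative.eval s := fun s hs => by
          apply h.dq_pos'
          refine h.pos_right ht (a := φ.symm s + 1)
            (fun z hz hzt => absurd (ha z hz) (not_le.2 hzt)) (by linarith) ?_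
          rw [← φ.le_iff_le]; simpa using hs
        obtain ⟨s, hs1, hs2⟩ := exists_pos_right hd
        refine ⟨φ.symm s, ?_, by simpa using hs2,
          fun z hz hzt => absurd (ha z hz) (not_le.2 hzt)⟩
        rw [← φ.lt_iff_lt]; simpa using hs1
    have hlt : φ t0 < φ a := φ.lt_iff_lt.2 hat
    obtain ⟨s0, hs0, hs0'⟩ := intermediate_value_Ioo hlt.le
      (q.continuous.continuousOn (s := Icc (φ t0) (φ a))) (show (0 : ℝ) ∈ Ioo _ _ from ⟨hq, hqa⟩)
    refine ⟨φ c0, φ a, s0, φ.lt_iff_lt.2 hc0, hlt, (φ.lt_iff_lt.2 hc0).trans hs0.1, hs0.2, hs0',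
      ?_, ?_⟩
    · intro s hs1 hs2 hsZ
      have h3 : c0 < φ.symm s := by rw [← φ.lt_iff_lt]; simpa using hs1
      have h4 : φ.symm s < a := by rw [← φ.lt_iff_lt]; simpa using hs2
      rcases lt_trichotomy (φ.symm s) t0 with h5 | h5 | h5
      · linarith [hc0Z _ hsZ h5]
      · rw [h5] at hsZ; exact ht0Z hsZ
      · linarith [ha _ hsZ h5]
    · intro x hx1 hx2
      have h3 : c0 < x := φ.lt_iff_lt.1 hx1
      have h4 : x < a := φ.lt_iff_lt.1 hx2
      rcases le_total x t0 with h5 | h5
      · exact h.pos_left ht hc0Z h3 h5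
      · exact h.pos_right ht ha h4 h5
  · -- the zero is on the left
    obtain ⟨a, hat, hqa, ha⟩ : ∃ a, a < t0 ∧ q.eval (φ a) < 0 ∧ ∀ z ∈ Z, z < t0 → z ≤ a := by
      rcases left_end h.fin t0 with ⟨a, haZ, hat, ha⟩ | ha
      · refine ⟨a, hat, ?_, ha⟩
        have h1 : p.eval a < p.eval t0 :=
          (strictMonoOn_of_deriv (p := p) (a := a) (b := t0) fun x hx =>
            h.pos_left ht ha hx.1 hx.2.le) ⟨le_rfl, hat.le⟩ ⟨hat.le, le_rfl⟩ hat
        rw [h0] at h1
        have := h.zsgn a haZ
        rw [sign_neg h1] at this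
        exact sign_eq_neg_one_iff.1 this.symm
      · have hd : ∀ s, s ≤ φ t0 → 0 < q.derivative.eval s := fun s hs => by
          apply h.dq_pos'
          refine h.pos_left ht (a := φ.symm s - 1)
            (fun z hz hzt => absurd (ha z hz) (not_le.2 hzt)) (by linarith) ?_
          rw [← φ.le_iff_le]; simpa using hs
        obtain ⟨s, hs1, hs2⟩ := exists_neg_left hd
        refine ⟨φ.symm s, ?_, by simpa using hs2,
          fun z hz hzt => absurd (ha z hz) (not_le.2 hzt)⟩
        rw [← φ.lt_iff_lt]; simpa using hs1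
    have hlt : φ a < φ t0 := φ.lt_iff_lt.2 hat
    obtain ⟨s0, hs0, hs0'⟩ := intermediate_value_Ioo hlt.le
      (q.continuous.continuousOn (s := Icc (φ a) (φ t0))) (show (0 : ℝ) ∈ Ioo _ _ from ⟨hqa, hq⟩)
    refine ⟨φ a, φ d0, s0, hlt, φ.lt_iff_lt.2 hd0, hs0.1, hs0.2.trans (φ.lt_iff_lt.2 hd0), hs0',
      ?_, ?_⟩
    · intro s hs1 hs2 hsZ
      have h3 : a < φ.symm s := by rw [← φ.lt_iff_lt]; simpa using hs1
      have h4 : φ.symm s < d0 := by rw [← φ.lt_iff_lt]; simpa using hs2
      rcases lt_trichotomy (φ.symm s) t0 with h5 | h5 | h5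
      · linarith [ha _ hsZ h5]
      · rw [h5] at hsZ; exact ht0Z hsZ
      · linarith [hd0Z _ hsZ h5]
    · intro x hx1 hx2
      have h3 : a < x := φ.lt_iff_lt.1 hx1
      have h4 : x < d0 := φ.lt_iff_lt.1 hx2
      rcases le_total x t0 with h5 | h5
      · exact h.pos_left ht ha h3 h5
      · exact h.pos_right ht hd0Z h4 h5

/-- Lemma B -/
lemma Dat.exists_theta (h : Dat Z p q φ) {t0 : ℝ} (h0 : p.eval t0 = 0)
    (hq : q.eval (φ t0) ≠ 0) :
    ∃ (θ : ℝ ≃o ℝ) (c d : ℝ), (∀ t, t ≤ c → θ t = t) ∧ (∀ t, d ≤ t → θ t = t) ∧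
      q.eval (θ (φ t0)) = 0 ∧ (∀ s, c < s → s < d → φ.symm s ∉ Z) ∧
      (∀ x, c < φ x → φ x < d → p.eval x = 0 → x = t0) := by
  have aux : ∀ p q : ℝ[X], Dat Z p q φ → 0 < p.derivative.eval t0 → p.eval t0 = 0 →
      q.eval (φ t0) ≠ 0 → ∃ (θ : ℝ ≃o ℝ) (c d : ℝ), (∀ t, t ≤ c → θ t = t) ∧
      (∀ t, d ≤ t → θ t = t) ∧
      q.eval (θ (φ t0)) = 0 ∧ (∀ s, c < s → s < d → φ.symm s ∉ Z) ∧
      (∀ x, c < φ x → φ x < d → p.eval x = 0 → x = t0) := by
    intro p q h ht h0 hq
    obtain ⟨c, d, s0, h1, h2, h3, h4, h5, h6, h7⟩ := h.exists_s0 ht h0 hq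
    obtain ⟨θ, hθ, hθc, hθd⟩ := exists_bump h1 h2 h3 h4
    refine ⟨θ, c, d, hθc, hθd, by rw [hθ, h5], h6, ?_⟩
    intro x hx1 hx2 hx
    rcases lt_trichotomy x t0 with h8 | h8 | h8
    · exfalso
      have : p.eval x < p.eval t0 :=
        (strictMonoOn_of_deriv (p := p) (a := x) (b := t0) fun y hy =>
          h7 y (hx1.trans (φ.lt_iff_lt.2 hy.1)) ((φ.lt_iff_lt.2 hy.2).trans h2))
          ⟨le_rfl, h8.le⟩ ⟨h8.le, le_rfl⟩ h8
      rw [hx, h0] at this
      exact lt_irrefl _ this
    · exact h8
    · exfalso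
      have : p.eval t0 < p.eval x :=
        (strictMonoOn_of_deriv (p := p) (a := t0) (b := x) fun y hy =>
          h7 y (h1.trans (φ.lt_iff_lt.2 hy.1)) ((φ.lt_iff_lt.2 hy.2).trans hx2))
          ⟨le_rfl, h8.le⟩ ⟨h8.le, le_rfl⟩ h8
      rw [hx, h0] at this
      exact lt_irrefl _ this
  rcases lt_trichotomy (p.derivative.eval t0) 0 with h1 | h1 | h1
  · obtain ⟨θ, c, d, a1, a2, a3, a4, a5⟩ := aux (-p) (-q) h.neg (by simpa using h1)
      (by simpa using h0) (by simpa using hq)
    exact ⟨θ, c, d, a1, a2, by simpa using a3, a4, fun x hx1 hx2 hx => a5 x hx1 hx2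
      (by simpa using hx)⟩
  · exfalso
    have := h.zsgn t0 (h.droot t0 h1)
    rw [h0, sign_zero] at this
    exact hq (sign_eq_zero_iff.1 this.symm)
  · exact aux p q h h1 h0 hq

end

/-! ### The core theorem -/

/-- Core theorem: `P`, `Q` finite families with the same sign diagram through `φ`, containing
`p'`, `q'`; the signs of `p`, `q` are matched at the zeros of the nonzero members of the family,
and at `0` if `p' = 0`.  Then the enlarged families have the same sign diagram. -/
theorem core {ι : Type*} [Finite ι] (P Q : ι → ℝ[X]) (p q : ℝ[X]) (i0 : ι)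
    (hP : P i0 = derivative p) (hQ : Q i0 = derivative q) (φ : ℝ ≃o ℝ)
    (hφ : ∀ i t, SignType.sign ((P i).eval t) = SignType.sign ((Q i).eval (φ t)))
    (hroot : ∀ i, P i ≠ 0 → ∀ t, (P i).eval t = 0 →
      SignType.sign (p.eval t) = SignType.sign (q.eval (φ t)))
    (h0 : derivative p = 0 → SignType.sign (p.coeff 0) = SignType.sign (q.coeff 0)) :
    ∃ ψ : ℝ ≃o ℝ, (∀ i t, SignType.sign ((P i).eval t) = SignType.sign ((Q i).eval (ψ t))) ∧
      ∀ t, SignType.sign (p.eval t) = SignType.sign (q.eval (ψ t)) := by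
  classical
  by_cases hp : derivative p = 0
  · -- constants
    have hq : derivative q = 0 := by
      apply Polynomial.eq_zero_of_infinite_isRoot
      refine Set.infinite_of_injective_forall_mem (f := fun n : ℕ => (n : ℝ)) Nat.cast_injective ?_
      intro n
      have := hφ i0 (φ.symm n)
      rw [hP, hp, hQ] at this
      simp only [eval_zero, sign_zero, OrderIso.apply_symm_apply] at this
      exact sign_eq_zero_iff.1 this.symm
    refine ⟨φ, hφ, fun t => ?_⟩
    have e1 : p = C (p.coeff 0) := Polynomial.eq_C_of_natDegree_eq_zero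
      (Polynomial.natDegree_eq_zero_of_derivative_eq_zero hp)
    have e2 : q = C (q.coeff 0) := Polynomial.eq_C_of_natDegree_eq_zero
      (Polynomial.natDegree_eq_zero_of_derivative_eq_zero hq)
    rw [e1, e2, eval_C, eval_C]
    exact h0 hp
  · have hp0 : p ≠ 0 := by rintro rfl; simp at hp
    set Z : Set ℝ := {t | ∃ i, P i ≠ 0 ∧ (P i).eval t = 0} with hZ
    have hZf : Z.Finite := by
      have : Z ⊆ ⋃ i, ((P i).roots.toFinset : Set ℝ) := by
        rintro t ⟨i, hi, hi'⟩
        exact mem_iUnion.2 ⟨i, by simp [hi, hi']⟩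
      exact (finite_iUnion fun i => (P i).roots.toFinset.finite_toSet).subset this
    -- induction on the number of unmatched zeros
    have key : ∀ n : ℕ, ∀ φ : ℝ ≃o ℝ,
        (∀ i t, SignType.sign ((P i).eval t) = SignType.sign ((Q i).eval (φ t))) →
        (∀ t ∈ Z, SignType.sign (p.eval t) = SignType.sign (q.eval (φ t))) →
        (p.roots.toFinset.filter fun t => q.eval (φ t) ≠ 0).card = n →
        ∃ ψ : ℝ ≃o ℝ, (∀ i t, SignType.sign ((P i).eval t) = SignType.sign ((Q i).eval (ψ t))) ∧
          ∀ t, SignType.sign (p.eval t) = SignType.sign (q.eval (ψ t)) := by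
      intro n
      induction n using Nat.strong_induction_on with
      | _ n ih =>
        intro φ h1 h2 h3
        have hD : Dat Z p q φ :=
          { fin := hZf
            dsgn := fun t => by rw [← hP, ← hQ]; exact h1 i0 t
            droot := fun t ht => ⟨i0, by rw [hP]; exact hp, by rw [hP]; exact ht⟩
            zsgn := h2 }
        by_cases hm : ∀ t, p.eval t = 0 → q.eval (φ t) = 0
        · exact ⟨φ, h1, hD.signA hm⟩
        · push Not at hm
          obtain ⟨t0, ht0, hqt0⟩ := hm
          obtain ⟨θ, c, d, a1, a2, a3, a4, a5⟩ := hD.exists_theta ht0 hqt0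
          have hfix : ∀ t, φ t ∉ Ioo c d → θ (φ t) = φ t := by
            intro t ht
            rcases le_or_gt (φ t) c with h4 | h4
            · exact a1 _ h4
            · exact a2 _ (not_lt.1 fun h5 => ht ⟨h4, h5⟩)
          refine ih _ ?_ (φ.trans θ) ?_ ?_ rfl
          · rw [← h3]
            apply Finset.card_lt_card
            refine ⟨?_, ?_⟩
            · intro t ht
              rw [Finset.mem_filter] at ht ⊢
              refine ⟨ht.1, ?_⟩
              have hpt : p.eval t = 0 := by
                simpa [hp0] using ht.1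
              by_cases h4 : φ t ∈ Ioo c d
              · have := a5 t h4.1 h4.2 hpt
                subst this
                exact absurd a3 ht.2
              · have := ht.2
                rw [OrderIso.trans_apply, hfix t h4] at this
                exact this
            · intro hsub
              have h5 : t0 ∈ p.roots.toFinset.filter fun t => q.eval (φ t) ≠ 0 := by
                rw [Finset.mem_filter]
                exact ⟨by simp [hp0, ht0], hqt0⟩
              have h6 := hsub h5
              rw [Finset.mem_filter] at h6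
              exact h6.2 a3
          · intro i t
            rw [h1 i t, OrderIso.trans_apply]
            refine (sign_stable a1 a2 ?_ (φ t)).symm
            by_cases hQi : Q i = 0
            · exact Or.inl hQi
            · right
              intro s hs1 hs2 hs3
              refine a4 s hs1 hs2 ⟨i, ?_, ?_⟩
              · intro hPi
                apply hQi
                apply Polynomial.eq_zero_of_infinite_isRoot
                refine Set.infinite_of_injective_forall_mem (f := fun n : ℕ => (n : ℝ))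
                  Nat.cast_injective ?_
                intro n
                have := h1 i (φ.symm n)
                rw [hPi] at this
                simp only [eval_zero, sign_zero, OrderIso.apply_symm_apply] at this
                exact sign_eq_zero_iff.1 this.symm
              · have := h1 i (φ.symm s)
                rw [OrderIso.apply_symm_apply, hs3, sign_zero] at this
                exact sign_eq_zero_iff.1 this
          · intro t ht
            rw [OrderIso.trans_apply, hfix t ?_]
            · exact h2 t ht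
            · intro h4
              exact a4 (φ t) h4.1 h4.2 (by simpa using ht)
    exact key _ φ hφ (fun t ht => by
      obtain ⟨i, hi, hi'⟩ := ht
      exact hroot i hi t hi') rfl

end Crest.Agent.R264.TS
end

-- ▼ part R264/TS2
section

/-!
Row 264, module TS (Tarski-Seidenberg), part 2: elimination of one variable.
-/

set_option autoImplicit false

open Polynomial Set

namespace Crest.Agent.R264.TS

section Algebra

variable {A : Type*} [CommRing A]

/-- pseudo division -/
lemma exists_pseudo_div (q : A[X]) (hq : 1 ≤ q.natDegree) :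
    ∀ (n : ℕ) (p : A[X]), p.natDegree ≤ n → ∃ (k : ℕ) (a r : A[X]),
      C (q.leadingCoeff ^ k) * p = a * q + r ∧ r.natDegree < q.natDegree := by
  intro n
  induction n with
  | zero =>
    intro p hp
    exact ⟨0, 0, p, by simp, by omega⟩
  | succ n ih =>
    intro p hp
    by_cases hpm : p.natDegree < q.natDegree
    · exact ⟨0, 0, p, by simp, hpm⟩
    rcases Nat.lt_or_ge p.natDegree (n + 1) with h1 | h1
    · exact ih p (by omega)
    have hpn : p.natDegree = n + 1 := le_antisymm hp h1
    set m := q.natDegree with hm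
    set p1 : A[X] := C q.leadingCoeff * p - C p.leadingCoeff * X ^ (n + 1 - m) * q with hp1
    have hdeg : p1.natDegree ≤ n + 1 := by
      rw [hp1]
      refine (Polynomial.natDegree_sub_le _ _).trans (max_le ?_ ?_)
      · exact (Polynomial.natDegree_C_mul_le _ _).trans hp
      · rw [mul_assoc]
        refine (Polynomial.natDegree_C_mul_le _ _).trans ?_
        refine Polynomial.natDegree_mul_le.trans ?_
        have := Polynomial.natDegree_X_pow_le (R := A) (n + 1 - m)
        omega
    have hcoeff : p1.coeff (n + 1) = 0 := by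
      have e1 : n + 1 = m + (n + 1 - m) := by omega
      have e2 : (X ^ (n + 1 - m) * q).coeff (n + 1) = q.leadingCoeff := by
        conv_lhs => rw [e1]
        rw [show m + (n + 1 - m) - m = n + 1 - m by omega, Polynomial.coeff_X_pow_mul]
        rfl
      rw [hp1, coeff_sub, coeff_C_mul, mul_assoc, coeff_C_mul, e2]
      have e3 : p.coeff (n + 1) = p.leadingCoeff := by rw [← hpn]; rfl
      rw [e3]; ring
    have hdeg' : p1.natDegree ≤ n := by
      by_contra hcon
      have h2 : p1.natDegree = n + 1 := by omega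
      have h3 : p1.leadingCoeff = 0 := by rw [Polynomial.leadingCoeff, h2]; exact hcoeff
      rw [Polynomial.leadingCoeff_eq_zero] at h3
      rw [h3] at h2
      simp at h2
    obtain ⟨k, a, r, h4, h5⟩ := ih p1 hdeg'
    refine ⟨k + 1, a + C (q.leadingCoeff ^ k) * (C p.leadingCoeff * X ^ (n + 1 - m)), r, ?_, h5⟩
    have h6 : C q.leadingCoeff * p = p1 + C p.leadingCoeff * X ^ (n + 1 - m) * q := by
      rw [hp1]; ring
    calc C (q.leadingCoeff ^ (k + 1)) * p = C (q.leadingCoeff ^ k) * (C q.leadingCoeff * p) := by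
          rw [pow_succ, C_mul]; ring
      _ = C (q.leadingCoeff ^ k) * p1 +
          C (q.leadingCoeff ^ k) * (C p.leadingCoeff * X ^ (n + 1 - m) * q) := by rw [h6]; ring
      _ = _ := by rw [h4]; ring

lemma exists_prem (p q : A[X]) : ∃ r : A[X], r.natDegree ≤ q.natDegree - 1 ∧
    (1 ≤ q.natDegree → ∃ (k : ℕ) (a : A[X]),
      C (q.leadingCoeff ^ (2 * k)) * p = a * q + r) := by
  by_cases hq : 1 ≤ q.natDegree
  · obtain ⟨k, a, r, h1, h2⟩ := exists_pseudo_div q hq p.natDegree p le_rfl
    refine ⟨C (q.leadingCoeff ^ k) * r, ?_, fun _ => ⟨k, C (q.leadingCoeff ^ k) * a, ?_⟩⟩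
    · have := Polynomial.natDegree_C_mul_le (q.leadingCoeff ^ k) r
      omega
    · calc C (q.leadingCoeff ^ (2 * k)) * p
          = C (q.leadingCoeff ^ k) * (C (q.leadingCoeff ^ k) * p) := by
            rw [two_mul, pow_add, C_mul]; ring
        _ = _ := by rw [h1]; ring
  · exact ⟨0, by simp, fun h => absurd h hq⟩

/-- the pseudo remainder (with an even power of the leading coefficient) -/
noncomputable def prem (p q : A[X]) : A[X] := (exists_prem p q).choose

lemma natDegree_prem (p q : A[X]) : (prem p q).natDegree ≤ q.natDegree - 1 :=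
  (exists_prem p q).choose_spec.1

lemma prem_spec (p q : A[X]) (hq : 1 ≤ q.natDegree) : ∃ (k : ℕ) (a : A[X]),
      C (q.leadingCoeff ^ (2 * k)) * p = a * q + prem p q :=
  (exists_prem p q).choose_spec.2 hq

/-- truncation: the terms of degree `≤ j` -/
noncomputable def tail (q : A[X]) (j : ℕ) : A[X] :=
  ∑ i ∈ Finset.range (j + 1), monomial i (q.coeff i)

lemma coeff_tail (q : A[X]) (j i : ℕ) :
    (tail q j).coeff i = if i ≤ j then q.coeff i else 0 := by
  simp only [tail, finsetSum_coeff, coeff_monomial, Finset.sum_ite_eq', Finset.mem_range]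
  simp only [Nat.lt_succ_iff]

lemma natDegree_tail_le (q : A[X]) (j : ℕ) : (tail q j).natDegree ≤ j := by
  rw [Polynomial.natDegree_le_iff_coeff_eq_zero]
  intro i hi
  rw [coeff_tail, if_neg (not_le.2 hi)]

lemma natDegree_tail (q : A[X]) (j : ℕ) (h : q.coeff j ≠ 0) : (tail q j).natDegree = j := by
  refine le_antisymm (natDegree_tail_le q j) ?_
  apply Polynomial.le_natDegree_of_ne_zero
  rw [coeff_tail, if_pos le_rfl]; exact h

lemma leadingCoeff_tail (q : A[X]) (j : ℕ) (h : q.coeff j ≠ 0) :
    (tail q j).leadingCoeff = q.coeff j := by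
  rw [Polynomial.leadingCoeff, natDegree_tail q j h, coeff_tail, if_pos le_rfl]

lemma tail_map_eq {B : Type*} [CommRing B] (f : A →+* B) (q : A[X]) (j : ℕ)
    (h : ∀ i, j < i → f (q.coeff i) = 0) : (tail q j).map f = q.map f := by
  ext i
  rw [coeff_map, coeff_map, coeff_tail]
  split_ifs with hi
  · rfl
  · rw [map_zero, h i (not_le.1 hi)]

end Algebra

section Elim

variable {A X : Type*} [CommRing A] (ev : X → A →+* ℝ)

/-- the two specialisations of the family `F` have the same sign diagram -/
def Sim (F : Finset A[X]) (x y : X) : Prop :=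
  ∃ φ : ℝ ≃o ℝ, ∀ p ∈ F, ∀ t, SignType.sign ((p.map (ev x)).eval t) =
    SignType.sign ((p.map (ev y)).eval (φ t))

lemma sign_mul_pow_even {c a : ℝ} (k : ℕ) (hc : c ≠ 0) :
    SignType.sign (c ^ (2 * k) * a) = SignType.sign a := by
  have : 0 < c ^ (2 * k) := by
    rw [pow_mul]
    exact pow_pos (by positivity) k
  rw [sign_mul, sign_pos this, one_mul]

open Classical in
/-- the derived family -/
noncomputable def derived (F : Finset A[X]) (p : A[X]) (N : ℕ) : Finset A[X] :=
  let G := insert (derivative p) (F.erase p)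
  G ∪ (G ×ˢ Finset.range N).image (fun z => prem p (tail z.1 z.2)) ∪
    ((insert p G) ×ˢ Finset.range N).image (fun z => C (z.1.coeff z.2))

/-- signs of the derived family determine the signs of the family -/
lemma Sim.of_derived {F : Finset A[X]} {p : A[X]} {N : ℕ}
    (hN : ∀ q ∈ F, q.natDegree < N) (hpN : p.natDegree < N) {x y : X}
    (h : Sim ev (derived F p N) x y) : Sim ev F x y := by
  classical
  obtain ⟨φ, hφ⟩ := h
  set G := insert (derivative p) (F.erase p) with hG
  have hGN : ∀ q ∈ G, q.natDegree < N := by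
    intro q hq
    rw [hG, Finset.mem_insert] at hq
    rcases hq with rfl | hq
    · exact lt_of_le_of_lt ((Polynomial.natDegree_derivative_le p).trans (Nat.sub_le _ _)) hpN
    · exact hN q (Finset.mem_of_mem_erase hq)
  have hmemG : ∀ q ∈ G, q ∈ derived F p N := by
    intro q hq
    simp only [derived, Finset.mem_union]
    exact Or.inl (Or.inl hq)
  have hmemP : ∀ q ∈ G, ∀ j < N, prem p (tail q j) ∈ derived F p N := by
    intro q hq j hj
    simp only [derived, Finset.mem_union, Finset.mem_image]
    exact Or.inl (Or.inr ⟨(q, j), Finset.mem_product.2 ⟨hq, Finset.mem_range.2 hj⟩, rfl⟩)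
  have hmemC : ∀ q ∈ insert p G, ∀ j < N, C (q.coeff j) ∈ derived F p N := by
    intro q hq j hj
    simp only [derived, Finset.mem_union, Finset.mem_image]
    exact Or.inr ⟨(q, j), Finset.mem_product.2 ⟨hq, Finset.mem_range.2 hj⟩, rfl⟩
  have hcoef : ∀ q ∈ insert p G, ∀ j < N,
      SignType.sign (ev x (q.coeff j)) = SignType.sign (ev y (q.coeff j)) := by
    intro q hq j hj
    have := hφ _ (hmemC q hq j hj) 0
    simpa using this
  have hcore := core (ι := G) (fun i => (i.1).map (ev x)) (fun i => (i.1).map (ev y))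
    (p.map (ev x)) (p.map (ev y)) ⟨derivative p, Finset.mem_insert_self _ _⟩
    (by simp [derivative_map]) (by simp [derivative_map]) φ
    (fun i t => hφ i.1 (hmemG i.1 i.2) t) ?_ ?_
  · obtain ⟨ψ, h1, h2⟩ := hcore
    refine ⟨ψ, fun q hq t => ?_⟩
    by_cases hqp : q = p
    · rw [hqp]; exact h2 t
    · exact h1 ⟨q, Finset.mem_insert_of_mem (Finset.mem_erase.2 ⟨hqp, hq⟩)⟩ t
  · rintro ⟨q, hq⟩ hne t ht
    simp only at hne ht ⊢
    set m := (q.map (ev x)).natDegree with hm
    have hm1 : 1 ≤ m := by
      by_contra hcon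
      have h0 : (q.map (ev x)).natDegree = 0 := by omega
      rw [Polynomial.eq_C_of_natDegree_eq_zero h0, eval_C] at ht
      apply hne
      rw [Polynomial.eq_C_of_natDegree_eq_zero h0, ht, C_0]
    have hmN : m < N := lt_of_le_of_lt Polynomial.natDegree_map_le (hGN q hq)
    have hx0 : ∀ i, m < i → ev x (q.coeff i) = 0 := by
      intro i hi
      rw [← coeff_map]
      exact Polynomial.coeff_eq_zero_of_natDegree_lt hi
    have hqmem : q ∈ insert p G := Finset.mem_insert_of_mem hq
    have hy0 : ∀ i, m < i → ev y (q.coeff i) = 0 := by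
      intro i hi
      by_cases hiN : i < N
      · have := hcoef q hqmem i hiN
        rw [hx0 i hi, sign_zero] at this
        exact sign_eq_zero_iff.1 this.symm
      · rw [Polynomial.coeff_eq_zero_of_natDegree_lt (lt_of_lt_of_le (hGN q hq) (not_lt.1 hiN)),
          map_zero]
    have hxm : ev x (q.coeff m) ≠ 0 := by
      rw [← coeff_map, hm]
      exact (Polynomial.leadingCoeff_ne_zero).2 hne
    have hym : ev y (q.coeff m) ≠ 0 := by
      intro h0
      have := hcoef q hqmem m hmN
      rw [h0, sign_zero] at this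
      exact hxm (sign_eq_zero_iff.1 this)
    have hqm : q.coeff m ≠ 0 := fun h0 => hxm (by rw [h0, map_zero])
    have htx := tail_map_eq (ev x) q m hx0
    have hty := tail_map_eq (ev y) q m hy0
    have hqy : (q.map (ev y)).eval (φ t) = 0 := by
      have := hφ q (hmemG q hq) t
      rw [ht, sign_zero] at this
      exact sign_eq_zero_iff.1 this.symm
    obtain ⟨k, a, hka⟩ := prem_spec p (tail q m) (by rw [natDegree_tail q m hqm]; exact hm1)
    rw [leadingCoeff_tail q m hqm] at hka
    have ex : (ev x (q.coeff m)) ^ (2 * k) * (p.map (ev x)).eval t =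
        ((prem p (tail q m)).map (ev x)).eval t := by
      have := congrArg (fun r => (r.map (ev x)).eval t) hka
      simp only [Polynomial.map_mul, Polynomial.map_add, map_C, eval_mul, eval_add, eval_C, htx,
        ht, mul_zero, zero_add, map_pow, Polynomial.map_pow, eval_pow] at this
      exact this
    have ey : (ev y (q.coeff m)) ^ (2 * k) * (p.map (ev y)).eval (φ t) =
        ((prem p (tail q m)).map (ev y)).eval (φ t) := by
      have := congrArg (fun r => (r.map (ev y)).eval (φ t)) hka
      simp only [Polynomial.map_mul, Polynomial.map_add, map_C, eval_mul, eval_add, eval_C, hty,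
        hqy, mul_zero, zero_add, map_pow, Polynomial.map_pow, eval_pow] at this
      exact this
    have h3 := hφ _ (hmemP q hq m hmN) t
    rw [← ex, ← ey, sign_mul_pow_even k hxm, sign_mul_pow_even k hym] at h3
    exact h3
  · intro _
    rw [coeff_map, coeff_map]
    exact hcoef p (Finset.mem_insert_self _ _) 0 (by omega)

/-- **Elimination of one variable**: the sign diagram of a finite family of polynomials with
coefficients in `A` is determined by the signs of finitely many elements of `A`. -/
theorem exists_elim (F : Finset A[X]) : ∃ W : Finset A, ∀ x y : X,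
    (∀ a ∈ W, SignType.sign (ev x a) = SignType.sign (ev y a)) → Sim ev F x y := by
  classical
  have main : ∀ n k : ℕ, ∀ F : Finset A[X], (∀ p ∈ F, p.natDegree ≤ n) →
      (F.filter fun p => p.natDegree = n).card ≤ k → ∃ W : Finset A, ∀ x y : X,
      (∀ a ∈ W, SignType.sign (ev x a) = SignType.sign (ev y a)) → Sim ev F x y := by
    intro n
    induction n with
    | zero =>
      intro k F hF _
      refine ⟨F.image fun p => p.coeff 0, fun x y h => ⟨OrderIso.refl ℝ, fun p hp t => ?_⟩⟩
      have h0 : p.natDegree = 0 := Nat.le_zero.1 (hF p hp)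
      have := h _ (Finset.mem_image_of_mem _ hp)
      rw [Polynomial.eq_C_of_natDegree_eq_zero h0]
      simpa using this
    | succ n ihn =>
      intro k
      have fallback : ∀ F : Finset A[X], (∀ p ∈ F, p.natDegree ≤ n + 1) →
          (F.filter fun p => p.natDegree = n + 1) = ∅ → ∃ W : Finset A, ∀ x y : X,
          (∀ a ∈ W, SignType.sign (ev x a) = SignType.sign (ev y a)) → Sim ev F x y := by
        intro F hF hF0
        refine ihn F.card F (fun p hp => ?_) (Finset.card_filter_le _ _)
        have h1 := hF p hp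
        have h2 : p.natDegree ≠ n + 1 := fun h3 => by
          have : p ∈ F.filter fun p => p.natDegree = n + 1 := Finset.mem_filter.2 ⟨hp, h3⟩
          rw [hF0] at this
          simp at this
        omega
      induction k with
      | zero =>
        intro F hF hk
        exact fallback F hF (Finset.card_eq_zero.1 (Nat.le_zero.1 hk))
      | succ k ihk =>
        intro F hF hk
        rcases (F.filter fun p => p.natDegree = n + 1).eq_empty_or_nonempty with h0 | ⟨p, hp⟩
        · exact fallback F hF h0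
        · rw [Finset.mem_filter] at hp
          obtain ⟨hpF, hpn⟩ := hp
          have hdeg : ∀ q ∈ derived F p (n + 2), q.natDegree ≤ n ∨ q ∈ F.erase p := by
            intro q hq
            simp only [derived, Finset.mem_union, Finset.mem_image, Finset.mem_insert,
              Finset.mem_product, Finset.mem_range] at hq
            rcases hq with ((rfl | hq) | ⟨⟨q', j⟩, ⟨_, hj⟩, rfl⟩) | ⟨⟨q', j⟩, ⟨_, hj⟩, rfl⟩
            · left
              have := Polynomial.natDegree_derivative_le p
              omega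
            · exact Or.inr hq
            · left
              have h1 := natDegree_prem p (tail q' j)
              have h2 := natDegree_tail_le q' j
              simp only at hj h1 h2 ⊢
              omega
            · left
              simp
          obtain ⟨W, hW⟩ := ihk (derived F p (n + 2)) (fun q hq => by
              rcases hdeg q hq with h1 | h1
              · omega
              · exact hF q (Finset.mem_of_mem_erase h1)) (by
              have hsub : ((derived F p (n + 2)).filter fun q => q.natDegree = n + 1) ⊆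
                  (F.filter fun q => q.natDegree = n + 1).erase p := by
                intro q hq
                rw [Finset.mem_filter] at hq
                rcases hdeg q hq.1 with h1 | h1
                · omega
                · rw [Finset.mem_erase] at h1 ⊢
                  exact ⟨h1.1, Finset.mem_filter.2 ⟨h1.2, hq.2⟩⟩
              have h2 := Finset.card_le_card hsub
              rw [Finset.card_erase_of_mem (Finset.mem_filter.2 ⟨hpF, hpn⟩)] at h2
              omega)
          refine ⟨W, fun x y hxy => ?_⟩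
          exact Sim.of_derived ev (fun q hq => by have := hF q hq; omega) (by omega) (hW x y hxy)
  exact main (F.sup Polynomial.natDegree) F.card F
    (fun p hp => Finset.le_sup (f := Polynomial.natDegree) hp) (Finset.card_filter_le _ _)

end Elim

/-! ### Projections -/

section Projection

variable {ι : Type*}

/-- evaluation of a polynomial in `Option ι` variables -/
lemma eval_option (x : ι → ℝ) (t : ℝ) (p : MvPolynomial (Option ι) ℝ) :
    MvPolynomial.eval (fun o : Option ι => o.elim t x) p =
      ((MvPolynomial.optionEquivLeft ℝ ι p).map (MvPolynomial.eval x)).eval t := by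
  induction p using MvPolynomial.induction_on with
  | C a => simp
  | add p q hp hq => simp [hp, hq]
  | mul_X p i hp =>
    rw [map_mul, map_mul, hp, Polynomial.map_mul, eval_mul, MvPolynomial.eval_X]
    cases i with
    | none => simp
    | some i => simp

/-- the strong form of Tarski-Seidenberg -/
theorem exists_iso (F : Finset (MvPolynomial (Option ι) ℝ)) :
    ∃ W : Finset (MvPolynomial ι ℝ), ∀ x y : ι → ℝ, SameSign W x y →
      ∃ φ : ℝ ≃o ℝ, ∀ t, SameSign F (fun o : Option ι => o.elim t x)
        (fun o : Option ι => o.elim (φ t) y) := by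
  classical
  obtain ⟨W, hW⟩ := exists_elim (A := MvPolynomial ι ℝ) (fun x : ι → ℝ => MvPolynomial.eval x)
    (F.image (MvPolynomial.optionEquivLeft ℝ ι))
  refine ⟨W, fun x y hxy => ?_⟩
  obtain ⟨φ, hφ⟩ := hW x y hxy
  refine ⟨φ, fun t p hp => ?_⟩
  rw [eval_option, eval_option]
  exact hφ _ (Finset.mem_image_of_mem _ hp) t

/-- the fibres of an SA set over points with the same signs correspond to each other by an order
isomorphism of the line -/
theorem SA.exists_iso {s : Set (Option ι → ℝ)} (hs : SA s) :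
    ∃ W : Finset (MvPolynomial ι ℝ), ∀ x y : ι → ℝ, SameSign W x y →
      ∃ φ : ℝ ≃o ℝ, ∀ t, ((fun o : Option ι => o.elim t x) ∈ s ↔
        (fun o : Option ι => o.elim (φ t) y) ∈ s) := by
  obtain ⟨F, hF⟩ := hs
  obtain ⟨W, hW⟩ := TS.exists_iso F
  refine ⟨W, fun x y hxy => ?_⟩
  obtain ⟨φ, hφ⟩ := hW x y hxy
  exact ⟨φ, fun t => hF _ _ (hφ t)⟩


end Projection

end Crest.Agent.R264.TS
end

-- ▼ part R264/TS3

/-!
Row 264, module TS (Tarski-Seidenberg), part 3: quantifiers over `ℝ` and over `κ → ℝ`.
-/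

set_option autoImplicit false

open Set

namespace Crest.Agent.R264.TS

universe u v

/-! ### predicate versions -/

section Pred

variable {ι : Type v} {κ : Type u}

/-- `∃ y : κ → ℝ`, predicate version -/
theorem SA.exists_fun [Finite κ] {P : (ι → ℝ) → (κ → ℝ) → Prop}
    (h : SA {z : ι ⊕ κ → ℝ | P (fun i => z (.inl i)) (fun k => z (.inr k))}) :
    SA {x : ι → ℝ | ∃ y, P x y} := h.ex


/-- `∃ t : ℝ`, predicate version -/
theorem SA.exists_real {P : (ι → ℝ) → ℝ → Prop}
    (h : SA {z : Option ι → ℝ | P (fun i => z (some i)) (z none)}) :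
    SA {x : ι → ℝ | ∃ t, P x t} := h.ex_option

/-- `∀ t : ℝ`, predicate version -/
theorem SA.forall_real {P : (ι → ℝ) → ℝ → Prop}
    (h : SA {z : Option ι → ℝ | P (fun i => z (some i)) (z none)}) :
    SA {x : ι → ℝ | ∀ t, P x t} := by
  have h1 := (SA.exists_real (P := fun x t => ¬ P x t) h.not).not
  convert h1 using 1
  ext x
  change (∀ t, P x t) ↔ ¬ ∃ t, ¬ P x t
  push Not
  rfl

/-- image of an SA set under a polynomial map -/
theorem SA.image [Finite ι] {s : Set (ι → ℝ)} (hs : SA s) [Finite κ]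
    (P : κ → MvPolynomial ι ℝ) :
    SA {y : κ → ℝ | ∃ x ∈ s, (fun k => MvPolynomial.eval x (P k)) = y} := by
  apply SA.exists_fun (P := fun y x => x ∈ s ∧ (fun k => MvPolynomial.eval x (P k)) = y)
  refine SA.and (hs.reindex (ι := κ ⊕ ι) Sum.inr) ?_
  have : ∀ k : κ, SA {z : κ ⊕ ι → ℝ | MvPolynomial.eval (fun i => z (.inr i)) (P k) =
      z (.inl k)} := by
    intro k
    have h1 := SA.eq (ι := κ ⊕ ι) (MvPolynomial.rename Sum.inr (P k)) (MvPolynomial.X (.inl k))
    simpa [MvPolynomial.eval_rename, Function.comp_def] using h1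
  have h2 := SA.forall_finite this
  convert h2 using 1
  ext z
  exact funext_iff


end Pred

end Crest.Agent.R264.TS
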